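import Mathlib
import Crest.Agent.Lib.Mertens

/-!
# Sums of nonnegative multiplicative functions over numbers with all prime factors in a finite set
-/

open Finset

namespace Crest.Agent.R020

/-- Sum of a nonnegative multiplicative function over a finite set of `s`-factored numbers. -/
lemma sum_le_prod_tsum {f : ℕ → ℝ} (hf0 : ∀ n, 0 ≤ f n) (hf1 : f 1 = 1)
    (hmul : ∀ {m n : ℕ}, Nat.Coprime m n → f (m * n) = f m * f n)
    (hsum : ∀ {p : ℕ}, p.Prime → Summable fun k : ℕ => f (p ^ k)) (s : Finset ℕ) (T : Finset ℕ)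
    (hT : ∀ n ∈ T, n ∈ Nat.factoredNumbers s) :
    ∑ n ∈ T, f n ≤ ∏ p ∈ s with p.Prime, ∑' k : ℕ, f (p ^ k) := by
  have h := EulerProduct.summable_and_hasSum_factoredNumbers_prod_filter_prime_tsum
    (f := f) hf1 hmul (fun hp => by
      have := hsum hp
      refine this.congr fun k => ?_
      rw [Real.norm_of_nonneg (hf0 _)]) s
  have h2 := h.2
  let T' : Finset (Nat.factoredNumbers s) := T.attach.map
    ⟨fun n => ⟨n.1, hT n.1 n.2⟩, fun a b hab => by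
      have := congrArg Subtype.val hab
      exact Subtype.ext this⟩
  have h3 : ∑ n ∈ T, f n = ∑ m ∈ T', f m := by
    rw [Finset.sum_map, ← Finset.sum_attach]
    rfl
  rw [h3]
  exact sum_le_hasSum T' (fun i _ => hf0 _) h2

/-- geometric version of `sum_le_prod_tsum` for completely multiplicative functions. -/
lemma sum_le_prod_geom {f : ℕ →* ℝ} (hf0 : ∀ n, 0 ≤ f n) 
    (hlt : ∀ {p : ℕ}, p.Prime → f p < 1) (s : Finset ℕ) (T : Finset ℕ)
    (hT : ∀ n ∈ T, n ∈ Nat.factoredNumbers s) :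
    ∑ n ∈ T, f n ≤ ∏ p ∈ s with p.Prime, (1 - f p)⁻¹ := by
  refine (sum_le_prod_tsum (f := f) hf0 (map_one f) (fun {m n} _ => map_mul f m n)
    (fun {p} hp => ?_) s T hT).trans (le_of_eq ?_)
  · simp only [map_pow]
    exact summable_geometric_of_lt_one (hf0 p) (hlt hp)
  · refine Finset.prod_congr rfl fun p hp => ?_
    simp only [map_pow]
    exact tsum_geometric_of_lt_one (hf0 p) (hlt (Finset.mem_filter.mp hp).2)

/-- `1/(1-r) ≤ exp (r + 6 r²)` for `0 ≤ r ≤ 5/6`. -/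
lemma inv_one_sub_le_exp {r : ℝ} (h0 : 0 ≤ r) (h1 : r ≤ 5 / 6) :
    (1 - r)⁻¹ ≤ Real.exp (r + 6 * r ^ 2) := by
  have h2 : (1 - r)⁻¹ ≤ 1 + (r + 6 * r ^ 2) := by
    rw [inv_le_iff_one_le_mul₀ (by linarith)]
    nlinarith [mul_nonneg h0 h0, mul_nonneg (mul_nonneg h0 h0) (sub_nonneg.mpr h1)]
  refine h2.trans ?_
  have := Real.add_one_le_exp (r + 6 * r ^ 2)
  linarith

lemma sum_inv_sq_primes_le (s : Finset ℕ) : ∑ p ∈ s with p.Prime, 1 / (p : ℝ) ^ 2 ≤ 1 := by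
  -- bounded by the sum over all `n ≥ 2`
  have key : ∀ N : ℕ, ∑ n ∈ Finset.Ico 2 (N + 2), 1 / (n : ℝ) ^ 2 ≤ 1 - 1 / ((N : ℝ) + 1) := by
    intro N
    induction N with
    | zero => simp
    | succ N ih =>
      rw [show N + 1 + 2 = (N + 2) + 1 by ring, Finset.sum_Ico_succ_top (by omega)]
      have : 1 / ((N + 2 : ℕ) : ℝ) ^ 2 ≤ 1 / ((N : ℝ) + 1) - 1 / ((N : ℝ) + 1 + 1) := by
        push_cast
        rw [div_sub_div _ _ (by positivity) (by positivity), div_le_div_iff₀ (by positivity)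
          (by positivity)]
        nlinarith
      push_cast at this ⊢
      linarith
  have hsub : s.filter Nat.Prime ⊆ Finset.Ico 2 (s.sup id + 1 + 2) := by
    intro p hp
    rw [Finset.mem_filter] at hp
    rw [Finset.mem_Ico]
    have := Finset.le_sup (f := id) hp.1
    simp only [id] at this
    exact ⟨hp.2.two_le, by omega⟩
  calc ∑ p ∈ s with p.Prime, 1 / (p : ℝ) ^ 2 ≤ ∑ n ∈ Finset.Ico 2 (s.sup id + 1 + 2), 1 / (n : ℝ) ^ 2 :=
        Finset.sum_le_sum_of_subset_of_nonneg hsub (fun _ _ _ => by positivity)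
    _ ≤ 1 := by
        refine (key _).trans ?_
        have : 0 ≤ 1 / (((s.sup id + 1 : ℕ) : ℝ) + 1) := by positivity
        linarith

/-- `(n/φ n)^2` for prime powers. -/
lemma div_totient_prime_pow {p k : ℕ} (hp : p.Prime) (hk : 1 ≤ k) :
    ((p ^ k : ℕ) : ℝ) / (Nat.totient (p ^ k) : ℝ) = (p : ℝ) / ((p : ℝ) - 1) := by
  obtain ⟨j, rfl⟩ : ∃ j, k = j + 1 := ⟨k - 1, by omega⟩
  rw [Nat.totient_prime_pow_succ hp]
  have h1 : (1 : ℝ) < p := by exact_mod_cast hp.one_lt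
  have h2 : ((p - 1 : ℕ) : ℝ) = (p : ℝ) - 1 := by
    rw [Nat.cast_sub hp.one_lt.le]; simp
  push_cast [h2]
  rw [pow_succ, mul_div_mul_left]
  positivity

/-- the multiplicative function `g n (n/φ n)^2 / n` -/
noncomputable def gphi (g : ℕ →*₀ ℝ) (n : ℕ) : ℝ := g n * ((n : ℝ) / (Nat.totient n : ℝ)) ^ 2 / n

lemma gphi_nonneg {g : ℕ →*₀ ℝ} (hg : ∀ n, 0 ≤ g n) (n : ℕ) : 0 ≤ gphi g n := by
  unfold gphi
  have := hg n
  positivity

lemma gphi_one (g : ℕ →*₀ ℝ) : gphi g 1 = 1 := by simp [gphi]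

lemma gphi_mul (g : ℕ →*₀ ℝ) {m n : ℕ} (h : Nat.Coprime m n) :
    gphi g (m * n) = gphi g m * gphi g n := by
  unfold gphi
  rw [Nat.totient_mul h, map_mul]
  push_cast
  ring

/-- nonnegativity of completely multiplicative functions from the values at primes -/
lemma nonneg_of_prime {g : ℕ →*₀ ℝ} (hg : ∀ p : ℕ, p.Prime → 0 ≤ g p) (n : ℕ) : 0 ≤ g n := by
  induction n using Nat.recOnMul with
  | zero => simp
  | one => simp
  | prime p hp => exact hg p hp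
  | mul a b ha hb => rw [map_mul]; exact mul_nonneg ha hb

lemma gphi_prime_pow {g : ℕ →*₀ ℝ} {p k : ℕ} (hp : p.Prime) :
    gphi g (p ^ (k + 1)) = ((p : ℝ) / ((p : ℝ) - 1)) ^ 2 * (g p / p) * (g p / p) ^ k := by
  unfold gphi
  rw [div_totient_prime_pow hp (by omega), map_pow]
  push_cast
  have h1 : (p : ℝ) ≠ 0 := by exact_mod_cast hp.ne_zero
  rw [div_pow (g p) (p : ℝ) k, pow_succ, pow_succ]
  field_simp
  ring

lemma gphi_summable {g : ℕ →*₀ ℝ} (hg : ∀ p : ℕ, p.Prime → 0 ≤ g p ∧ g p ≤ 3 / 2)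
    {p : ℕ} (hp : p.Prime) : Summable fun k : ℕ => gphi g (p ^ k) := by
  rw [← summable_nat_add_iff 1]
  simp_rw [gphi_prime_pow hp]
  have h2 : (2 : ℝ) ≤ p := by exact_mod_cast hp.two_le
  have h3 := hg p hp
  refine (summable_geometric_of_lt_one (div_nonneg h3.1 (by linarith)) ?_).mul_left _
  rw [div_lt_one (by linarith)]
  linarith

lemma gphi_tsum_le {g : ℕ →*₀ ℝ} (hg : ∀ p : ℕ, p.Prime → 0 ≤ g p ∧ g p ≤ 3 / 2)
    {p : ℕ} (hp : p.Prime) :
    ∑' k : ℕ, gphi g (p ^ k) ≤ Real.exp (g p / p + 60 * (1 / (p : ℝ) ^ 2)) := by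
  have h2 : (2 : ℝ) ≤ p := by exact_mod_cast hp.two_le
  have hp0 : (0 : ℝ) < p := by linarith
  have h3 := hg p hp
  set r := g p / p with hr
  have hr0 : 0 ≤ r := div_nonneg h3.1 (by linarith)
  have hr1 : r ≤ (3 / 2) / p := div_le_div_of_nonneg_right h3.2 hp0.le
  have hr2 : r ≤ 3 / 4 := hr1.trans (by
    rw [div_le_iff₀ hp0]; linarith)
  rw [(gphi_summable hg hp).tsum_eq_zero_add]
  simp_rw [gphi_prime_pow hp]
  rw [tsum_mul_left, tsum_geometric_of_lt_one hr0 (by linarith), pow_zero, gphi_one]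
  have hx : (0 : ℝ) < 1 / p := by positivity
  have hx2 : (1 : ℝ) / p ≤ 1 / 2 := one_div_le_one_div_of_le (by norm_num) h2
  have h4 : ((p : ℝ) / ((p : ℝ) - 1)) ^ 2 ≤ 1 + 8 / p := by
    rw [div_pow, div_le_iff₀ (by nlinarith)]
    have : (1 + 8 / (p : ℝ)) * ((p : ℝ) - 1) ^ 2 = ((p : ℝ) + 8) * ((p : ℝ) - 1) ^ 2 / p := by
      field_simp
    rw [this, le_div_iff₀ hp0]
    nlinarith [mul_nonneg (sub_nonneg.mpr h2) (sub_nonneg.mpr h2)]
  have h5 : r * (1 - r)⁻¹ ≤ r + 4 * r ^ 2 := by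
    rw [← div_eq_mul_inv, div_le_iff₀ (by linarith)]
    nlinarith [mul_nonneg hr0 hr0, mul_nonneg (mul_nonneg hr0 hr0) (sub_nonneg.mpr hr2)]
  have h6 : ((p : ℝ) / ((p : ℝ) - 1)) ^ 2 * r * (1 - r)⁻¹ ≤ (1 + 8 / p) * (r + 4 * r ^ 2) := by
    rw [mul_assoc]
    refine mul_le_mul h4 h5 (mul_nonneg hr0 (inv_nonneg.mpr (by linarith))) (by positivity)
  have h7 : (1 + 8 / (p : ℝ)) * (r + 4 * r ^ 2) ≤ r + 60 * (1 / (p : ℝ) ^ 2) := by
    set x : ℝ := 1 / p with hxdef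
    have e1 : (8 : ℝ) / p = 8 * x := by rw [hxdef]; ring
    have e2 : (3 / 2 : ℝ) / p = 3 / 2 * x := by rw [hxdef]; ring
    have e3 : 1 / (p : ℝ) ^ 2 = x ^ 2 := by rw [hxdef]; ring
    rw [e1, e3]
    rw [e2] at hr1
    have h8 : r ^ 2 ≤ (3 / 2 * x) ^ 2 := pow_le_pow_left₀ hr0 hr1 2
    have h9 : x * r ≤ x * (3 / 2 * x) := mul_le_mul_of_nonneg_left hr1 hx.le
    have h10 : x * r ^ 2 ≤ 1 / 2 * (3 / 2 * x) ^ 2 :=
      mul_le_mul hx2 h8 (by positivity) (by norm_num)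
    nlinarith
  have h11 := Real.add_one_le_exp (r + 60 * (1 / (p : ℝ) ^ 2))
  linarith

/-- numbers in `[1, N]` are factored by the primes up to `N` -/
lemma mem_factoredNumbers_of_le {n N : ℕ} (h0 : n ≠ 0) (h : n ≤ N) :
    n ∈ Nat.factoredNumbers (Finset.range (N + 1)) := by
  rw [Nat.mem_factoredNumbers']
  intro p hp hpn
  rw [Finset.mem_range]
  have := Nat.le_of_dvd (Nat.pos_of_ne_zero h0) hpn
  omega

/-- `Σ_{m ≤ N} g(m) (m/φ(m))² / m ≤ e^{60} exp(Σ_{p ≤ N} g(p)/p)`. -/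
lemma sum_gphi_le {g : ℕ →*₀ ℝ} (hg : ∀ p : ℕ, p.Prime → 0 ≤ g p ∧ g p ≤ 3 / 2)
    (s T : Finset ℕ) (hT : ∀ n ∈ T, n ∈ Nat.factoredNumbers s) :
    ∑ m ∈ T, gphi g m ≤ Real.exp 60 * Real.exp (∑ p ∈ s with p.Prime, g p / p) := by
  refine (sum_le_prod_tsum (gphi_nonneg (nonneg_of_prime fun p hp => (hg p hp).1)) (gphi_one g)
    (fun {m n} h => gphi_mul g h) (fun {p} hp => gphi_summable hg hp) s T hT).trans ?_
  calc ∏ p ∈ s with p.Prime, ∑' k : ℕ, gphi g (p ^ k)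
      ≤ ∏ p ∈ s with p.Prime, Real.exp (g p / p + 60 * (1 / (p : ℝ) ^ 2)) :=
        Finset.prod_le_prod
          (fun p hp => tsum_nonneg fun k =>
            gphi_nonneg (nonneg_of_prime fun p hp => (hg p hp).1) _)
          (fun p hp => gphi_tsum_le hg (Finset.mem_filter.mp hp).2)
    _ = Real.exp (∑ p ∈ s with p.Prime, (g p / p + 60 * (1 / (p : ℝ) ^ 2))) :=
        (Real.exp_sum _ _).symm
    _ ≤ Real.exp (60 + ∑ p ∈ s with p.Prime, g p / p) := by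
        rw [Real.exp_le_exp, Finset.sum_add_distrib, ← Finset.mul_sum]
        have := sum_inv_sq_primes_le s
        linarith
    _ = _ := Real.exp_add _ _

end Crest.Agent.R020
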