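import Mathlib
import Crest.Agent.Lib.Mertens
import Crest.Agent.Lib.LinSieve.Main
import Crest.Agent.R020.Abn1

/-!
# Sums of completely multiplicative functions over shifted primes, counting form
-/

open Finset

namespace Crest.Agent.R020

lemma sum_inv_primes_le (x : ℝ) (hx : 2 ≤ x) :
    ∑ p ∈ Finset.range (⌊x⌋₊ + 1) with p.Prime, (1 : ℝ) / p ≤ Real.log (Real.log x) + 27 := by
  have h1 := Crest.Agent.Lib.Mertens.mertens_two 2 x le_rfl hx
  have h2 : (Finset.range (⌊x⌋₊ + 1)).filter Nat.Prime ⊆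
      insert 2 (Crest.Agent.Lib.Mertens.pr 2 x) := by
    intro p hp
    rw [Finset.mem_filter, Finset.mem_range] at hp
    rw [Finset.mem_insert, Crest.Agent.Lib.Mertens.pr, Finset.mem_filter, Finset.mem_Ioc]
    rcases Nat.lt_or_ge 2 p with h | h
    · right
      refine ⟨⟨?_, by omega⟩, hp.2⟩
      simpa using h
    · left
      exact le_antisymm h hp.2.two_le
  have h3 : ∑ p ∈ Finset.range (⌊x⌋₊ + 1) with p.Prime, (1 : ℝ) / p ≤
      1 / 2 + ∑ p ∈ Crest.Agent.Lib.Mertens.pr 2 x, (1 : ℝ) / p := by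
    refine (Finset.sum_le_sum_of_subset_of_nonneg h2 (fun _ _ _ => by positivity)).trans ?_
    rw [Finset.sum_insert]
    · norm_num
    · simp [Crest.Agent.Lib.Mertens.pr]
  have h4 : Real.log 2 > 0.6931471803 := Real.log_two_gt_d9
  have h5 : (18 : ℝ) / Real.log 2 ≤ 26 := by
    rw [div_le_iff₀ (by linarith)]
    linarith
  have h6 : -Real.log (Real.log 2) ≤ 1 / 2 := by
    rw [← Real.log_inv]
    have : (Real.log 2)⁻¹ ≤ 3 / 2 := by
      rw [inv_le_comm₀ (by linarith) (by norm_num)]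
      linarith
    refine (Real.log_le_log (by positivity) this).trans ?_
    have := Real.log_le_sub_one_of_pos (show (0 : ℝ) < 3 / 2 by norm_num)
    linarith
  have h7 := (abs_le.mp h1).2
  linarith

lemma range_primes_mono {x y : ℝ} (h : x ≤ y) :
    (Finset.range (⌊x⌋₊ + 1)).filter Nat.Prime ⊆ (Finset.range (⌊y⌋₊ + 1)).filter Nat.Prime := by
  refine Finset.filter_subset_filter _ (Finset.range_subset_range.mpr ?_)
  have := Nat.floor_le_floor h
  omega

/-- `n ↦ g n * n^{-σ}` as a monoid hom -/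
noncomputable def gpow (g : ℕ →*₀ ℝ) (σ : ℝ) : ℕ →* ℝ where
  toFun n := g n * (n : ℝ) ^ (-σ)
  map_one' := by simp
  map_mul' m n := by
    rw [map_mul]
    push_cast
    rw [Real.mul_rpow (Nat.cast_nonneg _) (Nat.cast_nonneg _)]
    ring

lemma gpow_apply (g : ℕ →*₀ ℝ) (σ : ℝ) (n : ℕ) : gpow g σ n = g n * (n : ℝ) ^ (-σ) := rfl

/-- Rankin's bound, raw form. -/
lemma rankin_raw {g : ℕ →*₀ ℝ} (hg : ∀ p : ℕ, p.Prime → 0 ≤ g p ∧ g p ≤ 3 / 2)
    {x η Q : ℝ} (hx : 1 ≤ x) (hη0 : 0 ≤ η) (hη1 : η ≤ 1 / 10) (hQ1 : 1 ≤ Q)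
    (hQ : η * Real.log Q ≤ 1)
    (T : Finset ℕ) (hT : ∀ n ∈ T, n ≠ 0 ∧ (n : ℝ) ≤ x ∧ ∀ p : ℕ, p.Prime → p ∣ n → (p : ℝ) ≤ Q) :
    ∑ n ∈ T, g n ≤ x ^ (1 - η) * Real.exp
      (Real.exp 1 * (3 / 2) * (∑ p ∈ Finset.range (⌊Q⌋₊ + 1) with p.Prime, (1 : ℝ) / p) + 101) := by
  have hgn := nonneg_of_prime fun p hp => (hg p hp).1
  have hstep1 : ∑ n ∈ T, g n ≤ x ^ (1 - η) * ∑ n ∈ T, gpow g (1 - η) n := by
    rw [Finset.mul_sum]
    refine Finset.sum_le_sum fun n hn => ?_
    obtain ⟨hn0, hnx, -⟩ := hT n hn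
    have hn1 : (0 : ℝ) < n := by exact_mod_cast Nat.pos_of_ne_zero hn0
    rw [gpow_apply]
    have h1 : (n : ℝ) ^ (1 - η) ≤ x ^ (1 - η) :=
      Real.rpow_le_rpow hn1.le hnx (by linarith)
    have h2 : (n : ℝ) ^ (1 - η) * (n : ℝ) ^ (-(1 - η)) = 1 := by
      rw [← Real.rpow_add hn1]; simp
    have h3 : (0 : ℝ) ≤ (n : ℝ) ^ (-(1 - η)) := Real.rpow_nonneg hn1.le _
    calc g n = (n : ℝ) ^ (1 - η) * (g n * (n : ℝ) ^ (-(1 - η))) := by
          rw [mul_comm (g n), ← mul_assoc, h2, one_mul]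
      _ ≤ _ := mul_le_mul_of_nonneg_right h1 (mul_nonneg (hgn n) h3)
  refine hstep1.trans (mul_le_mul_of_nonneg_left ?_ (Real.rpow_nonneg (by linarith) _))
  have hrp : ∀ p : ℕ, p.Prime → gpow g (1 - η) p ≤ 5 / 6 := by
    intro p hp
    rw [gpow_apply]
    have h2 : (2 : ℝ) ≤ p := by exact_mod_cast hp.two_le
    have h3 : (p : ℝ) ^ (-(1 - η)) ≤ (2 : ℝ) ^ (-(1 - η)) :=
      Real.rpow_le_rpow_of_nonpos (by norm_num) h2 (by linarith)
    have h4 : (2 : ℝ) ^ (-(1 - η)) ≤ (2 : ℝ) ^ (-(9 / 10 : ℝ)) :=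
      Real.rpow_le_rpow_of_exponent_le (by norm_num) (by linarith)
    have h5 : (2 : ℝ) ^ (-(9 / 10 : ℝ)) ≤ 5 / 9 := by
      have h6 : ((2 : ℝ) ^ (-(9 / 10 : ℝ))) ^ (10 : ℕ) = 2⁻¹ ^ 9 := by
        rw [← Real.rpow_natCast, ← Real.rpow_mul (by norm_num)]
        norm_num
      by_contra hcon
      push Not at hcon
      have h7 : (5 / 9 : ℝ) ^ 10 < ((2 : ℝ) ^ (-(9 / 10 : ℝ))) ^ (10 : ℕ) :=
        pow_lt_pow_left₀ hcon (by norm_num) (by norm_num)
      rw [h6] at h7
      norm_num at h7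
    have h6 := hg p hp
    have h7 : (0 : ℝ) ≤ (p : ℝ) ^ (-(1 - η)) := Real.rpow_nonneg (by linarith) _
    nlinarith
  have hbound : ∀ p ∈ (Finset.range (⌊Q⌋₊ + 1)).filter Nat.Prime,
      gpow g (1 - η) p ≤ Real.exp 1 * (3 / 2) * (1 / (p : ℝ)) := by
    intro p hp
    rw [Finset.mem_filter, Finset.mem_range] at hp
    have h2 : (2 : ℝ) ≤ p := by exact_mod_cast hp.2.two_le
    have hp0 : (0 : ℝ) < p := by linarith
    have hpQ : (p : ℝ) ≤ Q := by
      have : p ≤ ⌊Q⌋₊ := by omega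
      exact (Nat.le_floor_iff (by linarith)).mp this
    have h6 := hg p hp.2
    rw [gpow_apply, show -(1 - η) = -1 + η by ring, Real.rpow_add hp0, Real.rpow_neg_one]
    have h7 : (p : ℝ) ^ η ≤ Real.exp 1 := by
      rw [Real.rpow_def_of_pos hp0, Real.exp_le_exp, mul_comm]
      exact (mul_le_mul_of_nonneg_left (Real.log_le_log hp0 hpQ) hη0).trans hQ
    have h8 : (0 : ℝ) ≤ (p : ℝ) ^ η := Real.rpow_nonneg hp0.le _
    calc g p * ((p : ℝ)⁻¹ * (p : ℝ) ^ η) ≤ (3 / 2) * ((p : ℝ)⁻¹ * Real.exp 1) := by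
          refine mul_le_mul h6.2 (mul_le_mul_of_nonneg_left h7 (by positivity)) (by positivity)
            (by norm_num)
      _ = _ := by ring
  have hfac : ∀ n ∈ T, n ∈ Nat.factoredNumbers (Finset.range (⌊Q⌋₊ + 1)) := by
    intro n hn
    obtain ⟨hn0, -, hnp⟩ := hT n hn
    rw [Nat.mem_factoredNumbers']
    intro p hp hpn
    rw [Finset.mem_range]
    have := Nat.le_floor (hnp p hp hpn)
    omega
  have hgp0 : ∀ n, 0 ≤ gpow g (1 - η) n := fun n => by
    rw [gpow_apply]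
    exact mul_nonneg (hgn n) (Real.rpow_nonneg (Nat.cast_nonneg _) _)
  refine (sum_le_prod_geom hgp0 (fun {p} hp => (hrp p hp).trans_lt (by norm_num)) _ T hfac).trans ?_
  calc ∏ p ∈ Finset.range (⌊Q⌋₊ + 1) with p.Prime, (1 - gpow g (1 - η) p)⁻¹
      ≤ ∏ p ∈ Finset.range (⌊Q⌋₊ + 1) with p.Prime,
          Real.exp (gpow g (1 - η) p + 6 * (gpow g (1 - η) p) ^ 2) := by
        refine Finset.prod_le_prod (fun p hp => ?_) (fun p hp => ?_)
        · rw [inv_nonneg]
          have := hrp p (Finset.mem_filter.mp hp).2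
          linarith
        · exact inv_one_sub_le_exp (hgp0 p) (hrp p (Finset.mem_filter.mp hp).2)
    _ = Real.exp (∑ p ∈ Finset.range (⌊Q⌋₊ + 1) with p.Prime,
          (gpow g (1 - η) p + 6 * (gpow g (1 - η) p) ^ 2)) := (Real.exp_sum _ _).symm
    _ ≤ _ := by
        rw [Real.exp_le_exp, Finset.sum_add_distrib]
        refine add_le_add ?_ ?_
        · rw [Finset.mul_sum]
          exact Finset.sum_le_sum hbound
        · calc ∑ p ∈ Finset.range (⌊Q⌋₊ + 1) with p.Prime, 6 * (gpow g (1 - η) p) ^ 2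
              ≤ ∑ p ∈ Finset.range (⌊Q⌋₊ + 1) with p.Prime, 101 * (1 / (p : ℝ) ^ 2) := by
                refine Finset.sum_le_sum fun p hp => ?_
                have h1 := hbound p hp
                have h2 := pow_le_pow_left₀ (hgp0 p) h1 2
                have h3 := Real.exp_one_lt_d9
                have h4 := Real.exp_pos 1
                have h5 : (Real.exp 1 * (3 / 2)) ^ 2 ≤ 101 / 6 := by nlinarith
                have h6 : (Real.exp 1 * (3 / 2) * (1 / (p : ℝ))) ^ 2 =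
                    (Real.exp 1 * (3 / 2)) ^ 2 * (1 / (p : ℝ) ^ 2) := by ring
                rw [h6] at h2
                have h7 : (0 : ℝ) ≤ 1 / (p : ℝ) ^ 2 := by positivity
                nlinarith
            _ ≤ 101 := by
                rw [← Finset.mul_sum]
                have := sum_inv_sq_primes_le (Finset.range (⌊Q⌋₊ + 1))
                linarith

/-- The rough part: shifted primes `q - 1` having a prime factor `> Q`. -/
lemma rough_sum_le : ∃ C : ℝ, 0 < C ∧ ∀ g : ℕ →*₀ ℝ,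
    (∀ p : ℕ, p.Prime → 0 ≤ g p ∧ g p ≤ 3 / 2) → ∀ x Q : ℝ, 2 ≤ Q → Q ≤ x →
    ∀ A : Finset ℕ, (∀ q ∈ A, q.Prime ∧ (q : ℝ) ≤ x ∧ ∃ p : ℕ, p.Prime ∧ Q < p ∧ p ∣ q - 1) →
    ∑ q ∈ A, g (q - 1) ≤ C * (x / (Real.log Q) ^ 2) *
      Real.exp (∑ p ∈ Finset.range (⌊x⌋₊ + 1) with p.Prime, g p / p) := by
  obtain ⟨C, hC, hsieve⟩ := Crest.Agent.Lib.LinSieve.linear_sieve 2 (by norm_num)
  refine ⟨3 / 2 * C * Real.exp 60, by positivity, fun g hg x Q hQ2 hQx A hA => ?_⟩
  have hgn := nonneg_of_prime fun p hp => (hg p hp).1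
  have hx2 : 2 ≤ x := hQ2.trans hQx
  have hx0 : 0 < x := by linarith
  have hlogQ : 0 < Real.log Q := Real.log_pos (by linarith)
  set N := ⌊x⌋₊ with hN
  set M := ⌊x / Q⌋₊ with hM
  -- the set of pairs
  set D : Finset ((_ : ℕ) × ℕ) := (Finset.Icc 1 M).sigma fun m =>
    (Finset.Ioc 0 ⌊x / m⌋₊).filter fun n => ∀ i : Fin 2, ((![1, m] : Fin 2 → ℕ) i * n +
      (![0, 1] : Fin 2 → ℕ) i).Prime with hD
  have hsub : A ⊆ D.image fun z => z.1 * z.2 + 1 := by
    intro q hq
    obtain ⟨hqp, hqx, p, hp, hQp, m, hm⟩ := hA q hq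
    have hq1 : 1 ≤ q - 1 := by have := hqp.two_le; omega
    have hm0 : m ≠ 0 := by rintro rfl; simp at hm; omega
    have hp0 : (0 : ℝ) < p := by exact_mod_cast hp.pos
    have hmp : (m : ℝ) * p ≤ x := by
      have : m * p ≤ q := by rw [mul_comm, ← hm]; omega
      exact le_trans (by exact_mod_cast this) hqx
    have hm0' : (0 : ℝ) < m := by exact_mod_cast Nat.pos_of_ne_zero hm0
    rw [Finset.mem_image]
    refine ⟨⟨m, p⟩, ?_, ?_⟩
    · rw [hD, Finset.mem_sigma, Finset.mem_Icc, Finset.mem_filter, Finset.mem_Ioc]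
      refine ⟨⟨Nat.one_le_iff_ne_zero.mpr hm0, ?_⟩, ⟨hp.pos, ?_⟩, ?_⟩
      · refine Nat.le_floor ?_
        rw [le_div_iff₀ (by linarith)]
        exact (mul_le_mul_of_nonneg_left hQp.le hm0'.le).trans hmp
      · refine Nat.le_floor ?_
        rw [le_div_iff₀ hm0', mul_comm]
        exact hmp
      · intro i
        fin_cases i
        · simpa using hp
        · have : m * p + 1 = q := by rw [mul_comm, ← hm]; omega
          simpa [this] using hqp
    · show m * p + 1 = q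
      rw [mul_comm, ← hm]; omega
  have hstep1 : ∑ q ∈ A, g (q - 1) ≤ ∑ z ∈ D, g (z.1 * z.2) := by
    refine (Finset.sum_le_sum_of_subset_of_nonneg hsub (fun _ _ _ => hgn _)).trans ?_
    refine (Finset.sum_image_le_of_nonneg (fun _ _ => hgn _)).trans (le_of_eq ?_)
    simp
  refine hstep1.trans ?_
  rw [hD, Finset.sum_sigma]
  calc ∑ m ∈ Finset.Icc 1 M, ∑ n ∈ (Finset.Ioc 0 ⌊x / m⌋₊).filter (fun n => ∀ i : Fin 2,
          ((![1, m] : Fin 2 → ℕ) i * n + (![0, 1] : Fin 2 → ℕ) i).Prime), g (m * n)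
      ≤ ∑ m ∈ Finset.Icc 1 M, (3 / 2 * C * (x / (Real.log Q) ^ 2)) * gphi g m := by
        refine Finset.sum_le_sum fun m hm => ?_
        rw [Finset.mem_Icc] at hm
        have hm0 : (0 : ℝ) < m := by exact_mod_cast hm.1
        have hmM : (m : ℝ) ≤ x / Q := by
          have h1 : (m : ℝ) ≤ M := by exact_mod_cast hm.2
          exact h1.trans (Nat.floor_le (by positivity))
        have hT : Q ≤ x / m := by
          rw [le_div_iff₀ hm0, mul_comm]
          rwa [le_div_iff₀ (by linarith)] at hmM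
        have hcard := hsieve ![1, m] ![0, 1] m (by omega) (by
          intro i
          fin_cases i <;> simp) (by
          intro i j hij
          fin_cases i <;> fin_cases j <;> simp_all) (x / m) (hQ2.trans hT)
        calc ∑ n ∈ (Finset.Ioc 0 ⌊x / m⌋₊).filter (fun n => ∀ i : Fin 2,
              ((![1, m] : Fin 2 → ℕ) i * n + (![0, 1] : Fin 2 → ℕ) i).Prime), g (m * n)
            ≤ ∑ n ∈ (Finset.Ioc 0 ⌊x / m⌋₊).filter (fun n => ∀ i : Fin 2,
              ((![1, m] : Fin 2 → ℕ) i * n + (![0, 1] : Fin 2 → ℕ) i).Prime), g m * (3 / 2) := by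
              refine Finset.sum_le_sum fun n hn => ?_
              rw [Finset.mem_filter] at hn
              have hnp := hn.2 0
              simp only [Fin.isValue, Matrix.cons_val_zero, one_mul, add_zero] at hnp
              rw [map_mul]
              exact mul_le_mul_of_nonneg_left (hg n hnp).2 (hgn m)
          _ = (((Finset.Ioc 0 ⌊x / m⌋₊).filter (fun n => ∀ i : Fin 2,
              ((![1, m] : Fin 2 → ℕ) i * n + (![0, 1] : Fin 2 → ℕ) i).Prime)).card : ℝ) *
                (g m * (3 / 2)) := by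
              rw [Finset.sum_const, nsmul_eq_mul]
          _ ≤ (C * (x / m / Real.log (x / m) ^ 2) * ((m : ℝ) / Nat.totient m) ^ 2) *
                (g m * (3 / 2)) := by
              refine mul_le_mul_of_nonneg_right hcard (mul_nonneg (hgn m) (by norm_num))
          _ ≤ (C * (x / m / Real.log Q ^ 2) * ((m : ℝ) / Nat.totient m) ^ 2) *
                (g m * (3 / 2)) := by
              refine mul_le_mul_of_nonneg_right ?_ (mul_nonneg (hgn m) (by norm_num))
              refine mul_le_mul_of_nonneg_right ?_ (by positivity)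
              refine mul_le_mul_of_nonneg_left ?_ hC.le
              refine div_le_div_of_nonneg_left (by positivity) (by positivity) ?_
              exact pow_le_pow_left₀ hlogQ.le (Real.log_le_log (by linarith) hT) 2
          _ = _ := by
              unfold gphi
              field_simp
    _ = (3 / 2 * C * (x / (Real.log Q) ^ 2)) * ∑ m ∈ Finset.Icc 1 M, gphi g m := by
        rw [Finset.mul_sum]
    _ ≤ (3 / 2 * C * (x / (Real.log Q) ^ 2)) * (Real.exp 60 *
          Real.exp (∑ p ∈ Finset.range (⌊x⌋₊ + 1) with p.Prime, g p / p)) := by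
        refine mul_le_mul_of_nonneg_left ?_ (by positivity)
        refine sum_gphi_le hg _ _ fun n hn => ?_
        rw [Finset.mem_Icc] at hn
        refine mem_factoredNumbers_of_le (by omega) (hn.2.trans ?_)
        refine Nat.floor_le_floor ?_
        exact div_le_self hx0.le (by linarith)
    _ = _ := by ring

end Crest.Agent.R020
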