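import Mathlib
import Crest.Agent.R020.Abn2

/-!
# The twisted sum over shifted primes, counting form (TS1)
-/

open Finset Filter

namespace Crest.Agent.R020

/-- `1 + max 0 (log log x)` -/
noncomputable def LLx (x : ℝ) : ℝ := 1 + max 0 (Real.log (Real.log x))

lemma one_le_LLx (x : ℝ) : 1 ≤ LLx x := by
  unfold LLx
  have := le_max_left 0 (Real.log (Real.log x))
  linarith

lemma g_le_self {g : ℕ →*₀ ℝ} (hg : ∀ p : ℕ, p.Prime → 0 ≤ g p ∧ g p ≤ 3 / 2) (n : ℕ) :
    g n ≤ n := by
  have hgn := nonneg_of_prime fun p hp => (hg p hp).1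
  induction n using Nat.recOnMul with
  | zero => simp
  | one => simp
  | prime p hp =>
    have : (2 : ℝ) ≤ p := by exact_mod_cast hp.two_le
    have := (hg p hp).2
    linarith
  | mul a b ha hb =>
    rw [map_mul]
    push_cast
    exact mul_le_mul ha hb (hgn b) (Nat.cast_nonneg _)

/-- The smooth part. -/
lemma smooth_sum_le {g : ℕ →*₀ ℝ} (hg : ∀ p : ℕ, p.Prime → 0 ≤ g p ∧ g p ≤ 3 / 2)
    {x : ℝ} (hx : 16 ≤ x) (hη1 : 8 * Real.log (Real.log x) / Real.log x ≤ 1 / 10)
    (T : Finset ℕ) (hT : ∀ n ∈ T, n ≠ 0 ∧ (n : ℝ) ≤ x ∧ ∀ p : ℕ, p.Prime → p ∣ n →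
      (p : ℝ) ≤ Real.exp (Real.log x / (8 * Real.log (Real.log x)))) :
    ∑ n ∈ T, g n ≤ Real.exp 213 * (x / Real.log x ^ 2) := by
  have hx0 : 0 < x := by linarith
  have hl1 : 1 < Real.log x := by
    rw [Real.lt_log_iff_exp_lt hx0]
    have := Real.exp_one_lt_d9
    linarith
  set l := Real.log x with hl
  have hll : 0 < Real.log l := Real.log_pos hl1
  set η := 8 * Real.log l / l with hη
  have hη0 : 0 ≤ η := by positivity
  set Q := Real.exp (l / (8 * Real.log l)) with hQ
  have hQ1 : 1 ≤ Q := Real.one_le_exp (by positivity)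
  have hlogQ : Real.log Q = l / (8 * Real.log l) := Real.log_exp _
  have hη2 : η * Real.log Q ≤ 1 := by
    rw [hlogQ, hη]
    apply le_of_eq
    field_simp
  refine (rankin_raw hg (by linarith) hη0 hη1 hQ1 hη2 T hT).trans ?_
  have hQx : Q ≤ x := by
    rw [hQ, ← Real.exp_log hx0, ← hl, Real.exp_le_exp]
    have h1 : 10 ≤ l / (8 * Real.log l) := by
      rw [le_div_iff₀ (by positivity)]
      rw [hη, div_le_iff₀ (by linarith)] at hη1
      linarith
    have h2 : Real.log l ≤ l := (Real.log_le_self (by linarith))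
    rw [div_le_iff₀ (by positivity)]
    have h3 : 1 ≤ 8 * Real.log l := by
      have : Real.log l ≥ 1 / 2 := by
        rw [ge_iff_le, Real.le_log_iff_exp_le (by linarith)]
        have h16 : Real.log 16 ≤ l := Real.log_le_log (by norm_num) hx
        have h17 : Real.log 16 = 4 * Real.log 2 := by
          rw [show (16 : ℝ) = 2 ^ 4 by norm_num, Real.log_pow]; norm_num
        have h18 := Real.log_two_gt_d9
        have h19 : Real.exp (1 / 2) ≤ 2 := by
          have h20 : Real.exp (1 / 2) ^ 2 = Real.exp 1 := by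
            rw [← Real.exp_nat_mul]; norm_num
          have h21 := Real.exp_one_lt_d9
          have h22 := Real.exp_pos (1 / 2)
          nlinarith
        linarith
      linarith
    nlinarith
  have hsum : ∑ p ∈ Finset.range (⌊Q⌋₊ + 1) with p.Prime, (1 : ℝ) / p ≤ Real.log l + 27 := by
    refine le_trans ?_ (sum_inv_primes_le x (by linarith))
    exact Finset.sum_le_sum_of_subset_of_nonneg (range_primes_mono hQx) (fun _ _ _ => by positivity)
  have hpow : x ^ (1 - η) = x * Real.exp (-(8 * Real.log l)) := by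
    rw [Real.rpow_sub hx0, Real.rpow_one, Real.rpow_def_of_pos hx0, ← hl, Real.exp_neg,
      ← div_eq_mul_inv]
    congr 2
    rw [hη]
    field_simp
  have hl2 : 1 / l ^ 2 = Real.exp (-(2 * Real.log l)) := by
    rw [Real.exp_neg, ← Real.log_rpow (by linarith), Real.exp_log (by positivity)]
    norm_num
  rw [hpow]
  have he := Real.exp_one_lt_d9
  have he0 := Real.exp_pos 1
  calc x * Real.exp (-(8 * Real.log l)) * Real.exp (Real.exp 1 * (3 / 2) *
        (∑ p ∈ Finset.range (⌊Q⌋₊ + 1) with p.Prime, (1 : ℝ) / p) + 101)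
      = x * Real.exp (-(8 * Real.log l) + (Real.exp 1 * (3 / 2) *
        (∑ p ∈ Finset.range (⌊Q⌋₊ + 1) with p.Prime, (1 : ℝ) / p) + 101)) := by
        rw [mul_assoc, ← Real.exp_add]
    _ ≤ x * Real.exp (213 + (-(2 * Real.log l))) := by
        refine mul_le_mul_of_nonneg_left ?_ hx0.le
        rw [Real.exp_le_exp]
        have h1 : Real.exp 1 * (3 / 2) *
            (∑ p ∈ Finset.range (⌊Q⌋₊ + 1) with p.Prime, (1 : ℝ) / p) ≤
            Real.exp 1 * (3 / 2) * (Real.log l + 27) := mul_le_mul_of_nonneg_left hsum (by positivity)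
        nlinarith
    _ = _ := by
        rw [Real.exp_add, ← hl2]
        ring

/-- **TS1**: sums of completely multiplicative functions over shifted primes. -/
theorem shifted_sum_le : ∃ C : ℝ, 0 < C ∧ ∀ g : ℕ →*₀ ℝ,
    (∀ p : ℕ, p.Prime → 0 ≤ g p ∧ g p ≤ 3 / 2) → ∀ x : ℝ, 2 ≤ x →
    ∀ A : Finset ℕ, (∀ q ∈ A, q.Prime ∧ (q : ℝ) ≤ x) →
    ∑ q ∈ A, g (q - 1) ≤ C * LLx x ^ 2 * (x / (Real.log x) ^ 2) *
      Real.exp (∑ p ∈ Finset.range (⌊x⌋₊ + 1) with p.Prime, g p / p) := by
  obtain ⟨C, hC, hrough⟩ := rough_sum_le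
  -- threshold
  have hev : ∀ᶠ x : ℝ in atTop, 8 * Real.log (Real.log x) / Real.log x ≤ 1 / 10 := by
    have h1 : Tendsto (fun t : ℝ => Real.log t / t) atTop (nhds 0) := by
      have := Real.tendsto_pow_log_div_mul_add_atTop 1 0 1 one_ne_zero
      simpa using this
    have h2 := (h1.comp Real.tendsto_log_atTop).eventually (ge_mem_nhds (show (0 : ℝ) < 1 / 80 by norm_num))
    filter_upwards [h2] with x hx
    simp only [Function.comp] at hx
    have : 8 * Real.log (Real.log x) / Real.log x = 8 * (Real.log (Real.log x) / Real.log x) := by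
      ring
    rw [this]
    linarith
  obtain ⟨X₀, hX₀⟩ := Filter.eventually_atTop.mp (hev.and (Filter.eventually_ge_atTop (16 : ℝ)))
  set X₁ := max X₀ 16 with hX₁
  refine ⟨64 * C + Real.exp 213 + 4 * ((X₁ + 1) * X₁), by positivity, fun g hg x hx A hA => ?_⟩
  have hgn := nonneg_of_prime fun p hp => (hg p hp).1
  have hx0 : 0 < x := by linarith
  have hlx : 0 < Real.log x := Real.log_pos (by linarith)
  have hS : 0 ≤ ∑ p ∈ Finset.range (⌊x⌋₊ + 1) with p.Prime, g p / p :=
    Finset.sum_nonneg fun p _ => div_nonneg (hgn p) (Nat.cast_nonneg _)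
  set S := ∑ p ∈ Finset.range (⌊x⌋₊ + 1) with p.Prime, g p / p with hSdef
  have hES : 1 ≤ Real.exp S := Real.one_le_exp hS
  have hLL := one_le_LLx x
  have hLL2 : 1 ≤ LLx x ^ 2 := one_le_pow₀ hLL
  have hX1 : 16 ≤ X₁ := le_max_right _ _
  rcases lt_or_ge x X₁ with hlt | hge
  · -- small x
    have h1 : ∑ q ∈ A, g (q - 1) ≤ (X₁ + 1) * X₁ := by
      calc ∑ q ∈ A, g (q - 1) ≤ ∑ q ∈ A, X₁ := by
            refine Finset.sum_le_sum fun q hq => ?_
            refine (g_le_self hg _).trans ?_
            have h2 := (hA q hq).2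
            have h3 : ((q - 1 : ℕ) : ℝ) ≤ q := by exact_mod_cast Nat.sub_le q 1
            linarith
        _ = (A.card : ℝ) * X₁ := by rw [Finset.sum_const, nsmul_eq_mul]
        _ ≤ _ := by
            refine mul_le_mul_of_nonneg_right ?_ (by linarith)
            have h4 : A ⊆ Finset.range (⌊x⌋₊ + 1) := by
              intro q hq
              rw [Finset.mem_range]
              have := Nat.le_floor (hA q hq).2
              omega
            have h5 := Finset.card_le_card h4
            rw [Finset.card_range] at h5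
            have h6 : (A.card : ℝ) ≤ ⌊x⌋₊ + 1 := by exact_mod_cast h5
            have h7 := Nat.floor_le hx0.le
            linarith
    have h2 : 1 / 4 ≤ x / Real.log x ^ 2 := by
      rw [div_le_div_iff₀ (by norm_num) (by positivity)]
      have h3 : Real.log x ≤ x ^ (1 / 2 : ℝ) / (1 / 2) := Real.log_le_rpow_div hx0.le (by norm_num)
      have h4 : (x ^ (1 / 2 : ℝ)) ^ 2 = x := by
        rw [← Real.rpow_natCast, ← Real.rpow_mul hx0.le]; norm_num
      have h5 : 0 ≤ x ^ (1 / 2 : ℝ) := Real.rpow_nonneg hx0.le _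
      have h6 : Real.log x ^ 2 ≤ (x ^ (1 / 2 : ℝ) / (1 / 2)) ^ 2 := pow_le_pow_left₀ hlx.le h3 2
      have h7 : (x ^ (1 / 2 : ℝ) / (1 / 2)) ^ 2 = 4 * x := by
        rw [div_pow, h4]; ring
      linarith
    refine h1.trans ?_
    have h8 : 0 ≤ x / Real.log x ^ 2 := by positivity
    have h9 : (X₁ + 1) * X₁ ≤ 4 * ((X₁ + 1) * X₁) * (x / Real.log x ^ 2) := by
      have : 0 ≤ (X₁ + 1) * X₁ := by positivity
      nlinarith
    refine h9.trans ?_
    have h10 : 4 * ((X₁ + 1) * X₁) ≤ (64 * C + Real.exp 213 + 4 * ((X₁ + 1) * X₁)) := by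
      have := Real.exp_pos 213
      linarith
    calc 4 * ((X₁ + 1) * X₁) * (x / Real.log x ^ 2)
        ≤ (64 * C + Real.exp 213 + 4 * ((X₁ + 1) * X₁)) * (x / Real.log x ^ 2) :=
          mul_le_mul_of_nonneg_right h10 h8
      _ ≤ (64 * C + Real.exp 213 + 4 * ((X₁ + 1) * X₁)) * LLx x ^ 2 * (x / Real.log x ^ 2) := by
          refine mul_le_mul_of_nonneg_right ?_ h8
          exact le_mul_of_one_le_right (by positivity) hLL2
      _ ≤ _ := le_mul_of_one_le_right (by positivity) hES
  · -- large x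
    obtain ⟨hη, hx16⟩ := hX₀ x ((le_max_left _ _).trans hge)
    have hl1 : 1 < Real.log x := by
      rw [Real.lt_log_iff_exp_lt hx0]
      have := Real.exp_one_lt_d9
      linarith
    set l := Real.log x with hl
    have hll : 0 < Real.log l := Real.log_pos hl1
    set Q := Real.exp (l / (8 * Real.log l)) with hQ
    have hlogQ : Real.log Q = l / (8 * Real.log l) := Real.log_exp _
    have h10 : 10 ≤ l / (8 * Real.log l) := by
      rw [le_div_iff₀ (by positivity)]
      rw [div_le_iff₀ (by linarith)] at hη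
      linarith
    have hQ2 : 2 ≤ Q := by
      have := Real.add_one_le_exp (l / (8 * Real.log l))
      linarith
    have hQx : Q ≤ x := by
      rw [hQ, ← Real.exp_log hx0, ← hl, Real.exp_le_exp]
      rw [div_le_iff₀ (by positivity)]
      have h3 : 1 ≤ 8 * Real.log l := by
        have : Real.log l ≥ 1 / 2 := by
          rw [ge_iff_le, Real.le_log_iff_exp_le (by linarith)]
          have h16 : Real.log 16 ≤ l := Real.log_le_log (by norm_num) hx16
          have h17 : Real.log 16 = 4 * Real.log 2 := by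
            rw [show (16 : ℝ) = 2 ^ 4 by norm_num, Real.log_pow]; norm_num
          have h18 := Real.log_two_gt_d9
          have h19 : Real.exp (1 / 2) ≤ 2 := by
            have h20 : Real.exp (1 / 2) ^ 2 = Real.exp 1 := by
              rw [← Real.exp_nat_mul]; norm_num
            have h21 := Real.exp_one_lt_d9
            have h22 := Real.exp_pos (1 / 2)
            nlinarith
          linarith
        linarith
      nlinarith
    classical
    rw [← Finset.sum_filter_add_sum_filter_not A (fun q => ∃ p : ℕ, p.Prime ∧ Q < p ∧ p ∣ q - 1)]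
    have hA1 := hrough g hg x Q hQ2 hQx (A.filter (fun q => ∃ p : ℕ, p.Prime ∧ Q < p ∧ p ∣ q - 1))
      (fun q hq => by
        rw [Finset.mem_filter] at hq
        exact ⟨(hA q hq.1).1, (hA q hq.1).2, hq.2⟩)
    have hA2 : ∑ q ∈ A.filter (fun q => ¬ ∃ p : ℕ, p.Prime ∧ Q < p ∧ p ∣ q - 1), g (q - 1) ≤
        Real.exp 213 * (x / l ^ 2) := by
      have hinj : Set.InjOn (fun q : ℕ => q - 1)
          (A.filter (fun q => ¬ ∃ p : ℕ, p.Prime ∧ Q < p ∧ p ∣ q - 1) : Finset ℕ) := by
        intro a ha b hb hab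
        rw [Finset.mem_coe, Finset.mem_filter] at ha hb
        have h1 := (hA a ha.1).1.two_le
        have h2 := (hA b hb.1).1.two_le
        simp only at hab
        omega
      rw [← Finset.sum_image (f := fun n => g n) hinj]
      refine smooth_sum_le hg hx16 hη _ fun n hn => ?_
      rw [Finset.mem_image] at hn
      obtain ⟨q, hq, rfl⟩ := hn
      rw [Finset.mem_filter] at hq
      obtain ⟨hqA, hq2⟩ := hq
      have h1 := (hA q hqA).1.two_le
      refine ⟨by omega, ?_, fun p hp hpq => ?_⟩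
      · have h3 : ((q - 1 : ℕ) : ℝ) ≤ q := by exact_mod_cast Nat.sub_le q 1
        exact h3.trans (hA q hqA).2
      · by_contra hcon
        push Not at hcon
        exact hq2 ⟨p, hp, hcon, hpq⟩
    have hxl : 0 ≤ x / l ^ 2 := by positivity
    have hLLl : Real.log l ^ 2 ≤ LLx x ^ 2 := by
      refine pow_le_pow_left₀ hll.le ?_ 2
      unfold LLx
      have := le_max_right 0 (Real.log (Real.log x))
      linarith
    have hA1' : C * (x / (Real.log Q) ^ 2) * Real.exp S ≤
        64 * C * LLx x ^ 2 * (x / l ^ 2) * Real.exp S := by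
      refine mul_le_mul_of_nonneg_right ?_ (Real.exp_pos _).le
      have h1 : C * (x / (Real.log Q) ^ 2) = 64 * C * Real.log l ^ 2 * (x / l ^ 2) := by
        rw [hlogQ]
        field_simp
        ring
      rw [h1]
      refine mul_le_mul_of_nonneg_right ?_ hxl
      exact mul_le_mul_of_nonneg_left hLLl (by positivity)
    have hA2' : Real.exp 213 * (x / l ^ 2) ≤
        Real.exp 213 * LLx x ^ 2 * (x / l ^ 2) * Real.exp S := by
      calc Real.exp 213 * (x / l ^ 2) ≤ Real.exp 213 * LLx x ^ 2 * (x / l ^ 2) := by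
            refine mul_le_mul_of_nonneg_right ?_ hxl
            exact le_mul_of_one_le_right (Real.exp_pos _).le hLL2
        _ ≤ _ := le_mul_of_one_le_right (by positivity) hES
    have hA3 : 0 ≤ 4 * ((X₁ + 1) * X₁) * LLx x ^ 2 * (x / l ^ 2) * Real.exp S := by positivity
    calc _ ≤ 64 * C * LLx x ^ 2 * (x / l ^ 2) * Real.exp S +
          Real.exp 213 * LLx x ^ 2 * (x / l ^ 2) * Real.exp S :=
          add_le_add (hA1.trans hA1') (hA2.trans hA2')
      _ ≤ _ := by nlinarith

end Crest.Agent.R020
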