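import Mathlib
import Crest.Prelude.Def_TotientScale

/-!
Row 20 (S0026, S0027): canonical preimages of totient values.

* `IsTot v`      : `v` is a value of Euler's function;
* `dl n`         : the DEScending list of the prime factors of `n` with multiplicity;
* `rr v`         : the canonical preimage of the totient `v`, i.e. the preimage whose list `dl` is
                   lexicographically smallest (`1` if `v` is not a totient);
* `Pm n`         : the largest prime factor of `n` (`1` if `n ≤ 1`);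
* `yy p`         : `max 0 (log log p)`;
* `FL c l`       : `∑ i, c i * yy (l i)` for a list `l` of primes;
* `hh n`         : `∑ i, a_{i+1} yy(p_i)` for the descending list `p_0 ≥ p_1 ≥ …` of `n`.
-/

set_option autoImplicit false

open Crest.NumberTheoryR.TotientScale

namespace Crest.Agent.R020

/-- `v` is a value of Euler's function (at a positive argument). -/
def IsTot (v : ℕ) : Prop := ∃ n : ℕ, 0 < n ∧ Nat.totient n = v

/-- Descending list of the prime factors (with multiplicity). -/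
def dl (n : ℕ) : List ℕ := n.primeFactorsList.reverse

/-- The largest prime factor (`1` if there is none). -/
def Pm (n : ℕ) : ℕ := (dl n).headD 1

/-- `max 0 (log log p)`. -/
noncomputable def yy (p : ℕ) : ℝ := max 0 (Real.log (Real.log (p : ℝ)))

/-- `∑ i, c i * yy (l i)`. -/
noncomputable def FL : (ℕ → ℝ) → List ℕ → ℝ
  | _, [] => 0
  | c, (p :: l) => c 0 * yy p + FL (fun i => c (i + 1)) l

/-- The coefficients `a_1, a_2, …` (0-indexed). -/
noncomputable def aa (i : ℕ) : ℝ := aCoef (i + 1)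

/-- `h(n) = ∑ i, a_{i+1} yy(p_i)`. -/
noncomputable def hh (n : ℕ) : ℝ := FL aa (dl n)

@[simp] theorem FL_nil (c : ℕ → ℝ) : FL c [] = 0 := rfl

theorem FL_cons (c : ℕ → ℝ) (p : ℕ) (l : List ℕ) :
    FL c (p :: l) = c 0 * yy p + FL (fun i => c (i + 1)) l := rfl

theorem yy_nonneg (p : ℕ) : 0 ≤ yy p := le_max_left _ _

theorem log_log_le_yy (p : ℕ) : Real.log (Real.log (p : ℝ)) ≤ yy p := le_max_right _ _

theorem yy_one : yy 1 = 0 := by simp [yy]

theorem yy_two : yy 2 = 0 := by
  unfold yy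
  apply max_eq_left
  apply Real.log_nonpos
  · exact Real.log_nonneg (by norm_num)
  · have := Real.log_two_lt_d9
    push_cast
    linarith

theorem yy_mono {p q : ℕ} (h : p ≤ q) : yy p ≤ yy q := by
  unfold yy
  rcases Nat.lt_or_ge p 3 with hp | hp
  · have : max 0 (Real.log (Real.log (p : ℝ))) = 0 := by
      interval_cases p
      · simp
      · simp
      · have := yy_two
        unfold yy at this
        exact_mod_cast this
    rw [this]
    exact le_max_left _ _
  · apply max_le_max le_rfl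
    have h3 : (1 : ℝ) < Real.log 3 := by
      rw [Real.lt_log_iff_exp_lt (by norm_num)]
      have := Real.exp_one_lt_d9
      linarith
    have hp' : (3 : ℝ) ≤ p := by exact_mod_cast hp
    have hq' : (p : ℝ) ≤ q := by exact_mod_cast h
    have h1 : Real.log 3 ≤ Real.log p := Real.log_le_log (by norm_num) hp'
    have h2 : Real.log p ≤ Real.log q := Real.log_le_log (by linarith) hq'
    exact Real.log_le_log (by linarith) h2

theorem FL_nonneg {c : ℕ → ℝ} (hc : ∀ i, 0 ≤ c i) (l : List ℕ) : 0 ≤ FL c l := by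
  induction l generalizing c with
  | nil => simp
  | cons p l ih =>
    rw [FL_cons]
    have := ih (c := fun i => c (i + 1)) (fun i => hc _)
    have := mul_nonneg (hc 0) (yy_nonneg p)
    linarith

theorem FL_mono {c d : ℕ → ℝ} (hc : ∀ i, c i ≤ d i) (l : List ℕ) : FL c l ≤ FL d l := by
  induction l generalizing c d with
  | nil => simp
  | cons p l ih =>
    rw [FL_cons, FL_cons]
    have := ih (c := fun i => c (i + 1)) (d := fun i => d (i + 1)) (fun i => hc _)
    have := mul_le_mul_of_nonneg_right (hc 0) (yy_nonneg p)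
    linarith

theorem FL_add (c d : ℕ → ℝ) (l : List ℕ) : FL (fun i => c i + d i) l = FL c l + FL d l := by
  induction l generalizing c d with
  | nil => simp
  | cons p l ih =>
    rw [FL_cons, FL_cons, FL_cons, ih (fun i => c (i + 1)) (fun i => d (i + 1))]
    ring

theorem FL_smul (s : ℝ) (c : ℕ → ℝ) (l : List ℕ) : FL (fun i => s * c i) l = s * FL c l := by
  induction l generalizing c with
  | nil => simp
  | cons p l ih =>
    rw [FL_cons, FL_cons, ih (fun i => c (i + 1))]
    ring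

/-! ### The descending list -/

theorem dl_perm (n : ℕ) : List.Perm (dl n) n.primeFactorsList := List.reverse_perm _

theorem mem_dl {n p : ℕ} : p ∈ dl n ↔ p ∈ n.primeFactorsList := List.mem_reverse

theorem prime_of_mem_dl {n p : ℕ} (h : p ∈ dl n) : p.Prime :=
  Nat.prime_of_mem_primeFactorsList (mem_dl.mp h)

theorem dvd_of_mem_dl {n p : ℕ} (h : p ∈ dl n) : p ∣ n :=
  Nat.dvd_of_mem_primeFactorsList (mem_dl.mp h)

theorem mem_dl_iff {n p : ℕ} (hn : n ≠ 0) : p ∈ dl n ↔ p.Prime ∧ p ∣ n := by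
  rw [mem_dl, Nat.mem_primeFactorsList hn]

theorem prod_dl {n : ℕ} (hn : n ≠ 0) : (dl n).prod = n := by
  rw [(dl_perm n).prod_eq, Nat.prod_primeFactorsList hn]

theorem dl_sorted (n : ℕ) : (dl n).Pairwise (· ≥ ·) := by
  unfold dl
  rw [List.pairwise_reverse]
  exact Nat.primeFactorsList_sorted n |>.pairwise

/-- A descending list of primes is the `dl` of its product. -/
theorem dl_prod {l : List ℕ} (hp : ∀ p ∈ l, p.Prime) (hs : l.Pairwise (· ≥ ·)) :
    dl l.prod = l := by
  have h1 : List.Perm l l.prod.primeFactorsList := Nat.primeFactorsList_unique rfl hp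
  have h2 : List.Perm (dl l.prod) l := (dl_perm _).trans h1.symm
  exact h2.eq_of_pairwise (fun a b _ _ h1 h2 => le_antisymm h2 h1) (dl_sorted _) hs

@[simp] theorem dl_one : dl 1 = [] := by simp [dl]

@[simp] theorem dl_zero : dl 0 = [] := by simp [dl]

/-- `dl (q * m) = q :: dl m` if `q` is at least every prime factor of `m`. -/
theorem dl_mul {q m : ℕ} (hq : q.Prime) (hm : m ≠ 0) (h : ∀ p, p.Prime → p ∣ m → p ≤ q) :
    dl (q * m) = q :: dl m := by
  have h1 : (q :: dl m).prod = q * m := by rw [List.prod_cons, prod_dl hm]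
  rw [← h1]
  apply dl_prod
  · intro p hp
    rcases List.mem_cons.mp hp with rfl | hp
    · exact hq
    · exact prime_of_mem_dl hp
  · rw [List.pairwise_cons]
    exact ⟨fun p hp => h p (prime_of_mem_dl hp) (dvd_of_mem_dl hp), dl_sorted m⟩

/-- Converse: a `cons` decomposition. -/
theorem of_dl_eq_cons {n q : ℕ} {l : List ℕ} (h : dl n = q :: l) :
    q.Prime ∧ n = q * l.prod ∧ dl l.prod = l ∧ l.prod ≠ 0 ∧ ∀ p, p.Prime → p ∣ l.prod → p ≤ q := by
  have hn : n ≠ 0 := by
    rintro rfl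
    simp at h
  have hq : q.Prime := prime_of_mem_dl (n := n) (by rw [h]; simp)
  have hlp : ∀ p ∈ l, p.Prime := fun p hp => prime_of_mem_dl (n := n) (by rw [h]; simp [hp])
  have hs : (q :: l).Pairwise (· ≥ ·) := h ▸ dl_sorted n
  rw [List.pairwise_cons] at hs
  have hl0 : l.prod ≠ 0 := by
    intro h0
    rw [List.prod_eq_zero_iff] at h0
    exact Nat.not_prime_zero (hlp 0 h0)
  refine ⟨hq, ?_, dl_prod hlp hs.2, hl0, ?_⟩
  · rw [← prod_dl hn, h, List.prod_cons]
  · intro p hp hpl
    apply hs.1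
    rw [← dl_prod hlp hs.2, mem_dl_iff hl0]
    exact ⟨hp, hpl⟩

theorem Pm_le_iff {n q : ℕ} (hn : n ≠ 0) (hq : 1 ≤ q) :
    Pm n ≤ q ↔ ∀ p, p.Prime → p ∣ n → p ≤ q := by
  unfold Pm
  rcases hd : dl n with _ | ⟨p0, l⟩
  · simp only [List.headD_nil]
    refine ⟨fun _ p hp hpn => ?_, fun _ => hq⟩
    have : p ∈ dl n := (mem_dl_iff hn).mpr ⟨hp, hpn⟩
    rw [hd] at this
    simp at this
  · simp only [List.headD_cons]
    have hs : (p0 :: l).Pairwise (· ≥ ·) := hd ▸ dl_sorted n
    rw [List.pairwise_cons] at hs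
    constructor
    · intro h p hp hpn
      have : p ∈ dl n := (mem_dl_iff hn).mpr ⟨hp, hpn⟩
      rw [hd] at this
      rcases List.mem_cons.mp this with rfl | h2
      · exact h
      · exact le_trans (hs.1 p h2) h
    · intro h
      have : p0 ∈ dl n := by rw [hd]; simp
      rw [mem_dl_iff hn] at this
      exact h p0 this.1 this.2

theorem Pm_lt_iff {n q : ℕ} (hn : n ≠ 0) (hq : 2 ≤ q) :
    Pm n < q ↔ ∀ p, p.Prime → p ∣ n → p < q := by
  obtain ⟨q', rfl⟩ : ∃ q', q = q' + 1 := ⟨q - 1, by omega⟩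
  rw [Nat.lt_succ_iff, Pm_le_iff hn (by omega)]
  simp only [Nat.lt_succ_iff]

/-! ### Existence of the canonical preimage -/

theorem le_two_mul_sq_totient (n : ℕ) (hn : 0 < n) : n ≤ 2 * Nat.totient n ^ 2 := by
  -- `n ≤ φ(n)^2` for odd `n`-type prime powers, loss only at `2`
  have key : ∀ m : ℕ, 0 < m → ¬ 2 ∣ m → m ≤ Nat.totient m ^ 2 := by
    intro m
    induction m using Nat.recOnPosPrimePosCoprime with
    | prime_pow p k hp hk =>
      intro _ h2
      have hp3 : 3 ≤ p := by
        have := hp.two_le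
        rcases this.lt_or_eq with h | h
        · exact h
        · exfalso
          apply h2
          rw [← h]
          exact dvd_pow_self 2 hk.ne'
      rw [Nat.totient_prime_pow hp hk]
      obtain ⟨j, rfl⟩ : ∃ j, k = j + 1 := ⟨k - 1, by omega⟩
      obtain ⟨r, rfl⟩ : ∃ r, p = r + 2 := ⟨p - 2, by omega⟩
      have hr : 1 ≤ r := by omega
      simp only [Nat.add_sub_cancel]
      have e1 : r + 2 - 1 = r + 1 := by omega
      rw [e1, mul_pow, pow_succ]
      have h4 : (r + 2) ^ j ≤ ((r + 2) ^ j) ^ 2 := by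
        have : 1 ≤ (r + 2) ^ j := Nat.one_le_pow _ _ (by omega)
        nlinarith
      have h5 : r + 2 ≤ (r + 1) ^ 2 := by nlinarith
      exact Nat.mul_le_mul h4 h5
    | zero => intro h; omega
    | one => intro _ _; simp
    | coprime a b ha hb hab iha ihb =>
      intro _ h2
      have h2a : ¬ 2 ∣ a := fun h => h2 (dvd_mul_of_dvd_left h _)
      have h2b : ¬ 2 ∣ b := fun h => h2 (dvd_mul_of_dvd_right h _)
      rw [Nat.totient_mul hab, mul_pow]
      exact Nat.mul_le_mul (iha (by omega) h2a) (ihb (by omega) h2b)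
  obtain ⟨k, m, hm, rfl⟩ : ∃ k m : ℕ, ¬ 2 ∣ m ∧ n = 2 ^ k * m :=
    Nat.exists_eq_pow_mul_and_not_dvd hn.ne' 2 (by norm_num)
  have hm0 : 0 < m := Nat.pos_of_ne_zero (by rintro rfl; simp at hm)
  have h1 := key m hm0 hm
  have hc : Nat.Coprime (2 ^ k) m := by
    apply Nat.Coprime.pow_left
    exact (Nat.Prime.coprime_iff_not_dvd Nat.prime_two).mpr hm
  rw [Nat.totient_mul hc, mul_pow]
  rcases Nat.eq_zero_or_pos k with rfl | hk
  · simp
    omega
  · rw [Nat.totient_prime_pow Nat.prime_two hk]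
    obtain ⟨j, rfl⟩ : ∃ j, k = j + 1 := ⟨k - 1, by omega⟩
    simp only [Nat.add_sub_cancel, Nat.reduceSub, mul_one]
    have h4 : 2 ^ j ≤ (2 ^ j) ^ 2 := by
      have : 1 ≤ 2 ^ j := Nat.one_le_pow _ _ (by omega)
      nlinarith
    calc 2 ^ (j + 1) * m = 2 * (2 ^ j * m) := by ring
      _ ≤ 2 * ((2 ^ j) ^ 2 * m.totient ^ 2) := by
        apply Nat.mul_le_mul_left
        exact Nat.mul_le_mul h4 h1

theorem preimages_finite (v : ℕ) : {n : ℕ | 0 < n ∧ Nat.totient n = v}.Finite := by
  apply (Set.finite_Iic (2 * v ^ 2)).subset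
  rintro n ⟨hn, rfl⟩
  exact le_two_mul_sq_totient n hn

theorem exists_rr {v : ℕ} (hv : IsTot v) :
    ∃ r : ℕ, (0 < r ∧ Nat.totient r = v) ∧
      ∀ n : ℕ, 0 < n → Nat.totient n = v → dl r ≤ dl n := by
  obtain ⟨n0, hn0⟩ := hv
  have hne : {n : ℕ | 0 < n ∧ Nat.totient n = v}.Nonempty := ⟨n0, hn0⟩
  obtain ⟨r, hr, hmin⟩ := Set.exists_min_image _ dl (preimages_finite v) hne
  exact ⟨r, hr, fun n hn hnv => hmin n ⟨hn, hnv⟩⟩

open Classical in
/-- The canonical preimage of the totient `v`. -/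
noncomputable def rr (v : ℕ) : ℕ := if h : IsTot v then Classical.choose (exists_rr h) else 1

theorem rr_spec {v : ℕ} (hv : IsTot v) :
    (0 < rr v ∧ Nat.totient (rr v) = v) ∧
      ∀ n : ℕ, 0 < n → Nat.totient n = v → dl (rr v) ≤ dl n := by
  have := Classical.choose_spec (exists_rr hv)
  unfold rr
  rw [dif_pos hv]
  exact this

theorem rr_pos (v : ℕ) : 0 < rr v := by
  by_cases hv : IsTot v
  · exact (rr_spec hv).1.1
  · unfold rr
    rw [dif_neg hv]
    exact one_pos

theorem totient_rr {v : ℕ} (hv : IsTot v) : Nat.totient (rr v) = v := (rr_spec hv).1.2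

theorem rr_min {v n : ℕ} (hn : 0 < n) (h : Nat.totient n = v) : dl (rr v) ≤ dl n :=
  (rr_spec ⟨n, hn, h⟩).2 n hn h

theorem IsTot.pos {v : ℕ} (hv : IsTot v) : 0 < v := by
  obtain ⟨n, hn, rfl⟩ := hv
  exact Nat.totient_pos.mpr hn

theorem isTot_totient {n : ℕ} (hn : 0 < n) : IsTot (Nat.totient n) := ⟨n, hn, rfl⟩

theorem isTot_one : IsTot 1 := ⟨1, one_pos, Nat.totient_one⟩

theorem rr_one : rr 1 = 1 := by
  have h := rr_min (n := 1) one_pos Nat.totient_one
  rw [dl_one] at h
  have h2 : dl (rr 1) = [] := by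
    rcases hd : dl (rr 1) with _ | ⟨p, l⟩
    · rfl
    · exfalso
      rw [hd] at h
      exact absurd h (not_le.mpr (List.nil_lt_cons _ _))
  rw [← prod_dl (rr_pos 1).ne', h2, List.prod_nil]

/-- Two numbers with the same `dl` are equal. -/
theorem dl_injective {m n : ℕ} (hm : m ≠ 0) (hn : n ≠ 0) (h : dl m = dl n) : m = n := by
  rw [← prod_dl hm, ← prod_dl hn, h]

/-- Uniqueness: a minimising preimage is the canonical one. -/
theorem eq_rr_of_min {v r : ℕ} (hr : 0 < r) (h : Nat.totient r = v)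
    (hmin : ∀ n : ℕ, 0 < n → Nat.totient n = v → dl r ≤ dl n) : r = rr v := by
  have hv : IsTot v := ⟨r, hr, h⟩
  apply dl_injective hr.ne' (rr_pos v).ne'
  exact le_antisymm (hmin _ (rr_pos v) (totient_rr hv)) (rr_min hr h)

theorem dl_ne_nil_of_one_lt {n : ℕ} (hn : 1 < n) : dl n ≠ [] := by
  intro h
  have := prod_dl (n := n) (by omega)
  rw [h, List.prod_nil] at this
  omega

theorem one_lt_rr {v : ℕ} (hv : IsTot v) (h1 : v ≠ 1) : 1 < rr v := by
  have h := rr_pos v
  rcases Nat.lt_or_ge 1 (rr v) with h' | h'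
  · exact h'
  · exfalso
    have : rr v = 1 := by omega
    have h2 := totient_rr hv
    rw [this, Nat.totient_one] at h2
    exact h1 h2.symm

theorem cons_le_cons_iff' {a : ℕ} {l l' : List ℕ} : a :: l ≤ a :: l' ↔ l ≤ l' := by
  constructor
  · intro h
    by_contra hlt
    rw [not_le] at hlt
    exact absurd (List.Lex.cons hlt : (a :: l') < (a :: l)) (not_lt.mpr h)
  · intro h
    exact List.cons_le_cons a h

theorem head_le_of_cons_le {a b : ℕ} {l l' : List ℕ} (h : a :: l ≤ b :: l') : a ≤ b := by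
  rcases h.lt_or_eq with h | h
  · exact List.head_le_of_lt h
  · injection h with h1 h2
    exact h1.le

/-- (C1) The tail of a canonical preimage is canonical. -/
theorem rr_tail {v q m : ℕ} (hv : IsTot v) (hq : q.Prime) (h : rr v = q * m)
    (hP : Pm m < q) : rr (Nat.totient m) = m ∧ v = (q - 1) * Nat.totient m := by
  have hr := rr_pos v
  have hm : 0 < m := Nat.pos_of_ne_zero (by rintro rfl; rw [h] at hr; simp at hr)
  have hP' := (Pm_lt_iff hm.ne' hq.two_le).mp hP
  have hcop : Nat.Coprime q m :=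
    (Nat.Prime.coprime_iff_not_dvd hq).mpr (fun hd => lt_irrefl _ (hP' q hq hd))
  have hv' : v = (q - 1) * Nat.totient m := by
    rw [← totient_rr hv, h, Nat.totient_mul hcop, Nat.totient_prime hq]
  refine ⟨?_, hv'⟩
  symm
  apply eq_rr_of_min hm rfl
  intro n hn hnm
  by_contra hlt
  rw [not_le] at hlt
  -- then all primes of `n` are `< q` as well
  have hPn : ∀ p, p.Prime → p ∣ n → p < q := by
    intro p hp hpn
    have h2 : Pm n ≤ Pm m := by
      unfold Pm
      rcases hdn : dl n with _ | ⟨a, l⟩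
      · rcases hdm : dl m with _ | ⟨b, l'⟩
        · simp
        · simp only [List.headD_nil, List.headD_cons]
          exact (prime_of_mem_dl (n := m) (by rw [hdm]; simp)).one_le
      · rcases hdm : dl m with _ | ⟨b, l'⟩
        · rw [hdn, hdm] at hlt
          exact absurd hlt (List.not_lt_nil _)
        · simp only [List.headD_cons]
          rw [hdn, hdm] at hlt
          exact head_le_of_cons_le hlt.le
    have h3 : Pm n < q := lt_of_le_of_lt h2 hP
    exact (Pm_lt_iff hn.ne' hq.two_le).mp h3 p hp hpn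
  have hcop' : Nat.Coprime q n :=
    (Nat.Prime.coprime_iff_not_dvd hq).mpr (fun hd => lt_irrefl _ (hPn q hq hd))
  have hvn : Nat.totient (q * n) = v := by
    rw [Nat.totient_mul hcop', Nat.totient_prime hq, hnm, hv']
  have h4 := rr_min (Nat.mul_pos hq.pos hn) hvn
  rw [h, dl_mul hq hm.ne' (fun p hp hpm => (hP' p hp hpm).le),
    dl_mul hq hn.ne' (fun p hp hpn => (hPn p hp hpn).le), cons_le_cons_iff'] at h4
  exact absurd hlt (not_lt.mpr h4)

/-- (C2) A pair `(q, d)` with `q > P(r_d)` either gives the canonical preimage `q r_d` of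
`(q-1) d`, or the canonical preimage of `(q-1)d` has all its prime factors `< q`. -/
theorem rr_cons_or {q d : ℕ} (hd : IsTot d) (hq : q.Prime) (hP : Pm (rr d) < q) :
    rr ((q - 1) * d) = q * rr d ∨ Pm (rr ((q - 1) * d)) < q := by
  have hr := rr_pos d
  have hP' := (Pm_lt_iff hr.ne' hq.two_le).mp hP
  have hcop : Nat.Coprime q (rr d) :=
    (Nat.Prime.coprime_iff_not_dvd hq).mpr (fun hd => lt_irrefl _ (hP' q hq hd))
  have hv : Nat.totient (q * rr d) = (q - 1) * d := by
    rw [Nat.totient_mul hcop, Nat.totient_prime hq, totient_rr hd]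
  have hmin := rr_min (Nat.mul_pos hq.pos hr) hv
  have hvT : IsTot ((q - 1) * d) := ⟨_, Nat.mul_pos hq.pos hr, hv⟩
  have hdl := dl_mul hq hr.ne' (fun p hp hpm => (hP' p hp hpm).le)
  rw [hdl] at hmin
  rcases hd' : dl (rr ((q - 1) * d)) with _ | ⟨a, l⟩
  · right
    unfold Pm
    rw [hd']
    exact hq.one_lt
  · rw [hd'] at hmin
    rcases (head_le_of_cons_le hmin).lt_or_eq with h | h
    · right
      unfold Pm
      rw [hd']
      exact h
    · left
      subst h
      rw [cons_le_cons_iff'] at hmin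
      obtain ⟨ha, hprod, hdll, hl0, hle⟩ := of_dl_eq_cons hd'
      -- all primes of `l.prod` are `< a`
      have hlt : Pm l.prod < a := by
        unfold Pm at hP ⊢
        rw [hdll]
        rcases l with _ | ⟨b, l'⟩
        · exact ha.one_lt
        · rcases hdd : dl (rr d) with _ | ⟨c, l''⟩
          · rw [hdd] at hmin
            exact absurd hmin (not_le.mpr (List.nil_lt_cons _ _))
          · rw [hdd] at hmin hP
            simp only [List.headD_cons] at hP ⊢
            exact lt_of_le_of_lt (head_le_of_cons_le hmin) hP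
      obtain ⟨hrl, hvl⟩ := rr_tail hvT ha hprod hlt
      have h1 : Nat.totient l.prod = d := by
        have h2 : 0 < a - 1 := by have := ha.two_le; omega
        exact (Nat.eq_of_mul_eq_mul_left h2 hvl).symm
      rw [hprod, ← hrl, h1]

/-! ### Functionals of a totient through its canonical preimage -/

/-- `F_c(v) = ∑ i, c i * yy(p_i)` for the canonical preimage `r_v = p_0 p_1 …` of `v`. -/
noncomputable def FF (c : ℕ → ℝ) (v : ℕ) : ℝ := FL c (dl (rr v))

/-- `log log` of the largest prime factor of the canonical preimage. -/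
noncomputable def y1 (v : ℕ) : ℝ := yy (Pm (rr v))

/-- The tail totient `φ(r_v / P⁺(r_v))`. -/
noncomputable def tl (v : ℕ) : ℕ := Nat.totient (rr v / Pm (rr v))

theorem FF_one (c : ℕ → ℝ) : FF c 1 = 0 := by simp [FF, rr_one]

theorem y1_one : y1 1 = 0 := by simp [y1, rr_one, Pm, yy_one]

theorem y1_nonneg (v : ℕ) : 0 ≤ y1 v := yy_nonneg _

theorem FF_nonneg {c : ℕ → ℝ} (hc : ∀ i, 0 ≤ c i) (v : ℕ) : 0 ≤ FF c v := FL_nonneg hc _

theorem FF_mono {c d : ℕ → ℝ} (hc : ∀ i, c i ≤ d i) (v : ℕ) : FF c v ≤ FF d v := FL_mono hc _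

theorem FF_add (c d : ℕ → ℝ) (v : ℕ) : FF (fun i => c i + d i) v = FF c v + FF d v := FL_add _ _ _

theorem FF_smul (s : ℝ) (c : ℕ → ℝ) (v : ℕ) : FF (fun i => s * c i) v = s * FF c v :=
  FL_smul _ _ _

/-- `c_0 y_1(v) ≤ F_c(v)`. -/
theorem mul_y1_le_FF {c : ℕ → ℝ} (hc : ∀ i, 0 ≤ c i) (v : ℕ) : c 0 * y1 v ≤ FF c v := by
  unfold y1 FF Pm
  rcases dl (rr v) with _ | ⟨p, l⟩
  · simp [yy_one]
  · rw [FL_cons, List.headD_cons]
    have := FL_nonneg (c := fun i => c (i + 1)) (fun i => hc _) l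
    linarith

/-- Decomposition of a totient whose canonical preimage has a simple largest prime factor. -/
theorem totient_decomp {v : ℕ} (hv : IsTot v) (h1 : v ≠ 1) (hsq : ¬ Pm (rr v) ^ 2 ∣ rr v) :
    (Pm (rr v)).Prime ∧ IsTot (tl v) ∧ v = (Pm (rr v) - 1) * tl v ∧
      rr v = Pm (rr v) * rr (tl v) ∧ Pm (rr (tl v)) < Pm (rr v) ∧
      dl (rr v) = Pm (rr v) :: dl (rr (tl v)) := by
  have hr1 := one_lt_rr hv h1
  rcases hd : dl (rr v) with _ | ⟨q, l⟩
  · exact absurd hd (dl_ne_nil_of_one_lt hr1)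
  · have hP : Pm (rr v) = q := by unfold Pm; rw [hd]; rfl
    obtain ⟨hq, hprod, hdll, hl0, hle⟩ := of_dl_eq_cons hd
    rw [hP] at hsq ⊢
    have hlt : Pm l.prod < q := by
      rw [Pm_lt_iff hl0 hq.two_le]
      intro p hp hpl
      rcases (hle p hp hpl).lt_or_eq with h | h
      · exact h
      · exfalso
        subst h
        apply hsq
        rw [hprod, pow_two]
        exact Nat.mul_dvd_mul_left p hpl
    obtain ⟨hrl, hvl⟩ := rr_tail hv hq hprod hlt
    have htl : tl v = Nat.totient l.prod := by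
      unfold tl
      rw [hP, hprod, Nat.mul_div_cancel_left _ hq.pos]
    rw [htl, hrl]
    refine ⟨hq, isTot_totient (Nat.pos_of_ne_zero hl0), hvl, hprod, hlt, ?_⟩
    rw [hdll]

/-- `F_c(v) = c_0 y_1(v) + F_{Sc}(tl v)`. -/
theorem FF_decomp (c : ℕ → ℝ) {v : ℕ} (hv : IsTot v) (h1 : v ≠ 1)
    (hsq : ¬ Pm (rr v) ^ 2 ∣ rr v) :
    FF c v = c 0 * y1 v + FF (fun i => c (i + 1)) (tl v) := by
  obtain ⟨-, -, -, -, -, h⟩ := totient_decomp hv h1 hsq
  unfold FF y1
  rw [h, FL_cons]

/-- For a canonical pair `(q, d)`: `F_c((q-1)d) = c_0 yy(q) + F_{Sc}(d)` and `y_1 = yy q`. -/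
theorem FF_of_canonical (c : ℕ → ℝ) {q d : ℕ} (hq : q.Prime) (hP : Pm (rr d) < q)
    (hcan : rr ((q - 1) * d) = q * rr d) :
    FF c ((q - 1) * d) = c 0 * yy q + FF (fun i => c (i + 1)) d ∧ y1 ((q - 1) * d) = yy q ∧
      Pm (rr ((q - 1) * d)) = q := by
  have hr := rr_pos d
  have hP' := (Pm_lt_iff hr.ne' hq.two_le).mp hP
  have hdl := dl_mul hq hr.ne' (fun p hp hpm => (hP' p hp hpm).le)
  have hPm : Pm (rr ((q - 1) * d)) = q := by
    rw [hcan]; unfold Pm; rw [hdl]; rfl
  refine ⟨?_, ?_, hPm⟩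
  · unfold FF
    rw [hcan, hdl, FL_cons]
  · unfold y1
    rw [hPm]

end Crest.Agent.R020
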