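import Mathlib
import Crest.Agent.R020.Canon
import Crest.Agent.R020.Abn3

/-!
# The twisted sum over shifted primes, reciprocal form on a unit window of the double
# logarithmic scale (TS2)
-/

open Finset Filter

namespace Crest.Agent.R020

/-- the primes `p` with `yy p ≤ u` (for `u ≥ 0`), as a finset. -/
noncomputable def PL (u : ℝ) : Finset ℕ :=
  (Finset.range (⌊Real.exp (Real.exp u)⌋₊ + 1)).filter Nat.Prime

lemma abn_yy_le_iff {p : ℕ} (hp : p.Prime) {u : ℝ} (hu : 0 ≤ u) :
    yy p ≤ u ↔ (p : ℝ) ≤ Real.exp (Real.exp u) := by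
  have h2 : (2 : ℝ) ≤ p := by exact_mod_cast hp.two_le
  have hlog : 0 < Real.log p := Real.log_pos (by linarith)
  unfold yy
  rw [max_le_iff, Real.log_le_iff_le_exp hlog, Real.log_le_iff_le_exp (by linarith)]
  exact ⟨fun h => h.2, fun h => ⟨hu, h⟩⟩

lemma mem_PL {p : ℕ} {u : ℝ} (hu : 0 ≤ u) : p ∈ PL u ↔ p.Prime ∧ yy p ≤ u := by
  unfold PL
  rw [Finset.mem_filter, Finset.mem_range, Nat.lt_succ_iff,
    Nat.le_floor_iff (Real.exp_pos _).le]
  constructor
  · rintro ⟨h1, h2⟩
    exact ⟨h2, (abn_yy_le_iff h2 hu).mpr h1⟩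
  · rintro ⟨h1, h2⟩
    exact ⟨(abn_yy_le_iff h1 hu).mp h2, h1⟩

/-- **TS2**: twisted sum over shifted primes on a unit window of the `loglog` scale. -/
theorem twisted_sum_le : ∃ C : ℝ, 0 < C ∧ ∀ g : ℕ →*₀ ℝ,
    (∀ p : ℕ, p.Prime → 0 ≤ g p ∧ g p ≤ 3 / 2) → ∀ u : ℝ, 0 ≤ u →
    ∀ T : Finset ℕ, (∀ q ∈ T, q.Prime ∧ u ≤ yy q ∧ yy q ≤ u + 1) →
    ∑ q ∈ T, g (q - 1) / ((q : ℝ) - 1) ≤ C * (1 + u) ^ 2 * Real.exp (-u) *
      Real.exp (∑ p ∈ PL u, g p / p) := by
  obtain ⟨C, hC, hTS⟩ := shifted_sum_le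
  refine ⟨4 * C / Real.log 2 ^ 2 * 9 * Real.exp 30 * (Real.exp 1 * Real.log 2), ?_,
    fun g hg u hu T hT => ?_⟩
  · have := Real.log_pos (show (1 : ℝ) < 2 by norm_num)
    positivity
  have hgn := nonneg_of_prime fun p hp => (hg p hp).1
  have hlog2 := Real.log_two_gt_d9
  have hlog2' := Real.log_two_lt_d9
  have hlog2pos : 0 < Real.log 2 := by linarith
  set S := ∑ p ∈ PL u, g p / p with hS
  -- facts on the elements of `T`
  have hTk : ∀ q ∈ T, 1 ≤ Nat.log 2 q ∧ Real.exp u ≤ ((Nat.log 2 q : ℝ) + 1) * Real.log 2 ∧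
      (Nat.log 2 q : ℝ) * Real.log 2 ≤ Real.exp (u + 1) := by
    intro q hq
    obtain ⟨hqp, hq1, hq2⟩ := hT q hq
    have hq0 : q ≠ 0 := hqp.ne_zero
    have h2 : (2 : ℝ) ≤ q := by exact_mod_cast hqp.two_le
    have hk1 : 1 ≤ Nat.log 2 q := by
      refine Nat.le_log_of_pow_le (by norm_num) ?_
      simpa using hqp.two_le
    have hlow : (2 : ℝ) ^ (Nat.log 2 q) ≤ q := by exact_mod_cast Nat.pow_log_le_self 2 hq0
    have hup : (q : ℝ) < 2 ^ (Nat.log 2 q + 1) := by
      exact_mod_cast Nat.lt_pow_succ_log_self (by norm_num) q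
    refine ⟨hk1, ?_, ?_⟩
    · rcases le_or_gt u 0 with h0 | h0
      · have hu0 : u = 0 := le_antisymm h0 hu
        rw [hu0, Real.exp_zero]
        have : (1 : ℝ) ≤ Nat.log 2 q := by exact_mod_cast hk1
        nlinarith
      · have h3 : u ≤ Real.log (Real.log q) := by
          unfold yy at hq1
          rcases le_max_iff.mp hq1 with h | h
          · linarith
          · exact h
        have hlq : 0 < Real.log q := Real.log_pos (by linarith)
        rw [Real.le_log_iff_exp_le hlq] at h3
        refine h3.trans ?_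
        have h4 := Real.log_le_log (by linarith) hup.le
        rw [Real.log_pow] at h4
        push_cast at h4
        exact h4
    · have h3 := (abn_yy_le_iff hqp (by linarith)).mp hq2
      have h4 := Real.log_le_log (by positivity) (hlow.trans h3)
      rwa [Real.log_pow, Real.log_exp] at h4
  -- bound for each dyadic piece
  set Kmax := ⌊Real.exp (u + 1) / Real.log 2⌋₊ with hKmax
  have hpiece : ∀ k ∈ Finset.Icc 1 Kmax,
      ∑ q ∈ T.filter (fun q => Nat.log 2 q = k), g (q - 1) / ((q : ℝ) - 1) ≤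
        4 * C / Real.log 2 ^ 2 * 9 * Real.exp 30 * (1 + u) ^ 2 * Real.exp S *
          (Real.log 2 ^ 2 * Real.exp (-(2 * u))) := by
    intro k hk
    rcases (T.filter (fun q => Nat.log 2 q = k)).eq_empty_or_nonempty with he | ⟨q₀, hq₀⟩
    · rw [he, Finset.sum_empty]
      positivity
    rw [Finset.mem_filter] at hq₀
    obtain ⟨hq₀T, hq₀k⟩ := hq₀
    obtain ⟨h1, h2, h3⟩ := hTk q₀ hq₀T
    rw [hq₀k] at h1 h2 h3
    have hk0 : (1 : ℝ) ≤ k := by exact_mod_cast h1
    set X : ℝ := 2 ^ (k + 1) with hX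
    have hX2 : 2 ≤ X := by
      rw [hX]
      calc (2 : ℝ) = 2 ^ 1 := by norm_num
        _ ≤ 2 ^ (k + 1) := pow_le_pow_right₀ (by norm_num) (by omega)
    have hlogX : Real.log X = ((k : ℝ) + 1) * Real.log 2 := by
      rw [hX, Real.log_pow]
      push_cast
      ring
    have hTS1 := hTS g hg X hX2 (T.filter (fun q => Nat.log 2 q = k)) (fun q hq => by
      rw [Finset.mem_filter] at hq
      refine ⟨(hT q hq.1).1, ?_⟩
      rw [hX, ← hq.2]
      exact_mod_cast (Nat.lt_pow_succ_log_self (by norm_num) q).le)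
    -- the sum of reciprocals
    have hrec : ∑ q ∈ T.filter (fun q => Nat.log 2 q = k), g (q - 1) / ((q : ℝ) - 1) ≤
        (4 / X) * ∑ q ∈ T.filter (fun q => Nat.log 2 q = k), g (q - 1) := by
      rw [Finset.mul_sum]
      refine Finset.sum_le_sum fun q hq => ?_
      rw [Finset.mem_filter] at hq
      have hqp := (hT q hq.1).1
      have hq2 : (2 : ℝ) ≤ q := by exact_mod_cast hqp.two_le
      have hlow : (2 : ℝ) ^ k ≤ q := by
        rw [← hq.2]; exact_mod_cast Nat.pow_log_le_self 2 hqp.ne_zero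
      have hX' : X = 2 * 2 ^ k := by rw [hX, pow_succ]; ring
      have hXq : X / 4 ≤ (q : ℝ) - 1 := by linarith
      rw [div_le_iff₀ (by linarith)]
      have : 4 / X * g (q - 1) * ((q : ℝ) - 1) = g (q - 1) * (4 / X * ((q : ℝ) - 1)) := by ring
      rw [this]
      refine le_mul_of_one_le_right (hgn _) ?_
      rw [div_mul_eq_mul_div, one_le_div (by linarith)]
      linarith
    refine hrec.trans ?_
    have hX0 : 0 < X := by linarith
    have hlX : 0 < Real.log X := Real.log_pos (by linarith)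
    -- LLx bound
    have hLL : LLx X ≤ 3 * (1 + u) := by
      unfold LLx
      have h4 : Real.log (Real.log X) ≤ u + 2 := by
        rw [Real.log_le_iff_le_exp hlX, hlogX]
        have h5 : Real.exp (u + 2) = Real.exp (u + 1) * Real.exp 1 := by
          rw [← Real.exp_add]; ring_nf
        have h6 : 2 ≤ Real.exp 1 := by have := Real.exp_one_gt_d9; linarith
        have h7 : 1 ≤ Real.exp (u + 1) := Real.one_le_exp (by linarith)
        rw [h5]
        nlinarith
      have h8 : max 0 (Real.log (Real.log X)) ≤ u + 2 := max_le (by linarith) h4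
      linarith
    have hLL1 := one_le_LLx X
    have hLL2 : LLx X ^ 2 ≤ 9 * (1 + u) ^ 2 := by
      have := pow_le_pow_left₀ (by linarith) hLL 2
      nlinarith
    -- prime sum bound
    have hsum : ∑ p ∈ Finset.range (⌊X⌋₊ + 1) with p.Prime, g p / p ≤ S + 30 := by
      set Y := Real.exp (Real.exp u) with hY
      have hY2 : 2 ≤ Y := by
        rw [hY]
        have h4 : 1 ≤ Real.exp u := Real.one_le_exp hu
        have h5 := Real.add_one_le_exp (Real.exp u)
        linarith
      rcases le_or_gt X Y with hXY | hXY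
      · have : ∑ p ∈ Finset.range (⌊X⌋₊ + 1) with p.Prime, g p / p ≤ S := by
          rw [hS]
          exact Finset.sum_le_sum_of_subset_of_nonneg (range_primes_mono hXY)
            (fun p _ _ => div_nonneg (hgn p) (Nat.cast_nonneg _))
        linarith
      · have hM := Crest.Agent.Lib.Mertens.mertens_two Y X hY2 hXY.le
        have hsplit : (Finset.range (⌊X⌋₊ + 1)).filter Nat.Prime ⊆
            PL u ∪ Crest.Agent.Lib.Mertens.pr Y X := by
          intro p hp
          rw [Finset.mem_filter, Finset.mem_range] at hp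
          rw [Finset.mem_union, PL, Crest.Agent.Lib.Mertens.pr, Finset.mem_filter,
            Finset.mem_filter, Finset.mem_Ioc, Finset.mem_range]
          rcases Nat.lt_or_ge ⌊Y⌋₊ p with h | h
          · right; exact ⟨⟨h, by omega⟩, hp.2⟩
          · left
            have h' : p ≤ ⌊Real.exp (Real.exp u)⌋₊ := h
            exact ⟨by omega, hp.2⟩
        have h5 : ∑ p ∈ Finset.range (⌊X⌋₊ + 1) with p.Prime, g p / p ≤
            S + ∑ p ∈ Crest.Agent.Lib.Mertens.pr Y X, g p / p := by
          refine (Finset.sum_le_sum_of_subset_of_nonneg hsplit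
            (fun p _ _ => div_nonneg (hgn p) (Nat.cast_nonneg _))).trans ?_
          refine (Finset.sum_union_inter (s₁ := PL u)
            (s₂ := Crest.Agent.Lib.Mertens.pr Y X) (f := fun p : ℕ => g p / (p : ℝ))).symm ▸ ?_
          have : 0 ≤ ∑ p ∈ PL u ∩ Crest.Agent.Lib.Mertens.pr Y X, g p / (p : ℝ) :=
            Finset.sum_nonneg fun p _ => div_nonneg (hgn p) (Nat.cast_nonneg _)
          linarith
        have h6 : ∑ p ∈ Crest.Agent.Lib.Mertens.pr Y X, g p / (p : ℝ) ≤
            3 / 2 * ∑ p ∈ Crest.Agent.Lib.Mertens.pr Y X, 1 / (p : ℝ) := by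
          rw [Finset.mul_sum]
          refine Finset.sum_le_sum fun p hp => ?_
          unfold Crest.Agent.Lib.Mertens.pr at hp
          rw [Finset.mem_filter] at hp
          have := (hg p hp.2).2
          rw [mul_one_div]
          exact div_le_div_of_nonneg_right this (Nat.cast_nonneg _)
        have h7 := (abs_le.mp hM).2
        have h8 : Real.log Y = Real.exp u := Real.log_exp _
        have h9 : Real.log (Real.log Y) = u := by rw [h8, Real.log_exp]
        have h10 : Real.log (Real.log X) ≤ u + 2 := by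
          rw [Real.log_le_iff_le_exp hlX, hlogX]
          have h5 : Real.exp (u + 2) = Real.exp (u + 1) * Real.exp 1 := by
            rw [← Real.exp_add]; ring_nf
          have h6 : 2 ≤ Real.exp 1 := by have := Real.exp_one_gt_d9; linarith
          have h7 : 1 ≤ Real.exp (u + 1) := Real.one_le_exp (by linarith)
          rw [h5]
          nlinarith
        have h11 : 18 / Real.log Y ≤ 18 := by
          rw [h8, div_le_iff₀ (Real.exp_pos _)]
          have := Real.one_le_exp hu
          linarith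
        rw [h9] at h7
        linarith
    have hexp : Real.exp (∑ p ∈ Finset.range (⌊X⌋₊ + 1) with p.Prime, g p / p) ≤
        Real.exp 30 * Real.exp S := by
      rw [← Real.exp_add, Real.exp_le_exp]
      linarith
    have hinv : 1 / Real.log X ^ 2 ≤ Real.exp (-(2 * u)) := by
      rw [Real.exp_neg, ← one_div]
      refine one_div_le_one_div_of_le (Real.exp_pos _) ?_
      have : Real.exp (2 * u) = Real.exp u ^ 2 := by
        rw [← Real.exp_nat_mul]; norm_num
      rw [this, hlogX]
      exact pow_le_pow_left₀ (Real.exp_pos _).le h2 2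
    calc 4 / X * ∑ q ∈ T.filter (fun q => Nat.log 2 q = k), g (q - 1)
        ≤ 4 / X * (C * LLx X ^ 2 * (X / (Real.log X) ^ 2) *
            Real.exp (∑ p ∈ Finset.range (⌊X⌋₊ + 1) with p.Prime, g p / p)) :=
          mul_le_mul_of_nonneg_left hTS1 (by positivity)
      _ = 4 * C * LLx X ^ 2 * (1 / (Real.log X) ^ 2) *
            Real.exp (∑ p ∈ Finset.range (⌊X⌋₊ + 1) with p.Prime, g p / p) := by
          field_simp
      _ ≤ 4 * C * (9 * (1 + u) ^ 2) * Real.exp (-(2 * u)) * (Real.exp 30 * Real.exp S) := by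
          refine mul_le_mul ?_ hexp (Real.exp_pos _).le (by positivity)
          refine mul_le_mul ?_ hinv (by positivity) (by positivity)
          exact mul_le_mul_of_nonneg_left hLL2 (by positivity)
      _ = _ := by
          field_simp
  -- assemble
  have hTsub : ∀ q ∈ T, Nat.log 2 q ∈ Finset.Icc 1 Kmax := by
    intro q hq
    obtain ⟨h1, h2, h3⟩ := hTk q hq
    rw [Finset.mem_Icc]
    refine ⟨h1, Nat.le_floor ?_⟩
    rw [le_div_iff₀ hlog2pos]
    exact h3
  rw [← Finset.sum_fiberwise_of_maps_to hTsub]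
  refine (Finset.sum_le_sum hpiece).trans ?_
  rw [Finset.sum_const, nsmul_eq_mul, Nat.card_Icc]
  have hcard : ((Kmax + 1 - 1 : ℕ) : ℝ) ≤ Real.exp (u + 1) / Real.log 2 := by
    rw [Nat.add_sub_cancel]
    exact Nat.floor_le (by positivity)
  refine (mul_le_mul_of_nonneg_right hcard (by positivity)).trans (le_of_eq ?_)
  have h1 : Real.exp (u + 1) = Real.exp u * Real.exp 1 := Real.exp_add _ _
  have h2 : Real.exp (-(2 * u)) = Real.exp (-u) * Real.exp (-u) := by
    rw [← Real.exp_add]; ring_nf
  have h3 : Real.exp u * Real.exp (-u) = 1 := by rw [← Real.exp_add]; simp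
  rw [h1, h2]
  field_simp
  linear_combination h3

end Crest.Agent.R020
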