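import Mathlib

/-!
Row 20, module E (collisions), part 2: factor matrices, sums over matrices, completely multiplicative
weights given by their values on primes.
-/

set_option autoImplicit false

open scoped ENNReal
open Finset

namespace Crest.Agent.R020.Coll

/-! ### common refinement of two factorisations -/

/-- a divisor of a product splits as a product of divisors -/
lemma exists_split {κ : Type*} [DecidableEq κ] (S : Finset κ) (b : κ → ℕ) (a : ℕ)
    (h : a ∣ ∏ j ∈ S, b j) : ∃ c : κ → ℕ, (∀ j ∈ S, c j ∣ b j) ∧ a = ∏ j ∈ S, c j := by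
  induction S using Finset.induction_on generalizing a with
  | empty =>
    refine ⟨fun _ => 1, by simp, ?_⟩
    simpa using h
  | insert j S hj ih =>
    rw [Finset.prod_insert hj] at h
    obtain ⟨a₁, a₂, h1, h2, rfl⟩ := exists_dvd_and_dvd_of_dvd_mul h
    obtain ⟨c, hc, rfl⟩ := ih a₂ h2
    refine ⟨Function.update c j a₁, ?_, ?_⟩
    · intro j' hj'
      by_cases e : j' = j
      · subst e; simpa using h1
      · rw [Function.update_of_ne e]
        exact hc j' ((Finset.mem_insert.1 hj').resolve_left e)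
    · rw [Finset.prod_insert hj, Function.update_self]
      congr 1
      refine Finset.prod_congr rfl fun j' hj' => ?_
      rw [Function.update_of_ne]
      rintro rfl
      exact hj hj'

/-- common refinement -/
lemma exists_matrix {ι κ : Type*} [DecidableEq ι] [Fintype κ] [DecidableEq κ] (S : Finset ι)
    (a : ι → ℕ) (b : κ → ℕ) (ha : ∀ i ∈ S, a i ≠ 0) (h : ∏ i ∈ S, a i = ∏ j, b j) :
    ∃ m : ι → κ → ℕ, (∀ i ∈ S, ∏ j, m i j = a i) ∧ (∀ j, ∏ i ∈ S, m i j = b j) := by
  induction S using Finset.induction_on generalizing b with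
  | empty =>
    refine ⟨fun _ _ => 1, by simp, fun j => ?_⟩
    have h1 : ∏ j, b j = 1 := by simpa using h.symm
    have : b j = 1 := (Finset.prod_eq_one_iff.1 h1) j (Finset.mem_univ j)
    simp [this]
  | insert i S hi ih =>
    rw [Finset.prod_insert hi] at h
    have hdvd : a i ∣ ∏ j, b j := ⟨_, h.symm⟩
    obtain ⟨c, hc, hac⟩ := exists_split Finset.univ b (a i) hdvd
    have hai : a i ≠ 0 := ha i (Finset.mem_insert_self _ _)
    have hc0 : ∀ j, c j ≠ 0 := by
      intro j hj
      apply hai
      rw [hac]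
      exact Finset.prod_eq_zero (Finset.mem_univ j) hj
    choose b' hb' using fun j => hc j (Finset.mem_univ j)
    have h2 : ∏ i' ∈ S, a i' = ∏ j, b' j := by
      have : a i * ∏ i' ∈ S, a i' = a i * ∏ j, b' j := by
        rw [h]
        conv_lhs => rw [Finset.prod_congr rfl fun j _ => hb' j]
        rw [Finset.prod_mul_distrib, ← hac]
      exact Nat.eq_of_mul_eq_mul_left (Nat.pos_of_ne_zero hai) this
    obtain ⟨m, hm1, hm2⟩ := ih b' (fun i' hi' => ha i' (Finset.mem_insert_of_mem hi')) h2
    refine ⟨Function.update m i c, ?_, ?_⟩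
    · intro i' hi'
      by_cases e : i' = i
      · subst e; simp [hac]
      · rw [Function.update_of_ne e]
        exact hm1 i' ((Finset.mem_insert.1 hi').resolve_left e)
    · intro j
      rw [Finset.prod_insert hi, Function.update_self, hb' j, ← hm2 j]
      congr 1
      refine Finset.prod_congr rfl fun i' hi' => ?_
      rw [Function.update_of_ne]
      rintro rfl
      exact hi hi'

/-! ### sums over functions -/

open Classical in
/-- `∑_m ∏_i g i (m i) ≤ ∏_i ∑_n g i n` -/
lemma tsum_prod_le {ι : Type*} [Fintype ι] {α : Type*} (g : ι → α → ℝ≥0∞) :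
    ∑' m : ι → α, ∏ i, g i (m i) ≤ ∏ i, ∑' n, g i n := by
  rw [ENNReal.tsum_eq_iSup_sum]
  refine iSup_le fun s => ?_
  set t : ι → Finset α := fun i => s.image (fun m => m i) with ht
  have hs : s ⊆ Fintype.piFinset t := by
    intro m hm
    rw [Fintype.mem_piFinset]
    intro i
    exact Finset.mem_image_of_mem _ hm
  calc ∑ m ∈ s, ∏ i, g i (m i) ≤ ∑ m ∈ Fintype.piFinset t, ∏ i, g i (m i) :=
        Finset.sum_le_sum_of_subset hs
    _ = ∏ i, ∑ n ∈ t i, g i n := (Finset.prod_univ_sum t g).symm
    _ ≤ ∏ i, ∑' n, g i n := Finset.prod_le_prod' fun i _ => ENNReal.sum_le_tsum _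

lemma tsum_prod_prod_le {ι κ : Type*} [Fintype ι] [Fintype κ] {α : Type*}
    (g : ι → κ → α → ℝ≥0∞) :
    ∑' m : ι → κ → α, ∏ i, ∏ j, g i j (m i j) ≤ ∏ i, ∏ j, ∑' n, g i j n := by
  refine (tsum_prod_le (fun i (m : κ → α) => ∏ j, g i j (m j))).trans ?_
  exact Finset.prod_le_prod' fun i _ => tsum_prod_le (g i)

/-! ### completely multiplicative weights -/

/-- the completely multiplicative function with values `u q` at the primes (and `0` at `0`) -/
noncomputable def cm (u : ℕ → ℝ≥0∞) (n : ℕ) : ℝ≥0∞ :=
  if n = 0 then 0 else (n.primeFactorsList.map u).prod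

@[simp] lemma cm_zero (u : ℕ → ℝ≥0∞) : cm u 0 = 0 := by simp [cm]

@[simp] lemma cm_one (u : ℕ → ℝ≥0∞) : cm u 1 = 1 := by simp [cm]

lemma cm_mul (u : ℕ → ℝ≥0∞) (m n : ℕ) : cm u (m * n) = cm u m * cm u n := by
  rcases eq_or_ne m 0 with rfl | hm
  · simp
  rcases eq_or_ne n 0 with rfl | hn
  · simp
  unfold cm
  rw [if_neg (mul_ne_zero hm hn), if_neg hm, if_neg hn,
    ((Nat.perm_primeFactorsList_mul hm hn).map u).prod_eq, List.map_append, List.prod_append]

lemma cm_prime (u : ℕ → ℝ≥0∞) (q : ℕ) (hq : q.Prime) : cm u q = u q := by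
  unfold cm
  rw [if_neg hq.ne_zero, Nat.primeFactorsList_prime hq]
  simp

lemma cm_prod {ι : Type*} (u : ℕ → ℝ≥0∞) (s : Finset ι) (a : ι → ℕ) :
    cm u (∏ i ∈ s, a i) = ∏ i ∈ s, cm u (a i) := by
  classical
  induction s using Finset.induction_on with
  | empty => simp
  | insert i s hi ih => rw [Finset.prod_insert hi, Finset.prod_insert hi, cm_mul, ih]

lemma cm_pow (u : ℕ → ℝ≥0∞) (n k : ℕ) : cm u (n ^ k) = cm u n ^ k := by
  induction k with
  | zero => simp
  | succ k ih => rw [pow_succ, cm_mul, ih, pow_succ]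

lemma cm_inv (n : ℕ) (hn : n ≠ 0) : cm (fun q => (q : ℝ≥0∞)⁻¹) n = (n : ℝ≥0∞)⁻¹ := by
  have : ∀ L : List ℕ, (∀ x ∈ L, x ≠ 0) → (L.map (fun q : ℕ => (q : ℝ≥0∞)⁻¹)).prod =
      ((L.prod : ℕ) : ℝ≥0∞)⁻¹ := by
    intro L
    induction L with
    | nil => simp
    | cons a L ih =>
      intro h
      rw [List.map_cons, List.prod_cons, ih (fun x hx => h x (List.mem_cons_of_mem _ hx)),
        List.prod_cons]
      push_cast
      rw [ENNReal.mul_inv]
      · left
        have := h a (List.mem_cons_self)
        exact_mod_cast this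
      · left
        exact ENNReal.natCast_ne_top a
  unfold cm
  rw [if_neg hn, this _ (fun x hx => (Nat.prime_of_mem_primeFactorsList hx).ne_zero),
    Nat.prod_primeFactorsList hn]

lemma cm_mul_fun (u v : ℕ → ℝ≥0∞) (n : ℕ) : cm (fun q => u q * v q) n = cm u n * cm v n := by
  unfold cm
  split_ifs with h
  · simp
  · rw [List.prod_map_mul]

lemma cm_le_of_forall (u v : ℕ → ℝ≥0∞) (n : ℕ)
    (h : ∀ q, q.Prime → q ∣ n → u q ≤ v q) : cm u n ≤ cm v n := by
  unfold cm
  split_ifs with h0
  · exact le_rfl
  · have : ∀ L : List ℕ, (∀ x ∈ L, u x ≤ v x) → (L.map u).prod ≤ (L.map v).prod := by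
      intro L
      induction L with
      | nil => simp
      | cons a L ih =>
        intro h
        rw [List.map_cons, List.prod_cons, List.map_cons, List.prod_cons]
        exact mul_le_mul' (h a List.mem_cons_self) (ih fun x hx => h x (List.mem_cons_of_mem _ hx))
    refine this _ fun x hx => h x (Nat.prime_of_mem_primeFactorsList hx)
      (Nat.dvd_of_mem_primeFactorsList hx)

lemma cm_congr (u v : ℕ → ℝ≥0∞) (n : ℕ)
    (h : ∀ q, q.Prime → q ∣ n → u q = v q) : cm u n = cm v n :=
  le_antisymm (cm_le_of_forall _ _ _ fun q hq hd => (h q hq hd).le)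
    (cm_le_of_forall _ _ _ fun q hq hd => (h q hq hd).ge)

/-- Euler product upper bound, with finitely many primes -/
lemma tsum_cm_le (u : ℕ → ℝ) (hu0 : ∀ q, 0 ≤ u q) (hu1 : ∀ q, q.Prime → u q < 1)
    (s : Finset ℕ) (hs : ∀ q, q.Prime → q ∉ s → u q = 0) :
    ∑' n, cm (fun q => ENNReal.ofReal (u q)) n ≤
      ENNReal.ofReal (∏ p ∈ s with p.Prime, (1 - u p)⁻¹) := by
  classical
  -- the real valued completely multiplicative function
  let f : ℕ →* ℝ :=
    { toFun := fun n => if n = 0 then 0 else (n.primeFactorsList.map u).prod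
      map_one' := by simp
      map_mul' := by
        intro m n
        rcases eq_or_ne m 0 with rfl | hm
        · simp
        rcases eq_or_ne n 0 with rfl | hn
        · simp
        rw [if_neg (mul_ne_zero hm hn), if_neg hm, if_neg hn,
          ((Nat.perm_primeFactorsList_mul hm hn).map u).prod_eq, List.map_append,
          List.prod_append] }
  have hfdef : ∀ n, f n = if n = 0 then 0 else (n.primeFactorsList.map u).prod := fun _ => rfl
  have hfprime : ∀ q, q.Prime → f q = u q := by
    intro q hq
    rw [hfdef, if_neg hq.ne_zero, Nat.primeFactorsList_prime hq]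
    simp
  have hf0 : ∀ n, 0 ≤ f n := by
    intro n
    rw [hfdef]
    split_ifs
    · exact le_rfl
    · apply List.prod_nonneg
      intro a ha
      rw [List.mem_map] at ha
      obtain ⟨q, -, rfl⟩ := ha
      exact hu0 q
  have hcm : ∀ n, cm (fun q => ENNReal.ofReal (u q)) n = ENNReal.ofReal (f n) := by
    intro n
    unfold cm
    rw [hfdef]
    split_ifs
    · simp
    · have : ∀ L : List ℕ, (L.map (fun q => ENNReal.ofReal (u q))).prod =
          ENNReal.ofReal (L.map u).prod := by
        intro L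
        induction L with
        | nil => simp
        | cons a L ih =>
          rw [List.map_cons, List.prod_cons, ih, List.map_cons, List.prod_cons,
            ENNReal.ofReal_mul (hu0 a)]
      exact this _
  obtain ⟨hsum, hhas⟩ := EulerProduct.summable_and_hasSum_factoredNumbers_prod_filter_prime_geometric
    (f := f) (fun {p} hp => by
      rw [hfprime p hp, Real.norm_eq_abs, abs_of_nonneg (hu0 p)]
      exact hu1 p hp) s
  -- support
  have hsupp : ∀ n, n ∉ Nat.factoredNumbers s → f n = 0 := by
    intro n hn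
    rw [hfdef]
    split_ifs with h0
    · rfl
    · rw [Nat.mem_factoredNumbers] at hn
      push Not at hn
      obtain ⟨p, hp, hps⟩ := hn h0
      apply List.prod_eq_zero
      rw [List.mem_map]
      exact ⟨p, hp, hs p (Nat.prime_of_mem_primeFactorsList hp) hps⟩
  calc ∑' n, cm (fun q => ENNReal.ofReal (u q)) n
      = ∑' n, ENNReal.ofReal (f n) := tsum_congr hcm
    _ = ∑' n : Nat.factoredNumbers s, ENNReal.ofReal (f n) := by
        rw [tsum_subtype (Nat.factoredNumbers s) (fun n => ENNReal.ofReal (f n))]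
        refine tsum_congr fun n => ?_
        by_cases hn : n ∈ Nat.factoredNumbers s
        · rw [Set.indicator_of_mem hn]
        · rw [Set.indicator_of_notMem hn, hsupp n hn, ENNReal.ofReal_zero]
    _ = ENNReal.ofReal (∑' n : Nat.factoredNumbers s, f n) := by
        rw [ENNReal.ofReal_tsum_of_nonneg (fun n : Nat.factoredNumbers s => hf0 n) hhas.summable]
    _ = ENNReal.ofReal (∏ p ∈ s with p.Prime, (1 - u p)⁻¹) := by
        rw [hhas.tsum_eq]
        congr 1
        refine Finset.prod_congr rfl fun p hp => ?_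
        rw [hfprime p (Finset.mem_filter.1 hp).2]
    _ ≤ _ := le_rfl

end Crest.Agent.R020.Coll
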