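import Mathlib

/-!
Row 20 (helper162): weighted sums over sets of natural numbers (in `ℝ≥0∞`), completely
multiplicative weights, smooth sums (Rankin).
-/

set_option autoImplicit false

open scoped ENNReal Pointwise

noncomputable section

namespace Crest.Agent.R020

/-- `∑_{v ∈ A} g v` in `ℝ≥0∞`. -/
def ws (g : ℕ → ℝ≥0∞) (A : Set ℕ) : ℝ≥0∞ := ∑' v : ℕ, A.indicator g v

/-- `∑_{v ∈ A} 1 / v` in `ℝ≥0∞`. -/
def wt (A : Set ℕ) : ℝ≥0∞ := ws (fun v => (v : ℝ≥0∞)⁻¹) A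

lemma ws_mono_set (g : ℕ → ℝ≥0∞) {A B : Set ℕ} (h : A ⊆ B) : ws g A ≤ ws g B := by
  apply ENNReal.tsum_le_tsum
  intro v
  exact Set.indicator_le_indicator_of_subset h (fun _ => zero_le) v

lemma wt_mono {A B : Set ℕ} (h : A ⊆ B) : wt A ≤ wt B := ws_mono_set _ h

lemma ws_mono_fun {f g : ℕ → ℝ≥0∞} {A : Set ℕ} (h : ∀ v ∈ A, f v ≤ g v) : ws f A ≤ ws g A := by
  apply ENNReal.tsum_le_tsum
  intro v
  by_cases hv : v ∈ A
  · rw [Set.indicator_of_mem hv, Set.indicator_of_mem hv]; exact h v hv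
  · rw [Set.indicator_of_notMem hv]; exact zero_le

lemma ws_union_le (g : ℕ → ℝ≥0∞) (A B : Set ℕ) : ws g (A ∪ B) ≤ ws g A + ws g B := by
  unfold ws
  rw [← ENNReal.tsum_add]
  apply ENNReal.tsum_le_tsum
  intro v
  by_cases hA : v ∈ A
  · rw [Set.indicator_of_mem (Set.mem_union_left B hA), Set.indicator_of_mem hA]
    exact le_self_add
  · by_cases hB : v ∈ B
    · rw [Set.indicator_of_mem (Set.mem_union_right A hB), Set.indicator_of_mem hB]
      exact le_add_self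
    · rw [Set.indicator_of_notMem (by simp [hA, hB])]
      exact zero_le

lemma wt_union_le (A B : Set ℕ) : wt (A ∪ B) ≤ wt A + wt B := ws_union_le _ A B

/-- covering by a family indexed by `ι` -/
lemma ws_le_tsum {ι : Type*} (g : ℕ → ℝ≥0∞) (A : Set ℕ) (B : ι → Set ℕ)
    (h : ∀ v ∈ A, ∃ i, v ∈ B i) : ws g A ≤ ∑' i, ws g (B i) := by
  unfold ws
  rw [ENNReal.tsum_comm]
  apply ENNReal.tsum_le_tsum
  intro v
  by_cases hv : v ∈ A
  · obtain ⟨i, hi⟩ := h v hv
    rw [Set.indicator_of_mem hv]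
    refine le_trans (le_of_eq ?_) (ENNReal.le_tsum i)
    rw [Set.indicator_of_mem hi]
  · rw [Set.indicator_of_notMem hv]; exact zero_le

/-- if every `v ∈ A` is a value `f i` with `i ∈ I`, the sum over `A` is at most the sum over `I` -/
lemma ws_le_tsum_image {ι : Type*} (g : ℕ → ℝ≥0∞) (A : Set ℕ) (f : ι → ℕ) (I : Set ι)
    (h : ∀ v ∈ A, ∃ i ∈ I, f i = v) : ws g A ≤ ∑' i, I.indicator (fun i => g (f i)) i := by
  classical
  have h1 := ws_le_tsum g A (fun i : ι => {v | i ∈ I ∧ v = f i}) (by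
    intro v hv
    obtain ⟨i, hi, rfl⟩ := h v hv
    exact ⟨i, hi, rfl⟩)
  refine h1.trans ?_
  apply ENNReal.tsum_le_tsum
  intro i
  unfold ws
  by_cases hi : i ∈ I
  · rw [Set.indicator_of_mem hi]
    rw [tsum_eq_single (f i)]
    · rw [Set.indicator_of_mem]
      exact ⟨hi, rfl⟩
    · intro v hv
      rw [Set.indicator_of_notMem]
      rintro ⟨_, h2⟩
      exact hv h2
  · rw [Set.indicator_of_notMem hi]
    simp only [nonpos_iff_eq_zero, ENNReal.tsum_eq_zero]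
    intro v
    rw [Set.indicator_of_notMem]
    rintro ⟨h2, _⟩
    exact hi h2

/-- submultiplicativity -/
lemma ws_mul_le (g : ℕ → ℝ≥0∞) (A B C : Set ℕ)
    (h : ∀ v ∈ A, ∃ b ∈ B, ∃ c ∈ C, b * c = v ∧ g v ≤ g b * g c) :
    ws g A ≤ ws g B * ws g C := by
  classical
  have h1 : ws g A ≤ ∑' v : ℕ, ∑' p : ℕ × ℕ,
      (if p.1 ∈ B ∧ p.2 ∈ C ∧ p.1 * p.2 = v then g p.1 * g p.2 else 0) := by
    unfold ws
    apply ENNReal.tsum_le_tsum
    intro v
    by_cases hv : v ∈ A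
    · obtain ⟨b, hb, c, hc, hbc, hg⟩ := h v hv
      rw [Set.indicator_of_mem hv]
      refine hg.trans (le_trans (le_of_eq ?_) (ENNReal.le_tsum (b, c)))
      rw [if_pos ⟨hb, hc, hbc⟩]
    · rw [Set.indicator_of_notMem hv]; exact zero_le
  refine h1.trans ?_
  rw [ENNReal.tsum_comm]
  have h2 : ∀ p : ℕ × ℕ, ∑' v : ℕ,
      (if p.1 ∈ B ∧ p.2 ∈ C ∧ p.1 * p.2 = v then g p.1 * g p.2 else 0)
      ≤ B.indicator g p.1 * C.indicator g p.2 := by
    intro p
    rw [tsum_eq_single (p.1 * p.2)]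
    · by_cases hb : p.1 ∈ B
      · by_cases hc : p.2 ∈ C
        · rw [if_pos ⟨hb, hc, rfl⟩, Set.indicator_of_mem hb, Set.indicator_of_mem hc]
        · rw [if_neg (fun h => hc h.2.1)]; exact zero_le
      · rw [if_neg (fun h => hb h.1)]; exact zero_le
    · intro v hv
      rw [if_neg]
      rintro ⟨_, _, h3⟩
      exact hv h3.symm
  refine (ENNReal.tsum_le_tsum h2).trans ?_
  unfold ws
  rw [ENNReal.tsum_prod (f := fun a b => B.indicator g a * C.indicator g b)]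
  simp_rw [ENNReal.tsum_mul_left]
  rw [ENNReal.tsum_mul_right]

lemma inv_mul_nat (a b : ℕ) : ((a * b : ℕ) : ℝ≥0∞)⁻¹ = (a : ℝ≥0∞)⁻¹ * (b : ℝ≥0∞)⁻¹ := by
  rw [Nat.cast_mul]
  exact ENNReal.mul_inv (Or.inr (ENNReal.natCast_ne_top b)) (Or.inl (ENNReal.natCast_ne_top a))

lemma wt_mul_le (A B C : Set ℕ) (h : ∀ v ∈ A, ∃ b ∈ B, ∃ c ∈ C, b * c = v) :
    wt A ≤ wt B * wt C := by
  apply ws_mul_le
  intro v hv
  obtain ⟨b, hb, c, hc, rfl⟩ := h v hv
  exact ⟨b, hb, c, hc, rfl, (inv_mul_nat b c).le⟩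

/-! ### completely multiplicative weights -/

/-- `∏_{q | v} h q`, with multiplicity. -/
def cm (h : ℕ → ℝ≥0∞) (v : ℕ) : ℝ≥0∞ := (v.primeFactorsList.map h).prod

lemma cm_one (h : ℕ → ℝ≥0∞) : cm h 1 = 1 := by simp [cm]

lemma cm_mul (h : ℕ → ℝ≥0∞) {a b : ℕ} (ha : a ≠ 0) (hb : b ≠ 0) :
    cm h (a * b) = cm h a * cm h b := by
  unfold cm
  rw [((Nat.perm_primeFactorsList_mul ha hb).map h).prod_eq, List.map_append, List.prod_append]

lemma cm_prime (h : ℕ → ℝ≥0∞) {p : ℕ} (hp : p.Prime) : cm h p = h p := by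
  simp [cm, Nat.primeFactorsList_prime hp]

lemma cm_pow (h : ℕ → ℝ≥0∞) {p : ℕ} (hp : p.Prime) (k : ℕ) : cm h (p ^ k) = h p ^ k := by
  simp [cm, hp.primeFactorsList_pow]

lemma cm_mono {h h' : ℕ → ℝ≥0∞} (hh : ∀ p, p.Prime → h p ≤ h' p) (v : ℕ) : cm h v ≤ cm h' v := by
  unfold cm
  have : ∀ l : List ℕ, (∀ p ∈ l, p.Prime) → (l.map h).prod ≤ (l.map h').prod := by
    intro l
    induction l with
    | nil => simp
    | cons a l ih =>
      intro hl
      simp only [List.map_cons, List.prod_cons]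
      exact mul_le_mul' (hh a (hl a (by simp))) (ih fun p hp => hl p (by simp [hp]))
  exact this _ fun p hp => Nat.prime_of_mem_primeFactorsList hp

lemma cm_mul_fun (h h' : ℕ → ℝ≥0∞) (v : ℕ) : cm (fun p => h p * h' p) v = cm h v * cm h' v := by
  unfold cm
  exact List.prod_map_mul

lemma cm_inv {v : ℕ} (hv : v ≠ 0) : cm (fun p => (p : ℝ≥0∞)⁻¹) v = (v : ℝ≥0∞)⁻¹ := by
  have h1 : v.primeFactorsList.prod = v := Nat.prod_primeFactorsList hv
  have : ∀ l : List ℕ, (l.map fun p : ℕ => (p : ℝ≥0∞)⁻¹).prod = ((l.prod : ℕ) : ℝ≥0∞)⁻¹ := by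
    intro l
    induction l with
    | nil => simp
    | cons a l ih =>
      simp only [List.map_cons, List.prod_cons]
      rw [ih, inv_mul_nat]
  unfold cm
  rw [this, h1]

/-- numbers all of whose prime factors lie in `s` -/
def Sm (s : Set ℕ) : Set ℕ := {v | v ≠ 0 ∧ ∀ p ∈ v.primeFactors, p ∈ s}

/-- General bound for sums of submultiplicative functions over smooth numbers. -/
lemma smooth_sum (f : ℕ → ℝ≥0∞) (b : ℕ → ℕ → ℝ≥0∞) (hf1 : f 1 ≤ 1)
    (hf : ∀ p k u : ℕ, p.Prime → u ≠ 0 → ¬ p ∣ u → f (p ^ k * u) ≤ b p k * f u) (s : Finset ℕ)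
    (hs : ∀ p ∈ s, p.Prime) :
    ws f (Sm s) ≤ ∏ p ∈ s, ∑' k, b p k := by
  classical
  induction s using Finset.induction_on with
  | empty =>
    unfold ws
    rw [tsum_eq_single 1]
    · rw [Finset.prod_empty]
      refine le_trans ?_ hf1
      exact Set.indicator_apply_le fun _ => le_rfl
    · intro v hv
      rw [Set.indicator_of_notMem]
      rintro ⟨h0, h1⟩
      apply hv
      by_contra h2
      obtain ⟨p, hp⟩ := Nat.nonempty_primeFactors.mpr (show 1 < v by omega)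
      exact absurd (h1 p hp) (by simp)
  | insert p s hps ih =>
    rw [Finset.prod_insert hps]
    have hp : p.Prime := hs p (Finset.mem_insert_self p s)
    have ih' := ih (fun q hq => hs q (Finset.mem_insert_of_mem hq))
    have h1 : ws f (Sm (insert p s : Finset ℕ)) ≤
        ∑' ku : ℕ × ℕ, ({ku : ℕ × ℕ | ku.2 ∈ Sm (s : Set ℕ)} : Set (ℕ × ℕ)).indicator
          (fun ku => f (p ^ ku.1 * ku.2)) ku := by
      apply ws_le_tsum_image f _ (fun ku : ℕ × ℕ => p ^ ku.1 * ku.2)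
      rintro v ⟨hv0, hv⟩
      obtain ⟨k, u, hpu, hvu⟩ := Nat.exists_eq_pow_mul_and_not_dvd hv0 p hp.ne_one
      refine ⟨(k, u), ⟨?_, ?_⟩, hvu.symm⟩
      · rintro rfl
        simp at hpu
      · intro q hq
        have hqv : q ∈ v.primeFactors := by
          rw [Nat.mem_primeFactors] at hq ⊢
          refine ⟨hq.1, ?_, hv0⟩
          rw [hvu]
          exact Dvd.dvd.mul_left hq.2.1 _
        have := hv q hqv
        simp only [Finset.coe_insert, Set.mem_insert_iff, Finset.mem_coe] at this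
        rcases this with rfl | h2
        · exact absurd (Nat.dvd_of_mem_primeFactors hq) hpu
        · exact_mod_cast h2
    refine h1.trans ?_
    have h2 : ∀ ku : ℕ × ℕ, ({ku : ℕ × ℕ | ku.2 ∈ Sm (s : Set ℕ)} : Set (ℕ × ℕ)).indicator
          (fun ku => f (p ^ ku.1 * ku.2)) ku ≤ b p ku.1 * (Sm (s : Set ℕ)).indicator f ku.2 := by
      intro ku
      by_cases hku : ku.2 ∈ Sm (s : Set ℕ)
      · rw [Set.indicator_of_mem (show ku ∈ {ku : ℕ × ℕ | ku.2 ∈ Sm (s : Set ℕ)} from hku),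
          Set.indicator_of_mem hku]
        apply hf p ku.1 ku.2 hp hku.1
        intro hdvd
        have : p ∈ ku.2.primeFactors := Nat.mem_primeFactors.mpr ⟨hp, hdvd, hku.1⟩
        exact hps (by exact_mod_cast hku.2 p this)
      · rw [Set.indicator_of_notMem (show ku ∉ {ku : ℕ × ℕ | ku.2 ∈ Sm (s : Set ℕ)} from hku)]
        exact zero_le
    refine (ENNReal.tsum_le_tsum h2).trans ?_
    rw [ENNReal.tsum_prod (f := fun k u => b p k * (Sm (s : Set ℕ)).indicator f u)]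
    simp_rw [ENNReal.tsum_mul_left]
    rw [ENNReal.tsum_mul_right]
    exact mul_le_mul' le_rfl ih'

/-- Rankin sums of completely multiplicative functions. -/
lemma smooth_sum_cm (h : ℕ → ℝ≥0∞) (s : Finset ℕ) (hs : ∀ p ∈ s, p.Prime) :
    ws (cm h) (Sm s) ≤ ∏ p ∈ s, (1 - h p)⁻¹ := by
  have h1 := smooth_sum (cm h) (fun p k => h p ^ k) (by rw [cm_one]) (by
    intro p k u hp hu _
    rw [cm_mul h (pow_ne_zero _ hp.ne_zero) hu, cm_pow h hp]) s hs
  refine h1.trans (le_of_eq ?_)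
  apply Finset.prod_congr rfl
  intro p _
  exact ENNReal.tsum_geometric _

end Crest.Agent.R020
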