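import Mathlib
import Crest.Agent.R020.Abn4
import Crest.Agent.R020.Wt
import Crest.Agent.R020.CollBasic

/-!
# Twisted sums over shifted primes: extended nonnegative real forms
-/

open Finset Filter
open scoped ENNReal

namespace Crest.Agent.R020

/-- The completely multiplicative function on `ℕ` (with value `0` at `0`) attached to a function
multiplicative on nonzero arguments. -/
noncomputable def toHom (f : ℕ → ℝ≥0∞) (h1 : f 1 = 1)
    (hmul : ∀ m n, m ≠ 0 → n ≠ 0 → f (m * n) = f m * f n) : ℕ →*₀ ℝ where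
  toFun n := if n = 0 then 0 else (f n).toReal
  map_zero' := by simp
  map_one' := by simp [h1]
  map_mul' m n := by
    rcases eq_or_ne m 0 with rfl | hm
    · simp
    rcases eq_or_ne n 0 with rfl | hn
    · simp
    rw [if_neg (mul_ne_zero hm hn), if_neg hm, if_neg hn, hmul m n hm hn, ENNReal.toReal_mul]

lemma toHom_apply {f : ℕ → ℝ≥0∞} (h1 : f 1 = 1)
    (hmul : ∀ m n, m ≠ 0 → n ≠ 0 → f (m * n) = f m * f n) {n : ℕ} (hn : n ≠ 0) :
    toHom f h1 hmul n = (f n).toReal := by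
  show (if n = 0 then 0 else (f n).toReal) = _
  rw [if_neg hn]

lemma ne_top_of_mul {f : ℕ → ℝ≥0∞} (h1 : f 1 = 1)
    (hmul : ∀ m n, m ≠ 0 → n ≠ 0 → f (m * n) = f m * f n)
    (hp : ∀ p : ℕ, p.Prime → f p ≤ ENNReal.ofReal (3 / 2)) {n : ℕ} (hn : n ≠ 0) : f n ≠ ⊤ := by
  revert hn
  induction n using Nat.recOnMul with
  | zero => intro h; exact absurd rfl h
  | one => intro _; rw [h1]; exact ENNReal.one_ne_top
  | prime p hp' => intro _; exact ne_top_of_le_ne_top ENNReal.ofReal_ne_top (hp p hp')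
  | mul a b ha hb =>
    intro h
    rw [mul_ne_zero_iff] at h
    rw [hmul a b h.1 h.2]
    exact ENNReal.mul_ne_top (ha h.1) (hb h.2)

lemma toHom_prime_bounds {f : ℕ → ℝ≥0∞} (h1 : f 1 = 1)
    (hmul : ∀ m n, m ≠ 0 → n ≠ 0 → f (m * n) = f m * f n)
    (hp : ∀ p : ℕ, p.Prime → f p ≤ ENNReal.ofReal (3 / 2)) :
    ∀ p : ℕ, p.Prime → 0 ≤ toHom f h1 hmul p ∧ toHom f h1 hmul p ≤ 3 / 2 := by
  intro p hpp
  rw [toHom_apply h1 hmul hpp.ne_zero]
  refine ⟨ENNReal.toReal_nonneg, ?_⟩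
  have := ENNReal.toReal_mono ENNReal.ofReal_ne_top (hp p hpp)
  rwa [ENNReal.toReal_ofReal (by norm_num)] at this

/-- **TS2**, `ℝ≥0∞` form, on a unit window. -/
theorem twisted_tsum_le : ∃ C : ℝ, 0 < C ∧ ∀ f : ℕ → ℝ≥0∞, f 1 = 1 →
    (∀ m n, m ≠ 0 → n ≠ 0 → f (m * n) = f m * f n) →
    (∀ p : ℕ, p.Prime → f p ≤ ENNReal.ofReal (3 / 2)) → ∀ u : ℝ, 0 ≤ u →
    ∑' q : ℕ, {q : ℕ | q.Prime ∧ u ≤ yy q ∧ yy q ≤ u + 1}.indicator
      (fun q => f (q - 1) * ((q - 1 : ℕ) : ℝ≥0∞)⁻¹) q ≤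
      ENNReal.ofReal (C * (1 + u) ^ 2 * Real.exp (-u) *
        Real.exp (∑ p ∈ PL u, (f p).toReal / p)) := by
  obtain ⟨C, hC, hTS⟩ := twisted_sum_le
  refine ⟨C, hC, fun f h1 hmul hp u hu => ?_⟩
  have hb := toHom_prime_bounds h1 hmul hp
  have hgn := nonneg_of_prime fun p hp => (hb p hp).1
  classical
  rw [ENNReal.tsum_eq_iSup_sum]
  refine iSup_le fun s => ?_
  have e1 : ∑ q ∈ s, {q : ℕ | q.Prime ∧ u ≤ yy q ∧ yy q ≤ u + 1}.indicator
      (fun q => f (q - 1) * ((q - 1 : ℕ) : ℝ≥0∞)⁻¹) q =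
      ∑ q ∈ s.filter (fun q => q.Prime ∧ u ≤ yy q ∧ yy q ≤ u + 1),
        f (q - 1) * ((q - 1 : ℕ) : ℝ≥0∞)⁻¹ := by
    rw [Finset.sum_filter]
    refine Finset.sum_congr rfl fun q _ => ?_
    rw [Set.indicator_apply]
    simp only [Set.mem_setOf_eq]
  rw [e1]
  have e2 : ∀ q ∈ s.filter (fun q => q.Prime ∧ u ≤ yy q ∧ yy q ≤ u + 1),
      f (q - 1) * ((q - 1 : ℕ) : ℝ≥0∞)⁻¹ =
        ENNReal.ofReal (toHom f h1 hmul (q - 1) / ((q : ℝ) - 1)) := by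
    intro q hq
    rw [Finset.mem_filter] at hq
    have hq2 := hq.2.1.two_le
    have hq1 : q - 1 ≠ 0 := by omega
    have hq2' : (2 : ℝ) ≤ q := by exact_mod_cast hq2
    rw [toHom_apply h1 hmul hq1, div_eq_mul_inv, ENNReal.ofReal_mul ENNReal.toReal_nonneg,
      ENNReal.ofReal_toReal (ne_top_of_mul h1 hmul hp hq1), ENNReal.ofReal_inv_of_pos (by linarith)]
    congr 2
    rw [show (q : ℝ) - 1 = ((q - 1 : ℕ) : ℝ) by
      rw [Nat.cast_sub (by omega)]; simp]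
    rw [ENNReal.ofReal_natCast]
  rw [Finset.sum_congr rfl e2, ← ENNReal.ofReal_sum_of_nonneg (fun q hq => by
    rw [Finset.mem_filter] at hq
    have hq2' : (2 : ℝ) ≤ q := by exact_mod_cast hq.2.1.two_le
    exact div_nonneg (hgn _) (by linarith))]
  refine ENNReal.ofReal_le_ofReal ?_
  refine (hTS (toHom f h1 hmul) hb u hu _ (fun q hq => (Finset.mem_filter.mp hq).2)).trans
    (le_of_eq ?_)
  congr 2
  refine Finset.sum_congr rfl fun p hp => ?_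
  rw [toHom_apply h1 hmul ((mem_PL hu).mp hp).1.ne_zero]

/-- TS2 for helper162's completely multiplicative weight `cm`. -/
theorem twisted_cm_le : ∃ C : ℝ, 0 < C ∧ ∀ h : ℕ → ℝ≥0∞,
    (∀ p : ℕ, p.Prime → h p ≤ ENNReal.ofReal (3 / 2)) → ∀ u : ℝ, 0 ≤ u →
    ∑' q : ℕ, {q : ℕ | q.Prime ∧ u ≤ yy q ∧ yy q ≤ u + 1}.indicator
      (fun q => cm h (q - 1) * ((q - 1 : ℕ) : ℝ≥0∞)⁻¹) q ≤
      ENNReal.ofReal (C * (1 + u) ^ 2 * Real.exp (-u) *
        Real.exp (∑ p ∈ PL u, (h p).toReal / p)) := by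
  obtain ⟨C, hC, hTS⟩ := twisted_tsum_le
  refine ⟨C, hC, fun h hp u hu => ?_⟩
  have := hTS (cm h) (cm_one h) (fun m n hm hn => cm_mul h hm hn)
    (fun p hpp => by rw [cm_prime h hpp]; exact hp p hpp) u hu
  refine this.trans (le_of_eq ?_)
  congr 3
  refine Finset.sum_congr rfl fun p hp => ?_
  rw [cm_prime h ((mem_PL hu).mp hp).1]

/-- TS2 for helper638's completely multiplicative weight `Coll.cm`. -/
theorem twisted_collcm_le : ∃ C : ℝ, 0 < C ∧ ∀ h : ℕ → ℝ≥0∞,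
    (∀ p : ℕ, p.Prime → h p ≤ ENNReal.ofReal (3 / 2)) → ∀ u : ℝ, 0 ≤ u →
    ∑' q : ℕ, {q : ℕ | q.Prime ∧ u ≤ yy q ∧ yy q ≤ u + 1}.indicator
      (fun q => Coll.cm h (q - 1) * ((q - 1 : ℕ) : ℝ≥0∞)⁻¹) q ≤
      ENNReal.ofReal (C * (1 + u) ^ 2 * Real.exp (-u) *
        Real.exp (∑ p ∈ PL u, (h p).toReal / p)) := by
  obtain ⟨C, hC, hTS⟩ := twisted_tsum_le
  refine ⟨C, hC, fun h hp u hu => ?_⟩
  have := hTS (Coll.cm h) (Coll.cm_one h) (fun m n hm hn => Coll.cm_mul h m n)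
    (fun p hpp => by rw [Coll.cm_prime h p hpp]; exact hp p hpp) u hu
  refine this.trans (le_of_eq ?_)
  congr 3
  refine Finset.sum_congr rfl fun p hp => ?_
  rw [Coll.cm_prime h p ((mem_PL hu).mp hp).1]

end Crest.Agent.R020
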