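import Crest.Agent.R020.Canon
import Crest.Agent.R020.Wt

/-!
Row 20: the interfaces between the modules, as `Prop`-valued definitions.
-/

set_option autoImplicit false

open scoped ENNReal Topology
open MeasureTheory Filter Crest.NumberTheoryR.TotientScale

noncomputable section

namespace Crest.Agent.R020

/-- The set of totients. -/
def Tot : Set ℕ := {v | IsTot v}

/-- The square of the largest prime of the canonical preimage divides it (true for `v = 1`). -/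
def Sq (v : ℕ) : Prop := Pm (rr v) ^ 2 ∣ rr v

/-- `∑_{(q,d) ∈ A} 1 / ((q-1) d)` in `ℝ≥0∞`. -/
def wt2 (A : Set (ℕ × ℕ)) : ℝ≥0∞ :=
  ∑' p : ℕ × ℕ, A.indicator (fun p => (((p.1 - 1) * p.2 : ℕ) : ℝ≥0∞)⁻¹) p

/-- The pairs `(q,d)` whose product `(q-1)d` does not have the canonical preimage `q r_d`. -/
def NonCan (q d : ℕ) : Prop :=
  q.Prime ∧ IsTot d ∧ Pm (rr d) < q ∧ rr ((q - 1) * d) ≠ q * rr d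

/-- (Z) crude bound. -/
def StmtZ : Prop := ∃ C : ℝ, 0 < C ∧ ∀ Y : ℝ, 0 ≤ Y →
  wt {v | IsTot v ∧ y1 v ≤ Y} ≤ ENNReal.ofReal (Real.exp (C * Real.log (Y + 2) ^ 2))

/-- (Sq) squares of the largest prime have bounded total weight. -/
def StmtSq : Prop := ∃ C : ℝ, 0 < C ∧ wt {v | IsTot v ∧ Sq v} ≤ ENNReal.ofReal C

/-- (U) availability fails on a thin set. -/
def StmtU : Prop := ∃ c0 Y0 : ℝ, 0 < c0 ∧ ∀ Y : ℝ, Y0 ≤ Y →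
  wt {v | IsTot v ∧ ¬ Sq v ∧ y1 v ≤ Y ∧ y1 v + Y ^ (19 / 20 : ℝ) < FF aa (tl v)} ≤
    ENNReal.ofReal (Real.exp (-Y ^ c0))

/-- (L) non-canonical pairs with room are thin. -/
def StmtL : Prop := ∃ c0 Y0 : ℝ, 0 < c0 ∧ ∀ Y : ℝ, Y0 ≤ Y →
  wt2 {p | NonCan p.1 p.2 ∧ yy p.1 ≤ Y ∧ FF aa p.2 + Y ^ (19 / 20 : ℝ) ≤ yy p.1} ≤
    ENNReal.ofReal (Real.exp (-Y ^ c0))

/-- (Uc) counting version of (U). -/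
def StmtUc : Prop := ∃ c0 B0 : ℝ, 0 < c0 ∧ ∀ x : ℝ, 3 ≤ x → B0 ≤ Real.log (Real.log x) →
  (Set.ncard {v : ℕ | IsTot v ∧ ¬ Sq v ∧ (v : ℝ) ≤ x ∧
      Real.log (Real.log x) + Real.log (Real.log x) ^ (19 / 20 : ℝ) < FF aa (tl v)} : ℝ) ≤
    x / Real.log x * Real.exp (-Real.log (Real.log x) ^ c0)

/-- (Lc) counting version of (L). -/
def StmtLc : Prop := ∃ c0 B0 : ℝ, 0 < c0 ∧ ∀ x : ℝ, 3 ≤ x → B0 ≤ Real.log (Real.log x) →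
  (Set.ncard {p : ℕ × ℕ | NonCan p.1 p.2 ∧ Real.sqrt x < p.1 ∧ (p.2 : ℝ) ≤ x ^ (1 / 10 : ℝ) ∧
      (((p.1 - 1) * p.2 : ℕ) : ℝ) ≤ x ∧
      FF aa p.2 + Real.log (Real.log x) ^ (19 / 20 : ℝ) ≤ Real.log (Real.log x)} : ℝ) ≤
    x / Real.log x * Real.exp (-Real.log (Real.log x) ^ c0)

/-- Weighted sum `∑_{v ∈ A} φ(v) / v` of a real function. -/
def wsum (φ : ℕ → ℝ) (A : Set ℕ) : ℝ≥0∞ :=
  ws (fun v => ENNReal.ofReal (φ v) * (v : ℝ≥0∞)⁻¹) A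

/-- The tail integral `∫_t^∞ ψ`. -/
def TI (ψ : ℝ → ℝ) (t : ℝ) : ℝ := ∫ u in Set.Ioi t, ψ u

/-- The coefficient transformation `(Tc)_i = c_0 a_i + c_{i+1}` (`0`-indexed). -/
def Tc (c : ℕ → ℝ) (i : ℕ) : ℝ := c 0 * aa i + c (i + 1)

/-- Admissible test functions at scale `Ys`. -/
structure Adm (Ys : ℝ) (c : ℕ → ℝ) (ψ : ℝ → ℝ) : Prop where
  c_pos : 0 < c 0
  c_nonneg : ∀ i, 0 ≤ c i
  anti : Antitone ψ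
  nonneg : ∀ t, 0 ≤ ψ t
  integrable : ∀ t, IntegrableOn ψ (Set.Ioi t)
  decay : ∀ y : ℝ, 0 ≤ y → ψ (c 0 * y) ≤ 3 * ψ 0 * Real.exp (-y / Ys)

/-- One-step lemma, upper bound. -/
def StmtFup : Prop := ∃ C1 Ys0 : ℝ, 0 < C1 ∧ ∀ Ys : ℝ, Ys0 ≤ Ys →
  ∀ (c : ℕ → ℝ) (ψ : ℝ → ℝ) (D A : Set ℕ), Adm Ys c ψ →
    (∀ v ∈ A, IsTot v ∧ (v ≠ 1 → ¬ Sq v → tl v ∈ D)) →
    wsum (fun v => ψ (FF c v)) A ≤
      ENNReal.ofReal (1 / c 0) *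
        wsum (fun d => TI ψ (FF (Tc c) d - 2 * c 0 * Ys ^ (24 / 25 : ℝ))) {d | IsTot d ∧ d ∈ D}
      + ENNReal.ofReal (C1 * ψ 0)

/-- One-step lemma, upper bound with an individual lower limit `FF e (tl v) ≤ y1 v`. -/
def StmtFupV : Prop := ∃ C1 Ys0 : ℝ, 0 < C1 ∧ ∀ Ys : ℝ, Ys0 ≤ Ys →
  ∀ (c e : ℕ → ℝ) (ψ : ℝ → ℝ) (D A : Set ℕ), Adm Ys c ψ → (∀ i, 0 ≤ e i) → 1 / 3 ≤ e 0 →
    (∀ v ∈ A, IsTot v ∧ (v ≠ 1 → ¬ Sq v → tl v ∈ D ∧ FF e (tl v) ≤ y1 v)) →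
    wsum (fun v => ψ (FF c v)) A ≤
      ENNReal.ofReal (1 / c 0) *
        wsum (fun d => TI ψ (FF (fun i => c 0 * e i + c (i + 1)) d -
          2 * c 0 * Ys ^ (24 / 25 : ℝ))) {d | IsTot d ∧ d ∈ D}
      + ENNReal.ofReal (C1 * ψ 0)

/-- One-step lemma, lower bound. -/
def StmtFlow : Prop := ∃ C1 Ys0 : ℝ, 0 < C1 ∧ ∀ Ys : ℝ, Ys0 ≤ Ys →
  ∀ (c : ℕ → ℝ) (ψ : ℝ → ℝ) (D : Set ℕ), Adm Ys c ψ →
    ENNReal.ofReal (1 / c 0) *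
        wsum (fun d => TI ψ (FF (Tc c) d + 2 * c 0 * Ys ^ (24 / 25 : ℝ))) {d | IsTot d ∧ d ∈ D} ≤
      wsum (fun v => ψ (FF c v)) {v | IsTot v ∧ v ≠ 1 ∧ ¬ Sq v ∧ tl v ∈ D}
      + ENNReal.ofReal (1 / c 0) *
        wsum (fun d => TI ψ (FF (Tc c) d)) {d | IsTot d ∧ d ∈ D ∧ FF aa d < y1 d}
      + ENNReal.ofReal (C1 * ψ 0)

/-- The special family (two nested primes `p_1 > p_2`, `yy p_2 ∈ [T, 1.1T]`,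
`yy p_1 ∈ [1.2T, 1.3T]`, canonical preimage `p_1 p_2`). -/
def StmtW : Prop := ∃ c T0 : ℝ, 0 < c ∧ ∀ T : ℝ, T0 ≤ T → ∃ W : Set ℕ,
  (∀ v ∈ W, IsTot v ∧ T ≤ y1 v ∧ y1 v ≤ FF aa v ∧
    ∀ c' : ℕ → ℝ, (∀ i, 0 ≤ c' i) → FF c' v ≤ (c' 0 + c' 1) * (2 * T)) ∧
  ENNReal.ofReal (c * T ^ 2) ≤ wt W

/-- `S(B) = ∑_{d totient, F_a(d) ≤ B} 1/d`. -/
def SB (B : ℝ) : ℝ≥0∞ := wt {d | IsTot d ∧ FF aa d ≤ B}

/-- `S_1(R) = ∑_{d totient} (R - F_{Ta}(d))_+ / d`. -/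
def S1B (R : ℝ) : ℝ≥0∞ := wsum (fun d => max 0 (R - FF (Tc aa) d)) {d | IsTot d}

/-- Output of the chain: `S(B ± B^{0.97}) / scaleG → A_r(phase)` up to `ε_r`. -/
def StmtChain : Prop := ∀ ρ : ℝ, 0 < ρ → ρ < 1 →
  HasSum (fun j : ℕ => aCoef (j + 1) * ρ ^ (j + 1)) 1 →
  ∃ (A : ℕ → ℝ → ℝ) (ε : ℕ → ℝ), Tendsto ε atTop (𝓝 0) ∧
    (∀ᶠ r in atTop, ∃ c₁ c₂ : ℝ, 0 < c₁ ∧ ∀ s ∈ Set.Ico (0 : ℝ) 1, c₁ ≤ A r s ∧ A r s ≤ c₂) ∧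
    ∀ᶠ r in atTop, ∀ᶠ x in atTop,
      SB (bigB x + bigB x ^ (97 / 100 : ℝ)) ≠ ⊤ ∧
      |(SB (bigB x + bigB x ^ (97 / 100 : ℝ))).toReal / scaleG ρ x - A r (phase ρ x)| ≤
        ε r * A r (phase ρ x) ∧
      |(SB (bigB x - bigB x ^ (97 / 100 : ℝ))).toReal / scaleG ρ x - A r (phase ρ x)| ≤
        ε r * A r (phase ρ x)

/-- Output of the chain: `S_1(0.95 B) = o(S(B))`. -/
def StmtS1 : Prop := (∀ R : ℝ, S1B R ≠ ⊤) ∧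
  Tendsto (fun B : ℝ => (S1B (95 / 100 * B)).toReal / (SB B).toReal) atTop (𝓝 0)

end Crest.Agent.R020
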