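import Crest.Agent.R020.LimitS
import Crest.Agent.R020.Stmt

/-!
Row 20 (helper826): instantiation of the Laplace limit for totients.
-/

set_option autoImplicit false

open scoped ENNReal Topology
open Filter Crest.NumberTheoryR.TotientScale

noncomputable section

namespace Crest.Agent.R020

open Classical in
/-- The weight `1/v` on totients. -/
def wtot (v : ℕ) : ℝ := if IsTot v then (v : ℝ)⁻¹ else 0

/-- `H(v) = F_h(v)`. -/
def Htot (ρ : ℝ) (v : ℕ) : ℝ := FF (fun i => hSeq ρ (i + 1)) v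

/-- `T_k(v) = F_{c^{(k)}}(v)`. -/
def Ttot (k : ℕ) (v : ℕ) : ℝ := FF (fun i => cSeq k (i + 1)) v

theorem wtot_nonneg (v : ℕ) : 0 ≤ wtot v := by
  unfold wtot; split_ifs <;> positivity

theorem ofReal_wtot {v : ℕ} (hv : IsTot v) : ENNReal.ofReal (wtot v) = (v : ℝ≥0∞)⁻¹ := by
  have h0 : (0 : ℝ) < v := by exact_mod_cast hv.pos
  rw [wtot, if_pos hv, ENNReal.ofReal_inv_of_pos h0, ENNReal.ofReal_natCast]

theorem wsum_eq_tsum {φ : ℕ → ℝ} :
    wsum φ {v | IsTot v} = ∑' v, ENNReal.ofReal (wtot v * φ v) := by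
  unfold wsum ws
  refine tsum_congr fun v => ?_
  by_cases hv : IsTot v
  · rw [Set.indicator_of_mem (show v ∈ {v | IsTot v} from hv),
      ENNReal.ofReal_mul (wtot_nonneg v), ofReal_wtot hv, mul_comm]
  · rw [Set.indicator_of_notMem (show v ∉ {v | IsTot v} from hv), wtot, if_neg hv, zero_mul,
      ENNReal.ofReal_zero]

theorem sum_wtot_le (s : Finset ℕ) (A : Set ℕ) (h : ∀ v ∈ s, IsTot v → v ∈ A) {R : ℝ} (hR : 0 ≤ R)
    (hA : wt A ≤ ENNReal.ofReal R) : ∑ v ∈ s, wtot v ≤ R := by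
  have h1 : ENNReal.ofReal (∑ v ∈ s, wtot v) ≤ wt A := by
    rw [ENNReal.ofReal_sum_of_nonneg fun v _ => wtot_nonneg v]
    refine le_trans ?_ (ENNReal.sum_le_tsum s)
    refine Finset.sum_le_sum fun v hv => ?_
    by_cases ht : IsTot v
    · rw [ofReal_wtot ht, Set.indicator_of_mem (h v hv ht)]
    · rw [wtot, if_neg ht, ENNReal.ofReal_zero]; exact zero_le
  exact (ENNReal.ofReal_le_ofReal_iff hR).1 (h1.trans hA)

section

variable {ρ : ℝ} (hρ0 : 0 < ρ) (hρ1 : ρ < 1)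

include hρ0 hρ1

set_option linter.unusedSectionVars false

theorem Htot_nonneg (v : ℕ) : 0 ≤ Htot ρ v :=
  FF_nonneg (fun i => (hSeq_pos hρ0 hρ1 (i + 1) (by omega)).le) v

theorem Ttot_nonneg (k v : ℕ) : 0 ≤ Ttot k v :=
  FF_nonneg (fun i => (cSeq_pos k (i + 1) (by omega)).le) v

theorem dataTot (hρ : HasSum (fun j : ℕ => aCoef (j + 1) * ρ ^ (j + 1)) 1) (hZ : StmtZ) :
    Laplace.Data wtot (Htot ρ) := by
  obtain ⟨C, hC, hZ⟩ := hZ
  refine Laplace.Data.of_logsq wtot_nonneg (Htot_nonneg hρ0 hρ1) ⟨1, ?_⟩ hC.le fun N s hs => ?_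
  · rw [wtot, if_pos isTot_one]; norm_num
  · refine sum_wtot_le s {v | IsTot v ∧ y1 v ≤ (N : ℝ) + 1} (fun v hv ht => ⟨ht, ?_⟩)
      (Real.exp_pos _).le ?_
    · have h1 := mul_y1_le_FF (c := fun i => hSeq ρ (i + 1))
        (fun i => (hSeq_pos hρ0 hρ1 (i + 1) (by omega)).le) v
      have h2 : hSeq ρ (0 + 1) = 1 / ρ := by simpa using hSeq_one hρ0 hρ1 hρ
      simp only [h2] at h1
      have h3 : (1 : ℝ) ≤ 1 / ρ := by rw [le_div_iff₀ hρ0]; linarith
      have h4 := hs v hv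
      have h5 := y1_nonneg v
      have h6 : FF (fun i => hSeq ρ (i + 1)) v = Htot ρ v := rfl
      rw [h6] at h1
      nlinarith
    · have h1 := hZ ((N : ℝ) + 1) (by positivity)
      have e : (N : ℝ) + 1 + 2 = N + 3 := by ring
      rwa [e] at h1

theorem Ttot_rate {μ C q : ℝ}
    (h : ∀ k j : ℕ, 1 ≤ j → |cSeq k j * ρ ^ k - μ * hSeq ρ j| ≤ C * q ^ k * hSeq ρ j)
    (k v : ℕ) : |Ttot k v * ρ ^ k - μ * Htot ρ v| ≤ C * q ^ k * Htot ρ v := by
  have e1 : Ttot k v * ρ ^ k = FF (fun i => ρ ^ k * cSeq k (i + 1)) v := by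
    rw [FF_smul, Ttot]; ring
  have e2 : (μ + C * q ^ k) * Htot ρ v = FF (fun i => (μ + C * q ^ k) * hSeq ρ (i + 1)) v := by
    rw [FF_smul, Htot]
  have e3 : (μ - C * q ^ k) * Htot ρ v = FF (fun i => (μ - C * q ^ k) * hSeq ρ (i + 1)) v := by
    rw [FF_smul, Htot]
  have h1 : Ttot k v * ρ ^ k ≤ (μ + C * q ^ k) * Htot ρ v := by
    rw [e1, e2]
    refine FF_mono (fun i => ?_) v
    have := (abs_le.1 (h k (i + 1) (by omega))).2
    linarith
  have h2 : (μ - C * q ^ k) * Htot ρ v ≤ Ttot k v * ρ ^ k := by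
    rw [e1, e3]
    refine FF_mono (fun i => ?_) v
    have := (abs_le.1 (h k (i + 1) (by omega))).1
    linarith
  rw [abs_le]
  constructor <;> linarith

theorem exists_Ttot_ge : ∃ κ : ℝ, 0 < κ ∧ ∀ k v : ℕ, κ * Htot ρ v ≤ Ttot k v := by
  obtain ⟨C, hC, hCb⟩ := exists_hSeq_le hρ0 hρ1
  refine ⟨1 / (2 * C), by positivity, fun k v => ?_⟩
  have e : 1 / (2 * C) * Htot ρ v = FF (fun i => 1 / (2 * C) * hSeq ρ (i + 1)) v := by
    rw [FF_smul, Htot]
  rw [e]
  refine FF_mono (fun i => ?_) v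
  have h1 := hCb (i + 1) (by omega)
  have h2 := half_log_le_aCoef (i + 1) (by omega)
  have h3 : aCoef (i + 1) ≤ cSeq k (i + 1) := by
    rw [cSeq]
    have h4 : gSeq 0 * aCoef (k + (i + 1) - 0) ≤
        ∑ j ∈ Finset.range (k + 1), gSeq j * aCoef (k + (i + 1) - j) := by
      refine Finset.single_le_sum (f := fun j => gSeq j * aCoef (k + (i + 1) - j))
        (fun j hj => ?_) (by simp)
      rw [Finset.mem_range] at hj
      exact mul_nonneg (gSeq_pos _).le (aCoef_pos _ (by omega)).le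
    rw [gSeq_zero, one_mul] at h4
    exact (aCoef_mono (by omega) (by omega)).trans h4
  rw [div_mul_eq_mul_div, one_mul, div_le_iff₀ (by positivity)]
  have h5 : Real.log (((i + 1 : ℕ) : ℝ) + 1) / 2 ≤ cSeq k (i + 1) := h2.trans h3
  nlinarith

/-- Summability of the terms of `Ssum` for totients. -/
theorem summable_Ssum (hD : Laplace.Data wtot (Htot ρ)) {k : ℕ} (hk : 1 ≤ k) (X : ℝ) {s : ℝ}
    (hs : 0 < s) :
    Summable fun v => wtot v * ((max 0 (X - s * Ttot k v)) ^ k /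
      ((k.factorial : ℝ) * ∏ i ∈ Finset.range k, gSeq (i + 1))) := by
  obtain ⟨κ, hκ, hκb⟩ := exists_Ttot_ge hρ0 hρ1
  have hg : 0 < (k.factorial : ℝ) * ∏ i ∈ Finset.range k, gSeq (i + 1) := by
    have : 0 < ∏ i ∈ Finset.range k, gSeq (i + 1) := Finset.prod_pos fun i _ => gSeq_pos _
    positivity
  set G := (k.factorial : ℝ) * ∏ i ∈ Finset.range k, gSeq (i + 1) with hG
  refine Summable.of_nonneg_of_le (fun v => mul_nonneg (wtot_nonneg v)
    (div_nonneg (pow_nonneg (le_max_left _ _) _) hg.le)) (fun v => ?_)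
    ((hD.summable 1 one_pos).mul_left (|X| ^ k / G * Real.exp (|X| / (s * κ))))
  have hT := hκb k v
  have hH := Htot_nonneg hρ0 hρ1 v
  have hTn := Ttot_nonneg hρ0 hρ1 k v
  have key : (max 0 (X - s * Ttot k v)) ^ k ≤
      |X| ^ k * Real.exp (|X| / (s * κ)) * Real.exp (-(1 * Htot ρ v)) := by
    rcases le_or_gt X (s * Ttot k v) with h1 | h1
    · rw [max_eq_left (by linarith), zero_pow (by omega)]
      positivity
    · have hX : 0 < X := lt_of_le_of_lt (by positivity) h1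
      have h2 : Htot ρ v ≤ |X| / (s * κ) := by
        rw [le_div_iff₀ (by positivity), abs_of_pos hX]
        have := mul_le_mul_of_nonneg_left hT hs.le
        nlinarith
      have h3 : (max 0 (X - s * Ttot k v)) ^ k ≤ |X| ^ k := by
        refine pow_le_pow_left₀ (le_max_left _ _) (max_le (abs_nonneg _) ?_) k
        rw [abs_of_pos hX]
        have : 0 ≤ s * Ttot k v := by positivity
        linarith
      rw [mul_assoc, ← Real.exp_add]
      refine h3.trans (le_mul_of_one_le_right (by positivity) ?_)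
      exact Real.one_le_exp (by linarith)
  calc wtot v * ((max 0 (X - s * Ttot k v)) ^ k / G)
      ≤ wtot v * ((|X| ^ k * Real.exp (|X| / (s * κ)) * Real.exp (-(1 * Htot ρ v))) / G) :=
        mul_le_mul_of_nonneg_left (div_le_div_of_nonneg_right key hg.le) (wtot_nonneg v)
    _ = |X| ^ k / G * Real.exp (|X| / (s * κ)) * (wtot v * Real.exp (-(1 * Htot ρ v))) := by ring

/-- `wsum` of the test function at level `k` is `Ssum`. -/
theorem wsum_eq_Ssum (hD : Laplace.Data wtot (Htot ρ)) {k : ℕ} (hk : 1 ≤ k) (X : ℝ) {s : ℝ}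
    (hs : 0 < s) :
    wsum (fun v => (max 0 (X - s * Ttot k v)) ^ k /
      ((k.factorial : ℝ) * ∏ i ∈ Finset.range k, gSeq (i + 1))) {v | IsTot v}
      = ENNReal.ofReal (Ssum wtot (fun v => s * Ttot k v) k X) := by
  have hg : 0 < (k.factorial : ℝ) * ∏ i ∈ Finset.range k, gSeq (i + 1) := by
    have : 0 < ∏ i ∈ Finset.range k, gSeq (i + 1) := Finset.prod_pos fun i _ => gSeq_pos _
    positivity
  rw [wsum_eq_tsum, Ssum, ENNReal.ofReal_tsum_of_nonneg
    (fun v => mul_nonneg (wtot_nonneg v)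
      (div_nonneg (pow_nonneg (le_max_left _ _) _) hg.le)) (summable_Ssum hρ0 hρ1 hD hk X hs)]

/-- **Asymptotics of the sums `S_{m-r}^±` over totients**, with a dilation factor `s > 0`
(`s = 1` for `S`, `s = 1 + δ` for `Q`). -/
theorem wsum_asymp (hρ : HasSum (fun j : ℕ => aCoef (j + 1) * ρ ^ (j + 1)) 1) (hZ : StmtZ) :
    ∃ μ : ℝ, 0 < μ ∧ ∀ (s : ℝ), 0 < s → ∀ (r : ℕ) (Δ : ℝ → ℝ) (t : ℝ),
    (∀ᶠ x in atTop, 0 ≤ Δ x) → Tendsto (fun x => Δ x / bigB x) atTop (𝓝 0) →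
    (∀ᶠ x in atTop, ((mIndex ρ x - r : ℕ) : ℝ) * Δ x / bigB x ≤ t) →
    ∀ ε : ℝ, 0 < ε → ε ≤ 1 →
    (∀ᶠ x in atTop,
      ENNReal.ofReal ((1 - ε) * Aprof ρ μ wtot (fun v => s * Htot ρ v) r (phase ρ x) * scaleG ρ x)
        ≤ wsum (fun v => (max 0 (bigB x + Δ x - s * Ttot (mIndex ρ x - r) v)) ^ (mIndex ρ x - r) /
          (((mIndex ρ x - r).factorial : ℝ) *
            ∏ i ∈ Finset.range (mIndex ρ x - r), gSeq (i + 1))) {v | IsTot v} ∧
      wsum (fun v => (max 0 (bigB x + Δ x - s * Ttot (mIndex ρ x - r) v)) ^ (mIndex ρ x - r) /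
          (((mIndex ρ x - r).factorial : ℝ) *
            ∏ i ∈ Finset.range (mIndex ρ x - r), gSeq (i + 1))) {v | IsTot v}
        ≤ ENNReal.ofReal ((1 + ε) * Real.exp t *
          Aprof ρ μ wtot (fun v => s * Htot ρ v) r (phase ρ x) * scaleG ρ x)) ∧
    (∀ᶠ x in atTop,
      ENNReal.ofReal ((1 - ε) * (1 - t) *
          Aprof ρ μ wtot (fun v => s * Htot ρ v) r (phase ρ x) * scaleG ρ x)
        ≤ wsum (fun v => (max 0 (bigB x - Δ x - s * Ttot (mIndex ρ x - r) v)) ^ (mIndex ρ x - r) /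
          (((mIndex ρ x - r).factorial : ℝ) *
            ∏ i ∈ Finset.range (mIndex ρ x - r), gSeq (i + 1))) {v | IsTot v} ∧
      wsum (fun v => (max 0 (bigB x - Δ x - s * Ttot (mIndex ρ x - r) v)) ^ (mIndex ρ x - r) /
          (((mIndex ρ x - r).factorial : ℝ) *
            ∏ i ∈ Finset.range (mIndex ρ x - r), gSeq (i + 1))) {v | IsTot v}
        ≤ ENNReal.ofReal ((1 + ε) *
          Aprof ρ μ wtot (fun v => s * Htot ρ v) r (phase ρ x) * scaleG ρ x)) := by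
  have hD := dataTot hρ0 hρ1 hρ hZ
  obtain ⟨μ, C, q, hμ, hC, hq0, hq1, hg, hc⟩ := exists_cSeq_rate hρ0 hρ1 hρ
  have hgt : Tendsto (fun n : ℕ => gSeq n * ρ ^ n) atTop (𝓝 μ) := by
    rw [tendsto_iff_norm_sub_tendsto_zero]
    have h1 : Tendsto (fun n : ℕ => C * q ^ n) atTop (𝓝 0) := by
      simpa using (tendsto_pow_atTop_nhds_zero_of_lt_one hq0.le hq1).const_mul C
    exact squeeze_zero (fun n => norm_nonneg _) (fun n => by
      rw [Real.norm_eq_abs]; exact hg n) h1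
  refine ⟨μ, hμ, fun s hs r Δ t h0 h1 h2 ε hε hε1 => ?_⟩
  have hDs : Laplace.Data wtot (fun v => s * Htot ρ v) := by
    refine ⟨hD.w_nonneg, fun v => mul_nonneg hs.le (hD.H_nonneg v), fun η hη => ?_, hD.pos⟩
    refine (hD.summable (η * s) (by positivity)).congr fun v => ?_
    rw [mul_assoc]
  have hTs : ∀ k v, |(fun k v => s * Ttot k v) k v * ρ ^ k - μ * (s * Htot ρ v)|
      ≤ C * q ^ k * (s * Htot ρ v) := by
    intro k v
    have h3 := Ttot_rate hρ0 hρ1 hc k v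
    have e : s * Ttot k v * ρ ^ k - μ * (s * Htot ρ v)
        = s * (Ttot k v * ρ ^ k - μ * Htot ρ v) := by ring
    simp only
    rw [e, abs_mul, abs_of_pos hs]
    refine (mul_le_mul_of_nonneg_left h3 hs.le).trans (le_of_eq ?_)
    ring
  obtain ⟨ha, hb⟩ := Ssum_asymp hρ0 hρ1 hDs hμ hq0 hq1 hgt hTs r h0 h1 h2 hε hε1
  have hk1 : ∀ᶠ x in atTop, 1 ≤ mIndex ρ x - r :=
    ((tendsto_sub_atTop_nat r).comp (tendsto_mIndex hρ0 hρ1)).eventually_ge_atTop 1
  constructor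
  · filter_upwards [ha, hk1] with x hx hk
    rw [wsum_eq_Ssum hρ0 hρ1 hD hk (bigB x + Δ x) hs]
    exact ⟨ENNReal.ofReal_le_ofReal hx.1, ENNReal.ofReal_le_ofReal hx.2⟩
  · filter_upwards [hb, hk1] with x hx hk
    rw [wsum_eq_Ssum hρ0 hρ1 hD hk (bigB x - Δ x) hs]
    exact ⟨ENNReal.ofReal_le_ofReal hx.1, ENNReal.ofReal_le_ofReal hx.2⟩

end

end Crest.Agent.R020
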