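import Crest.Agent.R020.Chain0
import Crest.Agent.R020.LaplaceTot

/-!
Row 20 (helper826): `StmtLim`, the limit at the fundamental range, from `StmtZ`.
-/

set_option autoImplicit false

open scoped ENNReal Topology
open Filter Crest.NumberTheoryR.TotientScale

noncomputable section

namespace Crest.Agent.R020

theorem wv_eq_wtot (v : ℕ) : wv v = wtot v := by
  rw [wv, wtot]
  by_cases hv : IsTot v
  · rw [if_pos hv, if_pos hv, one_div]
  · rw [if_neg hv, if_neg hv]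

theorem Hv_eq_Htot (ρ : ℝ) (v : ℕ) : Hv ρ v = Htot ρ v := rfl

theorem FF_cc (k v : ℕ) : FF (cc k) v = Ttot k v := rfl

theorem DH_eq (ρ η : ℝ) : DH ρ η = Laplace.D wtot (Htot ρ) η := by
  rw [DH, Laplace.D]
  exact tsum_congr fun v => by rw [wv_eq_wtot, Hv_eq_Htot]

theorem Ar_eq (ρ μ : ℝ) (r : ℕ) (θ : ℝ) : Ar ρ μ r θ = Aprof ρ μ wtot (Htot ρ) r θ := by
  rw [Ar, Aprof, DH_eq]

section

variable {ρ : ℝ} (hρ0 : 0 < ρ) (hρ1 : ρ < 1)

include hρ0 hρ1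

/-- The scale `Ysc (B x) (m - r)` is between `2/(z₁ ρ^{r-1})` and `8/(z₀ ρ^{r-1})`. -/
theorem eventually_Ysc_bounds {μ : ℝ} (hμ : 0 < μ)
    (hg : Tendsto (fun n : ℕ => gSeq n * ρ ^ n) atTop (𝓝 μ)) {r : ℕ} (hr : 1 ≤ r) :
    ∀ᶠ x in atTop, 2 / (μ / lam ρ * ρ ^ (r - 1)) ≤ Ysc (bigB x) (mIndex ρ x - r) ∧
      Ysc (bigB x) (mIndex ρ x - r) ≤ 8 / (μ * ρ / lam ρ * ρ ^ (r - 1)) := by
  have hl := lam_pos hρ0 hρ1
  have h1 := tendsto_mul_gSeq_div hρ0 hρ1 hg (r - 1)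
  set z0 : ℝ := μ * ρ / lam ρ * ρ ^ (r - 1) with hz0
  set z1 : ℝ := μ / lam ρ * ρ ^ (r - 1) with hz1
  have hz0p : 0 < z0 := by positivity
  have hz1p : 0 < z1 := by positivity
  have hz01 : z0 ≤ z1 := by
    refine mul_le_mul_of_nonneg_right ?_ (by positivity)
    exact div_le_div_of_nonneg_right (mul_le_of_le_one_right hμ.le hρ1.le) hl.le
  filter_upwards [eventually_phase_mem hρ0 hρ1, tendsto_bigB.eventually_gt_atTop 0,
    (tendsto_mIndex hρ0 hρ1).eventually_ge_atTop r,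
    (tendsto_zero_iff_norm_tendsto_zero.1 h1).eventually (gt_mem_nhds (half_pos hz0p))]
    with x hx hB hm hn
  obtain ⟨h2, h3⟩ := zPhase_bounds hρ0 hρ1 hμ hx
  have h2' : z0 ≤ zPhase ρ μ (phase ρ x) * ρ ^ (r - 1) :=
    mul_le_mul_of_nonneg_right h2 (by positivity)
  have h3' : zPhase ρ μ (phase ρ x) * ρ ^ (r - 1) ≤ z1 :=
    mul_le_mul_of_nonneg_right h3 (by positivity)
  rw [Real.norm_eq_abs, abs_lt] at hn
  have e0 : mIndex ρ x - r + 1 = mIndex ρ x - (r - 1) := by omega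
  have e1 : Ysc (bigB x) (mIndex ρ x - r) = 4 / (((mIndex ρ x - (r - 1) : ℕ) : ℝ) *
      gSeq (mIndex ρ x - (r - 1)) / bigB x) := by
    rw [Ysc, e0]
    have e2 : ((mIndex ρ x - r : ℕ) : ℝ) + 1 = ((mIndex ρ x - (r - 1) : ℕ) : ℝ) := by
      rw [← e0]; push_cast; ring
    rw [e2, div_div_eq_mul_div]
  rw [e1]
  set t : ℝ := ((mIndex ρ x - (r - 1) : ℕ) : ℝ) * gSeq (mIndex ρ x - (r - 1)) / bigB x
  have ht1 : z0 / 2 ≤ t := by linarith [hn.1]
  have ht2 : t ≤ 2 * z1 := by linarith [hn.2]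
  have ht : 0 < t := by linarith
  constructor
  · rw [div_le_div_iff₀ hz1p ht]; linarith
  · rw [div_le_div_iff₀ ht hz0p]; linarith

/-- Summability at level `k`. -/
theorem summable_pos_pow (hD : Laplace.Data wtot (Htot ρ)) {k : ℕ} (hk : 1 ≤ k) {X : ℝ}
    (hX : 0 < X) : Summable fun v => wtot v * (max 0 (1 - Ttot k v / X)) ^ k := by
  have h1 := summable_Ssum hρ0 hρ1 hD hk X one_pos
  have hg : 0 < (k.factorial : ℝ) * ∏ i ∈ Finset.range k, gSeq (i + 1) := by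
    have : 0 < ∏ i ∈ Finset.range k, gSeq (i + 1) := Finset.prod_pos fun i _ => gSeq_pos _
    positivity
  refine (h1.mul_left (((k.factorial : ℝ) * ∏ i ∈ Finset.range k, gSeq (i + 1)) / X ^ k)).congr
    fun v => ?_
  have h2 : max 0 (X - 1 * Ttot k v) = X * max 0 (1 - Ttot k v / X) := by
    rw [mul_max_of_nonneg _ _ hX.le, mul_zero, mul_sub, mul_one, one_mul,
      mul_div_cancel₀ _ hX.ne']
  rw [h2, mul_pow]
  set G : ℝ := (k.factorial : ℝ) * ∏ i ∈ Finset.range k, gSeq (i + 1) with hG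
  have hXk : X ^ k ≠ 0 := pow_ne_zero _ hX.ne'
  calc G / X ^ k * (wtot v * (X ^ k * (max 0 (1 - Ttot k v / X)) ^ k / G))
      = (G / G) * (X ^ k / X ^ k) * (wtot v * (max 0 (1 - Ttot k v / X)) ^ k) := by ring
    _ = wtot v * (max 0 (1 - Ttot k v / X)) ^ k := by
      rw [div_self hg.ne', div_self hXk, one_mul, one_mul]

end

/-- **(LIM).** -/
theorem stmtLim (hZ : StmtZ) : StmtLim := by
  intro ρ hρ0 hρ1 hρ
  have hD := dataTot hρ0 hρ1 hρ hZ
  have hl := lam_pos hρ0 hρ1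
  obtain ⟨μ, C, q, hμ, hC, hq0, hq1, hg, hc⟩ := exists_cSeq_rate hρ0 hρ1 hρ
  have hgt : Tendsto (fun n : ℕ => gSeq n * ρ ^ n) atTop (𝓝 μ) := by
    rw [tendsto_iff_norm_sub_tendsto_zero]
    have h1 : Tendsto (fun n : ℕ => C * q ^ n) atTop (𝓝 0) := by
      simpa using (tendsto_pow_atTop_nhds_zero_of_lt_one hq0.le hq1).const_mul C
    exact squeeze_zero (fun n => norm_nonneg _) (fun n => by
      rw [Real.norm_eq_abs]; exact hg n) h1
  refine ⟨μ, hμ, fun r => ?_, fun r R hR => ⟨?_, ?_⟩, fun r hr => ?_, fun Λ => ?_⟩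
  · obtain ⟨c₁, c₂, h1, h2⟩ := Aprof_bounds hρ0 hρ1 hD hμ r
    exact ⟨c₁, c₂, h1, fun θ hθ => by rw [Ar_eq]; exact h2 θ hθ⟩
  · have hk : ∀ᶠ x in atTop, 1 ≤ mIndex ρ x - r :=
      ((tendsto_sub_atTop_nat r).comp (tendsto_mIndex hρ0 hρ1)).eventually_ge_atTop 1
    filter_upwards [hR.eventually (lt_mem_nhds (show (0 : ℝ) < 1 by norm_num)),
      tendsto_bigB.eventually_gt_atTop 0, hk] with x h1 h2 h3
    have hRx : 0 < R x := (div_pos_iff_of_pos_right h2).1 h1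
    refine (summable_pos_pow hρ0 hρ1 hD h3 hRx).congr fun v => ?_
    rw [wv_eq_wtot, FF_cc]
  · refine (tendsto_scale_mul hρ0 hρ1 hD hμ hq0 hq1 hgt
      (fun k v => Ttot_rate hρ0 hρ1 hc k v) r hR).congr fun x => ?_
    rw [Ar_eq]
    simp only [wv_eq_wtot, FF_cc]
  · exact ⟨_, _, by positivity, eventually_Ysc_bounds hρ0 hρ1 hμ hgt hr⟩
  · have h1 : Tendsto (fun r : ℕ => Λ * (μ / lam ρ * ρ ^ r)) atTop (𝓝 0) := by
      have := (tendsto_pow_atTop_nhds_zero_of_lt_one hρ0.le hρ1).const_mul (Λ * (μ / lam ρ))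
      rw [mul_zero] at this
      exact this.congr fun r => by ring
    obtain ⟨r₀, hr₀⟩ := eventually_atTop.1 (h1.eventually (gt_mem_nhds (show (0 : ℝ) < 2 by norm_num)))
    refine ⟨r₀ + 1, fun r hr => ?_⟩
    filter_upwards [eventually_Ysc_bounds hρ0 hρ1 hμ hgt (show 1 ≤ r by omega)] with x hx
    refine le_trans ?_ hx.1
    rw [le_div_iff₀ (by positivity)]
    exact (hr₀ (r - 1) (by omega)).le

end Crest.Agent.R020
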