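import Crest.Agent.R020.ChainS
import Crest.Agent.R020.ChainLim

/-!
Row 20 (helper826): `StmtAsy`, the asymptotics at the fundamental range.
-/

set_option autoImplicit false

open scoped ENNReal Topology
open Filter Crest.NumberTheoryR.TotientScale

noncomputable section

namespace Crest.Agent.R020

namespace Asy

theorem psi_eq_max (R : ℝ) {k : ℕ} (hk : 1 ≤ k) (t : ℝ) :
    psi R k t = (max 0 (R - 1 * t)) ^ k /
      ((k.factorial : ℝ) * ∏ i ∈ Finset.range k, gSeq (i + 1)) := by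
  rw [psi, one_mul]
  by_cases h : t ≤ R
  · rw [if_pos h, scaleAt, max_eq_right (by linarith)]
  · rw [if_neg h, max_eq_left (by linarith), zero_pow (by omega), zero_div]

section

variable {ρ : ℝ} (hρ0 : 0 < ρ) (hρ1 : ρ < 1)

include hρ0 hρ1

theorem SP_eq (hD : Laplace.Data wtot (Htot ρ)) (B Δ : ℝ) {k : ℕ} (hk : 1 ≤ k) :
    SP B Δ k Tot = ENNReal.ofReal (Ssum wtot (Ttot k) k (B + Del B Δ k)) := by
  have h := wsum_eq_Ssum hρ0 hρ1 hD hk (B + Del B Δ k) one_pos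
  have e : (fun v => (1 : ℝ) * Ttot k v) = Ttot k := by funext v; rw [one_mul]
  rw [e] at h
  rw [← h, SP]
  congr 1
  funext v
  rw [psiP, psi_eq_max _ hk, FF_cc]

theorem SM_eq (hD : Laplace.Data wtot (Htot ρ)) (B Δ : ℝ) {k : ℕ} (hk : 1 ≤ k) :
    SM B Δ k Tot = ENNReal.ofReal (Ssum wtot (Ttot k) k (B - Del B Δ k)) := by
  have h := wsum_eq_Ssum hρ0 hρ1 hD hk (B - Del B Δ k) one_pos
  have e : (fun v => (1 : ℝ) * Ttot k v) = Ttot k := by funext v; rw [one_mul]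
  rw [e] at h
  rw [← h, SM]
  congr 1
  funext v
  rw [psiM, psi_eq_max _ hk, FF_cc]

/-- `(m - r + 1) B^{0.97} / B → 0`. -/
theorem tendsto_mul_Sh_div (r : ℕ) :
    Tendsto (fun x => (((mIndex ρ x - r : ℕ) : ℝ) + 1) * Sh x / bigB x) atTop (𝓝 0) := by
  have h1 := tendsto_mIndex_sub_div hρ0 hρ1 r
  have h2 : Tendsto (fun x => Real.log (bigB x) / bigB x ^ (3 / 100 : ℝ)) atTop (𝓝 0) :=
    ((isLittleO_log_rpow_atTop (show (0 : ℝ) < 3 / 100 by norm_num)).tendsto_div_nhds_zero).comp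
      tendsto_bigB
  have h3 : Tendsto (fun x => (bigB x ^ (3 / 100 : ℝ))⁻¹) atTop (𝓝 0) :=
    ((tendsto_rpow_atTop (show (0 : ℝ) < 3 / 100 by norm_num)).comp tendsto_bigB).inv_tendsto_atTop
  have h4 := (h1.mul h2).add h3
  rw [mul_zero, add_zero] at h4
  refine h4.congr' ?_
  filter_upwards [tendsto_bigB.eventually_gt_atTop 0,
    (Real.tendsto_log_atTop.comp tendsto_bigB).eventually_gt_atTop 0] with x hx hl
  have hl' : Real.log (bigB x) ≠ 0 := ne_of_gt hl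
  have e1 : Sh x / bigB x = (bigB x ^ (3 / 100 : ℝ))⁻¹ := by
    rw [Sh, ← Real.rpow_neg hx.le]
    nth_rw 2 [← Real.rpow_one (bigB x)]
    rw [← Real.rpow_sub hx]
    norm_num
  rw [mul_div_assoc, e1]
  field_simp

/-- The total slack is small at the fundamental range. -/
theorem eventually_Del_le (hρ : HasSum (fun j : ℕ => aCoef (j + 1) * ρ ^ (j + 1)) 1)
    (hZ : StmtZ) (hR3 : StmtR3) {t : ℝ} (ht : 0 < t) :
    ∀ᶠ r : ℕ in atTop, ∀ᶠ x in atTop,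
      (((mIndex ρ x - r : ℕ) : ℝ) + 1) * Del (bigB x) (Sh x) (mIndex ρ x - r) / bigB x ≤ t := by
  obtain ⟨C, hC, hR⟩ := hR3
  obtain ⟨_, _, _, _, _, h4⟩ := stmtLim hZ ρ hρ0 hρ1 hρ
  obtain ⟨r₀, hr₀⟩ := h4 ((2 * C / t) ^ (25 : ℕ))
  refine eventually_atTop.2 ⟨r₀, fun r hr => ?_⟩
  filter_upwards [hr₀ r hr, tendsto_bigB.eventually_gt_atTop 0,
    (tendsto_mul_Sh_div hρ0 hρ1 r).eventually (gt_mem_nhds (half_pos ht))] with x h1 h2 h3
  have hq : 0 < 2 * C / t := by positivity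
  have h5 := hR (bigB x) (Sh x) h2 (Real.rpow_nonneg h2.le _) (mIndex ρ x - r)
  have h6 : Ysc (bigB x) (mIndex ρ x - r) ^ (-(1 / 25) : ℝ) ≤ t / (2 * C) := by
    have h7 : Ysc (bigB x) (mIndex ρ x - r) ^ (-(1 / 25) : ℝ) ≤
        ((2 * C / t) ^ (25 : ℕ)) ^ (-(1 / 25) : ℝ) :=
      Real.rpow_le_rpow_of_nonpos (by positivity) h1 (by norm_num)
    refine h7.trans (le_of_eq ?_)
    rw [← Real.rpow_natCast, ← Real.rpow_mul hq.le]
    have e : ((25 : ℕ) : ℝ) * (-(1 / 25)) = -1 := by norm_num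
    rw [e, Real.rpow_neg_one, inv_div]
  have h8 : C * bigB x * Ysc (bigB x) (mIndex ρ x - r) ^ (-(1 / 25) : ℝ) ≤ bigB x * (t / 2) := by
    calc C * bigB x * Ysc (bigB x) (mIndex ρ x - r) ^ (-(1 / 25) : ℝ)
        ≤ C * bigB x * (t / (2 * C)) := mul_le_mul_of_nonneg_left h6 (by positivity)
      _ = bigB x * (t / 2) := by field_simp
  rw [div_lt_iff₀ h2] at h3
  rw [div_le_iff₀ h2]
  linarith

end

end Asy

open Asy

/-- **(ASY).** -/
theorem exists_asy (hZ : StmtZ) (hR3 : StmtR3) {ρ : ℝ} (hρ0 : 0 < ρ) (hρ1 : ρ < 1)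
    (hρ : HasSum (fun j : ℕ => aCoef (j + 1) * ρ ^ (j + 1)) 1) :
    ∃ μ : ℝ, 0 < μ ∧
      (∀ r : ℕ, ∃ c₁ c₂ : ℝ, 0 < c₁ ∧
        ∀ θ ∈ Set.Ico (0 : ℝ) 1, c₁ ≤ Ar ρ μ r θ ∧ Ar ρ μ r θ ≤ c₂) ∧
      StmtAsy ρ μ := by
  have hD := dataTot hρ0 hρ1 hρ hZ
  obtain ⟨μ, C, q, hμ, hC, hq0, hq1, hg, hc⟩ := exists_cSeq_rate hρ0 hρ1 hρ
  have hgt : Tendsto (fun n : ℕ => gSeq n * ρ ^ n) atTop (𝓝 μ) := by
    rw [tendsto_iff_norm_sub_tendsto_zero]
    have h1 : Tendsto (fun n : ℕ => C * q ^ n) atTop (𝓝 0) := by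
      simpa using (tendsto_pow_atTop_nhds_zero_of_lt_one hq0.le hq1).const_mul C
    exact squeeze_zero (fun n => norm_nonneg _) (fun n => by
      rw [Real.norm_eq_abs]; exact hg n) h1
  have hbd : ∀ r : ℕ, ∃ c₁ c₂ : ℝ, 0 < c₁ ∧
      ∀ θ ∈ Set.Ico (0 : ℝ) 1, c₁ ≤ Ar ρ μ r θ ∧ Ar ρ μ r θ ≤ c₂ := fun r => by
    obtain ⟨c₁, c₂, h1, h2⟩ := Aprof_bounds hρ0 hρ1 hD hμ r
    exact ⟨c₁, c₂, h1, fun θ hθ => by rw [Ar_eq]; exact h2 θ hθ⟩
  refine ⟨μ, hμ, hbd, fun ε hε => ?_⟩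
  set t : ℝ := min ε 1 / 5 with htdef
  have hm0 : 0 < min ε 1 := lt_min hε one_pos
  have ht : 0 < t := by positivity
  have ht1 : t ≤ 1 / 5 := by
    have := min_le_right ε 1
    rw [htdef]; linarith
  have htε : 5 * t ≤ ε := by
    have := min_le_left ε 1
    rw [htdef]; linarith
  filter_upwards [eventually_Del_le hρ0 hρ1 hρ hZ hR3 ht] with r hr
  -- the slack function
  have hΔ0 : ∀ᶠ x in atTop, 0 ≤ Del (bigB x) (Sh x) (mIndex ρ x - r) := by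
    filter_upwards [tendsto_bigB.eventually_gt_atTop 0] with x hx
    refine add_nonneg (Real.rpow_nonneg hx.le _) (Finset.sum_nonneg fun i _ => ?_)
    have h1 := gSeq_pos (i + 1)
    have h2 : 0 ≤ Ysc (bigB x) i := by rw [Ysc]; positivity
    positivity
  have hk : Tendsto (fun x => ((mIndex ρ x - r : ℕ) : ℝ) + 1) atTop atTop :=
    tendsto_atTop_add_const_right _ _ (tendsto_natCast_atTop_atTop.comp
      ((tendsto_sub_atTop_nat r).comp (tendsto_mIndex hρ0 hρ1)))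
  have hΔB : Tendsto (fun x => Del (bigB x) (Sh x) (mIndex ρ x - r) / bigB x) atTop (𝓝 0) := by
    have h1 : Tendsto (fun x => t / (((mIndex ρ x - r : ℕ) : ℝ) + 1)) atTop (𝓝 0) :=
      tendsto_const_nhds.div_atTop hk
    refine squeeze_zero' ?_ ?_ h1
    · filter_upwards [hΔ0, tendsto_bigB.eventually_gt_atTop 0] with x h2 h3
      exact div_nonneg h2 h3.le
    · filter_upwards [hr, tendsto_bigB.eventually_gt_atTop 0] with x h2 h3
      have h4 : (0 : ℝ) < ((mIndex ρ x - r : ℕ) : ℝ) + 1 := by positivity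
      rw [le_div_iff₀ h4]
      refine le_trans (le_of_eq ?_) h2
      ring
  have hΔt : ∀ᶠ x in atTop, ((mIndex ρ x - r : ℕ) : ℝ) *
      Del (bigB x) (Sh x) (mIndex ρ x - r) / bigB x ≤ t := by
    filter_upwards [hr, hΔ0, tendsto_bigB.eventually_gt_atTop 0] with x h1 h2 h3
    refine le_trans (div_le_div_of_nonneg_right ?_ h3.le) h1
    exact mul_le_mul_of_nonneg_right (by linarith) h2
  obtain ⟨ha, hb⟩ := Ssum_asymp hρ0 hρ1 hD hμ hq0 hq1 hgt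
    (fun k v => Ttot_rate hρ0 hρ1 hc k v) r hΔ0 hΔB hΔt ht (by linarith)
  have hk1 : ∀ᶠ x in atTop, 1 ≤ mIndex ρ x - r :=
    ((tendsto_sub_atTop_nat r).comp (tendsto_mIndex hρ0 hρ1)).eventually_ge_atTop 1
  obtain ⟨c₁, c₂, hc₁, hAr⟩ := hbd r
  filter_upwards [ha, hb, hk1, eventually_phase_mem hρ0 hρ1,
    tendsto_bigB.eventually_gt_atTop 0] with x h1 h2 h3 h4 h5
  have hA : 0 < Ar ρ μ r (phase ρ x) := hc₁.trans_le (hAr _ h4).1
  have hG : 0 < scaleG ρ x := by rw [scaleG_eq]; exact scaleAt_pos h5 _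
  have hAG : 0 < Ar ρ μ r (phase ρ x) * scaleG ρ x := mul_pos hA hG
  rw [← Ar_eq] at h1 h2
  constructor
  · rw [SP_eq hρ0 hρ1 hD _ _ h3]
    refine ENNReal.ofReal_le_ofReal (h1.2.trans ?_)
    have hexp : Real.exp t ≤ 1 + 2 * t := by
      have h6 := Real.exp_bound_div_one_sub_of_interval ht.le (by linarith : t < 1)
      refine h6.trans ?_
      rw [div_le_iff₀ (by linarith)]
      nlinarith
    have h7 : (1 + t) * Real.exp t ≤ 1 + ε := by
      have : (1 + t) * Real.exp t ≤ (1 + t) * (1 + 2 * t) :=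
        mul_le_mul_of_nonneg_left hexp (by linarith)
      nlinarith
    calc (1 + t) * Real.exp t * Ar ρ μ r (phase ρ x) * scaleG ρ x
        = ((1 + t) * Real.exp t) * (Ar ρ μ r (phase ρ x) * scaleG ρ x) := by ring
      _ ≤ (1 + ε) * (Ar ρ μ r (phase ρ x) * scaleG ρ x) :=
        mul_le_mul_of_nonneg_right h7 hAG.le
  · rw [SM_eq hρ0 hρ1 hD _ _ h3]
    refine ENNReal.ofReal_le_ofReal (le_trans ?_ h2.1)
    have h7 : 1 - ε ≤ (1 - t) * (1 - t) := by nlinarith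
    calc (1 - ε) * (Ar ρ μ r (phase ρ x) * scaleG ρ x)
        ≤ ((1 - t) * (1 - t)) * (Ar ρ μ r (phase ρ x) * scaleG ρ x) :=
          mul_le_mul_of_nonneg_right h7 hAG.le
      _ = (1 - t) * (1 - t) * Ar ρ μ r (phase ρ x) * scaleG ρ x := by ring

end Crest.Agent.R020
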