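import Crest.Agent.R020.ChainS

/-!
Row 20: assembly of `StmtChain`.
-/

set_option autoImplicit false

open scoped ENNReal Topology
open MeasureTheory Filter Crest.NumberTheoryR.TotientScale

noncomputable section

namespace Crest.Agent.R020

theorem scaleAt_zero (B : ℝ) : scaleAt B 0 = 1 := by
  simp [scaleAt]

theorem psi_zero_of_le {R t : ℝ} (h : t ≤ R) : psi R 0 t = 1 := by
  rw [psi, if_pos h, scaleAt_zero]

theorem psi_zero_of_lt {R t : ℝ} (h : R < t) : psi R 0 t = 0 := by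
  rw [psi, if_neg (not_le.2 h)]

theorem wsum_psi_zero (R : ℝ) : wsum (fun v => psi R 0 (FF aa v)) Tot = SB R := by
  rw [wsum, SB, wt, ws, ws]
  apply tsum_congr
  intro v
  by_cases hv : IsTot v
  · by_cases h : FF aa v ≤ R
    · rw [Set.indicator_of_mem (show v ∈ Tot from hv),
        Set.indicator_of_mem (show v ∈ {d | IsTot d ∧ FF aa d ≤ R} from ⟨hv, h⟩),
        psi_zero_of_le h, ENNReal.ofReal_one, one_mul]
    · rw [Set.indicator_of_mem (show v ∈ Tot from hv),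
        Set.indicator_of_notMem (show v ∉ {d | IsTot d ∧ FF aa d ≤ R} from fun h' => h h'.2),
        psi_zero_of_lt (not_le.1 h), ENNReal.ofReal_zero, zero_mul]
  · rw [Set.indicator_of_notMem (show v ∉ Tot from hv),
      Set.indicator_of_notMem (show v ∉ {d | IsTot d ∧ FF aa d ≤ R} from fun h' => hv h'.1)]

theorem SP_zero (B Δ : ℝ) : SP B Δ 0 Tot = SB (B + Δ) := by
  rw [SP, psiP, Del_zero, cc_zero]
  exact wsum_psi_zero _

theorem SM_zero (B Δ : ℝ) : SM B Δ 0 Tot = SB (B - Δ) := by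
  rw [SM, psiM, Del_zero, cc_zero]
  exact wsum_psi_zero _

theorem SB_mono {B B' : ℝ} (h : B ≤ B') : SB B ≤ SB B' :=
  wt_mono fun _ hv => ⟨hv.1, hv.2.trans h⟩

/-- A diagonal argument. -/
theorem exists_diag {P : ℝ → ℕ → Prop} (hmono : ∀ r a b, a ≤ b → P a r → P b r)
    (h : ∀ ε > 0, ∀ᶠ r in atTop, P ε r) :
    ∃ ε : ℕ → ℝ, Tendsto ε atTop (𝓝 0) ∧ ∀ᶠ r in atTop, P (ε r) r := by
  refine ⟨fun r => sInf {e : ℝ | 0 ≤ e ∧ P e r} + 1 / ((r : ℝ) + 1), ?_, ?_⟩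
  · have h1 : Tendsto (fun r : ℕ => 1 / ((r : ℝ) + 1)) atTop (𝓝 0) :=
      tendsto_one_div_add_atTop_nhds_zero_nat
    have h2 : Tendsto (fun r : ℕ => sInf {e : ℝ | 0 ≤ e ∧ P e r}) atTop (𝓝 0) := by
      rw [Metric.tendsto_atTop]
      intro δ hδ
      obtain ⟨N, hN⟩ := eventually_atTop.1 (h (δ / 2) (by positivity))
      refine ⟨N, fun n hn => ?_⟩
      have h3 : sInf {e : ℝ | 0 ≤ e ∧ P e n} ≤ δ / 2 :=
        csInf_le ⟨0, fun e he => he.1⟩ ⟨by positivity, hN n hn⟩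
      have h4 : 0 ≤ sInf {e : ℝ | 0 ≤ e ∧ P e n} := Real.sInf_nonneg fun e he => he.1
      rw [Real.dist_eq, sub_zero, abs_of_nonneg h4]
      linarith
    simpa using h2.add h1
  · filter_upwards [h 1 one_pos] with r hr
    have h3 : {e : ℝ | 0 ≤ e ∧ P e r}.Nonempty := ⟨1, zero_le_one, hr⟩
    obtain ⟨e, he, hlt⟩ := exists_lt_of_csInf_lt h3
      (show sInf {e : ℝ | 0 ≤ e ∧ P e r} < sInf {e : ℝ | 0 ≤ e ∧ P e r} + 1 / ((r : ℝ) + 1) by
        have : (0 : ℝ) < 1 / ((r : ℝ) + 1) := by positivity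
        linarith)
    exact hmono r e _ hlt.le he.2

theorem scaleG_pos_eventually (ρ : ℝ) : ∀ᶠ x in atTop, 0 < scaleG ρ x := by
  filter_upwards [tendsto_bigB.eventually_gt_atTop 0] with x hx
  rw [scaleG_eq]
  exact scaleAt_pos hx _

/-- Elementary: from two-sided bounds to the relative error. -/
theorem rel_err {s S A G ε : ℝ} (hA : 0 < A) (hG : 0 < G) (hε : 0 < ε) (hε1 : ε ≤ 1)
    (hlow : (1 - ε) * (A * G) ≤ (1 + ε) * s) (hsS : s ≤ S)
    (hup : S ≤ (1 + ε) * ((1 + ε) * (A * G))) :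
    |s / G - A| ≤ 3 * ε * A ∧ |S / G - A| ≤ 3 * ε * A := by
  have hAG : 0 < A * G := mul_pos hA hG
  have hup' : S ≤ (1 + 3 * ε) * A * G := by
    have h0 : 0 ≤ ε * (1 - ε) * (A * G) := by
      have : 0 ≤ 1 - ε := by linarith
      positivity
    linarith [h0, hup]
  have hs0 : (1 - 3 * ε) * A * G ≤ s := by
    have h1 : (1 + ε) * ((1 - 3 * ε) * (A * G)) ≤ (1 + ε) * s := by
      have h0 : 0 ≤ ε * (1 + 3 * ε) * (A * G) := by positivity
      linarith [h0, hlow]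
    have := le_of_mul_le_mul_left h1 (by linarith)
    linarith
  have h1 : s / G ≤ (1 + 3 * ε) * A := by
    rw [div_le_iff₀ hG]; linarith
  have h2 : S / G ≤ (1 + 3 * ε) * A := by
    rw [div_le_iff₀ hG]; linarith
  have h3 : (1 - 3 * ε) * A ≤ s / G := by
    rw [le_div_iff₀ hG]; linarith
  have h4 : (1 - 3 * ε) * A ≤ S / G := by
    rw [le_div_iff₀ hG]; linarith
  constructor <;> rw [abs_le] <;> constructor <;> linarith

/-- The conclusion of the asymptotic analysis at the fundamental range. -/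
def ExistsAsy (ρ : ℝ) : Prop := ∃ μ : ℝ, 0 < μ ∧
  (∀ r : ℕ, ∃ c₁ c₂ : ℝ, 0 < c₁ ∧ ∀ θ ∈ Set.Ico (0 : ℝ) 1,
    c₁ ≤ Ar ρ μ r θ ∧ Ar ρ μ r θ ≤ c₂) ∧ StmtAsy ρ μ

/-- (ASSEMBLY) `StmtChain` from the lower chain, the upper chain and the asymptotics. -/
theorem stmtChain_of
    (hlow : ∀ ρ : ℝ, 0 < ρ → ρ < 1 →
      HasSum (fun j : ℕ => aCoef (j + 1) * ρ ^ (j + 1)) 1 → StmtLowChain ρ)
    (hup : ∀ ρ : ℝ, 0 < ρ → ρ < 1 →
      HasSum (fun j : ℕ => aCoef (j + 1) * ρ ^ (j + 1)) 1 → StmtUpChain ρ)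
    (hasy : ∀ ρ : ℝ, 0 < ρ → ρ < 1 →
      HasSum (fun j : ℕ => aCoef (j + 1) * ρ ^ (j + 1)) 1 → ExistsAsy ρ) :
    StmtChain := by
  intro ρ hρ0 hρ1 hρ
  obtain ⟨μ, hμ, hAr, hA⟩ := hasy ρ hρ0 hρ1 hρ
  have hL := hlow ρ hρ0 hρ1 hρ
  have hU := hup ρ hρ0 hρ1 hρ
  let P : ℝ → ℕ → Prop := fun e r => ∀ᶠ x in atTop,
    0 < Ar ρ μ r (phase ρ x) ∧ SB (bigB x + bigB x ^ (97 / 100 : ℝ)) ≠ ⊤ ∧
      |(SB (bigB x + bigB x ^ (97 / 100 : ℝ))).toReal / scaleG ρ x - Ar ρ μ r (phase ρ x)| ≤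
        e * Ar ρ μ r (phase ρ x) ∧
      |(SB (bigB x - bigB x ^ (97 / 100 : ℝ))).toReal / scaleG ρ x - Ar ρ μ r (phase ρ x)| ≤
        e * Ar ρ μ r (phase ρ x)
  have hmono : ∀ r a b, a ≤ b → P a r → P b r := by
    intro r a b hab h
    filter_upwards [h] with x hx
    exact ⟨hx.1, hx.2.1, hx.2.2.1.trans (mul_le_mul_of_nonneg_right hab hx.1.le),
      hx.2.2.2.trans (mul_le_mul_of_nonneg_right hab hx.1.le)⟩
  have hP : ∀ ε > 0, ∀ᶠ r in atTop, P ε r := by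
    intro ε hε
    set η : ℝ := min (ε / 3) 1 with hη
    have hη0 : 0 < η := lt_min (by positivity) one_pos
    have hη1 : η ≤ 1 := min_le_right _ _
    have hηε : 3 * η ≤ ε := by
      have := min_le_left (ε / 3) (1 : ℝ)
      linarith
    filter_upwards [hL η hη0, hU η hη0, hA η hη0] with r hLr hUr hAr'
    obtain ⟨c₁, c₂, hc₁, hc⟩ := hAr r
    filter_upwards [hLr, hUr, hAr', scaleG_pos_eventually ρ, eventually_phase_mem hρ0 hρ1,
      tendsto_bigB.eventually_gt_atTop 0] with x hLx hUx hAx hG hph hB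
    have hA0 : 0 < Ar ρ μ r (phase ρ x) := hc₁.trans_le (hc _ hph).1
    set A := Ar ρ μ r (phase ρ x)
    set G := scaleG ρ x
    have hAG : 0 < A * G := mul_pos hA0 hG
    rw [SM_zero] at hLx
    rw [SP_zero] at hUx
    have hSh : Sh x = bigB x ^ (97 / 100 : ℝ) := rfl
    rw [hSh] at hLx hUx hAx
    set Δ := bigB x ^ (97 / 100 : ℝ) with hΔ
    have hΔ0 : 0 ≤ Δ := Real.rpow_nonneg hB.le _
    -- upper bound
    have h1 : SB (bigB x + Δ) ≤ ENNReal.ofReal ((1 + η) * ((1 + η) * (A * G))) := by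
      refine hUx.1.trans ?_
      rw [ENNReal.ofReal_mul (by linarith)]
      gcongr
      exact hAx.1
    have h2 : SB (bigB x + Δ) ≠ ⊤ := ne_top_of_le_ne_top ENNReal.ofReal_ne_top h1
    have h3 : SB (bigB x - Δ) ≤ SB (bigB x + Δ) := SB_mono (by linarith)
    have h4 : SB (bigB x - Δ) ≠ ⊤ := ne_top_of_le_ne_top h2 h3
    have h5 : (SB (bigB x - Δ)).toReal ≤ (SB (bigB x + Δ)).toReal :=
      ENNReal.toReal_mono h2 h3
    have h6 : (SB (bigB x + Δ)).toReal ≤ (1 + η) * ((1 + η) * (A * G)) :=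
      ENNReal.toReal_le_of_le_ofReal (by positivity) h1
    -- lower bound
    have h7 : ENNReal.ofReal ((1 - η) * (A * G)) ≤
        ENNReal.ofReal ((1 + η) * (SB (bigB x - Δ)).toReal) := by
      refine (hAx.2.trans hLx).trans ?_
      rw [ENNReal.ofReal_mul (by linarith), ENNReal.ofReal_toReal h4]
    have h8 : (1 - η) * (A * G) ≤ (1 + η) * (SB (bigB x - Δ)).toReal := by
      rwa [ENNReal.ofReal_le_ofReal_iff (by positivity)] at h7
    obtain ⟨h9, h10⟩ := rel_err hA0 hG hη0 hη1 h8 h5 h6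
    have h11 : 3 * η * A ≤ ε * A := mul_le_mul_of_nonneg_right hηε hA0.le
    exact ⟨hA0, h2, h10.trans h11, h9.trans h11⟩
  obtain ⟨ε, hε, hεP⟩ := exists_diag hmono hP
  refine ⟨Ar ρ μ, ε, hε, Eventually.of_forall hAr, ?_⟩
  filter_upwards [hεP] with r hr
  filter_upwards [hr] with x hx
  exact hx.2

end Crest.Agent.R020
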