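import Crest.Agent.R020.Chain1

/-!
Row 20: the one-step lemma specialised to `ψ_k^±`.
-/

set_option autoImplicit false

open scoped ENNReal Topology
open MeasureTheory Filter Crest.NumberTheoryR.TotientScale

noncomputable section

namespace Crest.Agent.R020

/-! ### `wsum` -/

theorem wsum_mono_set (φ : ℕ → ℝ) {A B : Set ℕ} (h : A ⊆ B) : wsum φ A ≤ wsum φ B :=
  ws_mono_set _ h

theorem wsum_mono_fun {φ χ : ℕ → ℝ} {A : Set ℕ} (h : ∀ v ∈ A, φ v ≤ χ v) :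
    wsum φ A ≤ wsum χ A := by
  apply ws_mono_fun
  intro v hv
  exact mul_le_mul_left (ENNReal.ofReal_le_ofReal (h v hv)) _

theorem wsum_congr {φ χ : ℕ → ℝ} {A : Set ℕ} (h : ∀ v ∈ A, φ v = χ v) :
    wsum φ A = wsum χ A :=
  le_antisymm (wsum_mono_fun fun v hv => (h v hv).le) (wsum_mono_fun fun v hv => (h v hv).ge)

theorem ws_const_mul (a : ℝ≥0∞) (g : ℕ → ℝ≥0∞) (A : Set ℕ) :
    ws (fun v => a * g v) A = a * ws g A := by
  unfold ws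
  rw [← ENNReal.tsum_mul_left]
  apply tsum_congr
  intro v
  by_cases hv : v ∈ A
  · rw [Set.indicator_of_mem hv, Set.indicator_of_mem hv]
  · rw [Set.indicator_of_notMem hv, Set.indicator_of_notMem hv, mul_zero]

theorem wsum_const_mul {a : ℝ} (ha : 0 ≤ a) (φ : ℕ → ℝ) (A : Set ℕ) :
    wsum (fun v => a * φ v) A = ENNReal.ofReal a * wsum φ A := by
  unfold wsum
  rw [← ws_const_mul]
  congr 1
  funext v
  rw [ENNReal.ofReal_mul ha, mul_assoc]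

theorem wsum_const {a : ℝ} (A : Set ℕ) :
    wsum (fun _ => a) A = ENNReal.ofReal a * wt A := by
  unfold wsum wt
  rw [← ws_const_mul]

theorem ofReal_inv_mul_wsum {g : ℝ} (hg : 0 < g) (φ : ℕ → ℝ) (A : Set ℕ) :
    ENNReal.ofReal (1 / g) * wsum (fun v => g * φ v) A = wsum φ A := by
  rw [wsum_const_mul hg.le, ← mul_assoc, ← ENNReal.ofReal_mul (by positivity)]
  rw [one_div, inv_mul_cancel₀ hg.ne']
  simp

/-- The constants and conclusions of the one-step lemma. -/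
structure OneStep (C1 Ys0 : ℝ) : Prop where
  C1_pos : 0 < C1
  up : ∀ Ys : ℝ, Ys0 ≤ Ys →
    ∀ (c : ℕ → ℝ) (ψ : ℝ → ℝ) (D A : Set ℕ), Adm Ys c ψ →
      (∀ v ∈ A, IsTot v ∧ (v ≠ 1 → ¬ Sq v → tl v ∈ D)) →
      wsum (fun v => ψ (FF c v)) A ≤
        ENNReal.ofReal (1 / c 0) *
          wsum (fun d => TI ψ (FF (Tc c) d - 2 * c 0 * Ys ^ (24 / 25 : ℝ))) {d | IsTot d ∧ d ∈ D}
        + ENNReal.ofReal (C1 * ψ 0)
  upV : ∀ Ys : ℝ, Ys0 ≤ Ys →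
    ∀ (c e : ℕ → ℝ) (ψ : ℝ → ℝ) (D A : Set ℕ), Adm Ys c ψ → (∀ i, 0 ≤ e i) → 1 / 3 ≤ e 0 →
      (∀ v ∈ A, IsTot v ∧ (v ≠ 1 → ¬ Sq v → tl v ∈ D ∧ FF e (tl v) ≤ y1 v)) →
      wsum (fun v => ψ (FF c v)) A ≤
        ENNReal.ofReal (1 / c 0) *
          wsum (fun d => TI ψ (FF (fun i => c 0 * e i + c (i + 1)) d -
            2 * c 0 * Ys ^ (24 / 25 : ℝ))) {d | IsTot d ∧ d ∈ D}
        + ENNReal.ofReal (C1 * ψ 0)
  low : ∀ Ys : ℝ, Ys0 ≤ Ys →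
    ∀ (c : ℕ → ℝ) (ψ : ℝ → ℝ) (D : Set ℕ), Adm Ys c ψ →
      ENNReal.ofReal (1 / c 0) *
          wsum (fun d => TI ψ (FF (Tc c) d + 2 * c 0 * Ys ^ (24 / 25 : ℝ))) {d | IsTot d ∧ d ∈ D} ≤
        wsum (fun v => ψ (FF c v)) {v | IsTot v ∧ v ≠ 1 ∧ ¬ Sq v ∧ tl v ∈ D}
        + ENNReal.ofReal (1 / c 0) *
          wsum (fun d => TI ψ (FF (Tc c) d)) {d | IsTot d ∧ d ∈ D ∧ FF aa d < y1 d}
        + ENNReal.ofReal (C1 * ψ 0)

theorem exists_oneStep (h1 : StmtFup) (h2 : StmtFupV) (h3 : StmtFlow) :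
    ∃ C1 Ys0 : ℝ, 1 ≤ Ys0 ∧ OneStep C1 Ys0 := by
  obtain ⟨Ca, Ya, hCa, ha⟩ := h1
  obtain ⟨Cb, Yb, hCb, hb⟩ := h2
  obtain ⟨Cc, Yc, hCc, hc⟩ := h3
  have hup : ∀ {C ψ0 : ℝ}, C ≤ Ca + Cb + Cc → 0 ≤ ψ0 →
      ENNReal.ofReal (C * ψ0) ≤ ENNReal.ofReal ((Ca + Cb + Cc) * ψ0) := by
    intro C ψ0 hC hψ
    exact ENNReal.ofReal_le_ofReal (mul_le_mul_of_nonneg_right hC hψ)
  refine ⟨Ca + Cb + Cc, max 1 (max Ya (max Yb Yc)), le_max_left _ _, ?_, ?_, ?_, ?_⟩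
  · positivity
  · intro Ys hYs c ψ D A hadm hA
    refine (ha Ys ?_ c ψ D A hadm hA).trans (add_le_add_right (hup (by linarith) (hadm.nonneg 0)) _)
    exact le_trans (le_trans (le_max_left _ _) (le_max_right _ _)) hYs
  · intro Ys hYs c e ψ D A hadm he he0 hA
    refine (hb Ys ?_ c e ψ D A hadm he he0 hA).trans
      (add_le_add_right (hup (by linarith) (hadm.nonneg 0)) _)
    exact le_trans (le_trans (le_trans (le_max_left _ _) (le_max_right _ _)) (le_max_right _ _)) hYs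
  · intro Ys hYs c ψ D hadm
    refine (hc Ys ?_ c ψ D hadm).trans (add_le_add_right (hup (by linarith) (hadm.nonneg 0)) _)
    exact le_trans (le_trans (le_trans (le_max_right _ _) (le_max_right _ _)) (le_max_right _ _)) hYs

section

variable {C1 Ys0 : ℝ} (hO : OneStep C1 Ys0) {B Δ : ℝ} (hB : 0 < B) (hΔ : 0 ≤ Δ)

theorem Ysc_pos (hB : 0 < B) (k : ℕ) : 0 < Ysc B k := by
  have := gSeq_pos (k + 1)
  unfold Ysc
  positivity

theorem adm_P (hB : 0 < B) (hΔ : 0 ≤ Δ) {k : ℕ} (hk : 8 * ((k : ℝ) + 1) * Del B Δ k ≤ B)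
    {s : ℝ} (hs1 : 1 ≤ s) (hs2 : s ≤ 2) :
    Adm (Ysc B k) (fun i => s * cc k i) (psiP B Δ k) := (stmtR5 B Δ hB hΔ k hk s hs1 hs2).1

theorem adm_M (hB : 0 < B) (hΔ : 0 ≤ Δ) {k : ℕ} (hk : 8 * ((k : ℝ) + 1) * Del B Δ k ≤ B)
    {s : ℝ} (hs1 : 1 ≤ s) (hs2 : s ≤ 2) :
    Adm (Ysc B k) (fun i => s * cc k i) (psiM B Δ k) := (stmtR5 B Δ hB hΔ k hk s hs1 hs2).2

theorem Tc_smul (s : ℝ) (k : ℕ) : Tc (fun i => s * cc k i) = fun i => s * cc (k + 1) i := by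
  rw [cc_succ]
  funext i
  unfold Tc
  ring

/-- `TI ψ_k^+ (t - 2 s g E) ≤ g ψ_{k+1}^+(t)` for `0 ≤ s ≤ 4`. -/
theorem TI_psiP_le (hB : 0 < B) (k : ℕ) {s : ℝ} (hs : s ≤ 4) (t : ℝ) :
    TI (psiP B Δ k) (t - 2 * (s * cc k 0) * Ysc B k ^ (24 / 25 : ℝ)) ≤
      gSeq (k + 1) * psiP B Δ (k + 1) t := by
  unfold psiP
  rw [stmtR6, psi_sub]
  apply mul_le_mul_of_nonneg_left _ (gSeq_pos _).le
  apply psi_mono_R
  rw [Del_succ, cc_first]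
  have h1 : 0 ≤ gSeq (k + 1) * Ysc B k ^ (24 / 25 : ℝ) :=
    mul_nonneg (gSeq_pos _).le (Real.rpow_nonneg (Ysc_pos hB k).le _)
  nlinarith

theorem TI_psiM_ge (hB : 0 < B) (k : ℕ) (t : ℝ) :
    gSeq (k + 1) * psiM B Δ (k + 1) t ≤
      TI (psiM B Δ k) (t + 2 * (cc k 0) * Ysc B k ^ (24 / 25 : ℝ)) := by
  unfold psiM
  rw [stmtR6, psi_add]
  apply mul_le_mul_of_nonneg_left _ (gSeq_pos _).le
  apply psi_mono_R
  rw [Del_succ, cc_first]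
  have h1 : 0 ≤ gSeq (k + 1) * Ysc B k ^ (24 / 25 : ℝ) :=
    mul_nonneg (gSeq_pos _).le (Real.rpow_nonneg (Ysc_pos hB k).le _)
  nlinarith

include hO

/-- Upper step. -/
theorem SP_up (hB : 0 < B) (hΔ : 0 ≤ Δ) {k : ℕ} (hk : 8 * ((k : ℝ) + 1) * Del B Δ k ≤ B)
    (hY : Ys0 ≤ Ysc B k) {A D : Set ℕ}
    (hA : ∀ v ∈ A, IsTot v ∧ (v ≠ 1 → ¬ Sq v → tl v ∈ D)) :
    SP B Δ k A ≤ SP B Δ (k + 1) D + ENNReal.ofReal (C1 * psiP B Δ k 0) := by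
  have hadm := adm_P hB hΔ hk le_rfl (by norm_num : (1 : ℝ) ≤ 2)
  have h := hO.up _ hY _ _ D A hadm hA
  rw [Tc_smul] at h
  simp only [one_mul] at h
  refine h.trans (add_le_add_left ?_ _)
  unfold SP
  rw [cc_first]
  refine le_trans ?_ (ofReal_inv_mul_wsum (gSeq_pos (k + 1)) _ _).le
  apply mul_le_mul_right
  refine (wsum_mono_fun ?_).trans (wsum_mono_set _ (fun d hd => hd.2))
  intro d _
  have := TI_psiP_le (Δ := Δ) hB k (s := 1) (by norm_num) (FF (cc (k + 1)) d)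
  rw [one_mul, cc_first] at this
  exact this

/-- Upper step for the dilated sums. -/
theorem QP_up (hB : 0 < B) (hΔ : 0 ≤ Δ) {k : ℕ} (hk : 8 * ((k : ℝ) + 1) * Del B Δ k ≤ B)
    (hY : Ys0 ≤ Ysc B k) {δ : ℝ} (hδ0 : 0 ≤ δ) (hδ1 : δ ≤ 1) {A D : Set ℕ}
    (hA : ∀ v ∈ A, IsTot v ∧ (v ≠ 1 → ¬ Sq v → tl v ∈ D)) :
    QP δ B Δ k A ≤ ENNReal.ofReal (1 + δ)⁻¹ * QP δ B Δ (k + 1) D +
      ENNReal.ofReal (C1 * psiP B Δ k 0) := by
  have hadm := adm_P hB hΔ hk (s := 1 + δ) (by linarith) (by linarith)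
  have h := hO.up _ hY _ _ D A hadm hA
  rw [Tc_smul] at h
  simp only [FF_smul] at h
  refine h.trans (add_le_add_left ?_ _)
  unfold QP
  have hδ : 0 < 1 + δ := by linarith
  rw [cc_first, one_div, mul_inv, ENNReal.ofReal_mul (by positivity), mul_assoc]
  apply mul_le_mul_right
  refine le_trans ?_ (ofReal_inv_mul_wsum (gSeq_pos (k + 1)) _ _).le
  rw [one_div]
  apply mul_le_mul_right
  refine (wsum_mono_fun ?_).trans (wsum_mono_set _ (fun d hd => hd.2))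
  intro d _
  have := TI_psiP_le (Δ := Δ) hB k (s := 1 + δ) (by linarith) ((1 + δ) * FF (cc (k + 1)) d)
  rw [cc_first] at this
  exact this

/-- Ordering violations at level `k` are bounded by the dilated sum at level `k+1`. -/
theorem SP_viol (hB : 0 < B) (hΔ : 0 ≤ Δ) {k : ℕ} (hk : 8 * ((k : ℝ) + 1) * Del B Δ k ≤ B)
    (hY : Ys0 ≤ Ysc B k) {δ : ℝ}
    (hδ : ∀ k i : ℕ, (1 + δ) * (gSeq (k + 1) * aa i + cc k (i + 1)) ≤
      gSeq (k + 1) * aa (i + 1) / (1 - aa 0) + cc k (i + 1)) {A D : Set ℕ}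
    (hA : ∀ v ∈ A, IsTot v ∧ FF aa v < y1 v ∧ (v ≠ 1 → ¬ Sq v → tl v ∈ D)) :
    SP B Δ k A ≤ QP δ B Δ (k + 1) D + ENNReal.ofReal (C1 * psiP B Δ k 0) := by
  have ha0 : aa 0 = 2 * Real.log 2 - 1 := by
    unfold aa; exact aCoef_one
  have hlog1 := Real.log_two_gt_d9
  have hlog2 := Real.log_two_lt_d9
  have ha1 : 0 < 1 - aa 0 := by rw [ha0]; linarith
  have hadm := adm_P hB hΔ hk le_rfl (by norm_num : (1 : ℝ) ≤ 2)
  have hmono : aa 0 ≤ aa 1 := aCoef_mono (by norm_num) (by norm_num)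
  have h := hO.upV _ hY _ (fun i => (1 - aa 0)⁻¹ * aa (i + 1)) _ D A hadm
    (fun i => by have := aa_pos (i + 1); positivity) (by
      have h1 : aa 0 ≤ (1 - aa 0)⁻¹ * aa (0 + 1) := by
        have h2 : 1 ≤ (1 - aa 0)⁻¹ := by
          rw [one_le_inv₀ ha1]
          have := aa_pos 0
          linarith
        have h3 := aa_pos 0
        have h4 : aa (0 + 1) = aa 1 := by norm_num
        rw [h4]
        nlinarith
      have h5 : (1 : ℝ) / 3 ≤ aa 0 := by rw [ha0]; linarith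
      linarith) (by
      intro v hv
      obtain ⟨hT, hlt, hD⟩ := hA v hv
      refine ⟨hT, fun h1 hsq => ⟨hD h1 hsq, ?_⟩⟩
      rw [FF_smul]
      have h2 := FF_decomp aa hT h1 hsq
      rw [h2] at hlt
      rw [inv_mul_le_iff₀ ha1]
      linarith)
  simp only [one_mul] at h
  refine h.trans (add_le_add_left ?_ _)
  unfold QP
  rw [cc_first]
  refine le_trans ?_ (ofReal_inv_mul_wsum (gSeq_pos (k + 1)) _ _).le
  apply mul_le_mul_right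
  refine (wsum_mono_fun ?_).trans (wsum_mono_set _ (fun d hd => hd.2))
  intro d _
  have h1 := TI_psiP_le (Δ := Δ) hB k (s := 1) (by norm_num)
    (FF (fun i => gSeq (k + 1) * ((1 - aa 0)⁻¹ * aa (i + 1)) + cc k (i + 1)) d)
  rw [one_mul, cc_first] at h1
  refine h1.trans ?_
  apply mul_le_mul_of_nonneg_left _ (gSeq_pos _).le
  apply psi_anti
  rw [← FF_smul]
  apply FF_mono
  intro i
  have h2 := hδ k i
  rw [cc_succ, Tc, cc_first]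
  refine h2.trans (le_of_eq ?_)
  rw [div_eq_mul_inv]
  ring

/-- Lower step. -/
theorem SM_low (hB : 0 < B) (hΔ : 0 ≤ Δ) {k : ℕ} (hk : 8 * ((k : ℝ) + 1) * Del B Δ k ≤ B)
    (hY : Ys0 ≤ Ysc B k) {D : Set ℕ} (hD : ∀ v ∈ D, IsTot v) :
    SM B Δ (k + 1) D ≤ SM B Δ k {v | IsTot v ∧ v ≠ 1 ∧ ¬ Sq v ∧ tl v ∈ D} +
      SP B Δ (k + 1) {d | d ∈ D ∧ FF aa d < y1 d} + ENNReal.ofReal (C1 * psiM B Δ k 0) := by
  have hadm := adm_M hB hΔ hk le_rfl (by norm_num : (1 : ℝ) ≤ 2)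
  have h := hO.low _ hY _ _ D hadm
  rw [Tc_smul] at h
  simp only [one_mul] at h
  have hL : SM B Δ (k + 1) D ≤ ENNReal.ofReal (1 / cc k 0) *
      wsum (fun d => TI (psiM B Δ k) (FF (cc (k + 1)) d + 2 * cc k 0 * Ysc B k ^ (24 / 25 : ℝ)))
        {d | IsTot d ∧ d ∈ D} := by
    unfold SM
    refine le_trans (ofReal_inv_mul_wsum (gSeq_pos (k + 1)) _ _).ge ?_
    rw [cc_first]
    apply mul_le_mul_right
    refine (wsum_mono_fun ?_).trans (wsum_mono_set _ (fun d hd => ⟨hD d hd, hd⟩))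
    intro d _
    have := TI_psiM_ge (Δ := Δ) hB k (FF (cc (k + 1)) d)
    rw [cc_first] at this
    exact this
  refine (hL.trans h).trans ?_
  refine add_le_add_left (add_le_add le_rfl ?_) _
  unfold SP
  refine le_trans ?_ (ofReal_inv_mul_wsum (gSeq_pos (k + 1)) _ _).le
  rw [cc_first]
  apply mul_le_mul_right
  refine (wsum_mono_fun ?_).trans (wsum_mono_set _ (fun d hd => ⟨hd.2.1, hd.2.2⟩))
  intro d _
  unfold psiM psiP
  rw [stmtR6]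
  apply mul_le_mul_of_nonneg_left _ (gSeq_pos _).le
  apply psi_mono_R
  have h1 := Del_nonneg hB.le hΔ k
  have h2 := Del_nonneg hB.le hΔ (k + 1)
  linarith

/-- Lower step combined with the bound for violations. -/
theorem SM_low_viol (hB : 0 < B) (hΔ : 0 ≤ Δ) {k : ℕ}
    (hk : 8 * ((k : ℝ) + 1) * Del B Δ k ≤ B)
    (hk1 : 8 * (((k + 1 : ℕ) : ℝ) + 1) * Del B Δ (k + 1) ≤ B)
    (hY : Ys0 ≤ Ysc B k) (hY1 : Ys0 ≤ Ysc B (k + 1)) {δ : ℝ}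
    (hδ : ∀ k i : ℕ, (1 + δ) * (gSeq (k + 1) * aa i + cc k (i + 1)) ≤
      gSeq (k + 1) * aa (i + 1) / (1 - aa 0) + cc k (i + 1)) {D D2 : Set ℕ}
    (hD : ∀ v ∈ D, IsTot v) (hD2 : ∀ v ∈ D, v ≠ 1 → ¬ Sq v → tl v ∈ D2) :
    SM B Δ (k + 1) D ≤ SM B Δ k {v | IsTot v ∧ v ≠ 1 ∧ ¬ Sq v ∧ tl v ∈ D} +
      QP δ B Δ (k + 2) D2 +
      (ENNReal.ofReal (C1 * psiM B Δ k 0) + ENNReal.ofReal (C1 * psiP B Δ (k + 1) 0)) := by
  have h1 := SM_low hO hB hΔ hk hY hD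
  have h2 := SP_viol hO hB hΔ hk1 hY1 hδ (A := {d | d ∈ D ∧ FF aa d < y1 d}) (D := D2)
    (fun v hv => ⟨hD v hv.1, hv.2, hD2 v hv.1⟩)
  refine h1.trans ?_
  calc SM B Δ k {v | IsTot v ∧ v ≠ 1 ∧ ¬ Sq v ∧ tl v ∈ D} +
      SP B Δ (k + 1) {d | d ∈ D ∧ FF aa d < y1 d} + ENNReal.ofReal (C1 * psiM B Δ k 0)
      ≤ SM B Δ k {v | IsTot v ∧ v ≠ 1 ∧ ¬ Sq v ∧ tl v ∈ D} +
      (QP δ B Δ (k + 2) D2 + ENNReal.ofReal (C1 * psiP B Δ (k + 1) 0)) +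
        ENNReal.ofReal (C1 * psiM B Δ k 0) := by gcongr
    _ = _ := by ring

end

end Crest.Agent.R020
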