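import Mathlib
import Crest.Prelude.Def_TotientScale

/-!
Row 20 (S0026, S0027), module G1: the coefficients `a_j`, the sequence `g_j` and the renewal theorem
`g_j ρ^j → μ` with exponential rate.
-/

set_option autoImplicit false

noncomputable section

open Finset Filter Topology
open Crest.NumberTheoryR.TotientScale

namespace Crest.Agent.R020

/-! ### the recursion -/

theorem gList_length (j : ℕ) : (gList j).length = j + 1 := by
  induction j with
  | zero => simp [gList]
  | succ n ih => simp [gList, ih]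

theorem gList_getD (j d : ℕ) (hd : d ≤ j) : (gList j).getD d 0 = gSeq (j - d) := by
  induction j generalizing d with
  | zero =>
    obtain rfl : d = 0 := by omega
    rfl
  | succ n ih =>
    cases d with
    | zero => rfl
    | succ d =>
      have : (gList (n + 1)).getD (d + 1) 0 = (gList n).getD d 0 := by
        simp [gList]
      rw [this, ih d (by omega)]
      congr 1
      omega

theorem gSeq_zero : gSeq 0 = 1 := by
  simp [gSeq, gList]

theorem gSeq_succ (j : ℕ) :
    gSeq (j + 1) = ∑ d ∈ range (j + 1), aCoef (d + 1) * gSeq (j - d) := by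
  have h : gSeq (j + 1) = ∑ d ∈ range (j + 1), aCoef (d + 1) * (gList j).getD d 0 := by
    simp [gSeq, gList]
  rw [h]
  refine Finset.sum_congr rfl fun d hd => ?_
  rw [gList_getD j d (by simpa [Nat.lt_succ_iff] using hd)]

/-! ### the coefficients `a_j` -/

theorem aCoef_ge_log (j : ℕ) (hj : 1 ≤ j) : Real.log j ≤ aCoef j := by
  have hj0 : (0:ℝ) < j := by exact_mod_cast hj
  -- (j+1) log((j+1)/j) >= 1
  have h1 : Real.log ((j:ℝ) / (j+1)) ≤ (j:ℝ) / (j+1) - 1 :=
    Real.log_le_sub_one_of_pos (by positivity)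
  rw [Real.log_div (by positivity) (by positivity)] at h1
  have h2 : (j:ℝ) / (j+1) - 1 = -1 / (j+1) := by field_simp; ring
  rw [h2] at h1
  have h3 : ((j:ℝ)+1) * (Real.log j - Real.log (j+1)) ≤ ((j:ℝ)+1) * (-1/(j+1)) :=
    mul_le_mul_of_nonneg_left h1 (by positivity)
  have h4 : ((j:ℝ)+1) * (-1/(j+1)) = -1 := by field_simp
  rw [h4] at h3
  unfold aCoef
  nlinarith

theorem aCoef_le_log (j : ℕ) (hj : 1 ≤ j) : aCoef j ≤ Real.log (j + 1) := by
  have hj0 : (0:ℝ) < j := by exact_mod_cast hj
  have h1 : Real.log (((j:ℝ)+1) / j) ≤ ((j:ℝ)+1) / j - 1 :=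
    Real.log_le_sub_one_of_pos (by positivity)
  rw [Real.log_div (by positivity) (by positivity)] at h1
  have h2 : ((j:ℝ)+1) / j - 1 = 1 / j := by field_simp; ring
  rw [h2] at h1
  have h3 : (j:ℝ) * (Real.log (j+1) - Real.log j) ≤ (j:ℝ) * (1/j) :=
    mul_le_mul_of_nonneg_left h1 (by positivity)
  have h4 : (j:ℝ) * (1/j) = 1 := by field_simp
  rw [h4] at h3
  unfold aCoef
  nlinarith

theorem aCoef_one : aCoef 1 = 2 * Real.log 2 - 1 := by
  simp only [aCoef]
  norm_num

theorem aCoef_one_pos : 0 < aCoef 1 := by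
  rw [aCoef_one]
  have := Real.log_two_gt_d9
  linarith

theorem aCoef_pos (j : ℕ) (hj : 1 ≤ j) : 0 < aCoef j := by
  rcases Nat.eq_or_lt_of_le hj with h | h
  · rw [← h]; exact aCoef_one_pos
  · refine lt_of_lt_of_le (Real.log_pos ?_) (aCoef_ge_log j hj)
    exact_mod_cast h

theorem aCoef_le_self (j : ℕ) : aCoef j ≤ j := by
  rcases Nat.eq_zero_or_pos j with h | h
  · subst h; simp [aCoef]
  · refine (aCoef_le_log j h).trans ?_
    have := Real.log_le_sub_one_of_pos (show (0:ℝ) < (j:ℝ) + 1 by positivity)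
    linarith

theorem aCoef_mono {i j : ℕ} (hi : 1 ≤ i) (hij : i ≤ j) : aCoef i ≤ aCoef j := by
  rcases Nat.eq_or_lt_of_le hij with h | h
  · rw [h]
  · refine (aCoef_le_log i hi).trans ((Real.log_le_log (by positivity) ?_).trans
      (aCoef_ge_log j (hi.trans hij)))
    exact_mod_cast h

theorem gSeq_pos (j : ℕ) : 0 < gSeq j := by
  induction j using Nat.strong_induction_on with
  | _ n ih =>
    cases n with
    | zero => rw [gSeq_zero]; norm_num
    | succ n =>
      rw [gSeq_succ]
      refine Finset.sum_pos (fun d hd => ?_) ⟨0, by simp⟩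
      exact mul_pos (aCoef_pos _ (by omega)) (ih _ (by omega))

end Crest.Agent.R020
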