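import Mathlib
import Crest.Prelude.Def_TotientScale
import Crest.Agent.R020.Renewal

/-!
Row 20: existence of the root `ρ` of `∑ a_j ρ^j = 1` in `(0,1)`.
-/

set_option autoImplicit false

open Finset Filter Topology
open Crest.NumberTheoryR.TotientScale

namespace Crest.Agent.R020

theorem rho_summand_bound {ρ : ℝ} (h0 : 0 ≤ ρ) (h1 : ρ ≤ 3 / 4) (j : ℕ) :
    ‖aCoef (j + 1) * ρ ^ (j + 1)‖ ≤ ((j : ℝ) + 2) * (3 / 4) ^ (j + 1) := by
  have hpos := aCoef_pos (j + 1) (by omega)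
  have hle := aCoef_le_log (j + 1) (by omega)
  have hlog : Real.log (((j + 1 : ℕ) : ℝ) + 1) ≤ (j : ℝ) + 2 := by
    have := Real.log_le_self (x := ((j + 1 : ℕ) : ℝ) + 1) (by positivity)
    refine this.trans (le_of_eq ?_)
    push_cast
    ring
  rw [Real.norm_of_nonneg (by positivity)]
  exact mul_le_mul (hle.trans hlog) (pow_le_pow_left₀ h0 h1 _) (by positivity) (by positivity)

theorem rho_majorant_summable : Summable fun j : ℕ => ((j : ℝ) + 2) * (3 / 4 : ℝ) ^ (j + 1) := by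
  have h1 : Summable fun j : ℕ => (j : ℝ) * (3 / 4 : ℝ) ^ j := by
    have := summable_pow_mul_geometric_of_norm_lt_one 1
      (show ‖(3 / 4 : ℝ)‖ < 1 by rw [Real.norm_of_nonneg] <;> norm_num)
    simpa using this
  have h2 : Summable fun j : ℕ => (3 / 4 : ℝ) ^ j :=
    summable_geometric_of_lt_one (by norm_num) (by norm_num)
  refine ((h1.mul_left (3 / 4)).add (h2.mul_left (3 / 2))).congr fun j => ?_
  rw [pow_succ]
  ring

/-- There is a root in `(0,1)`. -/
theorem exists_rho : ∃ ρ : ℝ, 0 < ρ ∧ ρ < 1 ∧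
    HasSum (fun j : ℕ => aCoef (j + 1) * ρ ^ (j + 1)) 1 := by
  set f : ℝ → ℝ := fun ρ => ∑' j : ℕ, aCoef (j + 1) * ρ ^ (j + 1) with hf
  have hcont : ContinuousOn f (Set.Icc 0 (3 / 4)) := by
    refine continuousOn_tsum (u := fun j : ℕ => ((j : ℝ) + 2) * (3 / 4 : ℝ) ^ (j + 1))
      (fun j => (continuous_const.mul (continuous_pow _)).continuousOn) rho_majorant_summable ?_
    intro j x hx
    exact rho_summand_bound hx.1 hx.2 j
  have hsum : ∀ x ∈ Set.Icc (0 : ℝ) (3 / 4), Summable fun j : ℕ => aCoef (j + 1) * x ^ (j + 1) :=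
    fun x hx => Summable.of_norm_bounded rho_majorant_summable
      (fun j => rho_summand_bound hx.1 hx.2 j)
  have h0 : f 0 = 0 := by
    simp [hf]
  have h1 : 1 ≤ f (3 / 4) := by
    have hg : HasSum (fun j : ℕ => aCoef 1 * (3 / 4 : ℝ) ^ (j + 1)) (aCoef 1 * 3) := by
      have := (hasSum_geometric_of_lt_one (show (0 : ℝ) ≤ 3 / 4 by norm_num) (by norm_num)).mul_left
        (aCoef 1 * (3 / 4))
      have e1 : (fun i : ℕ => aCoef 1 * (3 / 4) * (3 / 4 : ℝ) ^ i) =
          fun j : ℕ => aCoef 1 * (3 / 4 : ℝ) ^ (j + 1) := by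
        funext j
        rw [pow_succ]
        ring
      have e2 : aCoef 1 * (3 / 4) * (1 - 3 / 4 : ℝ)⁻¹ = aCoef 1 * 3 := by norm_num; ring
      rw [e1, e2] at this
      exact this
    have h2 : aCoef 1 * 3 ≤ f (3 / 4) := by
      rw [← hg.tsum_eq]
      refine hg.summable.tsum_le_tsum (fun j => ?_) (hsum _ ⟨by norm_num, le_rfl⟩)
      exact mul_le_mul_of_nonneg_right (aCoef_mono (by omega) (by omega)) (by positivity)
    rw [aCoef_one] at h2
    have := Real.log_two_gt_d9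
    linarith
  obtain ⟨ρ, hρ, hρ1⟩ := intermediate_value_Icc (show (0 : ℝ) ≤ 3 / 4 by norm_num) hcont
    (show (1 : ℝ) ∈ Set.Icc (f 0) (f (3 / 4)) from ⟨by rw [h0]; norm_num, h1⟩)
  refine ⟨ρ, ?_, ?_, ?_⟩
  · rcases hρ.1.lt_or_eq with h | h
    · exact h
    · rw [← h, h0] at hρ1
      norm_num at hρ1
  · linarith [hρ.2]
  · have := (hsum ρ hρ).hasSum
    rwa [show (∑' j : ℕ, aCoef (j + 1) * ρ ^ (j + 1)) = 1 from hρ1] at this

end Crest.Agent.R020
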