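import Crest.Agent.R020.ChainS
import Crest.Agent.R020.Chain2
import Crest.Agent.R020.Rho

/-!
Row 20 (helper984): `StmtS1` from the chain.
-/

set_option autoImplicit false

open scoped ENNReal Topology
open MeasureTheory Filter Crest.NumberTheoryR.TotientScale

noncomputable section

namespace Crest.Agent.R020.ChainS1

/-! ### The scale at neighbouring levels -/

section

variable {ρ : ℝ} (hρ0 : 0 < ρ) (hρ1 : ρ < 1)
  (hρ : HasSum (fun j : ℕ => aCoef (j + 1) * ρ ^ (j + 1)) 1)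

include hρ0 hρ1 hρ

/-- `n g_n / B ≤ 1/λ + 1` for `n ≤ m`. -/
theorem eventually_mul_gSeq_div_le : ∀ᶠ x in atTop, ∀ n ≤ mIndex ρ x,
    (n:ℝ) * gSeq n / bigB x ≤ 1 / lam ρ + 1 := by
  have hL : Tendsto (fun x => Real.log (bigB x)) atTop atTop :=
    Real.tendsto_log_atTop.comp tendsto_bigB
  have h1 := (tendsto_mIndex_sub_div hρ0 hρ1 0).eventually_le_const
    (show 1 / lam ρ < 1 / lam ρ + 1 by linarith)
  filter_upwards [h1, eventually_rpow_mIndex hρ0 hρ1, hL.eventually_gt_atTop 0,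
    tendsto_bigB.eventually_gt_atTop 0, eventually_phase_mem hρ0 hρ1] with x hx hx2 hl hB hph
  intro n hn
  rw [Nat.sub_zero] at hx
  set m := mIndex ρ x with hm
  have hpow : (0:ℝ) < ρ ^ n := by positivity
  have hpowm : (0:ℝ) < ρ ^ m := by positivity
  have hg1 := gSeq_mul_pow_le_one hρ0 hρ1 hρ n
  have hpow2 : ρ ^ m ≤ ρ ^ n := pow_le_pow_of_le_one hρ0.le hρ1.le hn
  have hg := gSeq_pos n
  -- `g_n ρ^m ≤ 1`
  have hg2 : gSeq n * ρ ^ m ≤ 1 := (mul_le_mul_of_nonneg_left hpow2 hg.le).trans hg1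
  have he : Real.exp (-(lam ρ * phase ρ x)) ≤ 1 := by
    rw [Real.exp_le_one_iff]
    have := mul_nonneg (lam_pos hρ0 hρ1).le hph.1
    linarith
  -- `1 ≤ ρ^m B / log B`
  have h3 : 1 ≤ ρ ^ m * (bigB x / Real.log (bigB x)) := by
    rw [← hx2]
    apply mul_le_mul_of_nonneg_left _ hpowm.le
    exact mul_le_of_le_one_right (div_nonneg hB.le hl.le) he
  -- `g_n ≤ B / log B`
  have h4 : gSeq n ≤ bigB x / Real.log (bigB x) := by
    have h5 : gSeq n * ρ ^ m ≤ (bigB x / Real.log (bigB x)) * ρ ^ m := by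
      rw [mul_comm (bigB x / _)]; exact hg2.trans h3
    exact le_of_mul_le_mul_right h5 hpowm
  have hnm : (n:ℝ) ≤ m := by exact_mod_cast hn
  rw [div_le_iff₀ hB]
  calc (n:ℝ) * gSeq n ≤ m * (bigB x / Real.log (bigB x)) :=
        mul_le_mul hnm h4 hg.le (Nat.cast_nonneg m)
    _ = (m / Real.log (bigB x)) * bigB x := by ring
    _ ≤ (1 / lam ρ + 1) * bigB x := mul_le_mul_of_nonneg_right hx hB.le

/-- `scaleAt B (m - j) ≤ K^j G`. -/
theorem eventually_scaleAt_sub_le : ∀ᶠ x in atTop, ∀ j ≤ mIndex ρ x,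
    scaleAt (bigB x) (mIndex ρ x - j) ≤ (1 / lam ρ + 1) ^ j * scaleG ρ x := by
  filter_upwards [eventually_mul_gSeq_div_le hρ0 hρ1 hρ, tendsto_bigB.eventually_gt_atTop 0]
    with x hx hB
  intro j
  induction j with
  | zero => intro _; simp [scaleG_eq]
  | succ j ih =>
    intro hj
    have ih' := ih (by omega)
    obtain ⟨k, hk⟩ : ∃ k, mIndex ρ x - j = k + 1 := ⟨mIndex ρ x - j - 1, by omega⟩
    have h1 := hx (k + 1) (by omega)
    rw [hk, scaleAt_succ] at ih'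
    rw [show mIndex ρ x - (j + 1) = k by omega]
    have hg := gSeq_pos (k + 1)
    have hs := (scaleAt_pos hB k).le
    have hlam := lam_pos hρ0 hρ1
    have e : scaleAt (bigB x) k = (scaleAt (bigB x) k * (bigB x / (((k:ℝ) + 1) * gSeq (k + 1)))) *
        (((k + 1 : ℕ):ℝ) * gSeq (k + 1) / bigB x) := by
      push_cast
      field_simp
    rw [e, pow_succ]
    have h2 : 0 ≤ ((k + 1 : ℕ):ℝ) * gSeq (k + 1) / bigB x := by positivity
    have h3 : 0 ≤ scaleG ρ x := by rw [scaleG_eq]; exact (scaleAt_pos hB _).le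
    calc _ ≤ ((1 / lam ρ + 1) ^ j * scaleG ρ x) * (1 / lam ρ + 1) :=
          mul_le_mul ih' h1 h2 (by positivity)
      _ = _ := by ring

omit hρ in
/-- comparison of the indices of `B` and `0.95 B`. -/
theorem eventually_mIndex_compare : ∃ J : ℕ, ∀ᶠ B : ℝ in atTop,
    mIndex ρ (Real.exp (Real.exp (95 / 100 * B))) ≤ mIndex ρ (Real.exp (Real.exp B)) ∧
    mIndex ρ (Real.exp (Real.exp B)) - mIndex ρ (Real.exp (Real.exp (95 / 100 * B))) ≤ J := by
  have hlam := lam_pos hρ0 hρ1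
  obtain ⟨J, hJ⟩ := exists_nat_ge (1 / lam ρ + 1)
  refine ⟨J, ?_⟩
  have hbig : ∀ B : ℝ, bigB (Real.exp (Real.exp B)) = B := fun B => by
    unfold bigB; rw [Real.log_exp, Real.log_exp]
  filter_upwards [eventually_ge_atTop (100:ℝ),
    (Real.tendsto_log_atTop.comp Real.tendsto_log_atTop).eventually_ge_atTop (1:ℝ)] with B hB hB2
  have hlog95 : -(6 / 100 : ℝ) ≤ Real.log (95 / 100) := by
    have h1 := Real.one_sub_inv_le_log_of_pos (show (0:ℝ) < 95 / 100 by norm_num)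
    norm_num at h1 ⊢
    linarith
  have hlog95' : Real.log (95 / 100 : ℝ) ≤ 0 := Real.log_nonpos (by norm_num) (by norm_num)
  have hlogB : Real.log (95 / 100 * B) = Real.log (95 / 100) + Real.log B :=
    Real.log_mul (by norm_num) (by linarith)
  have hlB : 4 ≤ Real.log B := by
    have h1 : Real.exp 4 ≤ 100 := by
      have h2 := Real.exp_one_lt_d9
      have h3 : Real.exp 4 = (Real.exp 1) ^ 4 := by rw [← Real.exp_nat_mul]; norm_num
      rw [h3]
      have h4 : (Real.exp 1) ^ 4 ≤ (2.7182818286 : ℝ) ^ 4 :=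
        pow_le_pow_left₀ (Real.exp_pos 1).le h2.le 4
      refine h4.trans (by norm_num)
    rw [Real.le_log_iff_exp_le (by linarith)]
    linarith
  -- the two phase arguments
  have e1 : phaseArg ρ (Real.exp (Real.exp B)) =
      (Real.log B - Real.log (Real.log B)) / lam ρ := by unfold phaseArg; rw [hbig]
  have e2 : phaseArg ρ (Real.exp (Real.exp (95 / 100 * B))) =
      (Real.log (95 / 100) + Real.log B - Real.log (Real.log (95 / 100) + Real.log B)) / lam ρ := by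
    unfold phaseArg; rw [hbig, hlogB]
  set L := Real.log B with hL
  set ℓ := Real.log (95 / 100 : ℝ) with hℓ
  -- `log L - log (L + ℓ) ∈ [0, -ℓ]`
  have hLℓ : 0 < ℓ + L := by linarith
  have h1 : Real.log (ℓ + L) ≤ Real.log L := Real.log_le_log hLℓ (by linarith)
  have h2 : Real.log L - Real.log (ℓ + L) ≤ -ℓ := by
    rw [← Real.log_div (by linarith) (by linarith)]
    have h3 := Real.log_le_sub_one_of_pos (show 0 < L / (ℓ + L) by positivity)
    refine h3.trans ?_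
    rw [div_sub_one (by linarith), div_le_iff₀ hLℓ]
    nlinarith
  have h5 : phaseArg ρ (Real.exp (Real.exp (95 / 100 * B))) ≤ phaseArg ρ (Real.exp (Real.exp B)) := by
    rw [e1, e2]
    apply div_le_div_of_nonneg_right _ hlam.le
    linarith
  have h6 : phaseArg ρ (Real.exp (Real.exp B)) ≤
      phaseArg ρ (Real.exp (Real.exp (95 / 100 * B))) + 1 / lam ρ := by
    rw [e1, e2, ← add_div]
    apply div_le_div_of_nonneg_right _ hlam.le
    linarith
  refine ⟨Nat.floor_mono h5, ?_⟩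
  have h8 : mIndex ρ (Real.exp (Real.exp B)) ≤
      mIndex ρ (Real.exp (Real.exp (95 / 100 * B))) + J := by
    by_cases h0 : mIndex ρ (Real.exp (Real.exp B)) = 0
    · omega
    · have h9 : 0 ≤ phaseArg ρ (Real.exp (Real.exp B)) := by
        by_contra hneg
        apply h0
        unfold mIndex
        exact Nat.floor_eq_zero.2 (by linarith)
      have h10 : (mIndex ρ (Real.exp (Real.exp B)) : ℝ) ≤ phaseArg ρ (Real.exp (Real.exp B)) :=
        Nat.floor_le h9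
      have h11 := Nat.lt_floor_add_one (phaseArg ρ (Real.exp (Real.exp (95 / 100 * B))))
      have h12 : (mIndex ρ (Real.exp (Real.exp B)) : ℝ) ≤
          (mIndex ρ (Real.exp (Real.exp (95 / 100 * B))) : ℝ) + J := by
        unfold mIndex at h10 ⊢
        linarith
      exact_mod_cast h12
  omega

/-- `scaleG (0.95 B) ≤ C 0.95^{m'} scaleG (B)`. -/
theorem exists_scaleG_le : ∃ C : ℝ, 0 < C ∧ ∀ᶠ B : ℝ in atTop,
    scaleG ρ (Real.exp (Real.exp (95 / 100 * B))) ≤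
      C * (95 / 100 : ℝ) ^ mIndex ρ (Real.exp (Real.exp (95 / 100 * B))) *
        scaleG ρ (Real.exp (Real.exp B)) := by
  have hlam := lam_pos hρ0 hρ1
  obtain ⟨J, hJ⟩ := eventually_mIndex_compare hρ0 hρ1
  have hbig : ∀ B : ℝ, bigB (Real.exp (Real.exp B)) = B := fun B => by
    unfold bigB; rw [Real.log_exp, Real.log_exp]
  have hexp : Tendsto (fun B : ℝ => Real.exp (Real.exp B)) atTop atTop :=
    Real.tendsto_exp_atTop.comp Real.tendsto_exp_atTop
  have hK : 1 ≤ 1 / lam ρ + 1 := by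
    have : 0 ≤ 1 / lam ρ := by positivity
    linarith
  refine ⟨(1 / lam ρ + 1) ^ J, by positivity, ?_⟩
  filter_upwards [hJ, hexp.eventually (eventually_scaleAt_sub_le hρ0 hρ1 hρ),
    eventually_gt_atTop (0:ℝ)] with B hB h1 hB0
  set m := mIndex ρ (Real.exp (Real.exp B)) with hm
  set m' := mIndex ρ (Real.exp (Real.exp (95 / 100 * B))) with hm'
  rw [hbig] at h1
  have h2 := h1 (m - m') (by omega)
  rw [show m - (m - m') = m' by omega] at h2
  have h3 : scaleG ρ (Real.exp (Real.exp (95 / 100 * B))) =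
      (95 / 100 : ℝ) ^ m' * scaleAt B m' := by
    rw [scaleG_eq, hbig, ← hm']
    unfold scaleAt
    rw [mul_pow]
    ring
  have hG : 0 ≤ scaleG ρ (Real.exp (Real.exp B)) := by
    rw [scaleG_eq, hbig]; exact (scaleAt_pos hB0 _).le
  rw [h3]
  have h4 : (1 / lam ρ + 1) ^ (m - m') ≤ (1 / lam ρ + 1) ^ J := pow_le_pow_right₀ hK hB.2
  calc (95 / 100 : ℝ) ^ m' * scaleAt B m'
      ≤ (95 / 100 : ℝ) ^ m' * ((1 / lam ρ + 1) ^ J * scaleG ρ (Real.exp (Real.exp B))) := by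
        apply mul_le_mul_of_nonneg_left _ (by positivity)
        exact h2.trans (mul_le_mul_of_nonneg_right h4 hG)
    _ = _ := by ring

end

/-! ### `S_1` and `S` against the chain sums -/

theorem S1B_eq (R : ℝ) :
    S1B R = ENNReal.ofReal (gSeq 1) * wsum (fun v => psi R 1 (FF (cc 1) v)) Tot := by
  rw [← wsum_const_mul (gSeq_pos 1).le]
  unfold S1B
  apply wsum_congr
  intro v _
  have h1 : Tc aa = cc 1 := by rw [← cc_zero, ← cc_succ]
  rw [h1]
  unfold psi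
  have hg := gSeq_pos 1
  split_ifs with h
  · rw [max_eq_right (by linarith)]
    unfold scaleAt
    simp
    field_simp
  · rw [max_eq_left (by linarith), mul_zero]

theorem S1B_mono {R R' : ℝ} (h : R ≤ R') : S1B R ≤ S1B R' := by
  unfold S1B
  apply wsum_mono_fun
  intro v _
  exact max_le_max le_rfl (by linarith)

theorem S1B_le_SP {B Δ : ℝ} (hB : 0 ≤ B) (hΔ : 0 ≤ Δ) :
    S1B B ≤ ENNReal.ofReal (gSeq 1) * SP B Δ 1 Tot := by
  rw [S1B_eq]
  apply mul_le_mul_right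
  unfold SP psiP
  apply wsum_mono_fun
  intro v _
  apply psi_mono_R
  have := Del_nonneg hB hΔ 1
  linarith

theorem SM_zero_le_SB {B Δ : ℝ} (hΔ : 0 ≤ Δ) : SM B Δ 0 Tot ≤ SB B := by
  unfold SM SB wsum wt ws
  apply ENNReal.tsum_le_tsum
  intro v
  by_cases hv : v ∈ Tot
  · rw [Set.indicator_of_mem hv]
    have hv' : IsTot v := hv
    unfold psiM psi
    rw [Del_zero, cc_zero]
    beta_reduce
    split_ifs with h
    · rw [scaleAt_zero', ENNReal.ofReal_one, one_mul, Set.indicator_of_mem]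
      exact ⟨hv', by linarith⟩
    · simp
  · rw [Set.indicator_of_notMem hv]; exact zero_le

theorem SB_le_SP_zero {B Δ : ℝ} (hΔ : 0 ≤ Δ) : SB B ≤ SP B Δ 0 Tot := by
  unfold SP SB wsum wt ws
  apply ENNReal.tsum_le_tsum
  intro v
  by_cases hv : v ∈ {d | IsTot d ∧ FF aa d ≤ B}
  · have hv' : v ∈ Tot := hv.1
    rw [Set.indicator_of_mem hv, Set.indicator_of_mem hv']
    unfold psiP psi
    rw [Del_zero, cc_zero]
    beta_reduce
    have h9 : FF aa v ≤ B + Δ := by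
      have := hv.2
      linarith
    rw [if_pos h9, scaleAt_zero', ENNReal.ofReal_one, one_mul]
  · rw [Set.indicator_of_notMem hv]; exact zero_le

theorem Sh_nonneg' {x : ℝ} (h : 0 ≤ bigB x) : 0 ≤ Sh x := Real.rpow_nonneg h _

theorem scaleG_pos'' {ρ x : ℝ} (hB : 0 < bigB x) : 0 < scaleG ρ x := by
  rw [scaleG_eq]
  exact scaleAt_pos hB _

/-- The two-sided bounds used for `StmtS1`. -/
theorem exists_bounds {ρ μ : ℝ} (hρ0 : 0 < ρ) (hρ1 : ρ < 1)
    (hUp : StmtUpChain ρ) (hLow : StmtLowChain ρ)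
    (hA : ∀ r : ℕ, ∃ c₁ c₂ : ℝ, 0 < c₁ ∧ ∀ θ ∈ Set.Ico (0 : ℝ) 1,
      c₁ ≤ Ar ρ μ r θ ∧ Ar ρ μ r θ ≤ c₂)
    (hAsy : StmtAsy ρ μ) :
    ∃ c C : ℝ, 0 < c ∧ 0 < C ∧ ∀ᶠ x in atTop,
      S1B (bigB x) ≤ ENNReal.ofReal (C * scaleG ρ x) ∧ SB (bigB x) ≠ ⊤ ∧
      c * scaleG ρ x ≤ (SB (bigB x)).toReal := by
  obtain ⟨r, ⟨h1, h2⟩, h3⟩ := ((hUp 1 one_pos).and (hLow 1 one_pos)).and
    (hAsy (1 / 2) (by norm_num)) |>.exists
  obtain ⟨c₁, c₂, hc₁, hc⟩ := hA r
  have hc2 : 0 < c₂ := lt_of_lt_of_le hc₁ ((hc 0 (by simp)).1.trans (hc 0 (by simp)).2)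
  have hg := gSeq_pos 1
  refine ⟨c₁ / 4, 3 * gSeq 1 * c₂, by positivity, by positivity, ?_⟩
  filter_upwards [h1, h2, h3, tendsto_bigB.eventually_gt_atTop 0, eventually_phase_mem hρ0 hρ1]
    with x hx1 hx2 hx3 hB hph
  have hS := Sh_nonneg' hB.le
  have hG : 0 < scaleG ρ x := scaleG_pos'' hB
  obtain ⟨hAl, hAu⟩ := hc _ hph
  have hAr : 0 < Ar ρ μ r (phase ρ x) := lt_of_lt_of_le hc₁ hAl
  -- the common upper bound
  have hup : SP (bigB x) (Sh x) (mIndex ρ x - r) Tot ≤ ENNReal.ofReal (3 / 2 * (c₂ * scaleG ρ x)) := by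
    refine hx3.1.trans (ENNReal.ofReal_le_ofReal ?_)
    have := mul_le_mul_of_nonneg_right hAu hG.le
    linarith
  refine ⟨?_, ?_, ?_⟩
  · refine (S1B_le_SP hB.le hS).trans ?_
    calc ENNReal.ofReal (gSeq 1) * SP (bigB x) (Sh x) 1 Tot
        ≤ ENNReal.ofReal (gSeq 1) * (ENNReal.ofReal (1 + 1) *
            ENNReal.ofReal (3 / 2 * (c₂ * scaleG ρ x))) := by
          apply mul_le_mul_right
          exact hx1.2.trans (mul_le_mul_right hup _)
      _ = ENNReal.ofReal (3 * gSeq 1 * c₂ * scaleG ρ x) := by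
          rw [← ENNReal.ofReal_mul (by norm_num), ← ENNReal.ofReal_mul hg.le]
          congr 1
          ring
  · refine ne_top_of_le_ne_top ?_ ((SB_le_SP_zero hS).trans hx1.1)
    exact ENNReal.mul_ne_top ENNReal.ofReal_ne_top (ne_top_of_le_ne_top ENNReal.ofReal_ne_top hup)
  · have hfin : SB (bigB x) ≠ ⊤ := by
      refine ne_top_of_le_ne_top ?_ ((SB_le_SP_zero hS).trans hx1.1)
      exact ENNReal.mul_ne_top ENNReal.ofReal_ne_top (ne_top_of_le_ne_top ENNReal.ofReal_ne_top hup)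
    have h4 : ENNReal.ofReal ((1 - 1 / 2) * (Ar ρ μ r (phase ρ x) * scaleG ρ x)) ≤
        ENNReal.ofReal (1 + 1) * SB (bigB x) :=
      (hx3.2.trans hx2).trans (mul_le_mul_right (SM_zero_le_SB hS) _)
    have h5 : (1 - 1 / 2) * (Ar ρ μ r (phase ρ x) * scaleG ρ x) ≤
        (1 + 1) * (SB (bigB x)).toReal := by
      have h6 : ENNReal.ofReal (1 + 1) * SB (bigB x) ≠ ⊤ :=
        ENNReal.mul_ne_top ENNReal.ofReal_ne_top hfin
      have h7 := (ENNReal.ofReal_le_iff_le_toReal h6).1 h4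
      rw [ENNReal.toReal_mul, ENNReal.toReal_ofReal (by norm_num)] at h7
      exact h7
    have h8 : c₁ * scaleG ρ x ≤ Ar ρ μ r (phase ρ x) * scaleG ρ x :=
      mul_le_mul_of_nonneg_right hAl hG.le
    linarith

/-- `StmtS1` from the outputs of the chain. -/
theorem stmtS1_of
    (h : ∀ ρ : ℝ, 0 < ρ → ρ < 1 → HasSum (fun j : ℕ => aCoef (j + 1) * ρ ^ (j + 1)) 1 →
      StmtUpChain ρ ∧ StmtLowChain ρ ∧ ∃ μ : ℝ,
        (∀ r : ℕ, ∃ c₁ c₂ : ℝ, 0 < c₁ ∧ ∀ θ ∈ Set.Ico (0 : ℝ) 1,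
          c₁ ≤ Ar ρ μ r θ ∧ Ar ρ μ r θ ≤ c₂) ∧ StmtAsy ρ μ) : StmtS1 := by
  obtain ⟨ρ, hρ0, hρ1, hρ⟩ := exists_rho
  obtain ⟨hUp, hLow, μ, hA, hAsy⟩ := h ρ hρ0 hρ1 hρ
  obtain ⟨c, C, hc, hC, hb⟩ := exists_bounds hρ0 hρ1 hUp hLow hA hAsy
  obtain ⟨K, hK, hsc⟩ := exists_scaleG_le hρ0 hρ1 hρ
  have hbig : ∀ B : ℝ, bigB (Real.exp (Real.exp B)) = B := fun B => by
    unfold bigB; rw [Real.log_exp, Real.log_exp]
  have hexp : Tendsto (fun B : ℝ => Real.exp (Real.exp B)) atTop atTop :=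
    Real.tendsto_exp_atTop.comp Real.tendsto_exp_atTop
  have hbB : ∀ᶠ B : ℝ in atTop, S1B B ≤ ENNReal.ofReal (C * scaleG ρ (Real.exp (Real.exp B))) ∧
      SB B ≠ ⊤ ∧ c * scaleG ρ (Real.exp (Real.exp B)) ≤ (SB B).toReal := by
    filter_upwards [hexp.eventually hb] with B hB
    rwa [hbig] at hB
  have h95 : Tendsto (fun B : ℝ => 95 / 100 * B) atTop atTop :=
    tendsto_id.const_mul_atTop (by norm_num)
  refine ⟨fun R => ?_, ?_⟩
  · obtain ⟨B, hB1, hB2⟩ := (hbB.and (eventually_ge_atTop R)).exists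
    exact ne_top_of_le_ne_top ENNReal.ofReal_ne_top ((S1B_mono hB2).trans hB1.1)
  · -- the ratio
    have hm : Tendsto (fun B : ℝ => mIndex ρ (Real.exp (Real.exp (95 / 100 * B)))) atTop atTop :=
      (tendsto_mIndex hρ0 hρ1).comp (hexp.comp h95)
    have hlim : Tendsto (fun B : ℝ => C * K / c *
        (95 / 100 : ℝ) ^ mIndex ρ (Real.exp (Real.exp (95 / 100 * B)))) atTop (𝓝 0) := by
      have := ((tendsto_pow_atTop_nhds_zero_of_lt_one (r := (95 / 100 : ℝ)) (by norm_num)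
        (by norm_num)).comp hm).const_mul (C * K / c)
      simpa using this
    refine squeeze_zero' (Eventually.of_forall fun B => by positivity) ?_ hlim
    filter_upwards [hbB, h95.eventually hbB, hsc, eventually_gt_atTop (0:ℝ)] with B h1 h2 h3 hB0
    have hG : 0 < scaleG ρ (Real.exp (Real.exp B)) := scaleG_pos'' (by rw [hbig]; exact hB0)
    have hG' : 0 < scaleG ρ (Real.exp (Real.exp (95 / 100 * B))) :=
      scaleG_pos'' (by rw [hbig]; positivity)
    have h4 : (S1B (95 / 100 * B)).toReal ≤ C * scaleG ρ (Real.exp (Real.exp (95 / 100 * B))) :=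
      ENNReal.toReal_le_of_le_ofReal (by positivity) h2.1
    have h5 : 0 < (SB B).toReal := lt_of_lt_of_le (by positivity) h1.2.2
    rw [div_le_iff₀ h5]
    calc (S1B (95 / 100 * B)).toReal ≤ C * scaleG ρ (Real.exp (Real.exp (95 / 100 * B))) := h4
      _ ≤ C * (K * (95 / 100 : ℝ) ^ mIndex ρ (Real.exp (Real.exp (95 / 100 * B))) *
            scaleG ρ (Real.exp (Real.exp B))) := mul_le_mul_of_nonneg_left h3 hC.le
      _ = C * K / c * (95 / 100 : ℝ) ^ mIndex ρ (Real.exp (Real.exp (95 / 100 * B))) *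
            (c * scaleG ρ (Real.exp (Real.exp B))) := by field_simp
      _ ≤ _ := mul_le_mul_of_nonneg_left h1.2.2 (by positivity)

end Crest.Agent.R020.ChainS1
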