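import Crest.Agent.R020.Stmt

/-!
Row 20 (helper826): the special family `W` (`StmtW`) from (L) and Mertens.
-/

set_option autoImplicit false

open scoped ENNReal Topology
open MeasureTheory Filter Crest.NumberTheoryR.TotientScale

noncomputable section

namespace Crest.Agent.R020

/-- primes with `t ≤ yy q ≤ Y`. -/
def PPr (t Y : ℝ) : Set ℕ := {q | q.Prime ∧ t ≤ yy q ∧ yy q ≤ Y}

/-- `∑_{q prime, t ≤ yy q ≤ Y} 1/(q-1)`. -/
def Msum (t Y : ℝ) : ℝ≥0∞ := ∑' q : ℕ, (PPr t Y).indicator (fun q => ((q - 1 : ℕ) : ℝ≥0∞)⁻¹) q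

/-- The Mertens lower bound in the `yy` scale. -/
def StmtMlow : Prop := ∃ C : ℝ, ∀ t Y : ℝ, 0 ≤ t → ENNReal.ofReal (Y - t - C) ≤ Msum t Y

theorem wt2_eq_wt_image (A : Set (ℕ × ℕ)) (h : Set.InjOn (fun p : ℕ × ℕ => (p.1 - 1) * p.2) A) :
    wt2 A = wt ((fun p : ℕ × ℕ => (p.1 - 1) * p.2) '' A) := by
  unfold wt2 wt ws
  rw [← tsum_subtype A, ← tsum_subtype, tsum_image (fun v : ℕ => (v : ℝ≥0∞)⁻¹) h]

theorem wt2_mono {A B : Set (ℕ × ℕ)} (h : A ⊆ B) : wt2 A ≤ wt2 B := by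
  apply ENNReal.tsum_le_tsum
  intro v
  exact Set.indicator_le_indicator_of_subset h (fun _ => zero_le) v

theorem wt2_union_le (A B : Set (ℕ × ℕ)) : wt2 (A ∪ B) ≤ wt2 A + wt2 B := by
  unfold wt2
  rw [← ENNReal.tsum_add]
  apply ENNReal.tsum_le_tsum
  intro v
  by_cases hA : v ∈ A
  · rw [Set.indicator_of_mem (Set.mem_union_left B hA), Set.indicator_of_mem hA]
    exact le_self_add
  · by_cases hB : v ∈ B
    · rw [Set.indicator_of_mem (Set.mem_union_right A hB), Set.indicator_of_mem hB]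
      exact le_add_self
    · rw [Set.indicator_of_notMem (by simp [hA, hB])]
      exact zero_le

theorem wt2_prod (P D : Set ℕ) :
    wt2 (P ×ˢ D) = (∑' q : ℕ, P.indicator (fun q => ((q - 1 : ℕ) : ℝ≥0∞)⁻¹) q) * wt D := by
  unfold wt2 wt ws
  rw [ENNReal.tsum_prod', ← ENNReal.tsum_mul_right]
  refine tsum_congr fun q => ?_
  rw [← ENNReal.tsum_mul_left]
  refine tsum_congr fun d => ?_
  by_cases hq : q ∈ P
  · by_cases hd : d ∈ D
    · rw [Set.indicator_of_mem (show (q, d) ∈ P ×ˢ D from ⟨hq, hd⟩), Set.indicator_of_mem hq,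
        Set.indicator_of_mem hd, inv_mul_nat]
    · rw [Set.indicator_of_notMem (show (q, d) ∉ P ×ˢ D from fun h => hd h.2),
        Set.indicator_of_notMem hd, mul_zero]
  · rw [Set.indicator_of_notMem (show (q, d) ∉ P ×ˢ D from fun h => hq h.1),
      Set.indicator_of_notMem hq, zero_mul]

/-- Canonical extensions of the totients in `D` by a prime `q ∈ P`. -/
def Ext (P D : Set ℕ) : Set ℕ :=
  {v | ∃ q ∈ P, ∃ d ∈ D, v = (q - 1) * d ∧ rr v = q * rr d}

/-- The one-step lower bound for families. -/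
theorem wt_ext_ge {t Y F : ℝ} {D : Set ℕ} (hD : ∀ d ∈ D, IsTot d ∧ FF aa d ≤ F ∧ y1 d < t)
    (ht : F + Y ^ (19 / 20 : ℝ) ≤ t) :
    Msum t Y * wt D ≤ wt (Ext (PPr t Y) D) +
      wt2 {p | NonCan p.1 p.2 ∧ yy p.1 ≤ Y ∧ FF aa p.2 + Y ^ (19 / 20 : ℝ) ≤ yy p.1} := by
  classical
  rw [Msum, ← wt2_prod]
  set P := PPr t Y with hP
  have hPm : ∀ q ∈ P, ∀ d ∈ D, Pm (rr d) < q := by
    intro q hq d hd
    by_contra hcon
    push Not at hcon
    have h1 := yy_mono hcon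
    have h2 := (hD d hd).2.2
    have h3 := hq.2.1
    unfold y1 at h2
    linarith
  set A : Set (ℕ × ℕ) := {p | p.1 ∈ P ∧ p.2 ∈ D ∧ rr ((p.1 - 1) * p.2) = p.1 * rr p.2} with hA
  have hcover : P ×ˢ D ⊆ A ∪
      {p | NonCan p.1 p.2 ∧ yy p.1 ≤ Y ∧ FF aa p.2 + Y ^ (19 / 20 : ℝ) ≤ yy p.1} := by
    rintro ⟨q, d⟩ ⟨hq, hd⟩
    by_cases hcan : rr ((q - 1) * d) = q * rr d
    · left; exact ⟨hq, hd, hcan⟩
    · right
      refine ⟨⟨hq.1, (hD d hd).1, hPm q hq d hd, hcan⟩, hq.2.2, ?_⟩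
      have h1 := (hD d hd).2.1
      have h2 := hq.2.1
      show FF aa d + _ ≤ yy q
      linarith
  refine (wt2_mono hcover).trans ((wt2_union_le _ _).trans (add_le_add ?_ le_rfl))
  -- injectivity on the canonical pairs
  have hinj : Set.InjOn (fun p : ℕ × ℕ => (p.1 - 1) * p.2) A := by
    rintro ⟨q, d⟩ ⟨hq, hd, hc⟩ ⟨q', d'⟩ ⟨hq', hd', hc'⟩ heq
    simp only at hq hd hc hq' hd' hc' heq
    have h1 := (FF_of_canonical aa hq.1 (hPm q hq d hd) hc).2.2
    have h2 := (FF_of_canonical aa hq'.1 (hPm q' hq' d' hd') hc').2.2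
    rw [heq, h2] at h1
    subst h1
    have h3 : q' * rr d = q' * rr d' := by rw [← hc, heq, hc']
    have h4 : rr d = rr d' := Nat.eq_of_mul_eq_mul_left hq'.1.pos h3
    have h5 : d = d' := by
      rw [← totient_rr (hD d hd).1, h4, totient_rr (hD d' hd').1]
    rw [h5]
  rw [wt2_eq_wt_image A hinj]
  apply wt_mono
  rintro v ⟨⟨q, d⟩, ⟨hq, hd, hc⟩, rfl⟩
  exact ⟨q, hq, d, hd, rfl, hc⟩

theorem aa_zero_bounds : 0 < aa 0 ∧ aa 0 ≤ 39 / 100 ∧ 386 / 1000 ≤ aa 0 := by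
  have h1 := Real.log_two_gt_d9
  have h2 := Real.log_two_lt_d9
  have e : aa 0 = 2 * Real.log 2 - 1 := by
    simp [aa, aCoef]
    norm_num
  rw [e]
  refine ⟨by linarith, by linarith, by linarith⟩

theorem aa_one_ge : 9 / 10 ≤ aa 1 := by
  have e : aa 1 = 3 * Real.log 3 - 2 * Real.log 2 - 1 := by
    simp [aa, aCoef]
    norm_num
  have h1 := Real.log_two_gt_d9
  have h2 := Real.log_two_lt_d9
  have h3 : 19 * Real.log 2 ≤ 12 * Real.log 3 := by
    have h4 : Real.log ((2 : ℝ) ^ 19) ≤ Real.log ((3 : ℝ) ^ 12) :=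
      Real.log_le_log (by norm_num) (by norm_num)
    rw [Real.log_pow, Real.log_pow] at h4
    exact_mod_cast h4
  rw [e]
  linarith

theorem ext_props {P D : Set ℕ} (hP : ∀ q ∈ P, q.Prime) (hD : ∀ d ∈ D, IsTot d)
    (hPm : ∀ q ∈ P, ∀ d ∈ D, Pm (rr d) < q) {v : ℕ} (hv : v ∈ Ext P D) :
    ∃ q ∈ P, ∃ d ∈ D, IsTot v ∧ y1 v = yy q ∧
      ∀ c : ℕ → ℝ, FF c v = c 0 * yy q + FF (fun i => c (i + 1)) d := by
  obtain ⟨q, hq, d, hd, rfl, hc⟩ := hv
  refine ⟨q, hq, d, hd, ?_, (FF_of_canonical aa (hP q hq) (hPm q hq d hd) hc).2.1,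
    fun c => (FF_of_canonical c (hP q hq) (hPm q hq d hd) hc).1⟩
  refine ⟨q * rr d, Nat.mul_pos (hP q hq).pos (rr_pos d), ?_⟩
  have hcop : Nat.Coprime q (rr d) :=
    (Nat.Prime.coprime_iff_not_dvd (hP q hq)).mpr fun hdv =>
      lt_irrefl _ ((Pm_lt_iff (rr_pos d).ne' (hP q hq).two_le).mp (hPm q hq d hd) q (hP q hq) hdv)
  rw [Nat.totient_mul hcop, Nat.totient_prime (hP q hq), totient_rr (hD d hd)]

theorem rpow_le_half {Y : ℝ} (hY : (2 : ℝ) ^ 20 ≤ Y) : Y ^ (19 / 20 : ℝ) ≤ Y / 2 := by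
  have hY0 : 0 < Y := lt_of_lt_of_le (by norm_num) hY
  have h1 : (2 : ℝ) ≤ Y ^ (1 / 20 : ℝ) := by
    have h2 : ((2 : ℝ) ^ 20) ^ (1 / 20 : ℝ) ≤ Y ^ (1 / 20 : ℝ) :=
      Real.rpow_le_rpow (by norm_num) hY (by norm_num)
    have h3 : ((2 : ℝ) ^ 20) ^ (1 / 20 : ℝ) = 2 := by
      rw [← Real.rpow_natCast, ← Real.rpow_mul (by norm_num)]
      norm_num
    rwa [h3] at h2
  have h2 : Y ^ (19 / 20 : ℝ) * Y ^ (1 / 20 : ℝ) = Y := by
    rw [← Real.rpow_add hY0]
    norm_num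
  have h3 : 0 ≤ Y ^ (19 / 20 : ℝ) := Real.rpow_nonneg hY0.le _
  nlinarith

theorem stmtW (hL : StmtL) (hM : StmtMlow) : StmtW := by
  obtain ⟨c0, Y0, hc0, hL⟩ := hL
  obtain ⟨C, hM⟩ := hM
  refine ⟨1 / 1000, max (max (2 ^ 20) Y0) (100 * (|C| + 2)), by norm_num, fun T hT => ?_⟩
  have hT1 : (2 : ℝ) ^ 20 ≤ T := (le_max_left _ _).trans ((le_max_left _ _).trans hT)
  have hT2 : Y0 ≤ T := (le_max_right _ _).trans ((le_max_left _ _).trans hT)
  have hT3 : 100 * (|C| + 2) ≤ T := (le_max_right _ _).trans hT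
  have hC := le_abs_self C
  have hC0 := abs_nonneg C
  have hT0 : 0 < T := lt_of_lt_of_le (by norm_num) hT1
  obtain ⟨ha0, ha1, ha2⟩ := aa_zero_bounds
  have hE : ∀ Y : ℝ, Y0 ≤ Y → 0 ≤ Y →
      wt2 {p | NonCan p.1 p.2 ∧ yy p.1 ≤ Y ∧ FF aa p.2 + Y ^ (19 / 20 : ℝ) ≤ yy p.1} ≤ 1 := by
    intro Y hY hY0
    refine (hL Y hY).trans ?_
    rw [← ENNReal.ofReal_one]
    refine ENNReal.ofReal_le_ofReal ?_
    rw [Real.exp_le_one_iff]
    have := Real.rpow_nonneg hY0 c0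
    linarith
  -- level one
  set P1 := PPr T (11 / 10 * T) with hP1
  set W1 := Ext P1 {1} with hW1
  have hPm1 : ∀ q ∈ P1, ∀ d ∈ ({1} : Set ℕ), Pm (rr d) < q := by
    intro q hq d hd
    rw [Set.mem_singleton_iff] at hd
    subst hd
    rw [rr_one]
    have : Pm 1 = 1 := by simp [Pm]
    rw [this]
    exact hq.1.one_lt
  have hprop1 : ∀ v ∈ W1, IsTot v ∧ T ≤ y1 v ∧ y1 v ≤ 11 / 10 * T ∧
      ∀ c : ℕ → ℝ, FF c v = c 0 * y1 v := by
    intro v hv
    obtain ⟨q, hq, d, hd, h1, h2, h3⟩ := ext_props (fun q hq => hq.1)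
      (fun d hd => by rw [Set.mem_singleton_iff] at hd; subst hd; exact isTot_one) hPm1 hv
    rw [Set.mem_singleton_iff] at hd
    subst hd
    refine ⟨h1, by rw [h2]; exact hq.2.1, by rw [h2]; exact hq.2.2, fun c => ?_⟩
    rw [h3, FF_one, h2, add_zero]
  have hw1 : ENNReal.ofReal (T / 20) ≤ wt W1 := by
    have h1 := wt_ext_ge (t := T) (Y := 11 / 10 * T) (F := 0) (D := {1})
      (by
        intro d hd
        rw [Set.mem_singleton_iff] at hd
        subst hd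
        exact ⟨isTot_one, (FF_one _).le, by rw [y1_one]; exact hT0⟩)
      (by
        have := rpow_le_half (Y := 11 / 10 * T) (by linarith)
        linarith)
    have h2 : wt ({1} : Set ℕ) = 1 := by
      unfold wt ws
      rw [tsum_eq_single 1 (fun v hv => by
        rw [Set.indicator_of_notMem (by simpa using hv)])]
      simp
    rw [h2, mul_one] at h1
    have h3 := (hM T (11 / 10 * T) hT0.le).trans
      (h1.trans (add_le_add le_rfl (hE (11 / 10 * T) (by linarith) (by positivity))))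
    have h4 : ENNReal.ofReal (T / 20) + 1 ≤ ENNReal.ofReal (11 / 10 * T - T - C) := by
      rw [← ENNReal.ofReal_one, ← ENNReal.ofReal_add (by positivity) (by norm_num)]
      refine ENNReal.ofReal_le_ofReal ?_
      linarith
    exact (ENNReal.add_le_add_iff_right ENNReal.one_ne_top).1 (h4.trans h3)
  -- level two
  set P2 := PPr (12 / 10 * T) (13 / 10 * T) with hP2
  have hPm2 : ∀ q ∈ P2, ∀ d ∈ W1, Pm (rr d) < q := by
    intro q hq d hd
    by_contra hcon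
    push Not at hcon
    have h1 := yy_mono hcon
    have h2 := (hprop1 d hd).2.2.1
    have h3 := hq.2.1
    unfold y1 at h2
    linarith
  refine ⟨Ext P2 W1, fun v hv => ?_, ?_⟩
  · obtain ⟨q, hq, d, hd, h1, h2, h3⟩ := ext_props (fun q hq => hq.1)
      (fun d hd => (hprop1 d hd).1) hPm2 hv
    obtain ⟨hd1, hd2, hd3, hd4⟩ := hprop1 d hd
    have hq1 := hq.2.1
    have hq2 := hq.2.2
    have ha3 := aa_one_ge
    refine ⟨h1, by rw [h2]; linarith, ?_, fun c' hc' => ?_⟩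
    · rw [h2, h3, hd4]
      simp only [zero_add]
      nlinarith
    · rw [h3, hd4]
      simp only [zero_add]
      have := hc' 0
      have := hc' 1
      nlinarith
  · have h1 := wt_ext_ge (t := 12 / 10 * T) (Y := 13 / 10 * T) (F := 429 / 1000 * T) (D := W1)
      (by
        intro d hd
        obtain ⟨hd1, hd2, hd3, hd4⟩ := hprop1 d hd
        refine ⟨hd1, ?_, by linarith⟩
        rw [hd4]
        nlinarith)
      (by
        have := rpow_le_half (Y := 13 / 10 * T) (by linarith)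
        linarith)
    have h2 : ENNReal.ofReal (13 / 10 * T - 12 / 10 * T - C) * ENNReal.ofReal (T / 20)
        ≤ wt (Ext P2 W1) + 1 :=
      (mul_le_mul' (hM _ _ (by positivity)) hw1).trans
        (h1.trans (add_le_add le_rfl (hE (13 / 10 * T) (by linarith) (by positivity))))
    have h3 : ENNReal.ofReal (1 / 1000 * T ^ 2) + 1
        ≤ ENNReal.ofReal (13 / 10 * T - 12 / 10 * T - C) * ENNReal.ofReal (T / 20) := by
      rw [← ENNReal.ofReal_mul (by linarith), ← ENNReal.ofReal_one,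
        ← ENNReal.ofReal_add (by positivity) (by norm_num)]
      refine ENNReal.ofReal_le_ofReal ?_
      nlinarith
    exact (ENNReal.add_le_add_iff_right ENNReal.one_ne_top).1 (h3.trans h2)

end Crest.Agent.R020
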