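import Mathlib
import Crest.Prelude.Def_TotientScale

/-!
Row 20, abstract end game (helper185).

* `exists_profile`: from approximate profiles `A r` with error `ε r → 0` to one limiting profile.
* `frequently_phase_eq`: every phase `s ∈ [0,1)` occurs for arbitrarily large `x`.
* `result27_of_approx`: the frozen statement S0027 from approximate profiles.
-/

set_option autoImplicit false

open Filter Topology

namespace Crest.Agent.R020

/-- The abstract profile lemma. -/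
theorem exists_profile (f ph : ℝ → ℝ)
    (hph1 : ∀ᶠ x in atTop, ph x ∈ Set.Ico (0 : ℝ) 1)
    (hph : ∀ s ∈ Set.Ico (0 : ℝ) 1, ∃ᶠ x in atTop, ph x = s)
    (A : ℕ → ℝ → ℝ) (ε : ℕ → ℝ) (hε : Tendsto ε atTop (𝓝 0))
    (h : ∀ᶠ r in atTop, ∀ᶠ x in atTop, |f x - A r (ph x)| ≤ ε r * A r (ph x))
    (hb : ∀ᶠ r in atTop, ∃ c₁ c₂ : ℝ, 0 < c₁ ∧ ∀ s ∈ Set.Ico (0 : ℝ) 1, c₁ ≤ A r s ∧ A r s ≤ c₂) :
    ∃ B : ℝ → ℝ, (∃ c₁ c₂ : ℝ, 0 < c₁ ∧ ∀ s ∈ Set.Ico (0 : ℝ) 1, c₁ ≤ B s ∧ B s ≤ c₂) ∧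
      Tendsto (fun x : ℝ => f x / B (ph x)) atTop (𝓝 1) := by
  classical
  -- the profile: a limsup along the phase `s`
  -- choose, for every `s`, the filter of large `x` with phase `s`
  let F : ℝ → Filter ℝ := fun s => atTop ⊓ 𝓟 {x | ph x = s}
  have hF : ∀ s ∈ Set.Ico (0 : ℝ) 1, (F s).NeBot := by
    intro s hs
    have := hph s hs
    rw [Filter.frequently_iff_neBot] at this
    exact this
  let B : ℝ → ℝ := fun s => limsup f (F s)
  -- key estimate: for good r, |B s - A r s| ≤ ε r * A r s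
  have hev : ∀ r, (∀ᶠ x in atTop, |f x - A r (ph x)| ≤ ε r * A r (ph x)) →
      ∀ s, ∀ᶠ x in F s, |f x - A r s| ≤ ε r * A r s := by
    intro r hr s
    have h1 : ∀ᶠ x in F s, |f x - A r (ph x)| ≤ ε r * A r (ph x) := hr.filter_mono inf_le_left
    have h2 : ∀ᶠ x in F s, ph x = s := Filter.mem_inf_of_right (Filter.mem_principal_self _)
    filter_upwards [h1, h2] with x hx1 hx2
    rw [hx2] at hx1
    exact hx1
  have hB : ∀ r, (∀ᶠ x in atTop, |f x - A r (ph x)| ≤ ε r * A r (ph x)) →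
      ∀ s ∈ Set.Ico (0 : ℝ) 1, |B s - A r s| ≤ ε r * A r s := by
    intro r hr s hs
    have := hF s hs
    have h1 := hev r hr s
    have hle : ∀ᶠ x in F s, f x ≤ A r s + ε r * A r s := by
      filter_upwards [h1] with x hx
      have := (abs_le.mp hx).2
      linarith
    have hge : ∀ᶠ x in F s, A r s - ε r * A r s ≤ f x := by
      filter_upwards [h1] with x hx
      have := (abs_le.mp hx).1
      linarith
    have hbdd_above : IsBoundedUnder (· ≤ ·) (F s) f := ⟨_, Filter.eventually_map.mpr hle⟩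
    have hbdd_below : IsBoundedUnder (· ≥ ·) (F s) f := ⟨_, Filter.eventually_map.mpr hge⟩
    have hup : B s ≤ A r s + ε r * A r s :=
      Filter.limsup_le_of_le hbdd_below.isCoboundedUnder_le hle
    have hlo : A r s - ε r * A r s ≤ B s :=
      Filter.le_limsup_of_frequently_le hge.frequently hbdd_above
    rw [abs_le]
    constructor <;> linarith
  -- bounds
  have hεhalf : ∀ᶠ r in atTop, |ε r| ≤ 1 / 2 := by
    have := hε.abs
    simp only [abs_zero] at this
    exact this.eventually_le_const (by norm_num)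
  obtain ⟨r0, hr0, hb0, he0⟩ := (h.and (hb.and hεhalf)).exists
  obtain ⟨c1, c2, hc1, hc⟩ := hb0
  have hBb : ∀ s ∈ Set.Ico (0 : ℝ) 1, c1 / 2 ≤ B s ∧ B s ≤ 2 * c2 := by
    intro s hs
    have h1 := abs_le.mp (hB r0 hr0 s hs)
    have h2 := hc s hs
    have h3 := abs_le.mp he0
    have hpos : 0 < A r0 s := lt_of_lt_of_le hc1 h2.1
    constructor
    · nlinarith [h1.1, h2.1, h3.2]
    · nlinarith [h1.2, h2.2, h3.2]
  refine ⟨B, ⟨c1 / 2, 2 * c2, by positivity, hBb⟩, ?_⟩
  -- convergence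
  rw [Metric.tendsto_nhds]
  intro δ hδ
  have hεδ : ∀ᶠ r in atTop, |ε r| ≤ min (1 / 2) (δ / 8) := by
    have := hε.abs
    simp only [abs_zero] at this
    exact this.eventually_le_const (by positivity)
  obtain ⟨r, hr, hbr, her⟩ := (h.and (hb.and hεδ)).exists
  obtain ⟨d1, d2, hd1, hd⟩ := hbr
  filter_upwards [hr, hph1] with x hx hx1
  have h1 := abs_le.mp (hB r hr (ph x) hx1)
  have h2 := hd (ph x) hx1
  have hpos : 0 < A r (ph x) := lt_of_lt_of_le hd1 h2.1
  have hBpos : 0 < B (ph x) := lt_of_lt_of_le (by positivity) (hBb (ph x) hx1).1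
  have he1 : ε r ≤ 1 / 2 := le_trans (le_abs_self _) (le_trans her (min_le_left _ _))
  have he2 : ε r ≤ δ / 8 := le_trans (le_abs_self _) (le_trans her (min_le_right _ _))
  have hx' := abs_le.mp hx
  rw [Real.dist_eq, div_sub_one hBpos.ne', abs_div, abs_of_pos hBpos, div_lt_iff₀ hBpos, abs_lt]
  have hBlow : A r (ph x) / 2 ≤ B (ph x) := by nlinarith [h1.1]
  have hkey : 2 * (ε r * A r (ph x)) < δ * B (ph x) := by
    have : ε r * A r (ph x) ≤ δ / 8 * A r (ph x) := by
      exact mul_le_mul_of_nonneg_right he2 hpos.le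
    nlinarith [mul_pos hδ hpos]
  constructor <;> nlinarith [h1.1, h1.2, hx'.1, hx'.2]

open Crest.NumberTheoryR.TotientScale in
/-- `log log x → ∞`. -/
theorem fin_tendsto_bigB : Tendsto bigB atTop atTop :=
  Real.tendsto_log_atTop.comp Real.tendsto_log_atTop

/-- `log y - log log y → ∞`. -/
theorem tendsto_log_sub_loglog :
    Tendsto (fun y : ℝ => Real.log y - Real.log (Real.log y)) atTop atTop := by
  -- log (log y) ≤ log y / 2 + C ; we use `log t ≤ t/2` for large t
  have h1 : ∀ᶠ t : ℝ in atTop, Real.log t ≤ t / 2 := by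
    have := Real.isLittleO_log_id_atTop
    have h2 := this.bound (show (0 : ℝ) < 1 / 2 by norm_num)
    filter_upwards [h2, eventually_ge_atTop (1 : ℝ)] with t ht ht1
    simp only [id, Real.norm_eq_abs] at ht
    have h3 := le_abs_self (Real.log t)
    rw [abs_of_pos (lt_of_lt_of_le one_pos ht1)] at ht
    linarith
  have h2 : ∀ᶠ y : ℝ in atTop, Real.log (Real.log y) ≤ Real.log y / 2 :=
    Real.tendsto_log_atTop.eventually h1
  have h3 : Tendsto (fun y : ℝ => Real.log y / 2) atTop atTop :=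
    Real.tendsto_log_atTop.atTop_div_const (by norm_num)
  refine tendsto_atTop_mono' atTop ?_ h3
  filter_upwards [h2] with y hy
  linarith

open Crest.NumberTheoryR.TotientScale in
theorem fin_lam_pos {ρ : ℝ} (hρ0 : 0 < ρ) (hρ1 : ρ < 1) : 0 < lam ρ := by
  unfold lam
  exact Real.log_pos (by rw [lt_div_iff₀ hρ0]; linarith)

open Crest.NumberTheoryR.TotientScale in
theorem fin_tendsto_phaseArg {ρ : ℝ} (hρ0 : 0 < ρ) (hρ1 : ρ < 1) :
    Tendsto (phaseArg ρ) atTop atTop := by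
  have h := (tendsto_log_sub_loglog.comp fin_tendsto_bigB)
  exact h.atTop_div_const (fin_lam_pos hρ0 hρ1)

open Crest.NumberTheoryR.TotientScale in
theorem fin_eventually_phase_mem {ρ : ℝ} (hρ0 : 0 < ρ) (hρ1 : ρ < 1) :
    ∀ᶠ x in atTop, phase ρ x ∈ Set.Ico (0 : ℝ) 1 := by
  filter_upwards [(fin_tendsto_phaseArg hρ0 hρ1).eventually_ge_atTop 0] with x hx
  unfold phase mIndex
  constructor
  · have := Nat.floor_le hx
    linarith
  · have := Nat.lt_floor_add_one (phaseArg ρ x)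
    linarith

open Crest.NumberTheoryR.TotientScale in
/-- every phase occurs for arbitrarily large `x` -/
theorem frequently_phase_eq {ρ : ℝ} (hρ0 : 0 < ρ) (hρ1 : ρ < 1) :
    ∀ s ∈ Set.Ico (0 : ℝ) 1, ∃ᶠ x in atTop, phase ρ x = s := by
  intro s hs
  rw [Filter.frequently_atTop]
  intro X
  -- continuity on a half line where all logarithms are positive
  set X₀ : ℝ := max X (Real.exp (Real.exp (Real.exp 1))) with hX₀
  have hcont : ContinuousOn (phaseArg ρ) (Set.Ici X₀) := by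
    have hx0 : ∀ x ∈ Set.Ici X₀, 0 < x := by
      intro x hx
      have : Real.exp (Real.exp (Real.exp 1)) ≤ x := le_trans (le_max_right _ _) hx
      exact lt_of_lt_of_le (Real.exp_pos _) this
    have hx1 : ∀ x ∈ Set.Ici X₀, Real.exp (Real.exp 1) ≤ Real.log x := by
      intro x hx
      have : Real.exp (Real.exp (Real.exp 1)) ≤ x := le_trans (le_max_right _ _) hx
      have := Real.log_le_log (Real.exp_pos _) this
      rwa [Real.log_exp] at this
    have hx2 : ∀ x ∈ Set.Ici X₀, Real.exp 1 ≤ Real.log (Real.log x) := by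
      intro x hx
      have := Real.log_le_log (Real.exp_pos _) (hx1 x hx)
      rwa [Real.log_exp] at this
    have hx3 : ∀ x ∈ Set.Ici X₀, 1 ≤ Real.log (Real.log (Real.log x)) := by
      intro x hx
      have := Real.log_le_log (Real.exp_pos _) (hx2 x hx)
      rwa [Real.log_exp] at this
    have c1 : ContinuousOn (fun x : ℝ => Real.log x) (Set.Ici X₀) :=
      continuousOn_id.log (fun x hx => (hx0 x hx).ne')
    have c2 : ContinuousOn (fun x : ℝ => Real.log (Real.log x)) (Set.Ici X₀) :=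
      c1.log (fun x hx => (lt_of_lt_of_le (Real.exp_pos _) (hx1 x hx)).ne')
    have c3 : ContinuousOn (fun x : ℝ => Real.log (Real.log (Real.log x))) (Set.Ici X₀) :=
      c2.log (fun x hx => (lt_of_lt_of_le (Real.exp_pos _) (hx2 x hx)).ne')
    have c4 : ContinuousOn (fun x : ℝ => Real.log (Real.log (Real.log (Real.log x)))) (Set.Ici X₀) :=
      c3.log (fun x hx => (lt_of_lt_of_le one_pos (hx3 x hx)).ne')
    exact (c3.sub c4).div_const _
  -- a large integer above `phaseArg ρ X₀`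
  obtain ⟨m, hm⟩ := exists_nat_ge (phaseArg ρ X₀)
  have hlarge : ∀ᶠ x in atTop, (m : ℝ) + s ≤ phaseArg ρ x :=
    (fin_tendsto_phaseArg hρ0 hρ1).eventually_ge_atTop _
  obtain ⟨Y, hY1, hY2⟩ := (hlarge.and (eventually_ge_atTop X₀)).exists
  have hmem : (m : ℝ) + s ∈ Set.Icc (phaseArg ρ X₀) (phaseArg ρ Y) :=
    ⟨by linarith [hs.1], hY1⟩
  obtain ⟨x, hx1, hx2⟩ := intermediate_value_Icc hY2 (hcont.mono Set.Icc_subset_Ici_self) hmem
  refine ⟨x, le_trans (le_max_left _ _) hx1.1, ?_⟩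
  unfold phase mIndex
  rw [hx2]
  have hfl : Nat.floor ((m : ℝ) + s) = m := by
    rw [Nat.floor_eq_iff (by linarith [hs.1, (Nat.cast_nonneg m : (0 : ℝ) ≤ m)])]
    exact ⟨by linarith [hs.1], by linarith [hs.2]⟩
  rw [hfl]
  ring

open Crest.NumberTheoryR.TotientScale in
/-- S0027 from approximate profiles. `f x` is the normalised count. -/
theorem result27_of_approx (ρ : ℝ) (hρ0 : 0 < ρ) (hρ1 : ρ < 1)
    (A : ℕ → ℝ → ℝ) (ε : ℕ → ℝ) (hε : Tendsto ε atTop (𝓝 0))
    (h : ∀ᶠ r in atTop, ∀ᶠ x in atTop,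
      |(totientCount x : ℝ) / (x / Real.log x * scaleG ρ x) - A r (phase ρ x)|
        ≤ ε r * A r (phase ρ x))
    (hb : ∀ᶠ r in atTop, ∃ c₁ c₂ : ℝ, 0 < c₁ ∧ ∀ s ∈ Set.Ico (0 : ℝ) 1, c₁ ≤ A r s ∧ A r s ≤ c₂) :
    ∃ A : ℝ → ℝ, (∃ c₁ c₂ : ℝ, 0 < c₁ ∧ ∀ s ∈ Set.Ico (0 : ℝ) 1, c₁ ≤ A s ∧ A s ≤ c₂) ∧
      Tendsto (fun x : ℝ =>
          (totientCount x : ℝ) / (x / Real.log x * scaleG ρ x * A (phase ρ x)))
        atTop (𝓝 1) := by
  obtain ⟨B, hB, hT⟩ := exists_profile
    (fun x => (totientCount x : ℝ) / (x / Real.log x * scaleG ρ x)) (phase ρ)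
    (fin_eventually_phase_mem hρ0 hρ1) (frequently_phase_eq hρ0 hρ1) A ε hε h hb
  refine ⟨B, hB, ?_⟩
  refine hT.congr (fun x => ?_)
  rw [div_div]

end Crest.Agent.R020
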