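import Mathlib
import Crest.Agent.R020.Final
import Crest.Agent.R020.Rho
import Crest.Agent.R020.Stmt

/-!
Row 20: S0026 and S0027 from the chain (`StmtChain`) and the top step
`V(x) ~ (x / log x) S(B)`.
-/

set_option autoImplicit false

open Filter Topology
open Crest.NumberTheoryR.TotientScale

namespace Crest.Agent.R020

/-- the top step: `V(x) ~ (x / log x) S(log log x)` -/
def StmtTop : Prop :=
  Tendsto (fun x : ℝ => (totientCount x : ℝ) / (x / Real.log x * (SB (bigB x)).toReal)) atTop (𝓝 1)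

theorem SB_mono {a b : ℝ} (h : a ≤ b) : SB a ≤ SB b :=
  wt_mono fun _ hv => ⟨hv.1, hv.2.trans h⟩

theorem scaleG_pos {ρ x : ℝ} (hx : 0 < bigB x) : 0 < scaleG ρ x := by
  unfold scaleG
  refine div_pos (pow_pos hx _) (mul_pos (by exact_mod_cast Nat.factorial_pos _) ?_)
  exact Finset.prod_pos fun i _ => gSeq_pos _

/-- if `B'` is within `B^{0.97}` of `B` then `SB B'` is finite and `SB B' / G` is close to `A`. -/
theorem SB_sandwich {ρ x B' A ε : ℝ} (hG : 0 < scaleG ρ x)
    (h1 : bigB x - bigB x ^ (97 / 100 : ℝ) ≤ B') (h2 : B' ≤ bigB x + bigB x ^ (97 / 100 : ℝ))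
    (ht : SB (bigB x + bigB x ^ (97 / 100 : ℝ)) ≠ ⊤)
    (hu : |(SB (bigB x + bigB x ^ (97 / 100 : ℝ))).toReal / scaleG ρ x - A| ≤ ε * A)
    (hl : |(SB (bigB x - bigB x ^ (97 / 100 : ℝ))).toReal / scaleG ρ x - A| ≤ ε * A) :
    SB B' ≠ ⊤ ∧ |(SB B').toReal / scaleG ρ x - A| ≤ ε * A := by
  have hB : SB B' ≠ ⊤ := ne_top_of_le_ne_top ht (SB_mono h2)
  have e1 : (SB B').toReal ≤ (SB (bigB x + bigB x ^ (97 / 100 : ℝ))).toReal :=
    ENNReal.toReal_mono ht (SB_mono h2)
  have e2 : (SB (bigB x - bigB x ^ (97 / 100 : ℝ))).toReal ≤ (SB B').toReal :=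
    ENNReal.toReal_mono hB (SB_mono h1)
  have e3 := div_le_div_of_nonneg_right e1 hG.le
  have e4 := div_le_div_of_nonneg_right e2 hG.le
  refine ⟨hB, ?_⟩
  rw [abs_le] at hu hl ⊢
  constructor
  · linarith [hl.1]
  · linarith [hu.2]

/-- S0027 from the chain and the top step. -/
theorem result27_of (hchain : StmtChain) (htop : StmtTop) (ρ : ℝ) (hρ0 : 0 < ρ) (hρ1 : ρ < 1)
    (hρ : HasSum (fun j : ℕ => aCoef (j + 1) * ρ ^ (j + 1)) 1) :
    ∃ A : ℝ → ℝ, (∃ c₁ c₂ : ℝ, 0 < c₁ ∧ ∀ s ∈ Set.Ico (0 : ℝ) 1, c₁ ≤ A s ∧ A s ≤ c₂) ∧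
      Tendsto (fun x : ℝ =>
          (totientCount x : ℝ) / (x / Real.log x * scaleG ρ x * A (phase ρ x)))
        atTop (𝓝 1) := by
  obtain ⟨A, ε, hε, hb, h⟩ := hchain ρ hρ0 hρ1 hρ
  set ε' : ℕ → ℝ := fun r => 1 / ((r : ℝ) + 1) * (1 + ε r) + ε r with hε'
  have hε'0 : Tendsto ε' atTop (𝓝 0) := by
    have h1 : Tendsto (fun r : ℕ => 1 / ((r : ℝ) + 1)) atTop (𝓝 0) :=
      tendsto_one_div_add_atTop_nhds_zero_nat
    have h2 : Tendsto (fun r : ℕ => 1 + ε r) atTop (𝓝 (1 + 0)) := tendsto_const_nhds.add hε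
    have := (h1.mul h2).add hε
    rw [zero_mul, zero_add] at this
    exact this
  refine result27_of_approx ρ hρ0 hρ1 A ε' hε'0 ?_ hb
  have hεs : ∀ᶠ r in atTop, |ε r| ≤ 1 / 2 := by
    have := hε.abs
    rw [abs_zero] at this
    exact this.eventually (ge_mem_nhds (by norm_num))
  filter_upwards [h, hb, hεs] with r hr hbr hεr
  obtain ⟨c₁, c₂, hc₁, hbr⟩ := hbr
  have hδ : (0 : ℝ) < 1 / ((r : ℝ) + 1) := by positivity
  have htop1 : ∀ᶠ x : ℝ in atTop,
      |(totientCount x : ℝ) / (x / Real.log x * (SB (bigB x)).toReal) - 1| ≤ 1 / ((r : ℝ) + 1) := by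
    have h3 := (tendsto_sub_nhds_zero_iff.mpr htop).abs
    rw [abs_zero] at h3
    exact h3.eventually (ge_mem_nhds hδ)
  filter_upwards [hr, htop1, fin_eventually_phase_mem hρ0 hρ1,
    fin_tendsto_bigB.eventually_gt_atTop 0, Filter.eventually_gt_atTop (Real.exp 1)] with
    x hx1 hx2 hph hB hx
  obtain ⟨ht, hu, hl⟩ := hx1
  have hG : 0 < scaleG ρ x := scaleG_pos hB
  have hA := hbr _ hph
  set a := A r (phase ρ x) with ha
  have ha0 : 0 < a := lt_of_lt_of_le hc₁ hA.1
  have hBp : 0 ≤ bigB x ^ (97 / 100 : ℝ) := Real.rpow_nonneg hB.le _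
  obtain ⟨hBt, hS⟩ := SB_sandwich (B' := bigB x) hG (by linarith) (by linarith) ht hu hl
  set s := (SB (bigB x)).toReal / scaleG ρ x with hs
  rw [abs_le] at hS hεr
  have hs0 : 0 < s := by nlinarith [hS.1]
  have hSpos : 0 < (SB (bigB x)).toReal := by
    have : (SB (bigB x)).toReal = s * scaleG ρ x := by rw [hs]; field_simp
    rw [this]; positivity
  have hx0 : 0 < x := lt_trans (Real.exp_pos 1) hx
  have hlogx : 0 < Real.log x := by
    have := Real.log_lt_log (Real.exp_pos 1) hx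
    rw [Real.log_exp] at this
    linarith
  set t := (totientCount x : ℝ) / (x / Real.log x * (SB (bigB x)).toReal) with htdef
  have heq : (totientCount x : ℝ) / (x / Real.log x * scaleG ρ x) = t * s := by
    rw [htdef, hs]
    field_simp
  rw [heq]
  have h5 : t * s - a = (t - 1) * s + (s - a) := by ring
  rw [h5]
  have hs2 : s ≤ (1 + ε r) * a := by linarith [hS.2]
  calc |(t - 1) * s + (s - a)| ≤ |(t - 1) * s| + |s - a| := abs_add_le _ _
    _ ≤ 1 / ((r : ℝ) + 1) * ((1 + ε r) * a) + ε r * a := by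
        refine add_le_add ?_ (abs_le.mpr hS)
        rw [abs_mul, abs_of_pos hs0]
        exact mul_le_mul hx2 hs2 hs0.le hδ.le
    _ = ε' r * a := by rw [hε']; ring

/-- `log log (c x) - log log x → 0` -/
theorem tendsto_bigB_mul_sub {c : ℝ} (hc : 0 < c) :
    Tendsto (fun x : ℝ => bigB (c * x) - bigB x) atTop (𝓝 0) := by
  have h1 : Tendsto (fun x : ℝ => Real.log c / Real.log x) atTop (𝓝 0) :=
    tendsto_const_nhds.div_atTop Real.tendsto_log_atTop
  have h2 : Tendsto (fun x : ℝ => Real.log (1 + Real.log c / Real.log x)) atTop (𝓝 0) := by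
    have h3 : Tendsto (fun x : ℝ => 1 + Real.log c / Real.log x) atTop (𝓝 (1 + 0)) :=
      tendsto_const_nhds.add h1
    rw [add_zero] at h3
    have := (Real.continuousAt_log (one_ne_zero)).tendsto.comp h3
    rw [Real.log_one] at this
    exact this
  refine h2.congr' ?_
  have h4 : Tendsto (fun x : ℝ => Real.log (c * x)) atTop atTop :=
    Real.tendsto_log_atTop.comp (tendsto_id.const_mul_atTop hc)
  filter_upwards [Filter.eventually_gt_atTop 1, h4.eventually_gt_atTop 0] with x hx hcx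
  have hx0 : 0 < x := by linarith
  have hlx : 0 < Real.log x := Real.log_pos hx
  unfold bigB
  rw [← Real.log_div hcx.ne' hlx.ne', Real.log_mul hc.ne' hx0.ne']
  congr 1
  field_simp
  ring

/-- `log x / log (c x) → 1` -/
theorem tendsto_log_div_log_mul {c : ℝ} (hc : 0 < c) :
    Tendsto (fun x : ℝ => Real.log x / Real.log (c * x)) atTop (𝓝 1) := by
  have h1 : Tendsto (fun x : ℝ => Real.log c / Real.log x) atTop (𝓝 0) :=
    tendsto_const_nhds.div_atTop Real.tendsto_log_atTop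
  have h3 : Tendsto (fun x : ℝ => 1 + Real.log c / Real.log x) atTop (𝓝 (1 + 0)) :=
    tendsto_const_nhds.add h1
  rw [add_zero] at h3
  have h5 := h3.inv₀ one_ne_zero
  rw [inv_one] at h5
  refine h5.congr' ?_
  filter_upwards [Filter.eventually_gt_atTop 1] with x hx
  have hx0 : 0 < x := by linarith
  have hlx : 0 < Real.log x := Real.log_pos hx
  rw [Real.log_mul hc.ne' hx0.ne']
  rw [show 1 + Real.log c / Real.log x = (Real.log c + Real.log x) / Real.log x by
    field_simp; ring, inv_div]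

/-- `S(log log (c x)) / S(log log x) → 1`, with eventual positivity. -/
theorem SB_ratio (hchain : StmtChain) {c : ℝ} (hc : 0 < c) :
    (∀ᶠ x : ℝ in atTop, 0 < (SB (bigB x)).toReal) ∧
    Tendsto (fun x : ℝ => (SB (bigB (c * x))).toReal / (SB (bigB x)).toReal) atTop (𝓝 1) := by
  obtain ⟨ρ, hρ0, hρ1, hρ⟩ := exists_rho
  obtain ⟨A, ε, hε, hb, h⟩ := hchain ρ hρ0 hρ1 hρ
  -- key estimate for every good `r`
  have key : ∀ᶠ r in atTop, |ε r| ≤ 1 / 2 ∧ ∀ᶠ x : ℝ in atTop, 0 < (SB (bigB x)).toReal ∧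
      |(SB (bigB (c * x))).toReal / (SB (bigB x)).toReal - 1| ≤ 4 * |ε r| := by
    have hεs : ∀ᶠ r in atTop, |ε r| ≤ 1 / 2 := by
      have := hε.abs
      rw [abs_zero] at this
      exact this.eventually (ge_mem_nhds (by norm_num))
    filter_upwards [h, hb, hεs] with r hr hbr hεr
    refine ⟨hεr, ?_⟩
    obtain ⟨c₁, c₂, hc₁, hbr⟩ := hbr
    have hdiff : ∀ᶠ x : ℝ in atTop, |bigB (c * x) - bigB x| ≤ 1 := by
      have := (tendsto_bigB_mul_sub hc).abs
      rw [abs_zero] at this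
      exact this.eventually (ge_mem_nhds (by norm_num))
    filter_upwards [hr, fin_eventually_phase_mem hρ0 hρ1,
      fin_tendsto_bigB.eventually_ge_atTop 1, hdiff] with x hx1 hph hB hd
    obtain ⟨ht, hu, hl⟩ := hx1
    have hG : 0 < scaleG ρ x := scaleG_pos (by linarith)
    have hA := hbr _ hph
    set a := A r (phase ρ x) with ha
    have ha0 : 0 < a := lt_of_lt_of_le hc₁ hA.1
    have hBp : 1 ≤ bigB x ^ (97 / 100 : ℝ) := Real.one_le_rpow hB (by norm_num)
    rw [abs_le] at hd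
    obtain ⟨hBt, hS⟩ := SB_sandwich (B' := bigB x) hG (by linarith) (by linarith) ht hu hl
    obtain ⟨hBt', hS'⟩ := SB_sandwich (B' := bigB (c * x)) hG (by linarith) (by linarith) ht hu hl
    set s := (SB (bigB x)).toReal / scaleG ρ x with hs
    set s' := (SB (bigB (c * x))).toReal / scaleG ρ x with hs'
    have hεr0 : 0 ≤ ε r := by
      by_contra hcon
      push Not at hcon
      have := (abs_nonneg _).trans hS
      nlinarith
    rw [abs_of_nonneg hεr0] at hεr ⊢
    rw [abs_le] at hS hS'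
    have hs0 : a / 2 ≤ s := by nlinarith [hS.1]
    have hspos : 0 < s := by linarith
    have hSpos : 0 < (SB (bigB x)).toReal := by
      have : (SB (bigB x)).toReal = s * scaleG ρ x := by rw [hs]; field_simp
      rw [this]; positivity
    refine ⟨hSpos, ?_⟩
    have heq : (SB (bigB (c * x))).toReal / (SB (bigB x)).toReal = s' / s := by
      rw [hs, hs']
      field_simp
    rw [heq, div_sub_one hspos.ne', abs_div, abs_of_pos hspos, div_le_iff₀ hspos]
    have h6 : |s' - s| ≤ 2 * (ε r * a) := by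
      rw [abs_le]
      constructor <;> linarith [hS.1, hS.2, hS'.1, hS'.2]
    refine h6.trans ?_
    nlinarith
  obtain ⟨r₀, hr₀⟩ := key.exists
  refine ⟨hr₀.2.mono fun x hx => hx.1, ?_⟩
  rw [Metric.tendsto_nhds]
  intro δ hδ
  have hεδ : ∀ᶠ r in atTop, 4 * |ε r| < δ := by
    have := (hε.abs).const_mul 4
    rw [abs_zero, mul_zero] at this
    exact this.eventually (gt_mem_nhds hδ)
  obtain ⟨r, hr1, hr2⟩ := (key.and hεδ).exists
  filter_upwards [hr1.2] with x hx
  rw [Real.dist_eq]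
  exact lt_of_le_of_lt hx.2 hr2

/-- S0026 from the chain and the top step. -/
theorem result26_of (hchain : StmtChain) (htop : StmtTop) (c : ℝ) (hc : 0 < c) :
    Tendsto (fun x : ℝ => (totientCount (c * x) : ℝ) / (totientCount x : ℝ)) atTop (𝓝 c) := by
  obtain ⟨hpos, hratio⟩ := SB_ratio hchain hc
  have hcx : Tendsto (fun x : ℝ => c * x) atTop atTop := tendsto_id.const_mul_atTop hc
  have ht1 := htop.comp hcx
  have hlim := ((ht1.div htop one_ne_zero).mul (tendsto_log_div_log_mul hc)).mul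
    (hratio.const_mul c)
  have e : (1 : ℝ) / 1 * 1 * (c * 1) = c := by norm_num
  rw [e] at hlim
  refine hlim.congr' ?_
  have htpos : ∀ᶠ x : ℝ in atTop,
      (totientCount x : ℝ) / (x / Real.log x * (SB (bigB x)).toReal) ≠ 0 := by
    have := htop.eventually (lt_mem_nhds (show (1 / 2 : ℝ) < 1 by norm_num))
    filter_upwards [this] with x hx
    linarith
  filter_upwards [hpos, hcx.eventually hpos, htpos, Filter.eventually_gt_atTop 1,
    hcx.eventually_gt_atTop 1] with x h1 h2 h3 h4 h5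
  have hx0 : 0 < x := by linarith
  have hl : 0 < Real.log x := Real.log_pos h4
  have hcl : 0 < Real.log (c * x) := Real.log_pos h5
  have hV : (totientCount x : ℝ) ≠ 0 := by
    intro h0
    rw [h0, zero_div] at h3
    exact h3 rfl
  simp only [Pi.div_apply, Function.comp]
  have hV' : 0 < (totientCount x : ℝ) := lt_of_le_of_ne (Nat.cast_nonneg _) (Ne.symm hV)
  field_simp

end Crest.Agent.R020
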