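import Crest.Agent.R020.OneStep
import Crest.Agent.R020.Renewal

/-!
Row 20 (helper688): the one-step lemma in the form `StmtFup`, `StmtFupV`, `StmtFlow`.
-/

set_option autoImplicit false

open scoped ENNReal Topology
open MeasureTheory Filter

noncomputable section

namespace Crest.Agent.R020

/-! ### conversion between real and extended test functions -/

section conv

variable {Ys : ℝ} {c : ℕ → ℝ} {ψ : ℝ → ℝ}

lemma Adm.antiE (h : Adm Ys c ψ) : Antitone (fun t => ENNReal.ofReal (ψ t)) :=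
  fun _ _ hst => ENNReal.ofReal_le_ofReal (h.anti hst)

lemma Adm.PsiI_eq (h : Adm Ys c ψ) (t : ℝ) :
    PsiI (fun t => ENNReal.ofReal (ψ t)) t = ENNReal.ofReal (TI ψ t) := by
  unfold PsiI TI
  rw [ofReal_integral_eq_lintegral_ofReal (h.integrable t)]
  exact Filter.Eventually.of_forall (fun x => h.nonneg x)

lemma Adm.inv_eq (h : Adm Ys c ψ) :
    (ENNReal.ofReal (c 0))⁻¹ = ENNReal.ofReal (1 / c 0) := by
  rw [one_div, ENNReal.ofReal_inv_of_pos h.c_pos]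

lemma Adm.ws_eq (h : Adm Ys c ψ) (f : ℕ → ℝ) (A : Set ℕ) :
    ws (fun d => PsiI (fun t => ENNReal.ofReal (ψ t)) (f d) * (d : ℝ≥0∞)⁻¹) A
      = wsum (fun d => TI ψ (f d)) A := by
  unfold wsum
  congr 1
  ext d
  rw [h.PsiI_eq]

lemma Adm.decay' (h : Adm Ys c ψ) (hYs : 0 < Ys) {y : ℝ} (hy : 0 ≤ y) :
    ENNReal.ofReal (ψ (c 0 * y)) ≤
      ENNReal.ofReal (3 * ψ 0) * ENNReal.ofReal (Real.exp (-y / (3 * Ys))) := by
  have h0 := h.nonneg 0
  rw [← ENNReal.ofReal_mul (by positivity)]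
  apply ENNReal.ofReal_le_ofReal
  refine (h.decay y hy).trans ?_
  have : -y / Ys ≤ -y / (3 * Ys) := by
    rw [neg_div, neg_div, neg_le_neg_iff]
    apply div_le_div_of_nonneg_left hy hYs
    linarith
  gcongr

/-- `(1/c_0) Ψ(c_0 z) ≤ 3 ψ(0) Ys exp(-z/Ys)`. -/
lemma Adm.Psi_tail (h : Adm Ys c ψ) (hYs : 0 < Ys) {z : ℝ} (hz : 0 ≤ z) :
    (ENNReal.ofReal (c 0))⁻¹ * PsiI (fun t => ENNReal.ofReal (ψ t)) (c 0 * z) ≤
      ENNReal.ofReal (3 * ψ 0 * (Ys * Real.exp (-z / Ys))) := by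
  have h0 := h.nonneg 0
  have h1 := os_lintegral_affine (fun t => ENNReal.ofReal (ψ t)) h.c_pos 0 z
  rw [add_zero] at h1
  unfold PsiI
  rw [← h1]
  have h2 : ∫⁻ u in Set.Ioi z, ENNReal.ofReal (ψ (c 0 * u + 0)) ≤
      ∫⁻ u in Set.Ioi z, ENNReal.ofReal (3 * ψ 0 * Real.exp ((-1 / Ys) * u)) := by
    apply setLIntegral_mono' measurableSet_Ioi
    intro u hu
    apply ENNReal.ofReal_le_ofReal
    rw [add_zero]
    have hu' : z < u := hu
    have := h.decay u (by linarith)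
    have e1 : -1 / Ys * u = -u / Ys := by ring
    rw [e1]
    exact this
  refine h2.trans ?_
  have hint : IntegrableOn (fun u : ℝ => 3 * ψ 0 * Real.exp ((-1 / Ys) * u)) (Set.Ioi z) := by
    apply Integrable.const_mul
    exact integrableOn_exp_mul_Ioi (by
      have := div_pos one_pos hYs
      rw [neg_div]
      linarith) z
  rw [← ofReal_integral_eq_lintegral_ofReal hint
    (Filter.Eventually.of_forall (fun x => by positivity))]
  apply ENNReal.ofReal_le_ofReal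
  rw [integral_const_mul, integral_exp_mul_Ioi (by
      have := div_pos one_pos hYs
      rw [neg_div]
      linarith) z]
  apply le_of_eq
  have e1 : -1 / Ys * z = -z / Ys := by ring
  rw [e1]
  field_simp

end conv

lemma os_TT_aa (c : ℕ → ℝ) : TT aa c = Tc c := rfl

lemma os_aa_nonneg (i : ℕ) : 0 ≤ aa i := (aCoef_pos (i + 1) (by omega)).le

lemma os_wt2_mono {A B : Set (ℕ × ℕ)} (h : A ⊆ B) : wt2 A ≤ wt2 B := by
  unfold wt2
  apply ENNReal.tsum_le_tsum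
  intro v
  exact Set.indicator_le_indicator_of_subset h (fun _ => zero_le) v

/-! ### the scales -/

/-- `(Ys^{1.01})^{19/20} + C ≤ 2 Ys^{24/25}`. -/
lemma os_scale_le {C Ys : ℝ} (hC : 0 ≤ C) (hYs : (C + 1) ^ 2 ≤ Ys) :
    (Ys ^ (1.01 : ℝ)) ^ (19 / 20 : ℝ) + C ≤ 2 * Ys ^ (24 / 25 : ℝ) := by
  have h1 : 1 ≤ Ys := le_trans (by nlinarith) hYs
  have h2 : (Ys ^ (1.01 : ℝ)) ^ (19 / 20 : ℝ) ≤ Ys ^ (24 / 25 : ℝ) := by
    rw [← Real.rpow_mul (by linarith)]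
    apply Real.rpow_le_rpow_of_exponent_le h1
    norm_num
  have h3 : C ≤ Ys ^ (24 / 25 : ℝ) := by
    have h4 : Ys ^ (1 / 2 : ℝ) ≤ Ys ^ (24 / 25 : ℝ) := by
      apply Real.rpow_le_rpow_of_exponent_le h1
      norm_num
    have h5 : C + 1 ≤ Ys ^ (1 / 2 : ℝ) := by
      rw [← Real.sqrt_eq_rpow]
      apply Real.le_sqrt_of_sq_le
      exact hYs
    linarith
  linarith

lemma os_le_scale {Ys : ℝ} (h1 : 1 ≤ Ys) : Ys ≤ Ys ^ (1.01 : ℝ) := by
  calc Ys = Ys ^ (1 : ℝ) := (Real.rpow_one _).symm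
    _ ≤ Ys ^ (1.01 : ℝ) := by
      apply Real.rpow_le_rpow_of_exponent_le h1
      norm_num

/-- the exponential comparison at the scale `Y = Ys^{1.01}` -/
lemma os_eventually_scale (C : ℝ) : ∀ᶠ Ys : ℝ in atTop,
    Ys * Real.exp (-(Ys ^ (1.01 : ℝ)) / Ys) *
      Real.exp (C * Real.log (Ys ^ (1.01 : ℝ) + 2) ^ 2) ≤ 1 := by
  have h1 := isLittleO_log_rpow_rpow_atTop (s := (0.01 : ℝ)) 2 (by norm_num)
  have h2 := h1.def (c := 1 / (2 * (9 * |C| + 1))) (by positivity)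
  have h3 := isLittleO_log_rpow_rpow_atTop (s := (0.01 : ℝ)) 1 (by norm_num)
  have h4 := h3.def (c := 1 / 2) (by norm_num)
  filter_upwards [h2, h4, eventually_ge_atTop (3 : ℝ)] with Ys h2 h4 h5
  have hYs0 : 0 < Ys := by linarith
  have hlog : 0 ≤ Real.log Ys := Real.log_nonneg (by linarith)
  have hp : 0 < Ys ^ (0.01 : ℝ) := Real.rpow_pos_of_pos hYs0 _
  rw [Real.norm_of_nonneg (Real.rpow_nonneg hlog _), Real.norm_of_nonneg hp.le] at h2 h4
  rw [Real.rpow_one] at h4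
  have h2' : Real.log Ys ^ 2 ≤ 1 / (2 * (9 * |C| + 1)) * Ys ^ (0.01 : ℝ) := by
    have e : Real.log Ys ^ (2 : ℝ) = Real.log Ys ^ 2 := by
      rw [← Real.rpow_natCast]
      norm_num
    rw [e] at h2
    exact h2
  have h6 : Ys ^ (1.01 : ℝ) / Ys = Ys ^ (0.01 : ℝ) := by
    rw [div_eq_iff hYs0.ne']
    nth_rewrite 3 [← Real.rpow_one Ys]
    rw [← Real.rpow_add hYs0]
    norm_num
  have h7 : Real.log (Ys ^ (1.01 : ℝ) + 2) ≤ 3 * Real.log Ys := by
    have h8 : Ys ^ (1.01 : ℝ) ≤ Ys ^ (2 : ℝ) := by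
      apply Real.rpow_le_rpow_of_exponent_le (by linarith)
      norm_num
    have e : Ys ^ (2 : ℝ) = Ys ^ 2 := by
      rw [← Real.rpow_natCast]
      norm_num
    rw [e] at h8
    have h9 : Ys ^ (1.01 : ℝ) + 2 ≤ Ys ^ 3 := by nlinarith [pow_pos hYs0 2]
    calc Real.log (Ys ^ (1.01 : ℝ) + 2) ≤ Real.log (Ys ^ 3) :=
          Real.log_le_log (by positivity) h9
      _ = 3 * Real.log Ys := by
        rw [Real.log_pow]
        norm_num
  have h10 : 0 ≤ Real.log (Ys ^ (1.01 : ℝ) + 2) := by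
    apply Real.log_nonneg
    have : 0 ≤ Ys ^ (1.01 : ℝ) := Real.rpow_nonneg hYs0.le _
    linarith
  have h11 : C * Real.log (Ys ^ (1.01 : ℝ) + 2) ^ 2 ≤ 9 * |C| * Real.log Ys ^ 2 := by
    calc C * Real.log (Ys ^ (1.01 : ℝ) + 2) ^ 2 ≤ |C| * Real.log (Ys ^ (1.01 : ℝ) + 2) ^ 2 := by
          gcongr
          exact le_abs_self C
      _ ≤ |C| * (3 * Real.log Ys) ^ 2 := by gcongr
      _ = _ := by ring
  have h12 : 9 * |C| * Real.log Ys ^ 2 ≤ 1 / 2 * Ys ^ (0.01 : ℝ) := by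
    have hD : (0 : ℝ) < 9 * |C| + 1 := by positivity
    calc 9 * |C| * Real.log Ys ^ 2 ≤ (9 * |C| + 1) * Real.log Ys ^ 2 := by
          gcongr
          linarith
      _ ≤ (9 * |C| + 1) * (1 / (2 * (9 * |C| + 1)) * Ys ^ (0.01 : ℝ)) := by gcongr
      _ = _ := by field_simp
  nth_rewrite 1 [← Real.exp_log hYs0]
  rw [← Real.exp_add, ← Real.exp_add]
  rw [Real.exp_le_one_iff, neg_div, h6]
  linarith

/-! ### the upper bounds -/

/-- common part of the two upper bounds -/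
theorem os_up_common {C : ℝ} (hC : 0 ≤ C) (hPS : PSup C) {Csq : ℝ} (hCsq : 0 < Csq)
    (hSq : wt {v | IsTot v ∧ Sq v} ≤ ENNReal.ofReal Csq) {Ys : ℝ} (hYs : (C + 1) ^ 2 ≤ Ys)
    (hT : ws (fun v => ENNReal.ofReal (Real.exp (-(y1 v) / (3 * Ys))) * (v : ℝ≥0∞)⁻¹)
      {v | IsTot v ∧ Ys ^ (1.01 : ℝ) < y1 v} ≤ ENNReal.ofReal (1 / Ys))
    {c e : ℕ → ℝ} {ψ : ℝ → ℝ} (hψ : Adm Ys c ψ) {A Exc D : Set ℕ} (hExc : wt Exc ≤ 1)
    (hA : ∀ v ∈ A, IsTot v ∧ (v ≠ 1 → ¬ Sq v → tl v ∈ D ∧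
      (y1 v ≤ Ys ^ (1.01 : ℝ) → v ∉ Exc →
        FF e (tl v) - (Ys ^ (1.01 : ℝ)) ^ (19 / 20 : ℝ) ≤ y1 v))) :
    wsum (fun v => ψ (FF c v)) A ≤
      ENNReal.ofReal (1 / c 0) *
        wsum (fun d => TI ψ (FF (fun i => c 0 * e i + c (i + 1)) d -
          2 * c 0 * Ys ^ (24 / 25 : ℝ))) {d | IsTot d ∧ d ∈ D}
      + ENNReal.ofReal ((2 + Csq + 3) * ψ 0) := by
  have h1 : 1 ≤ Ys := le_trans (by nlinarith) hYs
  have h0 := hψ.nonneg 0
  have hYs0 : 0 < Ys := by linarith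
  set Y : ℝ := Ys ^ (1.01 : ℝ) with hY
  have hY0 : 0 ≤ Y := Real.rpow_nonneg hYs0.le _
  have key := one_step_up hPS (c := c) (e := e) hψ.c_pos hψ.c_nonneg hψ.antiE
    (A := A) (Exc := Exc) (D := D) (E := Y ^ (19 / 20 : ℝ)) (Y := Y)
    (H := 2 * c 0 * Ys ^ (24 / 25 : ℝ)) (fun v hv => (hA v hv).1)
    (by
      have := mul_le_mul_of_nonneg_left (os_scale_le hC hYs) hψ.c_pos.le
      rw [← hY] at this
      linarith)
    (fun v hv hv1 hvs hvY hvE => by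
      obtain ⟨h2, h3⟩ := (hA v hv).2 hv1 hvs
      exact ⟨h2, h3 hvY hvE⟩)
  rw [hψ.inv_eq, hψ.ws_eq (fun d => FF (TT e c) d - 2 * c 0 * Ys ^ (24 / 25 : ℝ))] at key
  refine key.trans ?_
  rw [add_assoc]
  refine add_le_add le_rfl ?_
  have h4 : wt {v | IsTot v ∧ v ≠ 1 ∧ Pm (rr v) ^ 2 ∣ rr v ∧ y1 v ≤ Y} ≤ ENNReal.ofReal Csq := by
    refine le_trans (wt_mono ?_) hSq
    intro v hv
    exact ⟨hv.1, hv.2.2.1⟩
  have h5 : ws (fun v => ENNReal.ofReal (ψ (c 0 * y1 v)) * (v : ℝ≥0∞)⁻¹)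
      {v | IsTot v ∧ Y < y1 v} ≤ ENNReal.ofReal (3 * ψ 0) := by
    calc ws (fun v => ENNReal.ofReal (ψ (c 0 * y1 v)) * (v : ℝ≥0∞)⁻¹) {v | IsTot v ∧ Y < y1 v}
        ≤ ws (fun v => ENNReal.ofReal (3 * ψ 0) *
          (ENNReal.ofReal (Real.exp (-(y1 v) / (3 * Ys))) * (v : ℝ≥0∞)⁻¹))
          {v | IsTot v ∧ Y < y1 v} := by
          apply ws_mono_fun
          intro v _
          rw [← mul_assoc]
          gcongr
          exact hψ.decay' hYs0 (y1_nonneg v)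
      _ = ENNReal.ofReal (3 * ψ 0) * ws (fun v =>
          ENNReal.ofReal (Real.exp (-(y1 v) / (3 * Ys))) * (v : ℝ≥0∞)⁻¹)
          {v | IsTot v ∧ Y < y1 v} := os_ws_const_mul _ _ _
      _ ≤ ENNReal.ofReal (3 * ψ 0) * ENNReal.ofReal 1 := by
          gcongr
          refine hT.trans (ENNReal.ofReal_le_ofReal ?_)
          rw [div_le_one hYs0]
          exact h1
      _ = _ := by simp
  calc (1 + wt Exc + wt {v | IsTot v ∧ v ≠ 1 ∧ Pm (rr v) ^ 2 ∣ rr v ∧ y1 v ≤ Y}) *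
        ENNReal.ofReal (ψ 0) + ws (fun v => ENNReal.ofReal (ψ (c 0 * y1 v)) * (v : ℝ≥0∞)⁻¹)
          {v | IsTot v ∧ Y < y1 v}
      ≤ (1 + 1 + ENNReal.ofReal Csq) * ENNReal.ofReal (ψ 0) + ENNReal.ofReal (3 * ψ 0) := by
        gcongr
    _ = ENNReal.ofReal ((2 + Csq + 3) * ψ 0) := by
        have e1 : (1 + 1 + ENNReal.ofReal Csq) = ENNReal.ofReal (2 + Csq) := by
          rw [ENNReal.ofReal_add (by norm_num) hCsq.le]
          norm_num
        rw [e1, ← ENNReal.ofReal_mul (by positivity), ← ENNReal.ofReal_add (by positivity)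
          (by positivity)]
        congr 1
        ring

theorem stmtFupV {C : ℝ} (hC : 0 ≤ C) (hPS : PSup C) (hSq : StmtSq) (hT : StmtTail) :
    StmtFupV := by
  obtain ⟨Csq, hCsq, hSq⟩ := hSq
  obtain ⟨Y0, hT⟩ := hT
  refine ⟨2 + Csq + 3, max Y0 ((C + 1) ^ 2), by positivity, ?_⟩
  intro Ys hYs c e ψ D A hψ _ _ hA
  have h1 : (C + 1) ^ 2 ≤ Ys := (le_max_right _ _).trans hYs
  have h2 : 1 ≤ Ys := le_trans (by nlinarith) h1
  apply os_up_common hC hPS hCsq hSq h1 (hT Ys ((le_max_left _ _).trans hYs)) hψ (Exc := ∅)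
    (by simp [wt, ws])
  intro v hv
  refine ⟨(hA v hv).1, fun hv1 hvs => ?_⟩
  obtain ⟨h3, h4⟩ := (hA v hv).2 hv1 hvs
  refine ⟨h3, fun _ _ => ?_⟩
  have : 0 ≤ (Ys ^ (1.01 : ℝ)) ^ (19 / 20 : ℝ) := by positivity
  linarith

theorem stmtFup {C : ℝ} (hC : 0 ≤ C) (hPS : PSup C) (hSq : StmtSq) (hT : StmtTail)
    (hU : StmtU) : StmtFup := by
  obtain ⟨Csq, hCsq, hSq⟩ := hSq
  obtain ⟨Y0, hT⟩ := hT
  obtain ⟨c0, Y1, hc0, hU⟩ := hU
  refine ⟨2 + Csq + 3, max (max Y0 Y1) ((C + 1) ^ 2), by positivity, ?_⟩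
  intro Ys hYs c ψ D A hψ hA
  have h1 : (C + 1) ^ 2 ≤ Ys := (le_max_right _ _).trans hYs
  have h2 : 1 ≤ Ys := le_trans (by nlinarith) h1
  have h3 : Y0 ≤ Ys := (le_max_left _ _).trans ((le_max_left _ _).trans hYs)
  have h4 : Y1 ≤ Ys := (le_max_right _ _).trans ((le_max_left _ _).trans hYs)
  have h5 := os_le_scale h2
  have h6 := hU (Ys ^ (1.01 : ℝ)) (h4.trans h5)
  apply os_up_common hC hPS hCsq hSq h1 (hT Ys h3) hψ (e := aa) (h6.trans ?_)
  · intro v hv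
    refine ⟨(hA v hv).1, fun hv1 hvs => ⟨(hA v hv).2 hv1 hvs, fun hvY hvE => ?_⟩⟩
    by_contra hlt
    apply hvE
    refine ⟨(hA v hv).1, hvs, hvY, ?_⟩
    linarith [not_le.mp hlt]
  · rw [ENNReal.ofReal_le_one, Real.exp_le_one_iff, neg_nonpos]
    positivity

/-! ### the lower bound -/

theorem stmtFlow {C : ℝ} (hC : 0 ≤ C) (hPS : PSlow C) (hZ : StmtZ) (hT : StmtTail)
    (hL : StmtL) : StmtFlow := by
  obtain ⟨CZ, hCZ, hZ⟩ := hZ
  obtain ⟨Y0, hT⟩ := hT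
  obtain ⟨c0, Y1, hc0, hL⟩ := hL
  obtain ⟨Y2, hY2⟩ := eventually_atTop.mp (os_eventually_scale CZ)
  refine ⟨1 + (3 + 3), max (max Y0 Y1) (max Y2 ((C + 1) ^ 2)), by norm_num, ?_⟩
  intro Ys hYs c ψ D hψ
  have h1 : (C + 1) ^ 2 ≤ Ys := (le_max_right _ _).trans ((le_max_right _ _).trans hYs)
  have h2 : 1 ≤ Ys := le_trans (by nlinarith) h1
  have h3 : Y0 ≤ Ys := (le_max_left _ _).trans ((le_max_left _ _).trans hYs)
  have h4 : Y1 ≤ Ys := (le_max_right _ _).trans ((le_max_left _ _).trans hYs)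
  have h4' : Y2 ≤ Ys := (le_max_left _ _).trans ((le_max_right _ _).trans hYs)
  have h5 := os_le_scale h2
  have h6 := hL (Ys ^ (1.01 : ℝ)) (h4.trans h5)
  have h7 := hY2 Ys h4'
  have hT := hT Ys h3
  have h0 := hψ.nonneg 0
  have hYs0 : 0 < Ys := by linarith
  set Y : ℝ := Ys ^ (1.01 : ℝ) with hY
  have hY0 : 0 < Y := Real.rpow_pos_of_pos hYs0 _
  have hZ := hZ Y hY0.le
  have key := one_step_low hC hPS (c := c) (e := aa) hψ.c_pos hψ.c_nonneg os_aa_nonneg hψ.antiE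
    (E := Y ^ (19 / 20 : ℝ)) (Y := Y)
    (H := 2 * c 0 * Ys ^ (24 / 25 : ℝ)) (D := D) (Real.rpow_pos_of_pos hY0 _)
    (by
      have := mul_le_mul_of_nonneg_left (os_scale_le hC h1) hψ.c_pos.le
      rw [← hY] at this
      linarith)
  rw [hψ.ws_eq (fun d => FF (TT aa c) d + 2 * c 0 * Ys ^ (24 / 25 : ℝ)),
    hψ.ws_eq (fun d => FF (TT aa c) d)] at key
  have hNC : wt2 (NC aa (Y ^ (19 / 20 : ℝ)) Y) ≤ 1 := by
    have h8 : wt2 (NC aa (Y ^ (19 / 20 : ℝ)) Y) ≤ ENNReal.ofReal (Real.exp (-Y ^ c0)) := by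
      refine (os_wt2_mono ?_).trans h6
      rintro p ⟨hp1, hp2, hp3, hp4, hp5, hp6⟩
      exact ⟨⟨hp1, hp2, hp3, hp6⟩, hp4, hp5⟩
    refine h8.trans ?_
    rw [ENNReal.ofReal_le_one, Real.exp_le_one_iff, neg_nonpos]
    positivity
  have hlast : (ENNReal.ofReal (c 0))⁻¹ *
      ws (fun d => PsiI (fun t => ENNReal.ofReal (ψ t)) (c 0 * max Y (y1 d)) *
        (d : ℝ≥0∞)⁻¹) Tot ≤ ENNReal.ofReal (3 * ψ 0) + ENNReal.ofReal (3 * ψ 0) := by
    rw [← os_ws_const_mul]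
    have h9 : Tot ⊆ {v | IsTot v ∧ y1 v ≤ Y} ∪ {v | IsTot v ∧ Y < y1 v} := by
      intro v hv
      rcases le_or_gt (y1 v) Y with h | h
      · left; exact ⟨hv, h⟩
      · right; exact ⟨hv, h⟩
    refine (ws_mono_set _ h9).trans ((ws_union_le _ _ _).trans ?_)
    refine add_le_add ?_ ?_
    · calc ws (fun d => (ENNReal.ofReal (c 0))⁻¹ *
            (PsiI (fun t => ENNReal.ofReal (ψ t)) (c 0 * max Y (y1 d)) * (d : ℝ≥0∞)⁻¹))
            {v | IsTot v ∧ y1 v ≤ Y}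
          ≤ ws (fun d => ENNReal.ofReal (3 * ψ 0 * (Ys * Real.exp (-Y / Ys))) *
              (d : ℝ≥0∞)⁻¹) {v | IsTot v ∧ y1 v ≤ Y} := by
            apply ws_mono_fun
            intro d _
            rw [← mul_assoc]
            gcongr
            refine le_trans ?_ (hψ.Psi_tail hYs0 hY0.le)
            gcongr
            apply PsiI_anti
            have := le_max_left Y (y1 d)
            exact mul_le_mul_of_nonneg_left this hψ.c_pos.le
        _ ≤ wt {v | IsTot v ∧ y1 v ≤ Y} *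
            ENNReal.ofReal (3 * ψ 0 * (Ys * Real.exp (-Y / Ys))) :=
            os_ws_inv_mul_le (fun v _ => le_rfl)
        _ ≤ ENNReal.ofReal (Real.exp (CZ * Real.log (Y + 2) ^ 2)) *
            ENNReal.ofReal (3 * ψ 0 * (Ys * Real.exp (-Y / Ys))) := by gcongr
        _ ≤ ENNReal.ofReal (3 * ψ 0) := by
            rw [← ENNReal.ofReal_mul (by positivity)]
            apply ENNReal.ofReal_le_ofReal
            calc Real.exp (CZ * Real.log (Y + 2) ^ 2) * (3 * ψ 0 * (Ys * Real.exp (-Y / Ys)))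
                = 3 * ψ 0 * (Ys * Real.exp (-Y / Ys) *
                  Real.exp (CZ * Real.log (Y + 2) ^ 2)) := by ring
              _ ≤ 3 * ψ 0 * 1 := by gcongr
              _ = _ := by ring
    · calc ws (fun d => (ENNReal.ofReal (c 0))⁻¹ *
            (PsiI (fun t => ENNReal.ofReal (ψ t)) (c 0 * max Y (y1 d)) * (d : ℝ≥0∞)⁻¹))
            {v | IsTot v ∧ Y < y1 v}
          ≤ ws (fun d => ENNReal.ofReal (3 * ψ 0 * Ys) *
              (ENNReal.ofReal (Real.exp (-(y1 d) / (3 * Ys))) * (d : ℝ≥0∞)⁻¹))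
              {v | IsTot v ∧ Y < y1 v} := by
            apply ws_mono_fun
            intro d _
            rw [← mul_assoc, ← mul_assoc]
            refine mul_le_mul' ?_ le_rfl
            refine le_trans ?_ ((hψ.Psi_tail hYs0 (y1_nonneg d)).trans ?_)
            · gcongr
              apply PsiI_anti
              have := le_max_right Y (y1 d)
              exact mul_le_mul_of_nonneg_left this hψ.c_pos.le
            · rw [← ENNReal.ofReal_mul (by positivity)]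
              apply ENNReal.ofReal_le_ofReal
              rw [← mul_assoc]
              have : -(y1 d) / Ys ≤ -(y1 d) / (3 * Ys) := by
                rw [neg_div, neg_div, neg_le_neg_iff]
                apply div_le_div_of_nonneg_left (y1_nonneg d) hYs0
                linarith
              gcongr
        _ = ENNReal.ofReal (3 * ψ 0 * Ys) * ws (fun v =>
            ENNReal.ofReal (Real.exp (-(y1 v) / (3 * Ys))) * (v : ℝ≥0∞)⁻¹)
            {v | IsTot v ∧ Y < y1 v} := os_ws_const_mul _ _ _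
        _ ≤ ENNReal.ofReal (3 * ψ 0 * Ys) * ENNReal.ofReal (1 / Ys) := by gcongr
        _ = ENNReal.ofReal (3 * ψ 0) := by
            rw [← ENNReal.ofReal_mul (by positivity)]
            congr 1
            field_simp
  rw [hψ.inv_eq] at key hlast
  refine key.trans ?_
  rw [add_assoc]
  refine add_le_add le_rfl ?_
  calc wt2 (NC aa (Y ^ (19 / 20 : ℝ)) Y) * ENNReal.ofReal (ψ 0) + _
      ≤ 1 * ENNReal.ofReal (ψ 0) + (ENNReal.ofReal (3 * ψ 0) + ENNReal.ofReal (3 * ψ 0)) := by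
        gcongr
    _ = ENNReal.ofReal ((1 + (3 + 3)) * ψ 0) := by
        rw [one_mul, ← ENNReal.ofReal_add (by positivity) (by positivity),
          ← ENNReal.ofReal_add (by positivity) (by positivity)]
        congr 1
        ring

end Crest.Agent.R020
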