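import Crest.Agent.R020.OneStep0
import Crest.Agent.Lib.Mertens

/-!
Row 20 (helper107): the comparison (PS) between prime sums `∑ f(y_q)/(q-1)` and integrals, for antitone `f`.
-/

set_option autoImplicit false

open scoped ENNReal
open MeasureTheory Finset Crest.Agent.Lib

noncomputable section

namespace Crest.Agent.R020

namespace PS

/-- `1/(k-1)` on primes -/
def w1 (k : ℕ) : ℝ := if k.Prime then 1 / ((k : ℝ) - 1) else 0

def T1 (n : ℕ) : ℝ := ∑ k ∈ range n, w1 k

lemma w1_nonneg (k : ℕ) : 0 ≤ w1 k := by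
  unfold w1
  split_ifs with h
  · have : (2 : ℝ) ≤ k := by exact_mod_cast h.two_le
    apply one_div_nonneg.2
    linarith
  · exact le_refl 0

lemma T1_two : T1 2 = 0 := by
  simp [T1, Finset.sum_range_succ, w1, Nat.not_prime_zero, Nat.not_prime_one]

lemma T1_succ (n : ℕ) : T1 (n + 1) = T1 n + w1 n := Finset.sum_range_succ _ _

lemma T1_mono : Monotone T1 := by
  apply monotone_nat_of_le_succ
  intro n
  rw [T1_succ]
  have := w1_nonneg n
  linarith

lemma T1_nonneg (n : ℕ) : 0 ≤ T1 n := Finset.sum_nonneg fun k _ => w1_nonneg k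

lemma loglog_two_bounds : -(1 / 2) ≤ Real.log (Real.log 2) ∧ Real.log (Real.log 2) ≤ 0 := by
  have h1 := Real.log_two_gt_d9
  have h2 := Real.log_two_lt_d9
  constructor
  · rw [Real.le_log_iff_exp_le (by linarith)]
    have h3 : (1.5 : ℝ) ≤ Real.exp (1 / 2) := by
      have := Real.add_one_le_exp (1 / 2 : ℝ)
      linarith
    rw [Real.exp_neg]
    have h4 : (Real.exp (1 / 2))⁻¹ ≤ (1.5 : ℝ)⁻¹ := inv_anti₀ (by norm_num) h3
    have h5 : (1.5 : ℝ)⁻¹ ≤ 0.68 := by norm_num
    linarith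
  · apply Real.log_nonpos (by linarith) (by linarith)

lemma yy_sub_bounds {n : ℕ} (hn : 2 ≤ n) :
    0 ≤ yy n - Real.log (Real.log n) ∧ yy n - Real.log (Real.log n) ≤ 1 / 2 := by
  have h0 := loglog_two_bounds.1
  have h1 : Real.log (Real.log 2) ≤ Real.log (Real.log n) := by
    apply Real.log_le_log (Real.log_pos (by norm_num))
    exact Real.log_le_log (by norm_num) (by exact_mod_cast hn)
  constructor
  · have := log_log_le_yy n
    linarith
  · unfold yy
    rcases max_cases (0 : ℝ) (Real.log (Real.log n)) with ⟨h, _⟩ | ⟨h, _⟩ <;> rw [h] <;> linarith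

lemma T1_bounds {n : ℕ} (hn : 2 ≤ n) : |T1 (n + 1) - yy n| ≤ 13 := by
  have h1 : T1 (n + 1) = 1 + ∑ k ∈ Finset.Ioc 2 n, w1 k := by
    induction n, hn using Nat.le_induction with
    | base =>
      rw [T1_succ, T1_two]
      simp only [Finset.Ioc_self, Finset.sum_empty]
      unfold w1
      rw [if_pos Nat.prime_two]
      norm_num
    | succ n hn ih =>
      rw [T1_succ, ih, ← Finset.insert_Ioc_right_eq_Ioc_add_one hn, Finset.sum_insert (by simp)]
      ring
  have h2 : ∑ k ∈ Finset.Ioc 2 n, w1 k = ∑ p ∈ Mertens.primesIoc 2 n, 1 / ((p : ℝ) - 1) := by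
    unfold Mertens.primesIoc w1
    rw [Finset.sum_filter]
  have h3 : Mertens.S 2 n ≤ ∑ p ∈ Mertens.primesIoc 2 n, 1 / ((p : ℝ) - 1) := by
    unfold Mertens.S
    refine Finset.sum_le_sum fun p hp => ?_
    have hpp := (Mertens.mem_primesIoc.1 hp).2
    have h2 : (2 : ℝ) ≤ p := by exact_mod_cast hpp.two_le
    apply one_div_le_one_div_of_le <;> linarith
  have h4 : ∑ p ∈ Mertens.primesIoc 2 n, 1 / ((p : ℝ) - 1) ≤ Mertens.S 2 n + 1 / 2 := by
    have h5 : ∑ p ∈ Mertens.primesIoc 2 n, 1 / ((p : ℝ) - 1) =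
        ∑ p ∈ Mertens.primesIoc 2 n, ((1 : ℝ) / p + 1 / ((p : ℝ) * (p - 1))) := by
      refine Finset.sum_congr rfl fun p hp => ?_
      have hpp := (Mertens.mem_primesIoc.1 hp).2
      have h2 : (2 : ℝ) ≤ p := by exact_mod_cast hpp.two_le
      have h6 : (p : ℝ) - 1 ≠ 0 := by linarith
      have h7 : (p : ℝ) ≠ 0 := by linarith
      field_simp
      ring
    rw [h5, Finset.sum_add_distrib]
    have h6 : ∑ p ∈ Mertens.primesIoc 2 n, 1 / ((p : ℝ) * (p - 1)) ≤
        ∑ k ∈ Finset.Ioc 2 n, 1 / ((k : ℝ) * (k - 1)) := by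
      apply Finset.sum_le_sum_of_subset_of_nonneg
      · exact Finset.filter_subset _ _
      · intro k hk _
        have : (2 : ℝ) < k := by exact_mod_cast (Finset.mem_Ioc.1 hk).1
        apply one_div_nonneg.2
        apply mul_nonneg <;> linarith
    have h7 := Mertens.sum_inv_mul_le 2 n (by norm_num) hn
    have h8 : Mertens.S 2 n = ∑ p ∈ Mertens.primesIoc 2 n, (1 : ℝ) / p := rfl
    push_cast at h7
    linarith
  have h5 := abs_le.1 (Mertens.mertens_two_nat 2 n le_rfl hn)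
  have h6 : 7 / Real.log ((2 : ℕ) : ℝ) ≤ 10.2 := by
    push_cast
    have h1 := Real.log_two_gt_d9
    rw [div_le_iff₀ (by linarith)]
    linarith
  have h7 := loglog_two_bounds
  have h8 := yy_sub_bounds hn
  push_cast at h5 h6
  rw [abs_le]
  constructor <;> linarith [h5.1, h5.2, h8.1, h8.2, h7.1, h7.2]

lemma yy_succ_le {n : ℕ} (hn : 2 ≤ n) : yy (n + 1) ≤ yy n + 1 := by
  have hn' : (2 : ℝ) ≤ n := by exact_mod_cast hn
  have h1 : Real.log ((n : ℝ) + 1) ≤ 2 * Real.log n := by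
    rw [show (2 : ℝ) * Real.log n = Real.log ((n : ℝ) ^ 2) by rw [Real.log_pow]; norm_num]
    apply Real.log_le_log (by linarith)
    nlinarith
  have hl : 0 < Real.log n := Real.log_pos (by linarith)
  have hl' : 0 < Real.log ((n : ℝ) + 1) := Real.log_pos (by linarith)
  have h2 : Real.log (Real.log ((n : ℝ) + 1)) ≤ Real.log 2 + Real.log (Real.log n) := by
    rw [← Real.log_mul (by norm_num) hl.ne']
    exact Real.log_le_log hl' h1
  have h3 := Real.log_two_lt_d9
  have h4 := log_log_le_yy n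
  unfold yy at h4 ⊢
  push_cast
  apply max_le
  · have := le_max_left 0 (Real.log (Real.log (n : ℝ)))
    linarith
  · linarith

lemma exists_yy_ge (t : ℝ) : ∃ n : ℕ, t ≤ yy n := by
  refine ⟨⌈Real.exp (Real.exp t)⌉₊, le_trans ?_ (log_log_le_yy _)⟩
  have h1 : Real.exp (Real.exp t) ≤ (⌈Real.exp (Real.exp t)⌉₊ : ℝ) := Nat.le_ceil _
  have h2 : Real.exp t ≤ Real.log (⌈Real.exp (Real.exp t)⌉₊ : ℝ) := by
    rw [Real.le_log_iff_exp_le (lt_of_lt_of_le (Real.exp_pos _) h1)]
    exact h1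
  rw [Real.le_log_iff_exp_le (lt_of_lt_of_le (Real.exp_pos _) h2)]
  exact h2

/-- threshold -/
lemma exists_threshold (t : ℝ) : ∃ nt : ℕ, ∀ k : ℕ, t ≤ yy k ↔ nt ≤ k := by
  classical
  refine ⟨Nat.find (exists_yy_ge t), fun k => ⟨fun h => Nat.find_min' _ h, fun h => ?_⟩⟩
  exact le_trans (Nat.find_spec (exists_yy_ge t)) (yy_mono h)

open Classical in
def wq (t : ℝ) (k : ℕ) : ℝ := if t ≤ yy k then w1 k else 0

def G (t : ℝ) (n : ℕ) : ℝ := ∑ k ∈ range n, wq t k

lemma wq_nonneg (t : ℝ) (k : ℕ) : 0 ≤ wq t k := by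
  unfold wq
  split_ifs
  · exact w1_nonneg k
  · exact le_refl 0

lemma G_succ (t : ℝ) (n : ℕ) : G t (n + 1) = G t n + wq t n := Finset.sum_range_succ _ _

lemma G_zero (t : ℝ) : G t 0 = 0 := by simp [G]

lemma G_mono (t : ℝ) : Monotone (G t) := by
  apply monotone_nat_of_le_succ
  intro n
  rw [G_succ]
  have := wq_nonneg t n
  linarith

lemma G_nonneg (t : ℝ) (n : ℕ) : 0 ≤ G t n := Finset.sum_nonneg fun k _ => wq_nonneg t k

lemma G_eq {t : ℝ} {nt : ℕ} (hnt : ∀ k : ℕ, t ≤ yy k ↔ nt ≤ k) {n : ℕ} (hn : nt ≤ n) :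
    G t n = T1 n - T1 nt := by
  induction n, hn using Nat.le_induction with
  | base =>
    rw [sub_self]
    apply Finset.sum_eq_zero
    intro k hk
    unfold wq
    rw [if_neg]
    rw [hnt]
    exact not_le.2 (Finset.mem_range.1 hk)
  | succ n hn ih =>
    rw [G_succ, T1_succ, ih]
    unfold wq
    rw [if_pos ((hnt n).2 hn)]
    ring

/-- (A) -/
lemma G_succ_le {t : ℝ} {n : ℕ} (hp : n.Prime) (ht : t ≤ yy n) : G t (n + 1) ≤ yy n - t + 27 := by
  obtain ⟨nt, hnt⟩ := exists_threshold t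
  have h1 : nt ≤ n := (hnt n).1 ht
  rw [G_eq hnt (by omega)]
  have h2 := (abs_le.1 (T1_bounds hp.two_le)).2
  have h3 : t - 14 ≤ T1 nt := by
    rcases Nat.lt_or_ge nt 3 with h | h
    · have h4 : t ≤ 0 := by
        have h5 : t ≤ yy 2 := (hnt 2).2 (by omega)
        rwa [yy_two] at h5
      have := T1_nonneg nt
      linarith
    · obtain ⟨m, rfl⟩ : ∃ m, nt = m + 1 := ⟨nt - 1, by omega⟩
      have h4 := (abs_le.1 (T1_bounds (n := m) (by omega))).1
      have h5 := yy_succ_le (n := m) (by omega)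
      have h6 : t ≤ yy (m + 1) := (hnt (m + 1)).2 le_rfl
      linarith
  linarith

/-- (B) -/
lemma le_G {t : ℝ} (ht0 : 0 ≤ t) {n : ℕ} (hp : n.Prime) (ht : t ≤ yy n) :
    yy n - t - 27 ≤ G t n := by
  obtain ⟨nt, hnt⟩ := exists_threshold t
  have h1 : nt ≤ n := (hnt n).1 ht
  rw [G_eq hnt h1]
  have h2 : yy n - 14 ≤ T1 n := by
    rcases Nat.lt_or_ge n 3 with h | h
    · have h3 : n = 2 := by have := hp.two_le; omega
      rw [h3, yy_two, T1_two]
      norm_num
    · obtain ⟨m, rfl⟩ : ∃ m, n = m + 1 := ⟨n - 1, by omega⟩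
      have h4 := (abs_le.1 (T1_bounds (n := m) (by omega))).1
      have h5 := yy_succ_le (n := m) (by omega)
      linarith
  have h3 : T1 nt ≤ t + 13 := by
    rcases Nat.lt_or_ge nt 3 with h | h
    · have h4 : T1 nt ≤ T1 2 := T1_mono (by omega)
      rw [T1_two] at h4
      linarith
    · obtain ⟨m, rfl⟩ : ∃ m, nt = m + 1 := ⟨nt - 1, by omega⟩
      have h4 := (abs_le.1 (T1_bounds (n := m) (by omega))).2
      have h5 : yy m ≤ t := by
        by_contra h6
        push Not at h6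
        have := (hnt m).1 h6.le
        omega
      linarith
  linarith

lemma wq_eq_zero_or {t : ℝ} {n : ℕ} : (n.Prime ∧ t ≤ yy n ∧ wq t n = 1 / ((n : ℝ) - 1)) ∨
    (¬ (n.Prime ∧ t ≤ yy n) ∧ wq t n = 0) := by
  unfold wq w1
  by_cases h1 : t ≤ yy n
  · by_cases h2 : n.Prime
    · left; rw [if_pos h1, if_pos h2]; exact ⟨h2, h1, rfl⟩
    · right; rw [if_pos h1, if_neg h2]; exact ⟨fun h => h2 h.1, rfl⟩
  · right; rw [if_neg h1]; exact ⟨fun h => h1 h.2, rfl⟩

lemma ofReal_wq {t : ℝ} {n : ℕ} (hp : n.Prime) (ht : t ≤ yy n) :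
    ENNReal.ofReal (wq t n) = ((n - 1 : ℕ) : ℝ≥0∞)⁻¹ := by
  have h2 := hp.two_le
  have h3 : (0 : ℝ) < ((n - 1 : ℕ) : ℝ) := by
    have : 0 < n - 1 := by omega
    exact_mod_cast this
  have h4 : wq t n = (((n - 1 : ℕ) : ℝ))⁻¹ := by
    unfold wq w1
    rw [if_pos ht, if_pos hp, Nat.cast_sub (by omega), Nat.cast_one, one_div]
  rw [h4, ENNReal.ofReal_inv_of_pos h3, ENNReal.ofReal_natCast]

end PS

open PS

/-- (PS), upper half. -/
theorem psUp : PSup 27 := by
  classical
  intro f hf t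
  let g : ℕ → ℝ := fun n => t - 27 + G t n
  have hg : Monotone g := fun a b h => by
    have := G_mono t h
    simp only [g]; linarith
  have hg0 : ∀ n, t - 27 ≤ g n := fun n => by
    have := G_nonneg t n
    simp only [g]; linarith
  have hterm : ∀ n : ℕ, (if n.Prime ∧ t ≤ yy n then f (yy n) * ((n - 1 : ℕ) : ℝ≥0∞)⁻¹ else 0) ≤
      ∫⁻ u in Set.Ioc (g n) (g (n + 1)), f u := by
    intro n
    split_ifs with h
    · have h1 : ∫⁻ u in Set.Ioc (g n) (g (n + 1)), f (yy n) ≤
          ∫⁻ u in Set.Ioc (g n) (g (n + 1)), f u := by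
        apply setLIntegral_mono' measurableSet_Ioc
        intro u hu
        apply hf
        have h2 := G_succ_le h.1 h.2
        have h3 : u ≤ t - 27 + G t (n + 1) := hu.2
        linarith
      refine le_trans (le_of_eq ?_) h1
      rw [setLIntegral_const, Real.volume_Ioc, ← ofReal_wq h.1 h.2]
      congr 2
      simp only [g]
      rw [G_succ]
      ring
    · exact zero_le
  calc (∑' q : ℕ, if q.Prime ∧ t ≤ yy q then f (yy q) * ((q - 1 : ℕ) : ℝ≥0∞)⁻¹ else 0)
      ≤ ∑' n : ℕ, ∫⁻ u in Set.Ioc (g n) (g (n + 1)), f u := ENNReal.tsum_le_tsum hterm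
    _ = ∫⁻ u in ⋃ n : ℕ, Set.Ioc (g n) (g (n + 1)), f u := by
        rw [lintegral_iUnion (fun n => measurableSet_Ioc)]
        exact hg.pairwise_disjoint_on_Ioc_succ
    _ ≤ ∫⁻ u in Set.Ioi (t - 27), f u := by
        apply lintegral_mono_set
        intro u hu
        rw [Set.mem_iUnion] at hu
        obtain ⟨n, hn⟩ := hu
        exact lt_of_le_of_lt (hg0 n) hn.1

/-- (PS), lower half. -/
theorem psLow : PSlow 27 := by
  classical
  intro f hf t Y ht
  let g : ℕ → ℝ := fun n => t + 27 + G t n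
  have hterm : ∀ n : ℕ, ∫⁻ u in Set.Ioc (g n) (g (n + 1)) ∩ Set.Iic Y, f u ≤
      (if n.Prime ∧ t ≤ yy n ∧ yy n ≤ Y then f (yy n) * ((n - 1 : ℕ) : ℝ≥0∞)⁻¹ else 0) := by
    intro n
    rcases wq_eq_zero_or (t := t) (n := n) with ⟨hp, hty, _⟩ | ⟨_, h0⟩
    · by_cases hY : yy n ≤ Y
      · rw [if_pos ⟨hp, hty, hY⟩]
        have h1 : ∫⁻ u in Set.Ioc (g n) (g (n + 1)) ∩ Set.Iic Y, f u ≤
            ∫⁻ u in Set.Ioc (g n) (g (n + 1)), f u :=
          lintegral_mono_set Set.inter_subset_left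
        have h2 : ∫⁻ u in Set.Ioc (g n) (g (n + 1)), f u ≤
            ∫⁻ u in Set.Ioc (g n) (g (n + 1)), f (yy n) := by
          apply setLIntegral_mono' measurableSet_Ioc
          intro u hu
          apply hf
          have h2 := le_G ht hp hty
          have h3 : t + 27 + G t n < u := hu.1
          linarith
        refine h1.trans (h2.trans (le_of_eq ?_))
        rw [setLIntegral_const, Real.volume_Ioc, ← ofReal_wq hp hty]
        congr 2
        simp only [g]
        rw [G_succ]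
        ring
      · have h1 : Set.Ioc (g n) (g (n + 1)) ∩ Set.Iic Y = ∅ := by
          rw [Set.eq_empty_iff_forall_notMem]
          rintro u ⟨hu1, hu2⟩
          have h2 := le_G ht hp hty
          have h3 : t + 27 + G t n < u := hu1.1
          have h4 : u ≤ Y := hu2
          push Not at hY
          linarith
        rw [h1]
        simp
    · have h1 : g (n + 1) = g n := by
        simp only [g]; rw [G_succ, h0, add_zero]
      rw [h1, Set.Ioc_self, Set.empty_inter]
      simp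
  have hcov : Set.Ioc (t + 27) Y ⊆ ⋃ n : ℕ, Set.Ioc (g n) (g (n + 1)) ∩ Set.Iic Y := by
    intro u hu
    have hex : ∃ n : ℕ, u ≤ g (n + 1) := by
      obtain ⟨N, hN⟩ := exists_yy_ge (max u t)
      obtain ⟨p, hpN, hp⟩ := Nat.exists_infinite_primes N
      have h1 : max u t ≤ yy p := hN.trans (yy_mono hpN)
      have h2 := le_G ht hp ((le_max_right _ _).trans h1)
      refine ⟨p, ?_⟩
      have h3 : G t p ≤ G t (p + 1) := G_mono t (Nat.le_succ p)
      have h4 : u ≤ yy p := (le_max_left _ _).trans h1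
      simp only [g]
      linarith
    rw [Set.mem_iUnion]
    refine ⟨Nat.find hex, ⟨?_, Nat.find_spec hex⟩, hu.2⟩
    rcases Nat.eq_zero_or_pos (Nat.find hex) with h0 | h0
    · rw [h0]
      simp only [g]
      rw [G_zero, add_zero]
      exact hu.1
    · obtain ⟨m, hm⟩ : ∃ m, Nat.find hex = m + 1 := ⟨Nat.find hex - 1, by omega⟩
      have := Nat.find_min hex (m := m) (by omega)
      rw [hm]
      exact not_le.1 this
  calc ∫⁻ u in Set.Ioc (t + 27) Y, f u
      ≤ ∫⁻ u in ⋃ n : ℕ, Set.Ioc (g n) (g (n + 1)) ∩ Set.Iic Y, f u := lintegral_mono_set hcov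
    _ ≤ ∑' n : ℕ, ∫⁻ u in Set.Ioc (g n) (g (n + 1)) ∩ Set.Iic Y, f u :=
        lintegral_iUnion_le _ _
    _ ≤ _ := ENNReal.tsum_le_tsum hterm

end Crest.Agent.R020
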