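import Crest.Agent.R020.PreU
import Crest.Agent.R020.Stmt
import Crest.Agent.R020.PS
import Crest.Agent.R020.FamilyW

/-!
Row 20 (helper107): `StmtSq` (totients whose canonical preimage has a square largest prime) and `StmtMlow`.
-/

set_option autoImplicit false

open scoped ENNReal Topology
open MeasureTheory Filter

noncomputable section

namespace Crest.Agent.R020

/-- Mertens, lower bound for `Msum`. -/
theorem stmtMlow : StmtMlow := by
  classical
  refine ⟨27, fun t Y ht => ?_⟩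
  have h := psLow (fun _ => 1) (fun _ _ _ => le_refl _) t Y ht
  rw [setLIntegral_const, Real.volume_Ioc, one_mul] at h
  refine le_trans (ENNReal.ofReal_le_ofReal (by linarith)) (h.trans ?_)
  unfold Msum
  apply ENNReal.tsum_le_tsum
  intro q
  by_cases hq : q.Prime ∧ t ≤ yy q ∧ yy q ≤ Y
  · rw [if_pos hq, Set.indicator_of_mem (show q ∈ PPr t Y from hq), one_mul]
  · rw [if_neg hq]; exact zero_le

lemma wt_singleton (a : ℕ) : wt {a} = (a : ℝ≥0∞)⁻¹ := by
  unfold wt ws
  rw [tsum_eq_single a]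
  · rw [Set.indicator_of_mem (Set.mem_singleton a)]
  · intro b hb
    rw [Set.indicator_of_notMem]
    rwa [Set.mem_singleton_iff]

lemma sq_term (P : ℕ) : wt {v | IsTot v ∧ v ≠ 1 ∧ Pm (rr v) = P ∧ P ^ 2 ∣ rr v} ≤
    ENNReal.ofReal (4 * Real.exp 32 * (2 * (1 / (P : ℝ) ^ (3 / 2 : ℝ)))) := by
  classical
  by_cases hP : P.Prime
  · have hP2 := hP.two_le
    have hP2' : (2 : ℝ) ≤ P := by exact_mod_cast hP2
    have h1 : wt {v | IsTot v ∧ v ≠ 1 ∧ Pm (rr v) = P ∧ P ^ 2 ∣ rr v} ≤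
        wt ({P ^ 2} ∪ {P * (P - 1)}) * wt (Sm (PT (yy P))) := by
      apply wt_mul_le
      rintro v ⟨hv, hv1, hPm, s, hs⟩
      have hr := rr_pos v
      have hs0 : s ≠ 0 := by
        rintro rfl
        rw [mul_zero] at hs
        omega
      have hsm : s.totient ∈ Sm (PT (yy P)) := by
        apply totient_mem_Sm hs0 (yy_nonneg P)
        intro p hp
        have hpp := Nat.prime_of_mem_primeFactors hp
        have hps := Nat.dvd_of_mem_primeFactors hp
        have h2 : p ≤ P := by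
          have h3 := (Pm_le_iff hr.ne' hP.one_le).1 hPm.le
          exact h3 p hpp (hs ▸ hps.mul_left _)
        exact yy_mono h2
      have hvt := totient_rr hv
      rw [hs] at hvt
      by_cases hdvd : P ∣ s
      · refine ⟨P ^ 2, Or.inl rfl, s.totient, hsm, ?_⟩
        rw [← hvt, pow_two, mul_assoc, mul_assoc,
          Nat.totient_mul_of_prime_of_dvd hP (hdvd.mul_left P),
          Nat.totient_mul_of_prime_of_dvd hP hdvd]
      · refine ⟨P * (P - 1), Or.inr rfl, s.totient, hsm, ?_⟩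
        rw [← hvt, pow_two, mul_assoc P P s,
          Nat.totient_mul_of_prime_of_dvd hP (dvd_mul_right P s),
          Nat.totient_mul_of_prime_of_not_dvd hP hdvd, mul_assoc]
    refine h1.trans ?_
    have h2 : wt ({P ^ 2} ∪ {P * (P - 1)}) ≤ ENNReal.ofReal (4 / (P : ℝ) ^ 2) := by
      refine (wt_union_le _ _).trans ?_
      rw [wt_singleton, wt_singleton]
      have e1 : ((P ^ 2 : ℕ) : ℝ≥0∞)⁻¹ = ENNReal.ofReal (1 / (P : ℝ) ^ 2) := by
        rw [one_div, ENNReal.ofReal_inv_of_pos (by positivity), ← ENNReal.ofReal_natCast]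
        push_cast; rfl
      have e2 : ((P * (P - 1) : ℕ) : ℝ≥0∞)⁻¹ ≤ ENNReal.ofReal (2 / (P : ℝ) ^ 2) := by
        have h3 : (0 : ℝ) < (P * (P - 1) : ℕ) := by
          have : 0 < P * (P - 1) := Nat.mul_pos (by omega) (by omega)
          exact_mod_cast this
        rw [← ENNReal.ofReal_natCast, ← ENNReal.ofReal_inv_of_pos h3]
        apply ENNReal.ofReal_le_ofReal
        rw [← one_div, div_le_div_iff₀ h3 (by positivity)]
        rw [Nat.cast_mul, Nat.cast_sub (by omega), Nat.cast_one]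
        nlinarith
      rw [e1]
      refine (add_le_add le_rfl e2).trans ?_
      rw [← ENNReal.ofReal_add (by positivity) (by positivity)]
      apply ENNReal.ofReal_le_ofReal
      rw [← add_div]
      apply div_le_div_of_nonneg_right _ (by positivity)
      norm_num
    have h3 := wt_Sm_le (yy_nonneg P)
    refine (mul_le_mul' h2 h3).trans ?_
    rw [← ENNReal.ofReal_mul (by positivity)]
    apply ENNReal.ofReal_le_ofReal
    have h4 : Real.exp (yy P) ≤ 2 * (P : ℝ) ^ (1 / 2 : ℝ) := by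
      have hlog : Real.log P ≤ 2 * (P : ℝ) ^ (1 / 2 : ℝ) := by
        have := Real.log_le_rpow_div (x := (P : ℝ)) (by linarith) (show (0 : ℝ) < 1 / 2 by norm_num)
        linarith
      have h1 : (1 : ℝ) ≤ (P : ℝ) ^ (1 / 2 : ℝ) := Real.one_le_rpow (by linarith) (by norm_num)
      unfold yy
      rcases max_cases (0 : ℝ) (Real.log (Real.log (P : ℝ))) with ⟨h, _⟩ | ⟨h, _⟩
      · rw [h, Real.exp_zero]; linarith
      · rw [h, Real.exp_log (Real.log_pos (by linarith))]
        exact hlog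
    rw [Real.exp_add]
    have h5 : (P : ℝ) ^ (1 / 2 : ℝ) / (P : ℝ) ^ 2 = 1 / (P : ℝ) ^ (3 / 2 : ℝ) := by
      rw [div_eq_div_iff (by positivity) (by positivity), ← Real.rpow_add (by linarith), one_mul,
        ← Real.rpow_natCast]
      norm_num
    calc 4 / (P : ℝ) ^ 2 * (Real.exp (yy P) * Real.exp 32)
        ≤ 4 / (P : ℝ) ^ 2 * ((2 * (P : ℝ) ^ (1 / 2 : ℝ)) * Real.exp 32) := by gcongr
      _ = 4 * Real.exp 32 * (2 * ((P : ℝ) ^ (1 / 2 : ℝ) / (P : ℝ) ^ 2)) := by ring
      _ = _ := by rw [h5]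
  · have : {v | IsTot v ∧ v ≠ 1 ∧ Pm (rr v) = P ∧ P ^ 2 ∣ rr v} = ∅ := by
      rw [Set.eq_empty_iff_forall_notMem]
      rintro v ⟨hv, hv1, hPm, _⟩
      apply hP
      rcases hd : dl (rr v) with _ | ⟨q, l⟩
      · exact absurd hd (dl_ne_nil_of_one_lt (one_lt_rr hv hv1))
      · have : Pm (rr v) = q := by unfold Pm; rw [hd]; rfl
        rw [← hPm, this]
        exact (of_dl_eq_cons hd).1
    rw [this]
    unfold wt ws
    simp

/-- (Sq) -/
theorem stmtSq : StmtSq := by
  classical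
  have hs : Summable (fun P : ℕ => 4 * Real.exp 32 * (2 * (1 / (P : ℝ) ^ (3 / 2 : ℝ)))) := by
    apply Summable.mul_left
    apply Summable.mul_left
    exact Real.summable_one_div_nat_rpow.2 (by norm_num)
  set K : ℝ := ∑' P : ℕ, 4 * Real.exp 32 * (2 * (1 / (P : ℝ) ^ (3 / 2 : ℝ))) with hK
  have hK0 : 0 ≤ K := tsum_nonneg fun n => by positivity
  refine ⟨1 + K, by linarith, ?_⟩
  have h1 : {v | IsTot v ∧ Sq v} ⊆ {1} ∪ {v | IsTot v ∧ v ≠ 1 ∧ Sq v} := by
    intro v hv
    by_cases h : v = 1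
    · left; exact h
    · right; exact ⟨hv.1, h, hv.2⟩
  refine (wt_mono h1).trans ((wt_union_le _ _).trans ?_)
  rw [ENNReal.ofReal_add zero_le_one hK0]
  apply add_le_add
  · rw [wt_singleton]; simp
  · have h2 := ws_le_tsum (fun v : ℕ => (v : ℝ≥0∞)⁻¹) {v | IsTot v ∧ v ≠ 1 ∧ Sq v}
      (fun P : ℕ => {v | IsTot v ∧ v ≠ 1 ∧ Pm (rr v) = P ∧ P ^ 2 ∣ rr v})
      (fun v hv => ⟨Pm (rr v), hv.1, hv.2.1, rfl, hv.2.2⟩)
    refine h2.trans ((ENNReal.tsum_le_tsum sq_term).trans ?_)
    rw [← ENNReal.ofReal_tsum_of_nonneg (fun n => by positivity) hs]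

end Crest.Agent.R020
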