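import Crest.Agent.R020.OneStep0
import Crest.Agent.R020.Stmt

/-!
Row 20 (helper107): the tail estimate `StmtTail` from the crude bound `StmtZ`.
-/

set_option autoImplicit false

open scoped ENNReal Topology
open MeasureTheory Filter

noncomputable section

namespace Crest.Agent.R020

/-- real inequality behind the tail estimate -/
lemma tail_real (C K : ℝ) (hC : 0 < C) (hK : 0 ≤ K) : ∃ X0 : ℝ, 2 ≤ X0 ∧ ∀ x Ys : ℝ, X0 ≤ x →
    1 ≤ Ys → Ys ^ (1.01 : ℝ) < x →
    Real.exp (-(x - 1) / (3 * Ys) + C * Real.log (x + 2) ^ 2) ≤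
      1 / Ys * (1 / (K + 1)) * (1 / x ^ 2) := by
  have hlit := isLittleO_log_rpow_rpow_atTop (2 : ℝ) (show (0 : ℝ) < 1 / 101 by norm_num)
  set M : ℝ := 4 * C + 3 + Real.log (K + 1) with hM
  have hlogK : 0 ≤ Real.log (K + 1) := Real.log_nonneg (by linarith)
  have hMpos : 0 < M := by rw [hM]; linarith
  have h1 := hlit.bound (show (0 : ℝ) < 1 / (6 * M) by positivity)
  obtain ⟨X1, hX1⟩ := eventually_atTop.1 h1
  refine ⟨max (max X1 3) 3, le_trans (by norm_num) (le_max_right _ _), fun x Ys hx hYs hYx => ?_⟩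
  have hx3 : 3 ≤ x := le_trans (le_max_right _ _) hx
  have hxX : X1 ≤ x := le_trans (le_max_left _ _) (le_trans (le_max_left _ _) hx)
  have hx0 : 0 < x := by linarith
  have hY0 : 0 < Ys := by linarith
  have hlog1 : 1 ≤ Real.log x := by
    rw [Real.le_log_iff_exp_le hx0]
    have := Real.exp_one_lt_d9
    linarith
  have h2 := hX1 x hxX
  rw [Real.norm_of_nonneg (by positivity), Real.norm_of_nonneg (by positivity)] at h2
  have h2' : Real.log x ^ 2 ≤ 1 / (6 * M) * x ^ (1 / 101 : ℝ) := by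
    have : Real.log x ^ (2 : ℝ) = Real.log x ^ 2 := by
      rw [← Real.rpow_natCast]; norm_num
    rw [← this]; exact h2
  -- `M log² x ≤ x^{1/101}/6`
  have h3 : M * Real.log x ^ 2 ≤ x ^ (1 / 101 : ℝ) / 6 := by
    have h4 := mul_le_mul_of_nonneg_left h2' hMpos.le
    have h5 : M * (1 / (6 * M) * x ^ (1 / 101 : ℝ)) = x ^ (1 / 101 : ℝ) / 6 := by
      field_simp
    rw [h5] at h4
    exact h4
  -- `Ys ≤ x^{100/101}`
  have h4 : Ys ≤ x ^ (100 / 101 : ℝ) := by
    have h5 : (Ys ^ (1.01 : ℝ)) ^ (100 / 101 : ℝ) = Ys := by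
      rw [← Real.rpow_mul hY0.le]
      norm_num
    rw [← h5]
    exact Real.rpow_le_rpow (by positivity) hYx.le (by norm_num)
  have h5 : x ^ (1 / 101 : ℝ) / 6 ≤ (x - 1) / (3 * Ys) := by
    rw [div_le_div_iff₀ (by norm_num) (by positivity)]
    have h6 : x ^ (1 / 101 : ℝ) * x ^ (100 / 101 : ℝ) = x := by
      rw [← Real.rpow_add hx0]
      norm_num
    have h7 : x ^ (1 / 101 : ℝ) * Ys ≤ x := by
      calc x ^ (1 / 101 : ℝ) * Ys ≤ x ^ (1 / 101 : ℝ) * x ^ (100 / 101 : ℝ) :=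
            mul_le_mul_of_nonneg_left h4 (by positivity)
        _ = x := h6
    nlinarith
  have h6 : Real.log Ys ≤ Real.log x := by
    apply Real.log_le_log hY0
    calc Ys = Ys ^ (1 : ℝ) := (Real.rpow_one _).symm
      _ ≤ Ys ^ (1.01 : ℝ) := Real.rpow_le_rpow_of_exponent_le hYs (by norm_num)
      _ ≤ x := hYx.le
  have h7 : Real.log (x + 2) ≤ 2 * Real.log x := by
    rw [show (2 : ℝ) * Real.log x = Real.log (x ^ 2) by rw [Real.log_pow]; norm_num]
    apply Real.log_le_log (by linarith)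
    nlinarith
  have h8 : Real.log (x + 2) ^ 2 ≤ 4 * Real.log x ^ 2 := by
    have h9 : 0 ≤ Real.log (x + 2) := Real.log_nonneg (by linarith)
    nlinarith
  have h9 : Real.log x ≤ Real.log x ^ 2 := by nlinarith
  have h10 : 1 ≤ Real.log x ^ 2 := by nlinarith
  have hrhs : 1 / Ys * (1 / (K + 1)) * (1 / x ^ 2) =
      Real.exp (-(Real.log Ys + Real.log (K + 1) + 2 * Real.log x)) := by
    rw [Real.exp_neg, Real.exp_add, Real.exp_add, Real.exp_log hY0, Real.exp_log (by linarith),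
      show (2 : ℝ) * Real.log x = Real.log x + Real.log x by ring, Real.exp_add, Real.exp_log hx0]
    field_simp
  rw [hrhs]
  apply Real.exp_le_exp.2
  have h11 : C * Real.log (x + 2) ^ 2 ≤ 4 * C * Real.log x ^ 2 := by nlinarith
  have h12 : Real.log (K + 1) ≤ Real.log (K + 1) * Real.log x ^ 2 := by nlinarith
  have h13 : M * Real.log x ^ 2 = 4 * C * Real.log x ^ 2 + 3 * Real.log x ^ 2 +
      Real.log (K + 1) * Real.log x ^ 2 := by rw [hM]; ring
  rw [neg_div]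
  linarith

/-- The tail estimate. -/
theorem stmtTail (hZ : StmtZ) : StmtTail := by
  classical
  obtain ⟨C, hC, hZ⟩ := hZ
  have hs : Summable (fun n : ℕ => 1 / ((n : ℝ) + 1) ^ 2) := by
    have := (summable_nat_add_iff 1).2 (Real.summable_one_div_nat_pow.2 (by norm_num : 1 < 2))
    simpa using this
  set K : ℝ := ∑' n : ℕ, 1 / ((n : ℝ) + 1) ^ 2 with hK
  have hK0 : 0 ≤ K := tsum_nonneg fun n => by positivity
  obtain ⟨X0, hX0, hreal⟩ := tail_real C K hC hK0
  refine ⟨max X0 1, fun Ys hYs => ?_⟩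
  have hYX : X0 ≤ Ys := (le_max_left _ _).trans hYs
  have hY1 : 1 ≤ Ys := (le_max_right _ _).trans hYs
  have hY0 : 0 < Ys := by linarith
  have hYpow : Ys ≤ Ys ^ (1.01 : ℝ) := by
    calc Ys = Ys ^ (1 : ℝ) := (Real.rpow_one _).symm
      _ ≤ Ys ^ (1.01 : ℝ) := Real.rpow_le_rpow_of_exponent_le hY1 (by norm_num)
  set g : ℕ → ℝ≥0∞ := fun v => ENNReal.ofReal (Real.exp (-(y1 v) / (3 * Ys))) * (v : ℝ≥0∞)⁻¹
    with hg
  have hcov := ws_le_tsum g {v | IsTot v ∧ Ys ^ (1.01 : ℝ) < y1 v}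
    (fun n : ℕ => {v | IsTot v ∧ Ys ^ (1.01 : ℝ) < y1 v ∧ ⌊y1 v⌋₊ = n})
    (fun v hv => ⟨⌊y1 v⌋₊, hv.1, hv.2, rfl⟩)
  have hterm : ∀ n : ℕ, ws g {v | IsTot v ∧ Ys ^ (1.01 : ℝ) < y1 v ∧ ⌊y1 v⌋₊ = n} ≤
      ENNReal.ofReal (1 / Ys * (1 / (K + 1)) * (1 / ((n : ℝ) + 1) ^ 2)) := by
    intro n
    by_cases hne : ∃ v, IsTot v ∧ Ys ^ (1.01 : ℝ) < y1 v ∧ ⌊y1 v⌋₊ = n
    · obtain ⟨v0, hv0, hv1, hv2⟩ := hne
      have h1 : Ys ^ (1.01 : ℝ) < (n : ℝ) + 1 := by
        rw [← hv2]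
        exact hv1.trans (Nat.lt_floor_add_one _)
      have h2 := hreal ((n : ℝ) + 1) Ys (by linarith) hY1 h1
      refine le_trans ?_ (ENNReal.ofReal_le_ofReal h2)
      calc ws g {v | IsTot v ∧ Ys ^ (1.01 : ℝ) < y1 v ∧ ⌊y1 v⌋₊ = n}
          ≤ ws (fun v => ENNReal.ofReal (Real.exp (-(n : ℝ) / (3 * Ys))) * (v : ℝ≥0∞)⁻¹)
              {v | IsTot v ∧ Ys ^ (1.01 : ℝ) < y1 v ∧ ⌊y1 v⌋₊ = n} := by
            apply ws_mono_fun
            rintro v ⟨_, _, hv⟩
            simp only [hg]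
            gcongr
            rw [← hv]
            exact Nat.floor_le (y1_nonneg v)
        _ = ENNReal.ofReal (Real.exp (-(n : ℝ) / (3 * Ys))) *
              wt {v | IsTot v ∧ Ys ^ (1.01 : ℝ) < y1 v ∧ ⌊y1 v⌋₊ = n} := by
            unfold wt ws
            rw [← ENNReal.tsum_mul_left]
            congr 1
            ext v
            by_cases hv : v ∈ {v | IsTot v ∧ Ys ^ (1.01 : ℝ) < y1 v ∧ ⌊y1 v⌋₊ = n}
            · rw [Set.indicator_of_mem hv, Set.indicator_of_mem hv]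
            · rw [Set.indicator_of_notMem hv, Set.indicator_of_notMem hv, mul_zero]
        _ ≤ ENNReal.ofReal (Real.exp (-(n : ℝ) / (3 * Ys))) *
              ENNReal.ofReal (Real.exp (C * Real.log ((n : ℝ) + 1 + 2) ^ 2)) := by
            gcongr
            refine le_trans (wt_mono ?_) (hZ ((n : ℝ) + 1) (by positivity))
            rintro v ⟨hv, _, hv2⟩
            refine ⟨hv, ?_⟩
            rw [← hv2]
            exact (Nat.lt_floor_add_one _).le
        _ = ENNReal.ofReal (Real.exp (-((n : ℝ) + 1 - 1) / (3 * Ys) +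
              C * Real.log ((n : ℝ) + 1 + 2) ^ 2)) := by
            rw [← ENNReal.ofReal_mul (Real.exp_pos _).le, ← Real.exp_add]
            congr 2
            ring
    · have : {v | IsTot v ∧ Ys ^ (1.01 : ℝ) < y1 v ∧ ⌊y1 v⌋₊ = n} = ∅ := by
        rw [Set.eq_empty_iff_forall_notMem]
        intro v hv
        exact hne ⟨v, hv⟩
      rw [this]
      unfold ws
      simp
  refine hcov.trans ((ENNReal.tsum_le_tsum hterm).trans ?_)
  rw [← ENNReal.ofReal_tsum_of_nonneg (fun n => by positivity) (hs.mul_left _), tsum_mul_left]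
  apply ENNReal.ofReal_le_ofReal
  rw [← hK]
  rw [div_mul_div_comm, one_mul, div_mul_eq_mul_div, one_mul, div_le_div_iff₀ (by positivity) hY0]
  nlinarith

end Crest.Agent.R020
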