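import Mathlib
import Crest.Agent.R020.Canon

/-!
Row 20, top step, basic facts (helper369).
-/

set_option autoImplicit false

open Filter Topology Finset
open Crest.NumberTheoryR.TotientScale

namespace Crest.Agent.R020.Top

theorem aCoef_succ_nonneg (j : ℕ) : 0 ≤ aCoef (j + 1) := by
  unfold aCoef
  have hj : (0 : ℝ) < (j : ℝ) + 1 := by positivity
  push_cast
  have h1 : Real.log 2 ≤ Real.log ((j : ℝ) + 1 + 1) :=
    Real.log_le_log (by norm_num) (by have : (0 : ℝ) ≤ j := by positivity
                                      linarith)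
  have h2 : 1 - 1 / (((j : ℝ) + 1 + 1) / ((j : ℝ) + 1)) ≤
      Real.log (((j : ℝ) + 1 + 1) / ((j : ℝ) + 1)) := by
    have := Real.one_sub_inv_le_log_of_pos
      (show (0 : ℝ) < ((j : ℝ) + 1 + 1) / ((j : ℝ) + 1) by positivity)
    simpa [one_div] using this
  rw [Real.log_div (by positivity) (by positivity)] at h2
  have h3 : (0.6931471803 : ℝ) < Real.log 2 := Real.log_two_gt_d9
  have h4 : 1 - 1 / (((j : ℝ) + 1 + 1) / ((j : ℝ) + 1)) = 1 / ((j : ℝ) + 1 + 1) := by
    field_simp
    ring
  rw [h4] at h2
  have h5 : ((j : ℝ) + 1) * (1 / ((j : ℝ) + 1 + 1)) ≤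
      ((j : ℝ) + 1) * (Real.log ((j : ℝ) + 1 + 1) - Real.log ((j : ℝ) + 1)) :=
    mul_le_mul_of_nonneg_left h2 hj.le
  have h6 : (1 / 2 : ℝ) ≤ ((j : ℝ) + 1) * (1 / ((j : ℝ) + 1 + 1)) := by
    rw [mul_one_div, le_div_iff₀ (by positivity)]
    have : (0 : ℝ) ≤ j := by positivity
    linarith
  nlinarith

theorem aa_nonneg (j : ℕ) : 0 ≤ aa j := aCoef_succ_nonneg j

theorem aa_zero : aa 0 = 2 * Real.log 2 - 1 := by
  unfold aa aCoef
  norm_num

theorem aa_one : aa 1 = 3 * Real.log 3 - 2 * Real.log 2 - 1 := by
  unfold aa aCoef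
  norm_num

theorem aa_zero_gt : (0.386 : ℝ) < aa 0 := by
  rw [aa_zero]
  have h3 : (0.6931471803 : ℝ) < Real.log 2 := Real.log_two_gt_d9
  linarith

theorem aa_zero_lt : aa 0 < (0.387 : ℝ) := by
  rw [aa_zero]
  have h3 : Real.log 2 < (0.6931471808 : ℝ) := Real.log_two_lt_d9
  linarith

theorem log_three_gt : (1.098 : ℝ) < Real.log 3 := by
  have h : Real.exp 1.098 < 3 := by
    have h1 : Real.exp 1.098 = Real.exp 1 * Real.exp 0.098 := by
      rw [← Real.exp_add]; norm_num
    have h2 : Real.exp 1 < 2.7182818286 := Real.exp_one_lt_d9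
    have h3 : Real.exp 0.098 ≤ 1.1031 := by
      have := Real.exp_bound' (x := (0.098 : ℝ)) (by norm_num) (by norm_num) (n := 3) (by norm_num)
      norm_num [Finset.sum_range_succ, Nat.factorial] at this
      norm_num
      linarith
    rw [h1]
    nlinarith [Real.exp_pos 0.098, Real.exp_pos 1]
  have := Real.log_lt_log (Real.exp_pos _) h
  rwa [Real.log_exp] at this

theorem aa_zero_add_one : (1.29 : ℝ) < aa 0 + aa 1 := by
  rw [aa_zero, aa_one]
  have := log_three_gt
  linarith

/-! ### Sorted lists of primes -/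

theorem length_dl (n : ℕ) : (dl n).length = ArithmeticFunction.cardFactors n := by
  rw [ArithmeticFunction.cardFactors_apply, (dl_perm n).length_eq]

/-- `Ω(n) ≤ Ω(φ(n)) + 1`. -/
theorem cardFactors_le_totient (n : ℕ) : n ≠ 0 →
    ArithmeticFunction.cardFactors n ≤ ArithmeticFunction.cardFactors (Nat.totient n) + 1 ∧
      (¬ 2 ∣ n → ArithmeticFunction.cardFactors n ≤
        ArithmeticFunction.cardFactors (Nat.totient n)) := by
  induction n using induction_on_primes with
  | zero => intro h; exact absurd rfl h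
  | one => simp
  | prime_mul p m hp ih =>
    intro hn
    have hm : m ≠ 0 := by rintro rfl; simp at hn
    obtain ⟨ih1, ih2⟩ := ih hm
    have hpm : ArithmeticFunction.cardFactors (p * m) =
        1 + ArithmeticFunction.cardFactors m := by
      rw [ArithmeticFunction.cardFactors_mul hp.ne_zero hm,
        ArithmeticFunction.cardFactors_apply_prime hp]
    have htm : Nat.totient m ≠ 0 := (Nat.totient_pos.2 (Nat.pos_of_ne_zero hm)).ne'
    by_cases hd : p ∣ m
    · have e1 : ArithmeticFunction.cardFactors (Nat.totient (p * m)) =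
          1 + ArithmeticFunction.cardFactors (Nat.totient m) := by
        rw [Nat.totient_mul_of_prime_of_dvd hp hd,
          ArithmeticFunction.cardFactors_mul hp.ne_zero htm,
          ArithmeticFunction.cardFactors_apply_prime hp]
      refine ⟨by omega, fun h2 => ?_⟩
      have : ¬ 2 ∣ m := fun h => h2 (h.mul_left p)
      have := ih2 this
      omega
    · have e1 : ArithmeticFunction.cardFactors (Nat.totient (p * m)) =
          ArithmeticFunction.cardFactors (p - 1) +
            ArithmeticFunction.cardFactors (Nat.totient m) := by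
        have : p - 1 ≠ 0 := by have := hp.two_le; omega
        rw [Nat.totient_mul_of_prime_of_not_dvd hp hd,
          ArithmeticFunction.cardFactors_mul this htm]
      by_cases hp2 : p = 2
      · subst hp2
        have := ih2 hd
        refine ⟨by omega, fun h2 => ?_⟩
        exact absurd (Dvd.intro m rfl) h2
      · have h4 : 3 ≤ p := by
          have := hp.two_le
          omega
        have h5 : 1 ≤ ArithmeticFunction.cardFactors (p - 1) := by
          rw [Nat.one_le_iff_ne_zero]
          intro h
          rw [ArithmeticFunction.cardFactors_eq_zero_iff_eq_zero_or_one] at h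
          omega
        refine ⟨by omega, fun h2 => ?_⟩
        have : ¬ 2 ∣ m := fun h => h2 (h.mul_left p)
        have := ih2 this
        omega

theorem prod_ne_zero_of_primes {l : List ℕ} (hp : ∀ p ∈ l, p.Prime) : l.prod ≠ 0 := by
  intro h
  rw [List.prod_eq_zero_iff] at h
  exact Nat.not_prime_zero (hp 0 h)

/-- every `n ≥ 2` is `p * m` with `p` the largest prime factor. -/
theorem exists_cons {n : ℕ} (hn : 2 ≤ n) :
    ∃ p m : ℕ, p.Prime ∧ m ≠ 0 ∧ n = p * m ∧ dl n = p :: dl m ∧ Pm n = p ∧
      ∀ q ∈ dl m, q ≤ p := by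
  have hn0 : n ≠ 0 := by omega
  rcases hl : dl n with _ | ⟨p, l⟩
  · have := prod_dl hn0
    rw [hl] at this
    simp at this
    omega
  · have hsort := dl_sorted n
    rw [hl] at hsort
    have hprime : ∀ q ∈ p :: l, q.Prime := fun q hq => prime_of_mem_dl (hl ▸ hq)
    have hl' : ∀ q ∈ l, q.Prime := fun q hq => hprime q (List.mem_cons_of_mem _ hq)
    rw [List.pairwise_cons] at hsort
    refine ⟨p, l.prod, hprime p (List.mem_cons_self), prod_ne_zero_of_primes hl', ?_, ?_, ?_, ?_⟩
    · have := prod_dl hn0
      rw [hl, List.prod_cons] at this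
      exact this.symm
    · rw [dl_prod hl' hsort.2]
    · simp [Pm, hl]
    · rw [dl_prod hl' hsort.2]
      exact fun q hq => hsort.1 q hq

end Crest.Agent.R020.Top
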