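import Mathlib
import Crest.Agent.Lib.Mertens

/-!
Row 20, top step (helper369): Rankin's trick with weight `(3/2)^Ω`.
-/

set_option autoImplicit false

open Filter Topology Finset

namespace Crest.Agent.R020.Top

/-- `m ↦ (3/2)^Ω(m) / m` as a monoid hom. -/
noncomputable def zf : ℕ →* ℝ where
  toFun m := (3 / 2 : ℝ) ^ (ArithmeticFunction.cardFactors m) / m
  map_one' := by simp
  map_mul' m n := by
    rcases eq_or_ne m 0 with rfl | hm
    · simp
    rcases eq_or_ne n 0 with rfl | hn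
    · simp
    rw [ArithmeticFunction.cardFactors_mul hm hn, pow_add]
    push_cast
    field_simp

theorem zf_apply (m : ℕ) : zf m = (3 / 2 : ℝ) ^ (ArithmeticFunction.cardFactors m) / m := rfl

theorem zf_nonneg (m : ℕ) : 0 ≤ zf m := by rw [zf_apply]; positivity

theorem zf_prime {p : ℕ} (hp : p.Prime) : zf p = 3 / 2 / p := by
  rw [zf_apply, ArithmeticFunction.cardFactors_apply_prime hp, pow_one]

theorem one_sub_inv_le_exp {t : ℝ} (h0 : 0 ≤ t) (h1 : t ≤ 3 / 4) : (1 - t)⁻¹ ≤ Real.exp (3 * t) := by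
  have h2 := Real.quadratic_le_exp_of_nonneg (x := 3 * t) (by linarith)
  have h3 : 0 < 1 - t := by linarith
  rw [inv_le_iff_one_le_mul₀' h3]
  have h4 : 1 ≤ (1 - t) * (1 + 3 * t + (3 * t) ^ 2 / 2) := by nlinarith [mul_nonneg h0 h0]
  exact h4.trans (mul_le_mul_of_nonneg_left h2 h3.le)

/-- the sum of the reciprocals of the primes below `N`. -/
theorem sum_primesBelow_le {N : ℕ} (hN : 3 ≤ N) :
    ∑ p ∈ N.primesBelow, (1 : ℝ) / p ≤ Real.log (Real.log N) + 30 := by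
  have h2 := Crest.Agent.Lib.Mertens.mertens_two 2 N le_rfl (by exact_mod_cast (by omega : 2 ≤ N))
  have hl2 : (0.6931471803 : ℝ) < Real.log 2 := Real.log_two_gt_d9
  have hl2' : Real.log 2 < 1 := by have := Real.log_two_lt_d9; linarith
  have h18 : 18 / Real.log 2 ≤ 26 := by
    rw [div_le_iff₀ (by linarith)]; linarith
  have hll : -1 ≤ Real.log (Real.log 2) := by
    rw [← Real.log_exp (-1)]
    apply Real.log_le_log (Real.exp_pos _)
    have h1 : Real.exp (-1) ≤ 0.5 := by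
      rw [Real.exp_neg]
      have := Real.exp_one_gt_d9
      rw [inv_le_comm₀ (Real.exp_pos _) (by norm_num)]
      norm_num
      linarith
    linarith
  have h3 : N.primesBelow ⊆ insert 2 (Crest.Agent.Lib.Mertens.pr 2 N) := by
    intro p hp
    rw [Nat.mem_primesBelow] at hp
    rw [Finset.mem_insert]
    rcases hp.2.two_le.eq_or_lt with h | h
    · exact Or.inl h.symm
    · right
      unfold Crest.Agent.Lib.Mertens.pr
      rw [Finset.mem_filter, Finset.mem_Ioc, Nat.floor_natCast, Nat.floor_ofNat]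
      exact ⟨⟨h, hp.1.le⟩, hp.2⟩
  have h4 : ∑ p ∈ N.primesBelow, (1 : ℝ) / p ≤
      ∑ p ∈ insert 2 (Crest.Agent.Lib.Mertens.pr 2 N), (1 : ℝ) / p :=
    Finset.sum_le_sum_of_subset_of_nonneg h3 (fun i _ _ => by positivity)
  have h5 : ∑ p ∈ insert 2 (Crest.Agent.Lib.Mertens.pr 2 N), (1 : ℝ) / p ≤
      1 / 2 + ∑ p ∈ Crest.Agent.Lib.Mertens.pr 2 N, (1 : ℝ) / p := by
    by_cases hmem : 2 ∈ Crest.Agent.Lib.Mertens.pr 2 N
    · rw [Finset.insert_eq_of_mem hmem]; linarith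
    · rw [Finset.sum_insert hmem]; norm_num
  have h6 := (abs_le.1 h2).2
  linarith

theorem prod_le (N : ℕ) (hN : 3 ≤ N) :
    ∏ p ∈ N.primesBelow, (1 - zf p)⁻¹ ≤ Real.exp 135 * (Real.log N) ^ (9 / 2 : ℝ) := by
  have h1 : ∏ p ∈ N.primesBelow, (1 - zf p)⁻¹ ≤
      ∏ p ∈ N.primesBelow, Real.exp (9 / 2 * (1 / (p : ℝ))) := by
    apply Finset.prod_le_prod
    · intro p hp
      have hpp := (Nat.mem_primesBelow.1 hp).2
      have h2 : (2 : ℝ) ≤ p := by exact_mod_cast hpp.two_le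
      rw [zf_prime hpp, inv_nonneg]
      have : 3 / 2 / (p : ℝ) ≤ 1 := by
        rw [div_le_one (by linarith)]; linarith
      linarith
    · intro p hp
      have hpp := (Nat.mem_primesBelow.1 hp).2
      have h2 : (2 : ℝ) ≤ p := by exact_mod_cast hpp.two_le
      rw [zf_prime hpp]
      have h3 := one_sub_inv_le_exp (t := 3 / 2 / (p : ℝ)) (by positivity)
        (by rw [div_le_iff₀ (by linarith)]; linarith)
      refine h3.trans (le_of_eq ?_)
      congr 1
      ring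
  refine h1.trans ?_
  rw [← Real.exp_sum, ← Finset.mul_sum]
  have h2 := sum_primesBelow_le hN
  have hl : 0 < Real.log N := Real.log_pos (by exact_mod_cast (by omega : 1 < N))
  have h3 : Real.exp 135 * (Real.log N) ^ (9 / 2 : ℝ) =
      Real.exp (9 / 2 * (Real.log (Real.log N) + 30)) := by
    rw [Real.rpow_def_of_pos hl, ← Real.exp_add]
    congr 1
    ring
  rw [h3, Real.exp_le_exp]
  linarith

theorem zf_norm_lt {p : ℕ} (hp : p.Prime) : ‖zf p‖ < 1 := by
  rw [zf_prime hp, Real.norm_of_nonneg (by positivity)]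
  have h2 : (2 : ℝ) ≤ p := by exact_mod_cast hp.two_le
  rw [div_lt_one (by linarith)]
  linarith

theorem zf_smooth (N : ℕ) (hN : 3 ≤ N) (T : Finset ℕ) (hT : ∀ d ∈ T, d ∈ Nat.smoothNumbers N) :
    ∑ d ∈ T, zf d ≤ Real.exp 135 * (Real.log N) ^ (9 / 2 : ℝ) := by
  obtain ⟨h1, h2⟩ :=
    EulerProduct.summable_and_hasSum_smoothNumbers_prod_primesBelow_geometric
      (f := zf) (fun {p} hp => zf_norm_lt hp) N
  refine le_trans ?_ (prod_le N hN)
  have h3 : ∑ d ∈ T, zf d = ∑ d ∈ T.subtype (fun d => d ∈ Nat.smoothNumbers N), zf d := by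
    rw [Finset.sum_subtype_of_mem _ hT]
  rw [h3]
  exact sum_le_hasSum _ (fun i _ => zf_nonneg _) h2

/-- `∑ 1/d` over smooth `d` with `Ω(d) ≥ k`. -/
theorem sum_inv_smooth_le (N k : ℕ) (hN : 3 ≤ N) (T : Finset ℕ)
    (hT : ∀ d ∈ T, d ∈ Nat.smoothNumbers N ∧ k ≤ ArithmeticFunction.cardFactors d) :
    ∑ d ∈ T, (1 : ℝ) / d ≤ (2 / 3) ^ k * (Real.exp 135 * (Real.log N) ^ (9 / 2 : ℝ)) := by
  have h1 : ∑ d ∈ T, (1 : ℝ) / d ≤ ∑ d ∈ T, (2 / 3 : ℝ) ^ k * zf d := by
    apply Finset.sum_le_sum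
    intro d hd
    rw [zf_apply]
    have h3 : (1 : ℝ) ≤ (2 / 3 : ℝ) ^ k * (3 / 2 : ℝ) ^ (ArithmeticFunction.cardFactors d) := by
      calc (1 : ℝ) = (2 / 3 : ℝ) ^ k * (3 / 2 : ℝ) ^ k := by
            rw [← mul_pow]; norm_num
        _ ≤ _ := by
            apply mul_le_mul_of_nonneg_left _ (by positivity)
            exact pow_le_pow_right₀ (by norm_num) (hT d hd).2
    rw [← mul_div_assoc]
    exact div_le_div_of_nonneg_right h3 (by positivity)
  rw [← Finset.mul_sum] at h1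
  exact h1.trans (mul_le_mul_of_nonneg_left (zf_smooth N hN T (fun d hd => (hT d hd).1))
    (by positivity))

/-- the number of `v ≤ x` with `Ω(v) ≥ k`. -/
theorem card_omega_ge_le (N k : ℕ) (hN : 3 ≤ N) (T : Finset ℕ)
    (hT : ∀ v ∈ T, 0 < v ∧ v < N ∧ k ≤ ArithmeticFunction.cardFactors v) :
    (T.card : ℝ) ≤ N * ((2 / 3) ^ k * (Real.exp 135 * (Real.log N) ^ (9 / 2 : ℝ))) := by
  have h1 : (T.card : ℝ) ≤ N * ∑ d ∈ T, (1 : ℝ) / d := by
    rw [Finset.mul_sum, Finset.card_eq_sum_ones]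
    push_cast
    apply Finset.sum_le_sum
    intro v hv
    obtain ⟨h1, h2, h3⟩ := hT v hv
    have h4 : (0 : ℝ) < v := by exact_mod_cast h1
    rw [mul_one_div, le_div_iff₀ h4, one_mul]
    exact_mod_cast h2.le
  refine h1.trans (mul_le_mul_of_nonneg_left ?_ (by positivity))
  apply sum_inv_smooth_le N k hN T
  intro v hv
  obtain ⟨h1, h2, h3⟩ := hT v hv
  exact ⟨Nat.mem_smoothNumbers_of_lt h1 h2, h3⟩

end Crest.Agent.R020.Top
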