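import Mathlib
import Crest.Agent.R020.TopBasic
import Crest.Agent.R020.TopRare
import Crest.Agent.Lib.PNT

/-!
Row 20, top step (helper369): the upper bound for the number of totients.
-/

set_option autoImplicit false

open Filter Topology Finset

namespace Crest.Agent.R020.Top

open Classical in
/-- totients up to `N` with a property -/
noncomputable def TF (N : ℕ) (P : ℕ → Prop) : Finset ℕ :=
  (Finset.Icc 1 N).filter (fun v => IsTot v ∧ P v)

theorem mem_TF {N : ℕ} {P : ℕ → Prop} {v : ℕ} : v ∈ TF N P ↔ v ≤ N ∧ IsTot v ∧ P v := by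
  classical
  unfold TF
  rw [Finset.mem_filter, Finset.mem_Icc]
  constructor
  · rintro ⟨⟨_, h⟩, h2, h3⟩; exact ⟨h, h2, h3⟩
  · rintro ⟨h, h2, h3⟩; exact ⟨⟨h2.pos, h⟩, h2, h3⟩

/-- integers divisible by `q (q-1)` for a large `q` are rare. -/
theorem card_sq_le (N Q : ℕ) (hQ : 2 ≤ Q) (T : Finset ℕ)
    (hT : ∀ v ∈ T, 0 < v ∧ v ≤ N ∧ ∃ q, Q ≤ q ∧ q * (q - 1) ∣ v) :
    (T.card : ℝ) ≤ N / ((Q : ℝ) - 1) := by
  classical
  have hsub : T ⊆ (Finset.Icc Q (N + 1)).biUnion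
      (fun q => (Finset.Ioc 0 N).filter (fun v => q * (q - 1) ∣ v)) := by
    intro v hv
    obtain ⟨h0, h1, q, hq, hd⟩ := hT v hv
    rw [Finset.mem_biUnion]
    refine ⟨q, ?_, ?_⟩
    · rw [Finset.mem_Icc]
      refine ⟨hq, ?_⟩
      have h2 : q * (q - 1) ≤ v := Nat.le_of_dvd h0 hd
      have h3 : q - 1 ≤ q * (q - 1) := Nat.le_mul_of_pos_left _ (by omega)
      omega
    · rw [Finset.mem_filter, Finset.mem_Ioc]
      exact ⟨⟨h0, h1⟩, hd⟩
  have h1 : (T.card : ℝ) ≤ ∑ q ∈ Finset.Icc Q (N + 1), (N : ℝ) / (q * (q - 1)) := by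
    have h2 := (Finset.card_le_card hsub).trans Finset.card_biUnion_le
    have h3 : (T.card : ℝ) ≤ ∑ q ∈ Finset.Icc Q (N + 1),
        (((Finset.Ioc 0 N).filter (fun v => q * (q - 1) ∣ v)).card : ℝ) := by
      exact_mod_cast h2
    refine h3.trans (Finset.sum_le_sum ?_)
    intro q hq
    rw [Finset.mem_Icc] at hq
    rw [Nat.Ioc_filter_dvd_card_eq_div]
    have h4 : ((N / (q * (q - 1)) : ℕ) : ℝ) ≤ (N : ℝ) / ((q * (q - 1) : ℕ) : ℝ) := Nat.cast_div_le
    refine h4.trans (le_of_eq ?_)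
    push_cast [Nat.cast_sub (show 1 ≤ q by omega)]
    ring
  refine h1.trans ?_
  have key : ∀ M : ℕ, Q ≤ M + 1 → ∑ q ∈ Finset.Icc Q M, (1 : ℝ) / (q * (q - 1)) ≤
      1 / ((Q : ℝ) - 1) - 1 / M := by
    intro M hM
    induction M, (show Q - 1 ≤ M by omega) using Nat.le_induction with
    | base =>
      rw [Finset.Icc_eq_empty (by omega), Finset.sum_empty]
      push_cast [Nat.cast_sub (show 1 ≤ Q by omega)]
      rw [sub_self]
    | succ k hk ih =>
      rw [Finset.sum_Icc_succ_top (by omega)]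
      have ih' := ih (by omega)
      have hk0 : (0 : ℝ) < k := by
        have : 0 < k := by omega
        exact_mod_cast this
      push_cast
      have : (1 : ℝ) / (((k : ℝ) + 1) * ((k : ℝ) + 1 - 1)) = 1 / k - 1 / (k + 1) := by
        rw [add_sub_cancel_right]
        field_simp
        ring
      rw [this]
      linarith
  have h5 : ∑ q ∈ Finset.Icc Q (N + 1), (N : ℝ) / (q * (q - 1)) =
      N * ∑ q ∈ Finset.Icc Q (N + 1), (1 : ℝ) / (q * (q - 1)) := by
    rw [Finset.mul_sum]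
    apply Finset.sum_congr rfl
    intro q _
    ring
  rw [h5, div_eq_mul_one_div (N : ℝ) ((Q : ℝ) - 1)]
  apply mul_le_mul_of_nonneg_left _ (by positivity)
  by_cases hQN : Q ≤ N + 2
  · have := key (N + 1) hQN
    have h6 : (0 : ℝ) ≤ 1 / ((N + 1 : ℕ) : ℝ) := by positivity
    linarith
  · rw [Finset.Icc_eq_empty (by omega), Finset.sum_empty]
    have : (2 : ℝ) ≤ Q := by exact_mod_cast hQ
    apply div_nonneg zero_le_one
    linarith

/-- counting `(q-1) d`. -/
theorem card_mul_le (x : ℝ) (D T : Finset ℕ) (hD : ∀ d ∈ D, 0 < d)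
    (hT : ∀ v ∈ T, (v : ℝ) ≤ x ∧ ∃ q d, q.Prime ∧ d ∈ D ∧ v = (q - 1) * d) :
    (T.card : ℝ) ≤ ∑ d ∈ D, (Nat.primeCounting ⌊x / d + 1⌋₊ : ℝ) := by
  classical
  have hsub : T ⊆ D.biUnion (fun d =>
      ((Finset.range (⌊x / d + 1⌋₊ + 1)).filter Nat.Prime).image (fun q => (q - 1) * d)) := by
    intro v hv
    obtain ⟨h1, q, d, hq, hd, rfl⟩ := hT v hv
    rw [Finset.mem_biUnion]
    refine ⟨d, hd, ?_⟩
    rw [Finset.mem_image]
    refine ⟨q, ?_, rfl⟩
    rw [Finset.mem_filter, Finset.mem_range]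
    refine ⟨?_, hq⟩
    rw [Nat.lt_succ_iff]
    apply Nat.le_floor
    have hd0 : (0 : ℝ) < d := by exact_mod_cast hD d hd
    push_cast [Nat.cast_sub hq.one_le] at h1
    have : (q : ℝ) - 1 ≤ x / d := by rwa [le_div_iff₀ hd0]
    linarith
  have h2 := (Finset.card_le_card hsub).trans Finset.card_biUnion_le
  have h3 : (T.card : ℝ) ≤ ∑ d ∈ D, ((((Finset.range (⌊x / d + 1⌋₊ + 1)).filter
      Nat.Prime).image (fun q => (q - 1) * d)).card : ℝ) := by
    exact_mod_cast h2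
  refine h3.trans (Finset.sum_le_sum ?_)
  intro d _
  have h4 := Finset.card_image_le (s := (Finset.range (⌊x / d + 1⌋₊ + 1)).filter Nat.Prime)
    (f := fun q => (q - 1) * d)
  have h5 : ((Finset.range (⌊x / d + 1⌋₊ + 1)).filter Nat.Prime).card =
      Nat.primeCounting ⌊x / d + 1⌋₊ := by
    rw [Nat.primeCounting, Nat.primeCounting', Nat.count_eq_card_filter_range]
  rw [h5] at h4
  exact_mod_cast h4

/-- PNT bound for the counting function at `x / d + 1`, `d ≤ x^ε`. -/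
theorem primeCounting_div_le {ε : ℝ} (hε : 0 < ε) (hε1 : ε < 1 / 2) :
    ∀ᶠ x : ℝ in atTop, ∀ d : ℕ, 0 < d → (d : ℝ) ≤ x ^ ε →
      (Nat.primeCounting ⌊x / d + 1⌋₊ : ℝ) ≤
        (1 + ε) ^ 2 / (1 - ε) * (x / Real.log x) * (1 / d) := by
  obtain ⟨X0, hX0, hπ⟩ := Crest.Agent.Lib.PNT.abs_primeCounting_sub_le hε
  have hx1 : ∀ᶠ x : ℝ in atTop, X0 + 1 / ε + 2 ≤ x ^ (1 / 2 : ℝ) :=
    (tendsto_rpow_atTop (by norm_num : (0 : ℝ) < 1 / 2)).eventually_ge_atTop _
  filter_upwards [hx1, eventually_gt_atTop 1] with x hx1 hx2 d hd0 hd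
  have hx0 : 0 < x := by linarith
  have hd0' : (0 : ℝ) < d := by exact_mod_cast hd0
  have hlog : 0 < Real.log x := Real.log_pos hx2
  have hX : x ^ (1 - ε) ≤ x / d := by
    rw [le_div_iff₀ hd0']
    calc x ^ (1 - ε) * d ≤ x ^ (1 - ε) * x ^ ε :=
          mul_le_mul_of_nonneg_left hd (by positivity)
      _ = x := by rw [← Real.rpow_add hx0]; simp
  have hX2 : x ^ (1 / 2 : ℝ) ≤ x ^ (1 - ε) :=
    Real.rpow_le_rpow_of_exponent_le hx2.le (by linarith)
  set X := x / d with hXdef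
  have hXbig : X0 + 1 / ε + 2 ≤ X := hx1.trans (hX2.trans hX)
  have hεinv : 0 < 1 / ε := by positivity
  have hXpos : 0 < X := by linarith
  have h1 := hπ (X + 1) (by linarith)
  have h2 : (Nat.primeCounting ⌊X + 1⌋₊ : ℝ) ≤ (1 + ε) * ((X + 1) / Real.log (X + 1)) := by
    have := (abs_le.1 h1).2
    linarith
  have hlogX : (1 - ε) * Real.log x ≤ Real.log (X + 1) := by
    rw [← Real.log_rpow hx0]
    exact Real.log_le_log (by positivity) (by linarith)
  have h3 : (X + 1) / Real.log (X + 1) ≤ (1 + ε) * X / ((1 - ε) * Real.log x) := by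
    apply div_le_div₀ (by positivity) _ _ hlogX
    · have : 1 ≤ ε * X := by
        have h5 : 1 / ε ≤ X := by linarith
        calc (1 : ℝ) = ε * (1 / ε) := by field_simp
          _ ≤ ε * X := mul_le_mul_of_nonneg_left h5 hε.le
      linarith
    · have : 0 < 1 - ε := by linarith
      positivity
  calc (Nat.primeCounting ⌊X + 1⌋₊ : ℝ) ≤ (1 + ε) * ((X + 1) / Real.log (X + 1)) := h2
    _ ≤ (1 + ε) * ((1 + ε) * X / ((1 - ε) * Real.log x)) :=
        mul_le_mul_of_nonneg_left h3 (by linarith)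
    _ = (1 + ε) ^ 2 / (1 - ε) * (x / Real.log x) * (1 / d) := by
        have h6 : (1 - ε) ≠ 0 := by linarith
        rw [hXdef]
        field_simp

theorem primeCounting_div_ge {ε : ℝ} (hε : 0 < ε) (hε1 : ε < 1 / 2) :
    ∀ᶠ x : ℝ in atTop, ∀ d : ℕ, 0 < d → (d : ℝ) ≤ x ^ ε →
      (1 - ε) * (x / Real.log x) * (1 / d) ≤ (Nat.primeCounting ⌊x / d⌋₊ : ℝ) := by
  obtain ⟨X0, hX0, hπ⟩ := Crest.Agent.Lib.PNT.abs_primeCounting_sub_le hε
  have hx1 : ∀ᶠ x : ℝ in atTop, X0 + 2 ≤ x ^ (1 / 2 : ℝ) :=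
    (tendsto_rpow_atTop (by norm_num : (0 : ℝ) < 1 / 2)).eventually_ge_atTop _
  filter_upwards [hx1, eventually_gt_atTop 1] with x hx1 hx2 d hd0 hd
  have hx0 : 0 < x := by linarith
  have hd0' : (0 : ℝ) < d := by exact_mod_cast hd0
  have hd1 : (1 : ℝ) ≤ d := by exact_mod_cast hd0
  have hlog : 0 < Real.log x := Real.log_pos hx2
  have hX : x ^ (1 - ε) ≤ x / d := by
    rw [le_div_iff₀ hd0']
    calc x ^ (1 - ε) * d ≤ x ^ (1 - ε) * x ^ ε :=
          mul_le_mul_of_nonneg_left hd (by positivity)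
      _ = x := by rw [← Real.rpow_add hx0]; simp
  have hX2 : x ^ (1 / 2 : ℝ) ≤ x ^ (1 - ε) :=
    Real.rpow_le_rpow_of_exponent_le hx2.le (by linarith)
  have hXle : x / d ≤ x := div_le_self hx0.le hd1
  set X := x / d with hXdef
  have hXbig : X0 + 2 ≤ X := hx1.trans (hX2.trans hX)
  have hXpos : 0 < X := by linarith
  have h1 := hπ X (by linarith)
  have h2 : (1 - ε) * (X / Real.log X) ≤ (Nat.primeCounting ⌊X⌋₊ : ℝ) := by
    have := (abs_le.1 h1).1
    linarith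
  have hlogX : 0 < Real.log X := Real.log_pos (by linarith)
  have h3 : X / Real.log x ≤ X / Real.log X :=
    div_le_div_of_nonneg_left hXpos.le hlogX (Real.log_le_log hXpos hXle)
  calc (1 - ε) * (x / Real.log x) * (1 / d) = (1 - ε) * (X / Real.log x) := by
        rw [hXdef]; field_simp
    _ ≤ (1 - ε) * (X / Real.log X) := mul_le_mul_of_nonneg_left h3 (by linarith)
    _ ≤ _ := h2

/-- the log weight trick. -/
theorem sum_log_le (x : ℝ) (L D : Finset ℕ) (q dd : ℕ → ℕ)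
    (hD : ∀ d ∈ D, 0 < d ∧ (d : ℝ) ≤ x)
    (h : ∀ v ∈ L, (v : ℝ) ≤ x ∧ (q v).Prime ∧ dd v ∈ D ∧ v = (q v - 1) * dd v) :
    ∑ v ∈ L, Real.log (q v) ≤ 2 * Real.log 4 * x * ∑ d ∈ D, (1 : ℝ) / d := by
  classical
  have h1 : ∑ v ∈ L, Real.log (q v) ≤
      ∑ z ∈ D.sigma (fun d => (Finset.Ioc 0 ⌊x / d + 1⌋₊).filter Nat.Prime),
        Real.log (z.2 : ℝ) := by
    have hinj : Set.InjOn (fun v => (⟨dd v, q v⟩ : (_ : ℕ) × ℕ)) (L : Set ℕ) := by
      intro v hv w hw hvw
      have hv' := (h v hv).2.2.2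
      have hw' := (h w hw).2.2.2
      simp only [Sigma.mk.injEq, heq_eq_eq] at hvw
      rw [hv', hw', hvw.1, hvw.2]
    rw [← Finset.sum_image (f := fun z : (_ : ℕ) × ℕ => Real.log (z.2 : ℝ)) hinj]
    apply Finset.sum_le_sum_of_subset_of_nonneg
    · intro z hz
      rw [Finset.mem_image] at hz
      obtain ⟨v, hv, rfl⟩ := hz
      obtain ⟨h2, h3, h4, h5⟩ := h v hv
      rw [Finset.mem_sigma]
      refine ⟨h4, ?_⟩
      rw [Finset.mem_filter, Finset.mem_Ioc]
      refine ⟨⟨h3.pos, ?_⟩, h3⟩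
      apply Nat.le_floor
      have hd0 : (0 : ℝ) < dd v := by exact_mod_cast (hD _ h4).1
      have h6 : ((q v : ℝ) - 1) * dd v ≤ x := by
        have : (v : ℝ) = ((q v : ℝ) - 1) * dd v := by
          conv_lhs => rw [h5]
          push_cast [Nat.cast_sub h3.one_le]
          ring
        linarith
      have : (q v : ℝ) - 1 ≤ x / dd v := by rwa [le_div_iff₀ hd0]
      show (q v : ℝ) ≤ x / dd v + 1
      linarith
    · intro z hz _
      rw [Finset.mem_sigma, Finset.mem_filter] at hz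
      exact Real.log_nonneg (by exact_mod_cast hz.2.2.one_le)
  refine h1.trans ?_
  rw [Finset.sum_sigma, Finset.mul_sum]
  apply Finset.sum_le_sum
  intro d hd
  obtain ⟨hd0, hdx⟩ := hD d hd
  have hd0' : (0 : ℝ) < d := by exact_mod_cast hd0
  have h2 : ∑ s ∈ (Finset.Ioc 0 ⌊x / d + 1⌋₊).filter Nat.Prime, Real.log (s : ℝ) =
      Chebyshev.theta (x / d + 1) := rfl
  have h3 : 1 ≤ x / d := by rwa [le_div_iff₀ hd0', one_mul]
  rw [h2]
  have hl4 : 0 ≤ Real.log 4 := Real.log_nonneg (by norm_num)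
  calc Chebyshev.theta (x / d + 1) ≤ Real.log 4 * (x / d + 1) :=
        Chebyshev.theta_le_log4_mul_x (by linarith)
    _ ≤ Real.log 4 * (2 * (x / d)) := mul_le_mul_of_nonneg_left (by linarith) hl4
    _ = 2 * Real.log 4 * x * (1 / d) := by ring

/-- from the log weight to the count. -/
theorem card_le_of_log (x : ℝ) (hx : Real.exp 1 ≤ x) (L : Finset ℕ) (q : ℕ → ℕ)
    (hL : ∀ v ∈ L, 0 < v ∧ (v : ℝ) ≤ x) (b : ℝ)
    (hq : ∀ v ∈ L, Real.log v ≤ 2 * Real.log (q v) + b)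
    (hb : b + 2 * Real.log (Real.log x) ≤ 1 / 2 * Real.log x) :
    (L.card : ℝ) * Real.log x ≤ 4 * ∑ v ∈ L, Real.log (q v) + 2 * (x / Real.log x) := by
  classical
  have hx0 : 0 < x := (Real.exp_pos 1).trans_le hx
  have hlog : 1 ≤ Real.log x := by
    rw [← Real.log_exp 1]; exact Real.log_le_log (Real.exp_pos 1) hx
  have hlog0 : 0 < Real.log x := by linarith
  have hll : 0 ≤ Real.log (Real.log x) := Real.log_nonneg hlog
  set y := x / (Real.log x) ^ 2 with hy
  have hy0 : 0 < y := by positivity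
  have key : ∀ v ∈ L, Real.log x ≤ 2 * Real.log (q v) + b + 2 * Real.log (Real.log x) +
      (if (v : ℝ) ≤ y then Real.log x else 0) := by
    intro v hv
    obtain ⟨h0, h1⟩ := hL v hv
    have h0' : (1 : ℝ) ≤ v := by exact_mod_cast h0
    have h2 := hq v hv
    split_ifs with h3
    · have := Real.log_nonneg h0'
      linarith
    · push Not at h3
      have h4 : Real.log y ≤ Real.log v := Real.log_le_log hy0 h3.le
      rw [hy, Real.log_div hx0.ne' (by positivity), Real.log_pow] at h4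
      push_cast at h4
      linarith
  have h1 := Finset.sum_le_sum key
  rw [Finset.sum_const, nsmul_eq_mul, Finset.sum_add_distrib, Finset.sum_add_distrib,
    Finset.sum_add_distrib, Finset.sum_const, Finset.sum_const, nsmul_eq_mul, nsmul_eq_mul,
    ← Finset.mul_sum, ← Finset.sum_filter, Finset.sum_const, nsmul_eq_mul] at h1
  have h2 : ((L.filter (fun v : ℕ => (v : ℝ) ≤ y)).card : ℝ) ≤ y := by
    have hsub : L.filter (fun v : ℕ => (v : ℝ) ≤ y) ⊆ Finset.Ioc 0 ⌊y⌋₊ := by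
      intro v hv
      rw [Finset.mem_filter] at hv
      rw [Finset.mem_Ioc]
      exact ⟨(hL v hv.1).1, Nat.le_floor hv.2⟩
    have h3 := Finset.card_le_card hsub
    rw [Nat.card_Ioc, Nat.sub_zero] at h3
    calc ((L.filter (fun v : ℕ => (v : ℝ) ≤ y)).card : ℝ) ≤ (⌊y⌋₊ : ℝ) := by exact_mod_cast h3
      _ ≤ y := Nat.floor_le hy0.le
  have h3 : ((L.filter (fun v : ℕ => (v : ℝ) ≤ y)).card : ℝ) * Real.log x ≤ x / Real.log x := by
    calc _ ≤ y * Real.log x := mul_le_mul_of_nonneg_right h2 hlog0.le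
      _ = x / Real.log x := by rw [hy]; field_simp
  have h4 : (L.card : ℝ) * (b + 2 * Real.log (Real.log x)) ≤ L.card * (1 / 2 * Real.log x) :=
    mul_le_mul_of_nonneg_left hb (by positivity)
  nlinarith

end Crest.Agent.R020.Top
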