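import Mathlib
import Crest.Agent.R020.TopUpper

/-!
Row 20, top step (helper369): the upper bound.
-/

set_option autoImplicit false

open Filter Topology Finset

namespace Crest.Agent.R020.Top

theorem log_le_card {m p : ℕ} (hm : m ≠ 0) (h : ∀ r ∈ dl m, r ≤ p) :
    Real.log m ≤ (ArithmeticFunction.cardFactors m : ℝ) * Real.log p := by
  have h1 : m ≤ p ^ (ArithmeticFunction.cardFactors m) := by
    calc m = (dl m).prod := (prod_dl hm).symm
      _ ≤ p ^ (dl m).length := List.prod_le_pow_card _ _ h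
      _ = _ := by rw [length_dl]
  have hm0 : (0 : ℝ) < m := by exact_mod_cast Nat.pos_of_ne_zero hm
  have h2 : (m : ℝ) ≤ (p : ℝ) ^ (ArithmeticFunction.cardFactors m) := by exact_mod_cast h1
  have h3 := Real.log_le_log hm0 h2
  rwa [Real.log_pow] at h3

theorem log_log_le_of_yy_le {p : ℕ} (hp : 2 ≤ p) {t : ℝ} (h : yy p ≤ t) :
    Real.log p ≤ Real.exp t := by
  have h1 : Real.log (Real.log p) ≤ t := (le_max_right _ _).trans h
  have h2 : 0 < Real.log p := Real.log_pos (by exact_mod_cast (by omega : 1 < p))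
  rwa [Real.log_le_iff_le_exp h2] at h1

theorem yy_ge_of_log {p : ℕ} {t : ℝ} (h : Real.exp t ≤ Real.log p) : t ≤ yy p := by
  have h2 : 0 < Real.log p := (Real.exp_pos t).trans_le h
  have h1 : t ≤ Real.log (Real.log p) := by
    rw [← Real.log_exp t]
    exact Real.log_le_log (Real.exp_pos t) h
  exact h1.trans (le_max_right _ _)

/-- the two slot estimate -/
theorem large_case {ε x B E : ℝ} {k : ℕ}
    (hε : 0 < ε) (hx : 1 < x) (hB : B = Real.log (Real.log x)) (hB0 : 0 < B)
    (hk : (k : ℝ) ≤ Real.exp (B / 20))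
    (hc1 : 1 ≤ ε * Real.exp (B / 20)) (hE : E ≤ B / 50)
    {d m q : ℕ} (hm : rr d = m) (hFd : FF aa d ≤ B + E)
    (hq : ∀ r ∈ dl m, r ≤ q)
    (hΩ : ArithmeticFunction.cardFactors m ≤ k) (hmx : x ^ ε < m) :
    9 / 10 * B ≤ yy (Pm m) ∧ Real.log m ≤ Real.log q + Real.exp (4 / 5 * B) := by
  have hlogx : 0 < Real.log x := Real.log_pos hx
  have hexpB : Real.exp B = Real.log x := by rw [hB, Real.exp_log hlogx]
  have hm1 : (1 : ℝ) < m := by
    have : (1 : ℝ) < x ^ ε := Real.one_lt_rpow hx hε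
    linarith
  have hm2 : 2 ≤ m := by
    have : 1 < m := by exact_mod_cast hm1
    omega
  obtain ⟨p, m', hp, hm'0, hmeq, hdl, hp1, hle⟩ := exists_cons hm2
  have hall : ∀ r ∈ dl m, r ≤ p := by
    intro r hr
    rw [hdl] at hr
    rcases List.mem_cons.1 hr with rfl | hr
    · exact le_rfl
    · exact hle r hr
  have hlogm : ε * Real.log x ≤ Real.log m := by
    rw [← Real.log_rpow (by linarith)]
    exact Real.log_le_log (by positivity) hmx.le
  have h1 := log_le_card (by omega : m ≠ 0) hall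
  have hlogp : 0 < Real.log p := Real.log_pos (by exact_mod_cast hp.one_lt)
  have hΩ' : (ArithmeticFunction.cardFactors m : ℝ) ≤ k := by exact_mod_cast hΩ
  have h2 : ε * Real.exp B ≤ Real.exp (B / 20) * Real.log p := by
    rw [hexpB]
    calc ε * Real.log x ≤ Real.log m := hlogm
      _ ≤ (ArithmeticFunction.cardFactors m : ℝ) * Real.log p := h1
      _ ≤ Real.exp (B / 20) * Real.log p :=
          mul_le_mul_of_nonneg_right (hΩ'.trans hk) hlogp.le
  have h3 : Real.exp (9 / 10 * B) ≤ Real.log p := by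
    have e1 : Real.exp B = Real.exp (B / 20) * (Real.exp (B / 20) * Real.exp (9 / 10 * B)) := by
      rw [← Real.exp_add, ← Real.exp_add]; congr 1; ring
    have hpos := Real.exp_pos (B / 20)
    have h4 : Real.exp (B / 20) * Real.exp (9 / 10 * B) ≤ Real.exp (B / 20) * Real.log p := by
      calc Real.exp (B / 20) * Real.exp (9 / 10 * B)
          ≤ Real.exp (B / 20) * ((ε * Real.exp (B / 20)) * Real.exp (9 / 10 * B)) := by
            apply mul_le_mul_of_nonneg_left _ hpos.le
            exact le_mul_of_one_le_left (Real.exp_pos _).le hc1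
        _ = ε * Real.exp B := by rw [e1]; ring
        _ ≤ _ := h2
    exact le_of_mul_le_mul_left h4 hpos
  have hyp : 9 / 10 * B ≤ yy p := yy_ge_of_log h3
  refine ⟨by rw [hp1]; exact hyp, ?_⟩
  have hpq : p ≤ q := hq p (by rw [hdl]; exact List.mem_cons_self)
  have hlogpq : Real.log p ≤ Real.log q :=
    Real.log_le_log (by exact_mod_cast hp.pos) (by exact_mod_cast hpq)
  have hsplit : Real.log m = Real.log p + Real.log m' := by
    rw [hmeq]
    push_cast
    rw [Real.log_mul (by exact_mod_cast hp.ne_zero) (by exact_mod_cast hm'0)]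
  rcases hl' : dl m' with _ | ⟨p', l'⟩
  · have : m' = 1 := by
      have := prod_dl hm'0
      rw [hl'] at this
      simpa using this.symm
    rw [hsplit, this]
    have := Real.exp_pos (4 / 5 * B)
    simp only [Nat.cast_one, Real.log_one]
    linarith
  · have hF2 : aa 0 * yy p + aa 1 * yy p' ≤ FF aa d := by
      unfold FF
      rw [hm, hdl, hl', FL_cons, FL_cons]
      have := FL_nonneg (c := fun i => aa (i + 1 + 1)) (fun i => aa_nonneg _) l'
      linarith
    have ha0 := aa_zero_gt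
    have ha0' := aa_zero_lt
    have ha1 := aa_zero_add_one
    have ha1' : (0.903 : ℝ) < aa 1 := by linarith
    have hy' : yy p' ≤ 3 / 4 * B := by
      by_contra hcon
      push Not at hcon
      have h5 : 0.386 * (9 / 10 * B) ≤ aa 0 * yy p :=
        mul_le_mul ha0.le hyp (by positivity) (by linarith)
      have h6 : 0.903 * (3 / 4 * B) ≤ aa 1 * yy p' :=
        mul_le_mul ha1'.le hcon.le (by positivity) (by linarith)
      linarith
    have hp'mem : p' ∈ dl m' := by rw [hl']; exact List.mem_cons_self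
    have hp'pr := prime_of_mem_dl hp'mem
    have hall' : ∀ r ∈ dl m', r ≤ p' := by
      intro r hr
      have hs := dl_sorted m'
      rw [hl'] at hr hs
      rw [List.pairwise_cons] at hs
      rcases List.mem_cons.1 hr with rfl | hr
      · exact le_rfl
      · exact hs.1 r hr
    have h5 := log_le_card hm'0 hall'
    have h6 := log_log_le_of_yy_le hp'pr.two_le hy'
    have h7 : (ArithmeticFunction.cardFactors m' : ℝ) ≤ Real.exp (B / 20) := by
      refine le_trans ?_ (hΩ'.trans hk)
      rw [hmeq, ArithmeticFunction.cardFactors_mul hp.ne_zero hm'0]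
      push_cast
      linarith [Nat.cast_nonneg (α := ℝ) (ArithmeticFunction.cardFactors p)]
    have hlp' : 0 ≤ Real.log p' := Real.log_nonneg (by exact_mod_cast hp'pr.one_le)
    have h8 : Real.log m' ≤ Real.exp (4 / 5 * B) := by
      calc Real.log m' ≤ _ := h5
        _ ≤ Real.exp (B / 20) * Real.exp (3 / 4 * B) :=
            mul_le_mul h7 h6 hlp' (Real.exp_pos _).le
        _ = Real.exp (4 / 5 * B) := by rw [← Real.exp_add]; congr 1; ring
    rw [hsplit]
    linarith

theorem card_le_natFloor {T : Finset ℕ} {y : ℝ} (h : ∀ v ∈ T, 0 < v ∧ (v : ℝ) ≤ y) (hy : 0 ≤ y) :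
    (T.card : ℝ) ≤ y := by
  have hsub : T ⊆ Finset.Ioc 0 ⌊y⌋₊ := by
    intro v hv
    rw [Finset.mem_Ioc]
    exact ⟨(h v hv).1, Nat.le_floor (h v hv).2⟩
  have h3 := Finset.card_le_card hsub
  rw [Nat.card_Ioc, Nat.sub_zero] at h3
  calc (T.card : ℝ) ≤ (⌊y⌋₊ : ℝ) := by exact_mod_cast h3
    _ ≤ y := Nat.floor_le hy

/-- decomposition of a totient `v ≠ 1`. -/
theorem decomp {v : ℕ} (hv : IsTot v) (hr : v ≠ 1) :
    ∃ q m : ℕ, q.Prime ∧ 0 < m ∧ rr v = q * m ∧ Pm (rr v) = q ∧ (∀ r ∈ dl m, r ≤ q) ∧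
      (q ∣ m → q * (q - 1) ∣ v) ∧
      (¬ q ∣ m → v = (q - 1) * Nat.totient m ∧ rr (Nat.totient m) = m ∧ tl v = Nat.totient m ∧
        ¬ q ^ 2 ∣ rr v ∧ IsTot (Nat.totient m)) := by
  obtain ⟨q, m, hq, hm, heq, hdl, hp1, hle⟩ := exists_cons (one_lt_rr hv hr)
  have hm0 : 0 < m := Nat.pos_of_ne_zero hm
  refine ⟨q, m, hq, hm0, heq, hp1, hle, ?_, ?_⟩
  · intro hqm
    obtain ⟨m', rfl⟩ := hqm
    have hm'0 : m' ≠ 0 := by rintro rfl; simp at hm
    have h1 : Nat.totient (rr v) = v := totient_rr hv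
    rw [heq, Nat.totient_mul_of_prime_of_dvd hq (Dvd.intro m' rfl)] at h1
    rw [← h1]
    apply Nat.mul_dvd_mul_left
    have : q ∣ q * m' := Dvd.intro _ rfl
    have := Nat.totient_dvd_of_dvd this
    rwa [Nat.totient_prime hq] at this
  · intro hqm
    have hlt : Pm m < q := by
      rw [Pm_lt_iff hm hq.two_le]
      intro r hrp hrm
      have h1 := hle r ((mem_dl_iff hm).2 ⟨hrp, hrm⟩)
      rcases h1.eq_or_lt with h | h
      · subst h
        exact absurd hrm hqm
      · exact h
    obtain ⟨h1, h2⟩ := rr_tail hv hq heq hlt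
    refine ⟨h2, h1, ?_, ?_, isTot_totient hm0⟩
    · unfold tl
      rw [hp1, heq, Nat.mul_div_cancel_left _ hq.pos]
    · rw [heq, pow_two]
      intro h
      exact hqm (Nat.dvd_of_mul_dvd_mul_left hq.pos h)

end Crest.Agent.R020.Top
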