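import Mathlib
import Crest.Agent.R020.TopMain
import Crest.Prelude.Def_TotientScale

/-!
Row 20, top step (helper369): the upper bound, final form.
-/

set_option autoImplicit false

open Filter Topology Finset
open Crest.NumberTheoryR.TotientScale

namespace Crest.Agent.R020.Top

/-- cut for `Ω` -/
noncomputable def kk (B : ℝ) : ℕ := ⌊Real.exp (B / 20)⌋₊

theorem tendsto_loglog : Tendsto (fun x : ℝ => Real.log (Real.log x)) atTop atTop :=
  Real.tendsto_log_atTop.comp Real.tendsto_log_atTop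

theorem rare_small {δ : ℝ} (hδ : 0 < δ) :
    ∀ᶠ B : ℝ in atTop, (2 / 3 : ℝ) ^ (kk B) * Real.exp (6 * B) ≤ δ := by
  have h1 : Tendsto (fun u : ℝ => u ^ (120 : ℕ) * Real.exp (-(Real.log (3 / 2)) * u)) atTop (𝓝 0) := by
    have := tendsto_rpow_mul_exp_neg_mul_atTop_nhds_zero (120 : ℝ) (Real.log (3 / 2))
      (Real.log_pos (by norm_num))
    refine this.congr' ?_
    filter_upwards [eventually_ge_atTop 0] with u hu
    rw [show (120 : ℝ) = ((120 : ℕ) : ℝ) by norm_num, Real.rpow_natCast]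
  have h2 : Tendsto (fun B : ℝ => Real.exp (B / 20)) atTop atTop :=
    Real.tendsto_exp_atTop.comp (tendsto_id.atTop_div_const (by norm_num))
  have h3 := (h1.comp h2).eventually (gt_mem_nhds (show (0 : ℝ) < δ / (3 / 2) by positivity))
  filter_upwards [h3] with B hB
  simp only [Function.comp_apply] at hB
  set u := Real.exp (B / 20) with hu
  have e1 : Real.exp (6 * B) = u ^ 120 := by
    rw [hu, ← Real.exp_nat_mul]; congr 1; push_cast; ring
  have e2 : (2 / 3 : ℝ) ^ (kk B) ≤ 3 / 2 * Real.exp (-(Real.log (3 / 2)) * u) := by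
    have h4 : u < kk B + 1 := Nat.lt_floor_add_one u
    have e3 : (2 / 3 : ℝ) ^ (kk B) = Real.exp (-(Real.log (3 / 2)) * kk B) := by
      have e4 : -(Real.log (3 / 2 : ℝ)) = Real.log (2 / 3) := by
        rw [← Real.log_inv]; norm_num
      rw [e4, mul_comm, Real.exp_nat_mul, Real.exp_log (by norm_num)]
    have e5 : (3 / 2 : ℝ) = Real.exp (Real.log (3 / 2)) := (Real.exp_log (by norm_num)).symm
    rw [e3]
    calc Real.exp (-(Real.log (3 / 2)) * kk B)
        ≤ Real.exp (Real.log (3 / 2) + -(Real.log (3 / 2)) * u) := by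
          rw [Real.exp_le_exp]
          have : 0 < Real.log (3 / 2 : ℝ) := Real.log_pos (by norm_num)
          nlinarith
      _ = 3 / 2 * Real.exp (-(Real.log (3 / 2)) * u) := by
          rw [Real.exp_add, Real.exp_log (by norm_num)]
  rw [e1]
  have h5 : 0 ≤ u ^ 120 := by positivity
  calc (2 / 3 : ℝ) ^ (kk B) * u ^ 120 ≤ (3 / 2 * Real.exp (-(Real.log (3 / 2)) * u)) * u ^ 120 :=
        mul_le_mul_of_nonneg_right e2 h5
    _ = 3 / 2 * (u ^ 120 * Real.exp (-(Real.log (3 / 2)) * u)) := by ring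
    _ ≤ 3 / 2 * (δ / (3 / 2)) := mul_le_mul_of_nonneg_left hB.le (by norm_num)
    _ = δ := by ring

/-- the number of `v ≤ x` with many prime factors is small. -/
theorem card_rare {δ : ℝ} (hδ : 0 < δ) :
    ∀ᶠ x : ℝ in atTop, ∀ T : Finset ℕ,
      (∀ v ∈ T, 0 < v ∧ (v : ℝ) ≤ x ∧ kk (Real.log (Real.log x)) ≤
        ArithmeticFunction.cardFactors v) → (T.card : ℝ) ≤ δ * (x / Real.log x) := by
  have h1 := tendsto_loglog.eventually (rare_small (δ := δ / (64 * Real.exp 135))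
    (by positivity))
  filter_upwards [h1, eventually_ge_atTop (Real.exp 1), eventually_ge_atTop 3] with x h1 hx hx3 T hT
  have hx0 : 0 < x := by linarith
  have hlog : 1 ≤ Real.log x := by
    rw [← Real.log_exp 1]; exact Real.log_le_log (Real.exp_pos 1) hx
  have hlog0 : 0 < Real.log x := by linarith
  set k := kk (Real.log (Real.log x)) with hk
  have hfl : (⌊x⌋₊ : ℝ) ≤ x := Nat.floor_le hx0.le
  have hN3 : 3 ≤ ⌊x⌋₊ := Nat.le_floor (by exact_mod_cast hx3)
  have h2 := card_omega_ge_le (⌊x⌋₊ + 1) k (by omega) T (by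
    intro v hv
    obtain ⟨a, b, c⟩ := hT v hv
    exact ⟨a, Nat.lt_succ_of_le (Nat.le_floor b), c⟩)
  have e1 : Real.exp (6 * Real.log (Real.log x)) = (Real.log x) ^ 6 := by
    rw [show (6 : ℝ) * Real.log (Real.log x) = ((6 : ℕ) : ℝ) * Real.log (Real.log x) by norm_num,
      Real.exp_nat_mul, Real.exp_log hlog0]
  rw [e1] at h1
  have h3 : ((⌊x⌋₊ + 1 : ℕ) : ℝ) ≤ 2 * x := by push_cast; linarith
  have h4 : Real.log ((⌊x⌋₊ + 1 : ℕ) : ℝ) ≤ 2 * Real.log x := by
    have : Real.log ((⌊x⌋₊ + 1 : ℕ) : ℝ) ≤ Real.log (x ^ 2) := by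
      apply Real.log_le_log (by positivity)
      refine h3.trans ?_
      nlinarith
    rwa [Real.log_pow] at this
  have h5 : (Real.log ((⌊x⌋₊ + 1 : ℕ) : ℝ)) ^ (9 / 2 : ℝ) ≤ 32 * (Real.log x) ^ 5 := by
    have h6 : 0 ≤ Real.log ((⌊x⌋₊ + 1 : ℕ) : ℝ) := Real.log_natCast_nonneg _
    calc (Real.log ((⌊x⌋₊ + 1 : ℕ) : ℝ)) ^ (9 / 2 : ℝ) ≤ (2 * Real.log x) ^ (9 / 2 : ℝ) :=
          Real.rpow_le_rpow h6 h4 (by norm_num)
      _ ≤ (2 * Real.log x) ^ (5 : ℝ) :=
          Real.rpow_le_rpow_of_exponent_le (by linarith) (by norm_num)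
      _ = 32 * (Real.log x) ^ 5 := by
          rw [show (5 : ℝ) = ((5 : ℕ) : ℝ) by norm_num, Real.rpow_natCast]; ring
  have hp : 0 ≤ (2 / 3 : ℝ) ^ k := by positivity
  calc (T.card : ℝ) ≤ _ := h2
    _ ≤ (2 * x) * ((2 / 3) ^ k * (Real.exp 135 * (32 * (Real.log x) ^ 5))) := by
        apply mul_le_mul h3 _ _ (by positivity)
        · exact mul_le_mul_of_nonneg_left
            (mul_le_mul_of_nonneg_left h5 (Real.exp_pos _).le) hp
        · have h6 : 0 ≤ Real.log ((⌊x⌋₊ + 1 : ℕ) : ℝ) := Real.log_natCast_nonneg _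
          positivity
    _ = (64 * Real.exp 135) * ((2 / 3 : ℝ) ^ k * (Real.log x) ^ 6) * (x / Real.log x) := by
        field_simp
        ring
    _ ≤ (64 * Real.exp 135) * (δ / (64 * Real.exp 135)) * (x / Real.log x) := by
        apply mul_le_mul_of_nonneg_right _ (by positivity)
        exact mul_le_mul_of_nonneg_left h1 (by positivity)
    _ = δ * (x / Real.log x) := by
        field_simp

theorem totientCount_eq (x : ℝ) (hx : 0 ≤ x) :
    totientCount x = (TF ⌊x⌋₊ (fun _ => True)).card := by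
  unfold totientCount
  rw [← Set.ncard_coe_finset]
  congr 1
  ext v
  simp only [Set.mem_ofPred_eq, Finset.mem_coe, mem_TF, and_true]
  constructor
  · rintro ⟨h1, h2⟩; exact ⟨Nat.le_floor h1, h2⟩
  · rintro ⟨h1, h2⟩
    refine ⟨?_, h2⟩
    calc (v : ℝ) ≤ (⌊x⌋₊ : ℝ) := by exact_mod_cast h1
      _ ≤ x := Nat.floor_le hx

theorem mem_TF_real {x : ℝ} (hx : 0 ≤ x) {P : ℕ → Prop} {v : ℕ} (h : v ∈ TF ⌊x⌋₊ P) :
    0 < v ∧ (v : ℝ) ≤ x ∧ IsTot v ∧ P v := by
  obtain ⟨h1, h2, h3⟩ := mem_TF.1 h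
  refine ⟨h2.pos, ?_, h2, h3⟩
  calc (v : ℝ) ≤ (⌊x⌋₊ : ℝ) := by exact_mod_cast h1
    _ ≤ x := Nat.floor_le hx

/-- totients `≤ x` whose tail violates availability -/
noncomputable def BadS (E : ℝ → ℝ) (x : ℝ) : Finset ℕ :=
  TF ⌊x⌋₊ (fun v => ¬ Pm (rr v) ^ 2 ∣ rr v ∧
    Real.log (Real.log x) + E (Real.log (Real.log x)) < FF aa (tl v))

/-- available tails `≤ x^ε` -/
noncomputable def DS (E : ℝ → ℝ) (ε x : ℝ) : Finset ℕ :=
  TF ⌊x ^ ε⌋₊ (fun d => FF aa d ≤ Real.log (Real.log x) + E (Real.log (Real.log x)))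

/-- available tails with a large largest prime -/
noncomputable def LS (E : ℝ → ℝ) (x : ℝ) : Finset ℕ :=
  TF ⌊x⌋₊ (fun d => FF aa d ≤ Real.log (Real.log x) + E (Real.log (Real.log x)) ∧
    9 / 10 * Real.log (Real.log x) ≤ y1 d)

open Classical in
/-- The count of the class with a large cofactor. -/
theorem card_large {E : ℝ → ℝ} (hE : ∀ᶠ B : ℝ in atTop, E B ≤ B / 50) {ε : ℝ} (hε : 0 < ε) :
    ∀ᶠ x : ℝ in atTop, ∀ T : Finset ℕ,
      (∀ v ∈ T, (v : ℝ) ≤ x ∧ IsTot v ∧ v ≠ 1 ∧ ¬ Pm (rr v) ^ 2 ∣ rr v ∧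
        FF aa (tl v) ≤ Real.log (Real.log x) + E (Real.log (Real.log x)) ∧
        x ^ ε < (rr (tl v) : ℕ) ∧
        ArithmeticFunction.cardFactors (rr v) ≤ kk (Real.log (Real.log x))) →
      (T.card : ℝ) ≤ 8 * Real.log 4 * (x / Real.log x) * ∑ d ∈ LS E x, (1 : ℝ) / d +
        2 * (x / Real.log x) / Real.log x := by
  have hc1 : ∀ᶠ B : ℝ in atTop, 1 ≤ ε * Real.exp (B / 20) := by
    have h2 : Tendsto (fun B : ℝ => Real.exp (B / 20)) atTop atTop :=
      Real.tendsto_exp_atTop.comp (tendsto_id.atTop_div_const (by norm_num))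
    exact (h2.const_mul_atTop hε).eventually_ge_atTop 1
  have hc2 : ∀ᶠ B : ℝ in atTop, Real.exp (4 / 5 * B) + 2 * B ≤ 1 / 2 * Real.exp B := by
    have h2 : Tendsto (fun B : ℝ => Real.exp (B / 5)) atTop atTop :=
      Real.tendsto_exp_atTop.comp (tendsto_id.atTop_div_const (by norm_num))
    filter_upwards [h2.eventually_ge_atTop 8, eventually_ge_atTop 0] with B hB hB0
    have e1 : Real.exp B = Real.exp (4 / 5 * B) * Real.exp (B / 5) := by
      rw [← Real.exp_add]; congr 1; ring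
    have e2 : 4 / 5 * B + 1 ≤ Real.exp (4 / 5 * B) := Real.add_one_le_exp _
    have e3 : 8 * Real.exp (4 / 5 * B) ≤ Real.exp B := by
      rw [e1, mul_comm]
      exact mul_le_mul_of_nonneg_left hB (Real.exp_pos _).le
    have e4 : 2 * B ≤ 5 / 2 * Real.exp (4 / 5 * B) := by linarith
    linarith [Real.exp_pos (4 / 5 * B)]
  filter_upwards [tendsto_loglog.eventually hc1, tendsto_loglog.eventually hc2,
    tendsto_loglog.eventually hE, tendsto_loglog.eventually_gt_atTop 0,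
    eventually_ge_atTop (Real.exp 1), eventually_gt_atTop 1] with x hc1 hc2 hE hB0 hx hx1 T hT
  have hx0 : 0 < x := by linarith
  have hlog0 : 0 < Real.log x := Real.log_pos hx1
  set B := Real.log (Real.log x) with hB
  have hexpB : Real.exp B = Real.log x := by rw [hB, Real.exp_log hlog0]
  have hkk : (kk B : ℝ) ≤ Real.exp (B / 20) := Nat.floor_le (Real.exp_pos _).le
  have hcase : ∀ v ∈ T, 9 / 10 * B ≤ y1 (tl v) ∧
      Real.log (rr (tl v)) ≤ Real.log (Pm (rr v)) + Real.exp (4 / 5 * B) := by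
    intro v hv
    obtain ⟨h1, h2, h3, h4, h5, h6, h7⟩ := hT v hv
    obtain ⟨hP, htot, hveq, hreq, hPlt, hdl⟩ := totient_decomp h2 h3 h4
    have hr0 := (rr_pos (tl v)).ne'
    apply large_case hε hx1 hB hB0 hkk hc1 hE rfl h5 _ _ h6
    · intro r hr
      have := (mem_dl_iff hr0).1 hr
      exact ((Pm_lt_iff hr0 hP.two_le).1 hPlt r this.1 this.2).le
    · rw [hreq, ArithmeticFunction.cardFactors_mul hP.ne_zero hr0] at h7
      omega
  have hmain := card_le_of_log x hx T (fun v => Pm (rr v)) (fun v hv =>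
    ⟨(hT v hv).2.1.pos, (hT v hv).1⟩) (Real.exp (4 / 5 * B)) (by
      intro v hv
      obtain ⟨h1, h2, h3, h4, h5, h6, h7⟩ := hT v hv
      obtain ⟨hP, htot, hveq, hreq, hPlt, hdl⟩ := totient_decomp h2 h3 h4
      have h8 := (hcase v hv).2
      have h9 : Real.log v ≤ Real.log (rr v) := by
        apply Real.log_le_log (by exact_mod_cast h2.pos)
        have := Nat.totient_le (rr v)
        rw [totient_rr h2] at this
        exact_mod_cast this
      have hr0 := (rr_pos (tl v)).ne'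
      have h10 : Real.log (rr v) = Real.log (Pm (rr v)) + Real.log (rr (tl v)) := by
        conv_lhs => rw [hreq]
        push_cast
        rw [Real.log_mul (by exact_mod_cast hP.ne_zero) (by exact_mod_cast hr0)]
      linarith) (by rw [hexpB] at hc2; exact hc2)
  have hsum := sum_log_le x T (LS E x) (fun v => Pm (rr v)) tl (by
      intro d hd
      obtain ⟨a, b, c, e⟩ := mem_TF_real hx0.le hd
      exact ⟨a, b⟩) (by
      intro v hv
      obtain ⟨h1, h2, h3, h4, h5, h6, h7⟩ := hT v hv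
      obtain ⟨hP, htot, hveq, hreq, hPlt, hdl⟩ := totient_decomp h2 h3 h4
      refine ⟨h1, hP, ?_, hveq⟩
      unfold LS
      rw [mem_TF]
      refine ⟨?_, htot, h5, (hcase v hv).1⟩
      apply Nat.le_floor
      refine le_trans ?_ h1
      have : tl v ≤ v := by
        conv_rhs => rw [hveq]
        apply Nat.le_mul_of_pos_left
        have := hP.two_le
        omega
      exact_mod_cast this)
  have h1 : (T.card : ℝ) * Real.log x ≤
      4 * (2 * Real.log 4 * x * ∑ d ∈ LS E x, (1 : ℝ) / d) + 2 * (x / Real.log x) := by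
    linarith
  have h2 : (T.card : ℝ) ≤
      (4 * (2 * Real.log 4 * x * ∑ d ∈ LS E x, (1 : ℝ) / d) + 2 * (x / Real.log x)) /
        Real.log x := by
    rwa [le_div_iff₀ hlog0]
  refine h2.trans (le_of_eq ?_)
  field_simp
  ring

end Crest.Agent.R020.Top
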