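import Mathlib
import Crest.Agent.R020.TopUp2
import Crest.Agent.R020.Stmt

/-!
Row 20, top step (helper369): the sums `SB`, `S1B`, large top primes, many prime factors.
-/

set_option autoImplicit false

open Filter Topology Finset
open scoped ENNReal
open Crest.NumberTheoryR.TotientScale

namespace Crest.Agent.R020.Top

/-! ### finite sums and `ws` -/

theorem ofReal_one_div (d : ℕ) (hd : 0 < d) : ENNReal.ofReal (1 / (d : ℝ)) = (d : ℝ≥0∞)⁻¹ := by
  rw [one_div, ENNReal.ofReal_inv_of_pos (by exact_mod_cast hd), ENNReal.ofReal_natCast]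

/-- a finite sum is bounded by the real value of `ws`. -/
theorem sum_le_ws (φ : ℕ → ℝ) (A : Set ℕ) (T : Finset ℕ) (hφ : ∀ d ∈ T, 0 ≤ φ d)
    (hT : ∀ d ∈ T, d ∈ A) (hfin : ws (fun d => ENNReal.ofReal (φ d)) A ≠ ⊤) :
    ∑ d ∈ T, φ d ≤ (ws (fun d => ENNReal.ofReal (φ d)) A).toReal := by
  have h1 : ENNReal.ofReal (∑ d ∈ T, φ d) ≤ ws (fun d => ENNReal.ofReal (φ d)) A := by
    rw [ENNReal.ofReal_sum_of_nonneg hφ]
    unfold ws
    calc ∑ d ∈ T, ENNReal.ofReal (φ d) = ∑ d ∈ T, A.indicator (fun d => ENNReal.ofReal (φ d)) d := by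
          apply Finset.sum_congr rfl
          intro d hd
          rw [Set.indicator_of_mem (hT d hd)]
      _ ≤ _ := ENNReal.sum_le_tsum T
  rw [ENNReal.ofReal_le_iff_le_toReal hfin] at h1
  exact h1

/-- bounding `ws` by finite sums. -/
theorem ws_le_of_finite (φ : ℕ → ℝ) (A : Set ℕ) (K : ℝ) (hφ : ∀ d ∈ A, 0 ≤ φ d)
    (h : ∀ T : Finset ℕ, (∀ d ∈ T, d ∈ A) → ∑ d ∈ T, φ d ≤ K) :
    ws (fun d => ENNReal.ofReal (φ d)) A ≤ ENNReal.ofReal K := by
  classical
  unfold ws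
  rw [ENNReal.tsum_eq_iSup_sum]
  apply iSup_le
  intro s
  have h1 : ∑ a ∈ s, A.indicator (fun d => ENNReal.ofReal (φ d)) a =
      ∑ a ∈ s.filter (fun a => a ∈ A), ENNReal.ofReal (φ a) := by
    rw [Finset.sum_filter]
    apply Finset.sum_congr rfl
    intro a _
    by_cases ha : a ∈ A
    · rw [Set.indicator_of_mem ha, if_pos ha]
    · rw [Set.indicator_of_notMem ha, if_neg ha]
  rw [h1, ← ENNReal.ofReal_sum_of_nonneg]
  · apply ENNReal.ofReal_le_ofReal
    apply h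
    intro d hd
    exact (Finset.mem_filter.1 hd).2
  · intro i hi
    exact hφ i (Finset.mem_filter.1 hi).2

theorem wt_eq (A : Set ℕ) (hA : ∀ d ∈ A, 0 < d) :
    wt A = ws (fun d => ENNReal.ofReal (1 / (d : ℝ))) A := by
  unfold wt ws
  congr 1
  ext d
  by_cases hd : d ∈ A
  · rw [Set.indicator_of_mem hd, Set.indicator_of_mem hd, ofReal_one_div d (hA d hd)]
  · rw [Set.indicator_of_notMem hd, Set.indicator_of_notMem hd]

theorem wsum_eq (φ : ℕ → ℝ) (A : Set ℕ) (hA : ∀ d ∈ A, 0 < d) (hφ : ∀ d, 0 ≤ φ d) :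
    wsum φ A = ws (fun d => ENNReal.ofReal (φ d / (d : ℝ))) A := by
  unfold wsum ws
  congr 1
  ext d
  by_cases hd : d ∈ A
  · rw [Set.indicator_of_mem hd, Set.indicator_of_mem hd, div_eq_mul_one_div,
      ENNReal.ofReal_mul (hφ d), ofReal_one_div d (hA d hd)]
  · rw [Set.indicator_of_notMem hd, Set.indicator_of_notMem hd]

/-! ### smoothness of totients -/

theorem prime_dvd_totient (m : ℕ) : m ≠ 0 → ∀ r, r.Prime → r ∣ Nat.totient m →
    ∃ p, p.Prime ∧ p ∣ m ∧ r ≤ p := by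
  induction m using induction_on_primes with
  | zero => intro h; exact absurd rfl h
  | one =>
    intro _ r hr h
    rw [Nat.totient_one] at h
    exact absurd (Nat.dvd_one.1 h) hr.ne_one
  | prime_mul p m hp ih =>
    intro hn r hr hrd
    have hm : m ≠ 0 := by rintro rfl; simp at hn
    have hcase : r ∣ p ∨ r ∣ p - 1 ∨ r ∣ Nat.totient m := by
      by_cases hd : p ∣ m
      · rw [Nat.totient_mul_of_prime_of_dvd hp hd, hr.dvd_mul] at hrd
        tauto
      · rw [Nat.totient_mul_of_prime_of_not_dvd hp hd, hr.dvd_mul] at hrd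
        tauto
    rcases hcase with h | h | h
    · exact ⟨p, hp, Dvd.intro m rfl, Nat.le_of_dvd hp.pos h⟩
    · refine ⟨p, hp, Dvd.intro m rfl, ?_⟩
      have h2 := hp.two_le
      have := Nat.le_of_dvd (by omega) h
      omega
    · obtain ⟨p', h1, h2, h3⟩ := ih hm r hr h
      exact ⟨p', h1, h2.mul_left p, h3⟩

/-- smoothness level -/
noncomputable def NB (B : ℝ) : ℕ := ⌊Real.exp (Real.exp (6 * B))⌋₊ + 3

theorem smooth_of_FF {B : ℝ} (hB : 0 ≤ B) {d : ℕ} (hd : IsTot d) (hF : FF aa d ≤ 2 * B) :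
    d ∈ Nat.smoothNumbers (NB B) := by
  have hr0 := (rr_pos d).ne'
  rw [Nat.mem_smoothNumbers']
  intro r hr hrd
  have h1 : r ∣ Nat.totient (rr d) := by rw [totient_rr hd]; exact hrd
  obtain ⟨p, hp, hpd, hrp⟩ := prime_dvd_totient (rr d) hr0 r hr h1
  have h2 : p ≤ Pm (rr d) :=
    (Pm_le_iff hr0 (by
      unfold Pm
      rcases hdl : dl (rr d) with _ | ⟨q, l⟩
      · simp
      · simp only [List.headD_cons]
        exact (prime_of_mem_dl (n := rr d) (by rw [hdl]; simp)).one_le)).1 le_rfl p hp hpd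
  have h3 : aa 0 * y1 d ≤ 2 * B := (mul_y1_le_FF aa_nonneg d).trans hF
  have ha := aa_zero_gt
  have h4 : yy p ≤ 6 * B := by
    have h5 : yy p ≤ y1 d := yy_mono h2
    have h6 : 0.386 * yy p ≤ aa 0 * y1 d :=
      mul_le_mul ha.le h5 (yy_nonneg p) (by linarith)
    linarith
  have h5 := log_log_le_of_yy_le hp.two_le h4
  have hp0 : (0 : ℝ) < p := by exact_mod_cast hp.pos
  have h6 : (p : ℝ) ≤ Real.exp (Real.exp (6 * B)) := by
    rwa [Real.log_le_iff_le_exp hp0] at h5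
  have h7 : p ≤ ⌊Real.exp (Real.exp (6 * B))⌋₊ := Nat.le_floor h6
  unfold NB
  omega

theorem log_NB_le {B : ℝ} (hB : 0 ≤ B) : Real.log (NB B) ≤ 3 * Real.exp (6 * B) := by
  have h0 : 1 ≤ Real.exp (6 * B) := Real.one_le_exp (by linarith)
  have h1 : (1 : ℝ) ≤ Real.exp (Real.exp (6 * B)) := Real.one_le_exp (by positivity)
  have h2 : (NB B : ℝ) ≤ 4 * Real.exp (Real.exp (6 * B)) := by
    unfold NB
    push_cast
    have := Nat.floor_le (Real.exp_pos (Real.exp (6 * B))).le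
    linarith
  have h3 : (4 : ℝ) ≤ Real.exp 2 := by
    have := Real.quadratic_le_exp_of_nonneg (x := 2) (by norm_num)
    linarith
  have hpos : (0 : ℝ) < NB B := by unfold NB; positivity
  calc Real.log (NB B) ≤ Real.log (Real.exp 2 * Real.exp (Real.exp (6 * B))) := by
        apply Real.log_le_log hpos
        refine h2.trans ?_
        exact mul_le_mul_of_nonneg_right h3 (Real.exp_pos _).le
    _ = 2 + Real.exp (6 * B) := by
        rw [← Real.exp_add, Real.log_exp]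
    _ ≤ _ := by linarith

theorem log_NB_rpow_le {B : ℝ} (hB : 0 ≤ B) :
    (Real.log (NB B)) ^ (9 / 2 : ℝ) ≤ 243 * Real.exp (30 * B) := by
  have h0 : 1 ≤ Real.exp (6 * B) := Real.one_le_exp (by linarith)
  have h1 : 0 ≤ Real.log (NB B) := Real.log_natCast_nonneg _
  calc (Real.log (NB B)) ^ (9 / 2 : ℝ) ≤ (3 * Real.exp (6 * B)) ^ (9 / 2 : ℝ) :=
        Real.rpow_le_rpow h1 (log_NB_le hB) (by norm_num)
    _ ≤ (3 * Real.exp (6 * B)) ^ (5 : ℝ) :=
        Real.rpow_le_rpow_of_exponent_le (by linarith) (by norm_num)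
    _ = 243 * Real.exp (30 * B) := by
        rw [show (5 : ℝ) = ((5 : ℕ) : ℝ) by norm_num, Real.rpow_natCast, mul_pow,
          ← Real.exp_nat_mul]
        norm_num
        ring_nf

theorem sum_inv_smooth (N : ℕ) (hN : 3 ≤ N) (T : Finset ℕ)
    (hT : ∀ d ∈ T, d ∈ Nat.smoothNumbers N) :
    ∑ d ∈ T, (1 : ℝ) / d ≤ Real.exp 135 * (Real.log N) ^ (9 / 2 : ℝ) := by
  have := sum_inv_smooth_le N 0 hN T (fun d hd => ⟨hT d hd, Nat.zero_le _⟩)
  simpa using this

theorem sum_inv_smooth_NB {B : ℝ} (hB : 0 ≤ B) (T : Finset ℕ)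
    (hT : ∀ d ∈ T, d ∈ Nat.smoothNumbers (NB B)) :
    ∑ d ∈ T, (1 : ℝ) / d ≤ 243 * Real.exp 135 * Real.exp (30 * B) := by
  have h1 := sum_inv_smooth (NB B) (by unfold NB; omega) T hT
  have h2 := log_NB_rpow_le hB
  calc ∑ d ∈ T, (1 : ℝ) / d ≤ _ := h1
    _ ≤ Real.exp 135 * (243 * Real.exp (30 * B)) :=
        mul_le_mul_of_nonneg_left h2 (Real.exp_pos _).le
    _ = _ := by ring

theorem rare_small' {δ : ℝ} (hδ : 0 < δ) :
    ∀ᶠ B : ℝ in atTop, (2 / 3 : ℝ) ^ (kk B) * Real.exp (30 * B) ≤ δ := by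
  have h1 : Tendsto (fun u : ℝ => u ^ (600 : ℕ) * Real.exp (-(Real.log (3 / 2)) * u)) atTop (𝓝 0) := by
    have := tendsto_rpow_mul_exp_neg_mul_atTop_nhds_zero (600 : ℝ) (Real.log (3 / 2))
      (Real.log_pos (by norm_num))
    refine this.congr' ?_
    filter_upwards [eventually_ge_atTop 0] with u hu
    rw [show (600 : ℝ) = ((600 : ℕ) : ℝ) by norm_num, Real.rpow_natCast]
  have h2 : Tendsto (fun B : ℝ => Real.exp (B / 20)) atTop atTop :=
    Real.tendsto_exp_atTop.comp (tendsto_id.atTop_div_const (by norm_num))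
  have h3 := (h1.comp h2).eventually (gt_mem_nhds (show (0 : ℝ) < δ / (3 / 2) by positivity))
  filter_upwards [h3] with B hB
  simp only [Function.comp_apply] at hB
  set u := Real.exp (B / 20) with hu
  have e1 : Real.exp (30 * B) = u ^ 600 := by
    rw [hu, ← Real.exp_nat_mul]; congr 1; push_cast; ring
  have e2 : (2 / 3 : ℝ) ^ (kk B) ≤ 3 / 2 * Real.exp (-(Real.log (3 / 2)) * u) := by
    have h4 : u < kk B + 1 := Nat.lt_floor_add_one u
    have e3 : (2 / 3 : ℝ) ^ (kk B) = Real.exp (-(Real.log (3 / 2)) * kk B) := by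
      have e4 : -(Real.log (3 / 2 : ℝ)) = Real.log (2 / 3) := by
        rw [← Real.log_inv]; norm_num
      rw [e4, mul_comm, Real.exp_nat_mul, Real.exp_log (by norm_num)]
    rw [e3]
    calc Real.exp (-(Real.log (3 / 2)) * kk B)
        ≤ Real.exp (Real.log (3 / 2) + -(Real.log (3 / 2)) * u) := by
          rw [Real.exp_le_exp]
          have : 0 < Real.log (3 / 2 : ℝ) := Real.log_pos (by norm_num)
          nlinarith
      _ = 3 / 2 * Real.exp (-(Real.log (3 / 2)) * u) := by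
          rw [Real.exp_add, Real.exp_log (by norm_num)]
  rw [e1]
  have h5 : 0 ≤ u ^ 600 := by positivity
  calc (2 / 3 : ℝ) ^ (kk B) * u ^ 600 ≤ (3 / 2 * Real.exp (-(Real.log (3 / 2)) * u)) * u ^ 600 :=
        mul_le_mul_of_nonneg_right e2 h5
    _ = 3 / 2 * (u ^ 600 * Real.exp (-(Real.log (3 / 2)) * u)) := by ring
    _ ≤ 3 / 2 * (δ / (3 / 2)) := mul_le_mul_of_nonneg_left hB.le (by norm_num)
    _ = δ := by ring

/-- totients with many prime factors have a small reciprocal sum. -/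
theorem sum_rare {δ : ℝ} (hδ : 0 < δ) :
    ∀ᶠ B : ℝ in atTop, ∀ T : Finset ℕ,
      (∀ d ∈ T, IsTot d ∧ FF aa d ≤ 2 * B ∧ kk B ≤ ArithmeticFunction.cardFactors d) →
      ∑ d ∈ T, (1 : ℝ) / d ≤ δ := by
  have h1 := rare_small' (δ := δ / (243 * Real.exp 135)) (by positivity)
  filter_upwards [h1, eventually_ge_atTop 0] with B h1 hB T hT
  have h2 := sum_inv_smooth_le (NB B) (kk B) (by unfold NB; omega) T (fun d hd =>
    ⟨smooth_of_FF hB (hT d hd).1 (hT d hd).2.1, (hT d hd).2.2⟩)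
  have h3 := log_NB_rpow_le hB
  have hp : 0 ≤ (2 / 3 : ℝ) ^ (kk B) := by positivity
  calc ∑ d ∈ T, (1 : ℝ) / d ≤ _ := h2
    _ ≤ (2 / 3) ^ (kk B) * (Real.exp 135 * (243 * Real.exp (30 * B))) :=
        mul_le_mul_of_nonneg_left (mul_le_mul_of_nonneg_left h3 (Real.exp_pos _).le) hp
    _ = (243 * Real.exp 135) * ((2 / 3) ^ (kk B) * Real.exp (30 * B)) := by ring
    _ ≤ (243 * Real.exp 135) * (δ / (243 * Real.exp 135)) :=
        mul_le_mul_of_nonneg_left h1 (by positivity)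
    _ = δ := by field_simp

/-- primes up to the smoothness level -/
theorem sum_primes_NB {B : ℝ} (hB : 16 ≤ B) (Q : Finset ℕ)
    (hQ : ∀ q ∈ Q, q.Prime ∧ yy q ≤ 6 * B) : ∑ q ∈ Q, (1 : ℝ) / q ≤ 8 * B := by
  have h1 : Q ⊆ (NB B).primesBelow := by
    intro q hq
    obtain ⟨h1, h2⟩ := hQ q hq
    rw [Nat.mem_primesBelow]
    refine ⟨?_, h1⟩
    have h5 := log_log_le_of_yy_le h1.two_le h2
    have hp0 : (0 : ℝ) < q := by exact_mod_cast h1.pos
    have h6 : (q : ℝ) ≤ Real.exp (Real.exp (6 * B)) := by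
      rwa [Real.log_le_iff_le_exp hp0] at h5
    have h7 : q ≤ ⌊Real.exp (Real.exp (6 * B))⌋₊ := Nat.le_floor h6
    unfold NB
    omega
  have h2 : ∑ q ∈ Q, (1 : ℝ) / q ≤ ∑ q ∈ (NB B).primesBelow, (1 : ℝ) / q :=
    Finset.sum_le_sum_of_subset_of_nonneg h1 (fun i _ _ => by positivity)
  have h3 := sum_primesBelow_le (N := NB B) (by unfold NB; omega)
  have h4 := log_NB_le (B := B) (by linarith)
  have h5 : 0 < Real.log (NB B) := Real.log_pos (by
    have : 1 < NB B := by unfold NB; omega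
    exact_mod_cast this)
  have h6 : Real.log (Real.log (NB B)) ≤ 2 + 6 * B := by
    calc Real.log (Real.log (NB B)) ≤ Real.log (Real.exp 2 * Real.exp (6 * B)) := by
          apply Real.log_le_log h5
          refine h4.trans ?_
          apply mul_le_mul_of_nonneg_right _ (Real.exp_pos _).le
          have := Real.quadratic_le_exp_of_nonneg (x := 2) (by norm_num)
          linarith
      _ = 2 + 6 * B := by rw [← Real.exp_add, Real.log_exp]
  linarith

end Crest.Agent.R020.Top
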