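import Mathlib
import Crest.Agent.R020.TopSum

/-!
Row 20, top step (helper369): totients with a large top prime are controlled by `S1B (0.95 B)`.
-/

set_option autoImplicit false

open Filter Topology Finset
open scoped ENNReal
open Crest.NumberTheoryR.TotientScale

namespace Crest.Agent.R020.Top

theorem log_ge_of_yy {q : ℕ} {t : ℝ} (ht : 0 < t) (h : t ≤ yy q) : Real.exp t ≤ Real.log q := by
  have h1 : t ≤ Real.log (Real.log q) := by
    unfold yy at h
    rcases le_max_iff.1 h with h | h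
    · linarith
    · exact h
  have h2 : 0 < Real.log q := by
    by_contra hcon
    push Not at hcon
    have h3 : Real.log q = 0 := le_antisymm hcon (Real.log_natCast_nonneg q)
    rw [h3, Real.log_zero] at h1
    linarith
  rwa [Real.le_log_iff_exp_le h2] at h1

theorem q_ge_of_yy {q : ℕ} {t : ℝ} (ht : 0 < t) (h : t ≤ yy q) :
    Real.exp (Real.exp t) ≤ q := by
  have h1 := log_ge_of_yy ht h
  have hq : (0 : ℝ) < q := by
    rcases Nat.eq_zero_or_pos q with rfl | h0
    · simp at h1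
      linarith [Real.exp_pos t]
    · exact_mod_cast h0
  rwa [Real.le_log_iff_exp_le hq] at h1

/-- the square part of the large class -/
theorem sum_large_sq {δ : ℝ} (hδ : 0 < δ) :
    ∀ᶠ B : ℝ in atTop, ∀ T : Finset ℕ,
      (∀ d ∈ T, IsTot d ∧ FF aa d ≤ 2 * B ∧ 9 / 10 * B ≤ y1 d ∧ Pm (rr d) ^ 2 ∣ rr d) →
      ∑ d ∈ T, (1 : ℝ) / d ≤ δ := by
  classical
  have hc : ∀ᶠ B : ℝ in atTop, 243 * Real.exp 135 * (32 * B * Real.exp (30 * B)) *
      Real.exp (-Real.exp (9 / 10 * B)) ≤ δ := by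
    -- `32 B exp(30 B) ≤ exp(31 B + 5) ≤ exp(exp(.9 B) / 2)`
    have h1 : ∀ᶠ B : ℝ in atTop, 200 + 62 * B ≤ Real.exp (9 / 10 * B) := by
      have := isLittleO_pow_exp_pos_mul_atTop (k := 1) (b := 9 / 10) (by norm_num)
      have h2 := this.bound (show (0 : ℝ) < 1 / 124 by norm_num)
      filter_upwards [h2, eventually_ge_atTop 10] with B hB hB0
      rw [pow_one, Real.norm_of_nonneg (by linarith), Real.norm_of_nonneg (Real.exp_pos _).le] at hB
      linarith
    have h3 : Tendsto (fun B : ℝ => Real.exp (-Real.exp (9 / 10 * B) / 2)) atTop (𝓝 0) := by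
      apply Real.tendsto_exp_atBot.comp
      apply Tendsto.atBot_div_const (by norm_num)
      apply tendsto_neg_atTop_atBot.comp
      exact Real.tendsto_exp_atTop.comp (tendsto_id.const_mul_atTop (by norm_num))
    have h4 := h3.eventually (gt_mem_nhds (show (0 : ℝ) < δ / (243 * Real.exp 135) by positivity))
    filter_upwards [h1, h4, eventually_ge_atTop 0] with B h1 h4 hB
    have h5 : 32 * B * Real.exp (30 * B) ≤ Real.exp (100 + 31 * B) := by
      have e1 : Real.exp (100 + 31 * B) = Real.exp 100 * Real.exp B * Real.exp (30 * B) := by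
        rw [← Real.exp_add, ← Real.exp_add]; congr 1; ring
      rw [e1]
      apply mul_le_mul_of_nonneg_right _ (Real.exp_pos _).le
      have e2 : (32 : ℝ) ≤ Real.exp 100 := by
        have := Real.add_one_le_exp (100 : ℝ); linarith
      have e3 : B ≤ Real.exp B := by have := Real.add_one_le_exp B; linarith
      exact mul_le_mul e2 e3 hB (Real.exp_pos _).le
    have h6 : 32 * B * Real.exp (30 * B) * Real.exp (-Real.exp (9 / 10 * B)) ≤
        Real.exp (-Real.exp (9 / 10 * B) / 2) := by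
      calc _ ≤ Real.exp (100 + 31 * B) * Real.exp (-Real.exp (9 / 10 * B)) :=
            mul_le_mul_of_nonneg_right h5 (Real.exp_pos _).le
        _ = Real.exp (100 + 31 * B - Real.exp (9 / 10 * B)) := by
            rw [← Real.exp_add]; congr 1
        _ ≤ _ := by rw [Real.exp_le_exp]; linarith
    calc 243 * Real.exp 135 * (32 * B * Real.exp (30 * B)) * Real.exp (-Real.exp (9 / 10 * B))
        = 243 * Real.exp 135 *
          (32 * B * Real.exp (30 * B) * Real.exp (-Real.exp (9 / 10 * B))) := by ring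
      _ ≤ 243 * Real.exp 135 * (δ / (243 * Real.exp 135)) :=
          mul_le_mul_of_nonneg_left (h6.trans h4.le) (by positivity)
      _ = δ := by field_simp
  filter_upwards [hc, eventually_ge_atTop 16] with B hc hB T hT
  have hB0 : 0 ≤ B := by linarith
  -- properties
  have hprop : ∀ d ∈ T, (Pm (rr d)).Prime ∧ yy (Pm (rr d)) ≤ 6 * B ∧
      Real.exp (Real.exp (9 / 10 * B)) ≤ Pm (rr d) ∧ Pm (rr d) * (Pm (rr d) - 1) ∣ d := by
    intro d hd
    obtain ⟨h1, h2, h3, h4⟩ := hT d hd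
    have hd1 : d ≠ 1 := by
      rintro rfl
      rw [y1_one] at h3
      linarith
    obtain ⟨q, m, hq, hm, heq, hPm, hle, hsq, hnsq⟩ := decomp h1 hd1
    have hqm : q ∣ m := by
      by_contra hcon
      obtain ⟨-, -, -, h5, -⟩ := hnsq hcon
      rw [hPm] at h4
      exact h5 h4
    have h5 : aa 0 * y1 d ≤ 2 * B := (mul_y1_le_FF aa_nonneg d).trans h2
    have ha := aa_zero_gt
    refine ⟨by rw [hPm]; exact hq, ?_, ?_, by rw [hPm]; exact hsq hqm⟩
    · have h6 : 0.386 * yy (Pm (rr d)) ≤ aa 0 * y1 d :=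
        mul_le_mul_of_nonneg_right ha.le (yy_nonneg _)
      linarith
    · exact q_ge_of_yy (by linarith) h3
  set Q := T.image (fun d => Pm (rr d)) with hQ
  set T' := T.image (fun d => d / (Pm (rr d) * (Pm (rr d) - 1))) with hT'
  have hsum : ∑ d ∈ T, (1 : ℝ) / d ≤
      ∑ z ∈ Q ×ˢ T', (1 : ℝ) / (z.1 * (z.1 - 1)) * (1 / z.2) := by
    have hinj : Set.InjOn (fun d => (Pm (rr d), d / (Pm (rr d) * (Pm (rr d) - 1))))
        (T : Set ℕ) := by
      intro d hd e he hde
      simp only [Prod.mk.injEq] at hde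
      have h1 := (hprop d hd).2.2.2
      have h2 := (hprop e he).2.2.2
      have h3 := Nat.mul_div_cancel' h1
      have h4 := Nat.mul_div_cancel' h2
      rw [hde.2, hde.1] at h3
      rw [← h3, h4]
    have h1 : ∑ d ∈ T, (1 : ℝ) / d = ∑ z ∈ T.image
        (fun d => (Pm (rr d), d / (Pm (rr d) * (Pm (rr d) - 1)))),
        (1 : ℝ) / (z.1 * (z.1 - 1)) * (1 / z.2) := by
      rw [Finset.sum_image hinj]
      apply Finset.sum_congr rfl
      intro d hd
      obtain ⟨h1, h2, h3, h4⟩ := hprop d hd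
      obtain ⟨e, he⟩ := h4
      have hpos : 0 < Pm (rr d) * (Pm (rr d) - 1) := by
        have := h1.two_le
        exact Nat.mul_pos h1.pos (by omega)
      have h5 : d / (Pm (rr d) * (Pm (rr d) - 1)) = e := Nat.div_eq_of_eq_mul_right hpos he
      have h6 : (d : ℝ) = (Pm (rr d) : ℝ) * ((Pm (rr d) : ℝ) - 1) * e := by
        conv_lhs => rw [he]
        push_cast [Nat.cast_sub h1.one_le]
        ring
      simp only [h5]
      rw [h6, one_div_mul_one_div]
    rw [h1]
    apply Finset.sum_le_sum_of_subset_of_nonneg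
    · intro z hz
      rw [Finset.mem_image] at hz
      obtain ⟨d, hd, rfl⟩ := hz
      rw [Finset.mem_product]
      exact ⟨Finset.mem_image_of_mem _ hd,
        Finset.mem_image_of_mem (fun d => d / (Pm (rr d) * (Pm (rr d) - 1))) hd⟩
    · intro z hz _
      rw [Finset.mem_product, hQ, Finset.mem_image] at hz
      obtain ⟨⟨d, hd, hz1⟩, -⟩ := hz
      have : (2 : ℝ) ≤ z.1 := by
        rw [← hz1]; exact_mod_cast (hprop d hd).1.two_le
      have h2 : 0 < (z.1 : ℝ) * (z.1 - 1) := by nlinarith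
      positivity
  rw [Finset.sum_product] at hsum
  have hsum2 : ∑ q ∈ Q, ∑ e ∈ T', (1 : ℝ) / (q * (q - 1)) * (1 / e) =
      (∑ q ∈ Q, (1 : ℝ) / (q * (q - 1))) * ∑ e ∈ T', (1 : ℝ) / e := by
    rw [Finset.sum_mul_sum]
  have hsum3 : ∑ d ∈ T, (1 : ℝ) / d ≤
      (∑ q ∈ Q, (1 : ℝ) / (q * (q - 1))) * ∑ e ∈ T', (1 : ℝ) / e := by
    rw [← hsum2]; exact hsum
  have hT'sm : ∑ e ∈ T', (1 : ℝ) / e ≤ 243 * Real.exp 135 * Real.exp (30 * B) := by
    apply sum_inv_smooth_NB hB0
    intro e he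
    rw [hT', Finset.mem_image] at he
    obtain ⟨d, hd, rfl⟩ := he
    have h1 := smooth_of_FF hB0 (hT d hd).1 (hT d hd).2.1
    have h2 : d / (Pm (rr d) * (Pm (rr d) - 1)) ∣ d := Nat.div_dvd_of_dvd (hprop d hd).2.2.2
    rw [Nat.mem_smoothNumbers'] at h1 ⊢
    intro p hp hpe
    exact h1 p hp (hpe.trans h2)
  have hQsum : ∑ q ∈ Q, (1 : ℝ) / (q * (q - 1)) ≤
      2 * Real.exp (-Real.exp (9 / 10 * B)) * (8 * B) := by
    have h1 : ∑ q ∈ Q, (1 : ℝ) / (q * (q - 1)) ≤
        ∑ q ∈ Q, 2 * Real.exp (-Real.exp (9 / 10 * B)) * ((1 : ℝ) / q) := by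
      apply Finset.sum_le_sum
      intro q hq
      rw [hQ, Finset.mem_image] at hq
      obtain ⟨d, hd, rfl⟩ := hq
      obtain ⟨h1, h2, h3, h4⟩ := hprop d hd
      have h5 : (2 : ℝ) ≤ Pm (rr d) := by exact_mod_cast h1.two_le
      set q : ℝ := (Pm (rr d) : ℝ) with hqdef
      have h6 : 1 / (q * (q - 1)) ≤ 2 / q * (1 / q) := by
        rw [div_mul_div_comm, div_le_div_iff₀ (by nlinarith) (by positivity)]
        nlinarith
      refine h6.trans ?_
      apply mul_le_mul_of_nonneg_right _ (by positivity)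
      rw [Real.exp_neg, div_eq_mul_inv]
      apply mul_le_mul_of_nonneg_left _ (by norm_num)
      exact inv_anti₀ (Real.exp_pos _) h3
    rw [← Finset.mul_sum] at h1
    refine h1.trans ?_
    apply mul_le_mul_of_nonneg_left _ (by positivity)
    apply sum_primes_NB hB
    intro q hq
    rw [hQ, Finset.mem_image] at hq
    obtain ⟨d, hd, rfl⟩ := hq
    exact ⟨(hprop d hd).1, (hprop d hd).2.1⟩
  have hT'0 : 0 ≤ ∑ e ∈ T', (1 : ℝ) / e := Finset.sum_nonneg (fun i _ => by positivity)
  calc ∑ d ∈ T, (1 : ℝ) / d ≤ _ := hsum3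
    _ ≤ (2 * Real.exp (-Real.exp (9 / 10 * B)) * (8 * B)) *
        (243 * Real.exp 135 * Real.exp (30 * B)) :=
        mul_le_mul hQsum hT'sm hT'0 (by positivity)
    _ ≤ 243 * Real.exp 135 * (32 * B * Real.exp (30 * B)) *
      Real.exp (-Real.exp (9 / 10 * B)) := by
        have : 0 ≤ 243 * Real.exp 135 * (B * Real.exp (30 * B)) *
          Real.exp (-Real.exp (9 / 10 * B)) := by positivity
        linarith
    _ ≤ δ := hc

end Crest.Agent.R020.Top
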