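import Mathlib
import Crest.Agent.R020.TopSum2
import Crest.Agent.R020.Renewal

/-!
Row 20, top step (helper369): totients with a large top prime are controlled by `S1B (0.95 B)`.
-/

set_option autoImplicit false

open Filter Topology Finset
open scoped ENNReal
open Crest.NumberTheoryR.TotientScale

namespace Crest.Agent.R020.Top

theorem FF_Tc_le (d : ℕ) : FF (Tc aa) d ≤ (1 + aa 0) * FF (fun i => aa (i + 1)) d := by
  have h1 : FF (Tc aa) d = aa 0 * FF aa d + FF (fun i => aa (i + 1)) d := by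
    have : Tc aa = fun i => aa 0 * aa i + aa (i + 1) := rfl
    rw [this, FF_add (fun i => aa 0 * aa i) (fun i => aa (i + 1)), FF_smul]
  have h2 : FF aa d ≤ FF (fun i => aa (i + 1)) d := by
    apply FF_mono
    intro i
    exact Crest.Agent.R020.aCoef_mono (by omega) (by omega)
  rw [h1]
  have := mul_le_mul_of_nonneg_left h2 (aa_nonneg 0)
  linarith

/-- the finite sum version of `S1B`. -/
theorem sum_le_S1B (R : ℝ) (hfin : S1B R ≠ ⊤) (T : Finset ℕ) (hT : ∀ d ∈ T, IsTot d) :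
    ∑ d ∈ T, max 0 (R - FF (Tc aa) d) / (d : ℝ) ≤ (S1B R).toReal := by
  have h1 : S1B R = ws (fun d => ENNReal.ofReal (max 0 (R - FF (Tc aa) d) / (d : ℝ)))
      {d | IsTot d} := wsum_eq _ _ (fun d hd => IsTot.pos hd) (fun d => le_max_left _ _)
  rw [h1]
  have h2 : ws (fun d => ENNReal.ofReal (max 0 (R - FF (Tc aa) d) / (d : ℝ)))
      {d | IsTot d} ≠ ⊤ := by rw [← h1]; exact hfin
  exact sum_le_ws (fun d => max 0 (R - FF (Tc aa) d) / (d : ℝ)) {d | IsTot d} T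
    (fun d _ => div_nonneg (le_max_left _ _) (by positivity)) (fun d hd => hT d hd) h2

theorem sum_large_nsq {E : ℝ → ℝ} (hE : ∀ᶠ B : ℝ in atTop, E B ≤ B / 50)
    (hfin : ∀ R : ℝ, S1B R ≠ ⊤) :
    ∀ᶠ B : ℝ in atTop, ∀ T : Finset ℕ,
      (∀ d ∈ T, IsTot d ∧ FF aa d ≤ B + E B ∧ 9 / 10 * B ≤ y1 d ∧ ¬ Pm (rr d) ^ 2 ∣ rr d) →
      ∑ d ∈ T, (1 : ℝ) / d ≤ 960 * (S1B (95 / 100 * B)).toReal := by
  classical
  filter_upwards [hE, eventually_ge_atTop 16] with B hE hB T hT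
  have hB0 : 0 ≤ B := by linarith
  have ha := aa_zero_gt
  have ha' := aa_zero_lt
  have hprop : ∀ d ∈ T, (Pm (rr d)).Prime ∧ yy (Pm (rr d)) ≤ 6 * B ∧ IsTot (tl d) ∧
      d = (Pm (rr d) - 1) * tl d ∧ FF (Tc aa) (tl d) ≤ 933 / 1000 * B := by
    intro d hd
    obtain ⟨h1, h2, h3, h4⟩ := hT d hd
    have hd1 : d ≠ 1 := by
      rintro rfl
      rw [y1_one] at h3
      linarith
    obtain ⟨hP, htl, hdeq, -, -, -⟩ := totient_decomp h1 hd1 h4
    have h5 : aa 0 * y1 d ≤ B + E B := (mul_y1_le_FF aa_nonneg d).trans h2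
    have h6 : 0.386 * yy (Pm (rr d)) ≤ aa 0 * y1 d :=
        mul_le_mul_of_nonneg_right ha.le (yy_nonneg _)
    refine ⟨hP, by linarith, htl, hdeq, ?_⟩
    have h7 := FF_decomp aa h1 hd1 h4
    have h8 : 0.386 * (9 / 10 * B) ≤ aa 0 * y1 d :=
      mul_le_mul ha.le h3 (by positivity) (by linarith)
    have h9 : FF (fun i => aa (i + 1)) (tl d) ≤ 6726 / 10000 * B := by linarith
    have h10 := FF_Tc_le (tl d)
    have h11 : 0 ≤ FF (fun i => aa (i + 1)) (tl d) := FF_nonneg (fun i => aa_nonneg _) _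
    calc FF (Tc aa) (tl d) ≤ (1 + aa 0) * FF (fun i => aa (i + 1)) (tl d) := h10
      _ ≤ (1 + 0.387) * (6726 / 10000 * B) :=
          mul_le_mul (by linarith) h9 h11 (by norm_num)
      _ ≤ 933 / 1000 * B := by nlinarith
  set Q := T.image (fun d => Pm (rr d)) with hQ
  set T' := T.image tl with hT'
  have hsum : ∑ d ∈ T, (1 : ℝ) / d ≤
      ∑ z ∈ Q ×ˢ T', (1 : ℝ) / ((z.1 : ℝ) - 1) * (1 / z.2) := by
    have hinj : Set.InjOn (fun d => (Pm (rr d), tl d)) (T : Set ℕ) := by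
      intro d hd e he hde
      simp only [Prod.mk.injEq] at hde
      rw [(hprop d hd).2.2.2.1, (hprop e he).2.2.2.1, hde.1, hde.2]
    have h1 : ∑ d ∈ T, (1 : ℝ) / d = ∑ z ∈ T.image (fun d => (Pm (rr d), tl d)),
        (1 : ℝ) / ((z.1 : ℝ) - 1) * (1 / z.2) := by
      rw [Finset.sum_image hinj]
      apply Finset.sum_congr rfl
      intro d hd
      obtain ⟨h1, h2, h3, h4, h5⟩ := hprop d hd
      have h6 : (d : ℝ) = ((Pm (rr d) : ℝ) - 1) * tl d := by
        conv_lhs => rw [h4]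
        push_cast [Nat.cast_sub h1.one_le]
        ring
      simp only
      rw [one_div_mul_one_div, ← h6]
    rw [h1]
    apply Finset.sum_le_sum_of_subset_of_nonneg
    · intro z hz
      rw [Finset.mem_image] at hz
      obtain ⟨d, hd, rfl⟩ := hz
      rw [Finset.mem_product]
      exact ⟨Finset.mem_image_of_mem _ hd, Finset.mem_image_of_mem _ hd⟩
    · intro z hz _
      rw [Finset.mem_product, hQ, Finset.mem_image] at hz
      obtain ⟨⟨d, hd, hz1⟩, -⟩ := hz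
      have : (2 : ℝ) ≤ z.1 := by
        rw [← hz1]; exact_mod_cast (hprop d hd).1.two_le
      have h2 : 0 < (z.1 : ℝ) - 1 := by linarith
      positivity
  rw [Finset.sum_product] at hsum
  have hsum3 : ∑ d ∈ T, (1 : ℝ) / d ≤
      (∑ q ∈ Q, (1 : ℝ) / ((q : ℝ) - 1)) * ∑ e ∈ T', (1 : ℝ) / e := by
    rw [Finset.sum_mul_sum]; exact hsum
  have hQsum : ∑ q ∈ Q, (1 : ℝ) / ((q : ℝ) - 1) ≤ 2 * (8 * B) := by
    have h1 : ∑ q ∈ Q, (1 : ℝ) / ((q : ℝ) - 1) ≤ ∑ q ∈ Q, 2 * ((1 : ℝ) / q) := by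
      apply Finset.sum_le_sum
      intro q hq
      rw [hQ, Finset.mem_image] at hq
      obtain ⟨d, hd, rfl⟩ := hq
      have h5 : (2 : ℝ) ≤ Pm (rr d) := by exact_mod_cast (hprop d hd).1.two_le
      rw [mul_one_div, div_le_div_iff₀ (by linarith) (by linarith)]
      linarith
    rw [← Finset.mul_sum] at h1
    refine h1.trans ?_
    apply mul_le_mul_of_nonneg_left _ (by norm_num)
    apply sum_primes_NB hB
    intro q hq
    rw [hQ, Finset.mem_image] at hq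
    obtain ⟨d, hd, rfl⟩ := hq
    exact ⟨(hprop d hd).1, (hprop d hd).2.1⟩
  have hT'mem : ∀ e ∈ T', IsTot e ∧ FF (Tc aa) e ≤ 933 / 1000 * B := by
    intro e he
    rw [hT', Finset.mem_image] at he
    obtain ⟨d, hd, rfl⟩ := he
    exact ⟨(hprop d hd).2.2.1, (hprop d hd).2.2.2.2⟩
  have hT's : ∑ e ∈ T', (1 : ℝ) / e ≤ 60 / B * (S1B (95 / 100 * B)).toReal := by
    have h1 := sum_le_S1B (95 / 100 * B) (hfin _) T' (fun e he => (hT'mem e he).1)
    have h2 : ∑ e ∈ T', (B / 60) * ((1 : ℝ) / e) ≤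
        ∑ e ∈ T', max 0 (95 / 100 * B - FF (Tc aa) e) / (e : ℝ) := by
      apply Finset.sum_le_sum
      intro e he
      rw [mul_one_div]
      apply div_le_div_of_nonneg_right _ (by positivity)
      refine le_trans ?_ (le_max_right _ _)
      have := (hT'mem e he).2
      linarith
    rw [← Finset.mul_sum] at h2
    have h3 : B / 60 * ∑ e ∈ T', (1 : ℝ) / e ≤ (S1B (95 / 100 * B)).toReal := h2.trans h1
    have hB' : 0 < B := by linarith
    have h4 : ∑ e ∈ T', (1 : ℝ) / e = 60 / B * (B / 60 * ∑ e ∈ T', (1 : ℝ) / e) := by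
      field_simp
    rw [h4]
    exact mul_le_mul_of_nonneg_left h3 (by positivity)
  have hT'0 : 0 ≤ ∑ e ∈ T', (1 : ℝ) / e := Finset.sum_nonneg (fun i _ => by positivity)
  have hB' : 0 < B := by linarith
  calc ∑ d ∈ T, (1 : ℝ) / d ≤ _ := hsum3
    _ ≤ (2 * (8 * B)) * (60 / B * (S1B (95 / 100 * B)).toReal) :=
        mul_le_mul hQsum hT's hT'0 (by positivity)
    _ = 960 * (S1B (95 / 100 * B)).toReal := by field_simp; ring

/-- totients with a large top prime -/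
theorem sum_large {E : ℝ → ℝ} (hE : ∀ᶠ B : ℝ in atTop, E B ≤ B / 50)
    (hfin : ∀ R : ℝ, S1B R ≠ ⊤) {δ : ℝ} (hδ : 0 < δ) :
    ∀ᶠ B : ℝ in atTop, ∀ T : Finset ℕ,
      (∀ d ∈ T, IsTot d ∧ FF aa d ≤ B + E B ∧ 9 / 10 * B ≤ y1 d) →
      ∑ d ∈ T, (1 : ℝ) / d ≤ 960 * (S1B (95 / 100 * B)).toReal + δ := by
  classical
  filter_upwards [hE, sum_large_nsq hE hfin, sum_large_sq hδ, eventually_ge_atTop 0] with
    B hE h1 h2 hB T hT
  rw [← Finset.sum_filter_add_sum_filter_not T (fun d => ¬ Pm (rr d) ^ 2 ∣ rr d)]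
  apply add_le_add
  · apply h1
    intro d hd
    rw [Finset.mem_filter] at hd
    obtain ⟨a, b, c⟩ := hT d hd.1
    exact ⟨a, b, c, hd.2⟩
  · apply h2
    intro d hd
    rw [Finset.mem_filter, not_not] at hd
    obtain ⟨a, b, c⟩ := hT d hd.1
    exact ⟨a, by linarith, c, hd.2⟩

end Crest.Agent.R020.Top
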