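import Mathlib
import Crest.Agent.R020.TopSum3

/-!
Row 20, top step (helper369): upper bound `V(x) ≤ (1+ε) (x / log x) S(B + B^0.97)`.
-/

set_option autoImplicit false

open Filter Topology Finset
open scoped ENNReal
open Crest.NumberTheoryR.TotientScale

namespace Crest.Agent.R020.Top

theorem SB_eq (R : ℝ) :
    SB R = ws (fun d => ENNReal.ofReal (1 / (d : ℝ))) {d | IsTot d ∧ FF aa d ≤ R} :=
  wt_eq _ (fun _ hd => IsTot.pos hd.1)

theorem SB_ne_top (R : ℝ) : SB R ≠ ⊤ := by
  rw [SB_eq]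
  refine ne_top_of_le_ne_top ENNReal.ofReal_ne_top
    (ws_le_of_finite (fun d => 1 / (d : ℝ)) _ (243 * Real.exp 135 * Real.exp (30 * |R|))
      (fun d _ => by positivity) ?_)
  intro T hT
  apply sum_inv_smooth_NB (abs_nonneg R)
  intro d hd
  obtain ⟨h1, h2⟩ := hT d hd
  apply smooth_of_FF (abs_nonneg R) h1
  have := le_abs_self R
  have := abs_nonneg R
  linarith

theorem SB_mono {R R' : ℝ} (h : R ≤ R') : SB R ≤ SB R' :=
  wt_mono (fun _ hd => ⟨hd.1, hd.2.trans h⟩)

theorem SB_toReal_mono {R R' : ℝ} (h : R ≤ R') : (SB R).toReal ≤ (SB R').toReal :=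
  ENNReal.toReal_mono (SB_ne_top R') (SB_mono h)

theorem sum_le_SB (R : ℝ) (T : Finset ℕ) (hT : ∀ d ∈ T, IsTot d ∧ FF aa d ≤ R) :
    ∑ d ∈ T, (1 : ℝ) / d ≤ (SB R).toReal := by
  have h2 : ws (fun d => ENNReal.ofReal (1 / (d : ℝ))) {d | IsTot d ∧ FF aa d ≤ R} ≠ ⊤ := by
    rw [← SB_eq]; exact SB_ne_top R
  rw [SB_eq]
  exact sum_le_ws (fun d => 1 / (d : ℝ)) _ T (fun d _ => by positivity) (fun d hd => hT d hd) h2

theorem one_le_SB {R : ℝ} (hR : 0 ≤ R) : 1 ≤ (SB R).toReal := by
  have := sum_le_SB R {1} (by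
    intro d hd
    rw [Finset.mem_singleton] at hd
    subst hd
    exact ⟨isTot_one, by rw [FF_one]; exact hR⟩)
  simpa using this

/-- the margin -/
noncomputable def EE (B : ℝ) : ℝ := B ^ (19 / 20 : ℝ)

theorem EE_le : ∀ᶠ B : ℝ in atTop, EE B ≤ B / 50 := by
  have h1 : Tendsto (fun B : ℝ => B ^ (1 / 20 : ℝ)) atTop atTop :=
    tendsto_rpow_atTop (by norm_num)
  filter_upwards [h1.eventually_ge_atTop 50, eventually_gt_atTop 0] with B h1 hB
  unfold EE
  have h2 : B = B ^ (19 / 20 : ℝ) * B ^ (1 / 20 : ℝ) := by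
    rw [← Real.rpow_add hB]; norm_num
  have h3 : 0 < B ^ (19 / 20 : ℝ) := by positivity
  rw [le_div_iff₀ (by norm_num)]
  calc B ^ (19 / 20 : ℝ) * 50 ≤ B ^ (19 / 20 : ℝ) * B ^ (1 / 20 : ℝ) :=
        mul_le_mul_of_nonneg_left h1 h3.le
    _ = B := h2.symm

theorem EE_le' {B : ℝ} (hB : 1 ≤ B) : EE B ≤ B ^ (97 / 100 : ℝ) :=
  Real.rpow_le_rpow_of_exponent_le hB (by norm_num)

/-- covering of the totients `≤ x`. -/
theorem cover {ε x : ℝ} (hx1 : 1 < x)
    (hc1 : 1 ≤ ε * Real.exp (Real.log (Real.log x) / 20)) {v : ℕ} (hv : IsTot v)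
    (hvx : (v : ℝ) ≤ x) :
    v = 1 ∨ kk (Real.log (Real.log x)) ≤ ArithmeticFunction.cardFactors v ∨
      (v : ℝ) ≤ x ^ (2 * ε) ∨
      (∃ q, ⌊Real.exp (Real.exp (9 / 10 * Real.log (Real.log x)))⌋₊ ≤ q ∧ q * (q - 1) ∣ v) ∨
      v ∈ BadS EE x ∨
      (∃ q d, q.Prime ∧ d ∈ DS EE ε x ∧ v = (q - 1) * d) ∨
      (v ≠ 1 ∧ ¬ Pm (rr v) ^ 2 ∣ rr v ∧
        FF aa (tl v) ≤ Real.log (Real.log x) + EE (Real.log (Real.log x)) ∧
        x ^ ε < (rr (tl v) : ℕ) ∧
        ArithmeticFunction.cardFactors (rr v) ≤ kk (Real.log (Real.log x))) := by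
  by_cases hv1 : v = 1
  · exact Or.inl hv1
  by_cases hk : kk (Real.log (Real.log x)) ≤ ArithmeticFunction.cardFactors v
  · exact Or.inr (Or.inl hk)
  right; right
  push Not at hk
  have hlogx : 0 < Real.log x := Real.log_pos hx1
  set B := Real.log (Real.log x) with hB
  have hexpB : Real.exp B = Real.log x := by rw [hB, Real.exp_log hlogx]
  have hx0 : 0 < x := by linarith
  obtain ⟨q, m, hq, hm, heq, hPm, hle, hsq, hnsq⟩ := decomp hv hv1
  have hΩ : ArithmeticFunction.cardFactors (rr v) ≤ kk B := by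
    have h1 := (cardFactors_le_totient (rr v) (rr_pos v).ne').1
    rw [totient_rr hv] at h1
    omega
  have hvle : v ≤ rr v := by
    have := Nat.totient_le (rr v)
    rwa [totient_rr hv] at this
  by_cases hqm : q ∣ m
  · by_cases hmx : (m : ℝ) ≤ x ^ ε
    · left
      have h1 : q ≤ m := Nat.le_of_dvd hm hqm
      have h2 : v ≤ m * m := hvle.trans (by rw [heq]; exact Nat.mul_le_mul_right m h1)
      calc (v : ℝ) ≤ (m : ℝ) * m := by exact_mod_cast h2
        _ ≤ x ^ ε * x ^ ε := mul_le_mul hmx hmx (by positivity) (by positivity)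
        _ = x ^ (2 * ε) := by rw [← Real.rpow_add hx0]; ring_nf
    · push Not at hmx
      right; left
      refine ⟨q, ?_, hsq hqm⟩
      have hm0 : m ≠ 0 := hm.ne'
      have h1 := log_le_card hm0 hle
      have h2 : (ArithmeticFunction.cardFactors m : ℝ) ≤ Real.exp (B / 20) := by
        have h3 : ArithmeticFunction.cardFactors m ≤ kk B := by
          rw [heq, ArithmeticFunction.cardFactors_mul hq.ne_zero hm0] at hΩ
          omega
        calc (ArithmeticFunction.cardFactors m : ℝ) ≤ (kk B : ℝ) := by exact_mod_cast h3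
          _ ≤ _ := Nat.floor_le (Real.exp_pos _).le
      have hlogm : ε * Real.log x ≤ Real.log m := by
        rw [← Real.log_rpow hx0]
        exact Real.log_le_log (by positivity) hmx.le
      have hlogq : 0 < Real.log q := Real.log_pos (by exact_mod_cast hq.one_lt)
      have h4 : ε * Real.exp B ≤ Real.exp (B / 20) * Real.log q := by
        rw [hexpB]
        calc ε * Real.log x ≤ Real.log m := hlogm
          _ ≤ _ := h1
          _ ≤ Real.exp (B / 20) * Real.log q := mul_le_mul_of_nonneg_right h2 hlogq.le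
      have h3 : Real.exp (9 / 10 * B) ≤ Real.log q := by
        have e1 : Real.exp B =
            Real.exp (B / 20) * (Real.exp (B / 20) * Real.exp (9 / 10 * B)) := by
          rw [← Real.exp_add, ← Real.exp_add]; congr 1; ring
        have hpos := Real.exp_pos (B / 20)
        have h5 : Real.exp (B / 20) * Real.exp (9 / 10 * B) ≤ Real.exp (B / 20) * Real.log q := by
          calc Real.exp (B / 20) * Real.exp (9 / 10 * B)
              ≤ Real.exp (B / 20) * ((ε * Real.exp (B / 20)) * Real.exp (9 / 10 * B)) := by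
                apply mul_le_mul_of_nonneg_left _ hpos.le
                exact le_mul_of_one_le_left (Real.exp_pos _).le hc1
            _ = ε * Real.exp B := by rw [e1]; ring
            _ ≤ _ := h4
        exact le_of_mul_le_mul_left h5 hpos
      have hq0 : (0 : ℝ) < q := by exact_mod_cast hq.pos
      rw [Real.le_log_iff_exp_le hq0] at h3
      apply Nat.floor_le_of_le h3
  · obtain ⟨h1, h2, h3, h4, h5⟩ := hnsq hqm
    have hsq' : ¬ Pm (rr v) ^ 2 ∣ rr v := by rw [hPm]; exact h4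
    right; right
    by_cases hF : FF aa (tl v) ≤ B + EE B
    · right
      by_cases hmx : (m : ℝ) ≤ x ^ ε
      · left
        refine ⟨q, Nat.totient m, hq, ?_, h1⟩
        unfold DS
        rw [mem_TF]
        refine ⟨?_, h5, by rw [← h3]; exact hF⟩
        apply Nat.le_floor
        refine le_trans ?_ hmx
        exact_mod_cast Nat.totient_le m
      · push Not at hmx
        right
        refine ⟨hv1, hsq', hF, ?_, hΩ⟩
        rw [h3, h2]
        exact hmx
    · left
      unfold BadS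
      rw [mem_TF]
      refine ⟨Nat.le_floor hvx, hv, hsq', ?_⟩
      push Not at hF
      exact hF

/-- many small error terms -/
theorem small_errors {δ ε : ℝ} (hδ : 0 < δ) (hε : 0 < ε) (hε1 : ε ≤ 1 / 8) :
    ∀ᶠ x : ℝ in atTop, 1 ≤ δ * (x / Real.log x) ∧ x ^ (2 * ε) ≤ δ * (x / Real.log x) ∧
      2 * (x / Real.log x) / Real.log x ≤ δ * (x / Real.log x) ∧
      x / ((⌊Real.exp (Real.exp (9 / 10 * Real.log (Real.log x)))⌋₊ : ℝ) - 1) ≤
        δ * (x / Real.log x) ∧
      2 ≤ ⌊Real.exp (Real.exp (9 / 10 * Real.log (Real.log x)))⌋₊ ∧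
      x ^ (3 / 5 : ℝ) * 2 ≤ δ * (x / Real.log x) := by
  have h1 : ∀ᶠ x : ℝ in atTop, Real.log x ≤ δ / 2 * x ^ (1 / 5 : ℝ) := by
    have := (isLittleO_log_rpow_atTop (show (0 : ℝ) < 1 / 5 by norm_num)).bound
      (show (0 : ℝ) < δ / 2 by positivity)
    filter_upwards [this, eventually_ge_atTop 1] with x hx hx1
    rwa [Real.norm_of_nonneg (Real.log_nonneg hx1),
      Real.norm_of_nonneg (by positivity)] at hx
  have h2 : ∀ᶠ x : ℝ in atTop, 2 / δ ≤ Real.log x :=
    Real.tendsto_log_atTop.eventually_ge_atTop _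
  have h3 : ∀ᶠ B : ℝ in atTop, Real.exp B / δ + 3 ≤ Real.exp (Real.exp (9 / 10 * B)) := by
    have h4 : Tendsto (fun B : ℝ => Real.exp (9 / 10 * B)) atTop atTop :=
      Real.tendsto_exp_atTop.comp (tendsto_id.const_mul_atTop (by norm_num))
    have h5 := isLittleO_pow_exp_pos_mul_atTop (k := 1) (b := 9 / 10) (by norm_num)
    have h6 := h5.bound (show (0 : ℝ) < 1 / 2 by norm_num)
    have h7 : ∀ᶠ B : ℝ in atTop, 1 / δ + 3 ≤ Real.exp B := Real.tendsto_exp_atTop.eventually_ge_atTop _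
    filter_upwards [h6, h7, eventually_ge_atTop 1] with B hB h7 hB1
    rw [pow_one, Real.norm_of_nonneg (by linarith), Real.norm_of_nonneg (Real.exp_pos _).le] at hB
    have h8 : Real.exp (2 * B) ≤ Real.exp (Real.exp (9 / 10 * B)) := by
      rw [Real.exp_le_exp]; linarith
    have h9 : Real.exp (2 * B) = Real.exp B * Real.exp B := by rw [← Real.exp_add]; ring_nf
    have h10 : 1 ≤ Real.exp B := Real.one_le_exp (by linarith)
    have h11 : Real.exp B / δ + 3 ≤ Real.exp B * (1 / δ + 3) := by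
      rw [mul_add, mul_one_div]
      linarith
    have h12 : Real.exp B * (1 / δ + 3) ≤ Real.exp B * Real.exp B :=
      mul_le_mul_of_nonneg_left h7 (Real.exp_pos _).le
    linarith
  filter_upwards [h1, h2, tendsto_loglog.eventually h3, eventually_gt_atTop 1] with x h1 h2 h3 hx
  have hx0 : 0 < x := by linarith
  have hlog : 0 < Real.log x := Real.log_pos hx
  have hpos5 : 0 < x ^ (1 / 5 : ℝ) := by positivity
  have hx45 : x = x ^ (4 / 5 : ℝ) * x ^ (1 / 5 : ℝ) := by
    rw [← Real.rpow_add hx0]; norm_num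
  -- `2 x^{4/5} ≤ δ x / log x`
  have hA : 2 * x ^ (4 / 5 : ℝ) ≤ δ * (x / Real.log x) := by
    rw [← mul_div_assoc, le_div_iff₀ hlog]
    have h4 : 0 < x ^ (4 / 5 : ℝ) := by positivity
    calc 2 * x ^ (4 / 5 : ℝ) * Real.log x ≤ 2 * x ^ (4 / 5 : ℝ) * (δ / 2 * x ^ (1 / 5 : ℝ)) :=
          mul_le_mul_of_nonneg_left h1 (by positivity)
      _ = δ * (x ^ (4 / 5 : ℝ) * x ^ (1 / 5 : ℝ)) := by ring
      _ = δ * x := by rw [← hx45]
  have hone : 1 ≤ x ^ (4 / 5 : ℝ) := Real.one_le_rpow hx.le (by norm_num)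
  have h25 : x ^ (2 * ε) ≤ x ^ (4 / 5 : ℝ) :=
    Real.rpow_le_rpow_of_exponent_le hx.le (by linarith)
  have h35 : x ^ (3 / 5 : ℝ) ≤ x ^ (4 / 5 : ℝ) :=
    Real.rpow_le_rpow_of_exponent_le hx.le (by norm_num)
  rw [Real.exp_log hlog] at h3
  have hfl := Nat.lt_floor_add_one (Real.exp (Real.exp (9 / 10 * Real.log (Real.log x))))
  have hq : Real.log x / δ ≤
      (⌊Real.exp (Real.exp (9 / 10 * Real.log (Real.log x)))⌋₊ : ℝ) - 1 := by linarith
  refine ⟨by linarith, by linarith, ?_, ?_, ?_, by linarith⟩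
  · rw [div_le_iff₀ hlog]
    have h5 : 0 < x / Real.log x := by positivity
    have h6 : 2 ≤ δ * Real.log x := by
      rw [div_le_iff₀ hδ] at h2
      linarith
    calc 2 * (x / Real.log x) ≤ (δ * Real.log x) * (x / Real.log x) :=
          mul_le_mul_of_nonneg_right h6 h5.le
      _ = _ := by ring
  · have h6 : 0 < Real.log x / δ := by positivity
    calc x / ((⌊Real.exp (Real.exp (9 / 10 * Real.log (Real.log x)))⌋₊ : ℝ) - 1)
        ≤ x / (Real.log x / δ) := div_le_div_of_nonneg_left hx0.le h6 hq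
      _ = δ * (x / Real.log x) := by field_simp
  · apply Nat.le_floor
    have h6 : 0 < Real.log x / δ := by positivity
    push_cast
    linarith

theorem tendsto_exp_neg_rpow {c : ℝ} (hc : 0 < c) :
    Tendsto (fun B : ℝ => Real.exp (-B ^ c)) atTop (𝓝 0) :=
  Real.tendsto_exp_atBot.comp (tendsto_neg_atTop_atBot.comp (tendsto_rpow_atTop hc))

set_option maxHeartbeats 1000000 in
/-- **Upper bound of the top step.** -/
theorem upper (hUc : StmtUc) (hS1 : StmtS1) {ε : ℝ} (hε : 0 < ε) :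
    ∀ᶠ x : ℝ in atTop, (totientCount x : ℝ) ≤
      (1 + ε) * (x / Real.log x) * (SB (bigB x + bigB x ^ (97 / 100 : ℝ))).toReal := by
  classical
  obtain ⟨c0, B0, hc0, hUc⟩ := hUc
  obtain ⟨hfin, hS1⟩ := hS1
  set δ : ℝ := ε / 16 with hδdef
  have hδ : 0 < δ := by positivity
  set η : ℝ := min (ε / 8) (1 / 8) with hηdef
  have hη : 0 < η := by positivity
  have hη1 : η ≤ 1 / 8 := min_le_right _ _
  have hη2 : η ≤ ε / 8 := min_le_left _ _
  have hl4 : 0 < Real.log 4 := Real.log_pos (by norm_num)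
  have hc1 : ∀ᶠ B : ℝ in atTop, 1 ≤ η * Real.exp (B / 20) := by
    have h2 : Tendsto (fun B : ℝ => Real.exp (B / 20)) atTop atTop :=
      Real.tendsto_exp_atTop.comp (tendsto_id.atTop_div_const (by norm_num))
    exact (h2.const_mul_atTop hη).eventually_ge_atTop 1
  have hbad : ∀ᶠ B : ℝ in atTop, Real.exp (-B ^ c0) ≤ δ :=
    (tendsto_exp_neg_rpow hc0).eventually_le_const hδ
  have hs1 : ∀ᶠ B : ℝ in atTop, (S1B (95 / 100 * B)).toReal / (SB B).toReal ≤
      δ / (16 * Real.log 4 * 960) := hS1.eventually_le_const (by positivity)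
  have hlarge := sum_large EE_le hfin (δ := δ / (16 * Real.log 4)) (by positivity)
  filter_upwards [small_errors hδ hη hη1, card_rare hδ, card_large EE_le hη,
    primeCounting_div_le hη (by linarith), tendsto_loglog.eventually hc1,
    tendsto_loglog.eventually hbad, tendsto_loglog.eventually hs1,
    tendsto_loglog.eventually hlarge, tendsto_loglog.eventually_ge_atTop (max B0 1),
    eventually_ge_atTop 3] with x hsm hrare hlar hpi hc1 hbad hs1 hlarge hB hx3
  obtain ⟨e1, e2, e3, e4, e5, -⟩ := hsm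
  have hx0 : 0 < x := by linarith
  have hx1 : 1 < x := by linarith
  have hlogx : 0 < Real.log x := Real.log_pos hx1
  set B := Real.log (Real.log x) with hBdef
  have hB0 : B0 ≤ B := (le_max_left _ _).trans hB
  have hB1 : 1 ≤ B := (le_max_right _ _).trans hB
  have hbigB : bigB x = B := rfl
  rw [hbigB]
  set X := x / Real.log x with hX
  have hX0 : 0 < X := by positivity
  set S := (SB (B + B ^ (97 / 100 : ℝ))).toReal with hS
  have hBp : 0 ≤ B ^ (97 / 100 : ℝ) := by positivity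
  have hS1' : 1 ≤ S := one_le_SB (by linarith)
  have hSB : (SB B).toReal ≤ S := SB_toReal_mono (by linarith)
  have hSBE : (SB (B + EE B)).toReal ≤ S := SB_toReal_mono (by linarith [EE_le' hB1])
  have hSBpos : 0 < (SB B).toReal := by
    have := one_le_SB (R := B) (by linarith)
    linarith
  set V := TF ⌊x⌋₊ (fun _ => True) with hV
  set A1 := V.filter (fun v => kk B ≤ ArithmeticFunction.cardFactors v) with hA1
  set A2 := V.filter (fun v : ℕ => (v : ℝ) ≤ x ^ (2 * η)) with hA2
  set A3 := V.filter (fun v => ∃ q, ⌊Real.exp (Real.exp (9 / 10 * B))⌋₊ ≤ q ∧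
    q * (q - 1) ∣ v) with hA3
  set A5 := V.filter (fun v => ∃ q d, q.Prime ∧ d ∈ DS EE η x ∧ v = (q - 1) * d) with hA5
  set A6 := V.filter (fun v => v ≠ 1 ∧ ¬ Pm (rr v) ^ 2 ∣ rr v ∧
        FF aa (tl v) ≤ B + EE B ∧ x ^ η < (rr (tl v) : ℕ) ∧
        ArithmeticFunction.cardFactors (rr v) ≤ kk B) with hA6
  have hVmem : ∀ v ∈ V, 0 < v ∧ (v : ℝ) ≤ x ∧ IsTot v := by
    intro v hv
    obtain ⟨a, b, c, -⟩ := mem_TF_real hx0.le hv
    exact ⟨a, b, c⟩
  have hsub : V ⊆ {1} ∪ A1 ∪ A2 ∪ A3 ∪ BadS EE x ∪ A5 ∪ A6 := by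
    intro v hv
    obtain ⟨a, b, c⟩ := hVmem v hv
    rcases cover hx1 hc1 c b with h | h | h | h | h | h | h
    · exact Finset.mem_union_left _ (Finset.mem_union_left _ (Finset.mem_union_left _ (Finset.mem_union_left _ (Finset.mem_union_left _ (Finset.mem_union_left _ (Finset.mem_singleton.2 h))))))
    · exact Finset.mem_union_left _ (Finset.mem_union_left _ (Finset.mem_union_left _ (Finset.mem_union_left _ (Finset.mem_union_left _ (Finset.mem_union_right _ (Finset.mem_filter.2 ⟨hv, h⟩))))))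
    · exact Finset.mem_union_left _ (Finset.mem_union_left _ (Finset.mem_union_left _ (Finset.mem_union_left _ (Finset.mem_union_right _ (Finset.mem_filter.2 ⟨hv, h⟩)))))
    · exact Finset.mem_union_left _ (Finset.mem_union_left _ (Finset.mem_union_left _ (Finset.mem_union_right _ (Finset.mem_filter.2 ⟨hv, h⟩))))
    · exact Finset.mem_union_left _ (Finset.mem_union_left _ (Finset.mem_union_right _ h))
    · exact Finset.mem_union_left _ (Finset.mem_union_right _ (Finset.mem_filter.2 ⟨hv, h⟩))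
    · exact Finset.mem_union_right _ (Finset.mem_filter.2 ⟨hv, h⟩)
  have hcard : (V.card : ℝ) ≤ 1 + A1.card + A2.card + A3.card + (BadS EE x).card + A5.card +
      A6.card := by
    have h1 := Finset.card_le_card hsub
    have h2 : ({1} ∪ A1 ∪ A2 ∪ A3 ∪ BadS EE x ∪ A5 ∪ A6 : Finset ℕ).card ≤
        1 + A1.card + A2.card + A3.card + (BadS EE x).card + A5.card + A6.card := by
      refine (Finset.card_union_le _ _).trans (Nat.add_le_add_right ?_ _)
      refine (Finset.card_union_le _ _).trans (Nat.add_le_add_right ?_ _)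
      refine (Finset.card_union_le _ _).trans (Nat.add_le_add_right ?_ _)
      refine (Finset.card_union_le _ _).trans (Nat.add_le_add_right ?_ _)
      refine (Finset.card_union_le _ _).trans (Nat.add_le_add_right ?_ _)
      refine (Finset.card_union_le _ _).trans (Nat.add_le_add_right ?_ _)
      simp
    exact_mod_cast h1.trans h2
  -- the individual bounds
  have b1 : (A1.card : ℝ) ≤ δ * X := by
    apply hrare
    intro v hv
    rw [hA1, Finset.mem_filter] at hv
    obtain ⟨a, b, c⟩ := hVmem v hv.1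
    exact ⟨a, b, hv.2⟩
  have b2 : (A2.card : ℝ) ≤ δ * X := by
    refine (card_le_natFloor (y := x ^ (2 * η)) ?_ (by positivity)).trans e2
    intro v hv
    rw [hA2, Finset.mem_filter] at hv
    exact ⟨(hVmem v hv.1).1, hv.2⟩
  have b3 : (A3.card : ℝ) ≤ δ * X := by
    have h1 := card_sq_le ⌊x⌋₊ ⌊Real.exp (Real.exp (9 / 10 * B))⌋₊ e5 A3 (by
      intro v hv
      rw [hA3, Finset.mem_filter] at hv
      obtain ⟨a, b, c⟩ := hVmem v hv.1
      exact ⟨a, Nat.le_floor b, hv.2⟩)
    refine h1.trans (le_trans ?_ e4)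
    apply div_le_div_of_nonneg_right (Nat.floor_le hx0.le)
    have : (2 : ℝ) ≤ (⌊Real.exp (Real.exp (9 / 10 * B))⌋₊ : ℝ) := by exact_mod_cast e5
    linarith
  have b4 : ((BadS EE x).card : ℝ) ≤ δ * X := by
    have h1 := hUc x hx3 hB0
    have h2 : ((BadS EE x).card : ℝ) ≤ (Set.ncard {v : ℕ | IsTot v ∧ ¬ Sq v ∧ (v : ℝ) ≤ x ∧
      Real.log (Real.log x) + Real.log (Real.log x) ^ (19 / 20 : ℝ) < FF aa (tl v)} : ℝ) := by
      rw [← Set.ncard_coe_finset]
      have hfinite : {v : ℕ | IsTot v ∧ ¬ Sq v ∧ (v : ℝ) ≤ x ∧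
        Real.log (Real.log x) + Real.log (Real.log x) ^ (19 / 20 : ℝ) < FF aa (tl v)}.Finite := by
        apply (Set.finite_Iic ⌊x⌋₊).subset
        rintro v ⟨-, -, h, -⟩
        exact Nat.le_floor h
      have := Set.ncard_le_ncard (s := (↑(BadS EE x) : Set ℕ)) (by
        intro v hv
        rw [Finset.mem_coe] at hv
        obtain ⟨a, b, c, d⟩ := mem_TF_real hx0.le hv
        exact ⟨c, d.1, b, d.2⟩) hfinite
      exact_mod_cast this
    refine h2.trans (h1.trans ?_)
    rw [mul_comm]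
    exact mul_le_mul_of_nonneg_right hbad hX0.le
  have b5 : (A5.card : ℝ) ≤ (1 + ε / 2) * X * S := by
    have h1 := card_mul_le x (DS EE η x) A5 (by
      intro d hd
      exact (mem_TF.1 hd).2.1.pos) (by
      intro v hv
      rw [hA5, Finset.mem_filter] at hv
      exact ⟨(hVmem v hv.1).2.1, hv.2⟩)
    have h2 : ∑ d ∈ DS EE η x, (Nat.primeCounting ⌊x / d + 1⌋₊ : ℝ) ≤
        ∑ d ∈ DS EE η x, (1 + η) ^ 2 / (1 - η) * (x / Real.log x) * (1 / (d : ℝ)) := by
      apply Finset.sum_le_sum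
      intro d hd
      obtain ⟨a, b, c, -⟩ := mem_TF_real (x := x ^ η) (by positivity) hd
      exact hpi d a b
    rw [← Finset.mul_sum] at h2
    have h3 : ∑ d ∈ DS EE η x, (1 : ℝ) / d ≤ S := by
      refine (sum_le_SB (B + EE B) _ ?_).trans hSBE
      intro d hd
      exact (mem_TF.1 hd).2
    have h4 : (1 + η) ^ 2 / (1 - η) ≤ 1 + ε / 2 := by
      rw [div_le_iff₀ (by linarith)]
      nlinarith
    have h5 : 0 ≤ (1 + η) ^ 2 / (1 - η) := div_nonneg (by positivity) (by linarith)
    calc (A5.card : ℝ) ≤ _ := h1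
      _ ≤ _ := h2
      _ ≤ (1 + η) ^ 2 / (1 - η) * X * S :=
          mul_le_mul_of_nonneg_left h3 (by positivity)
      _ ≤ (1 + ε / 2) * X * S := by
          apply mul_le_mul_of_nonneg_right _ (by linarith)
          exact mul_le_mul_of_nonneg_right h4 hX0.le
  have b6 : (A6.card : ℝ) ≤ 2 * δ * X * S := by
    have h1 := hlar A6 (by
      intro v hv
      rw [hA6, Finset.mem_filter] at hv
      obtain ⟨a, b, c⟩ := hVmem v hv.1
      exact ⟨b, c, hv.2⟩)
    have h2 := hlarge (LS EE x) (by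
      intro d hd
      obtain ⟨a, b, c, e⟩ := mem_TF_real hx0.le hd
      exact ⟨c, e.1, e.2⟩)
    have h3 : (S1B (95 / 100 * B)).toReal ≤ δ / (16 * Real.log 4 * 960) * S := by
      rw [div_le_iff₀ hSBpos] at hs1
      exact hs1.trans (mul_le_mul_of_nonneg_left hSB (by positivity))
    have h4 : ∑ d ∈ LS EE x, (1 : ℝ) / d ≤ δ / (8 * Real.log 4) * S := by
      have h5 : 960 * (δ / (16 * Real.log 4 * 960) * S) = δ / (16 * Real.log 4) * S := by
        field_simp
      have h6 : δ / (16 * Real.log 4) ≤ δ / (16 * Real.log 4) * S :=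
        le_mul_of_one_le_right (by positivity) hS1'
      have h7 : δ / (8 * Real.log 4) * S =
          δ / (16 * Real.log 4) * S + δ / (16 * Real.log 4) * S := by
        field_simp; ring
      rw [h7]
      linarith
    have h8 : 8 * Real.log 4 * X * ∑ d ∈ LS EE x, (1 : ℝ) / d ≤ δ * X * S := by
      calc 8 * Real.log 4 * X * ∑ d ∈ LS EE x, (1 : ℝ) / d
          ≤ 8 * Real.log 4 * X * (δ / (8 * Real.log 4) * S) :=
            mul_le_mul_of_nonneg_left h4 (by positivity)
        _ = δ * X * S := by field_simp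
    have h9 : 2 * X / Real.log x ≤ δ * X * S :=
      e3.trans (le_mul_of_one_le_right (by positivity) hS1')
    calc (A6.card : ℝ) ≤ _ := h1
      _ ≤ δ * X * S + δ * X * S := add_le_add h8 h9
      _ = 2 * δ * X * S := by ring
  have hδX : δ * X ≤ δ * X * S := le_mul_of_one_le_right (by positivity) hS1'
  rw [totientCount_eq x hx0.le]
  calc ((TF ⌊x⌋₊ (fun _ => True)).card : ℝ) ≤ _ := hcard
    _ ≤ δ * X * S + δ * X * S + δ * X * S + δ * X * S + δ * X * S + (1 + ε / 2) * X * S +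
        2 * δ * X * S := by linarith
    _ = (1 + ε / 2 + 7 * δ) * X * S := by ring
    _ ≤ (1 + ε) * X * S := by
        apply mul_le_mul_of_nonneg_right _ (by linarith)
        apply mul_le_mul_of_nonneg_right _ hX0.le
        rw [hδdef]
        linarith

end Crest.Agent.R020.Top
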