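import Mathlib
import Crest.Agent.R020.TopFinal

/-!
Row 20, top step (helper369): lower bound `V(x) ≥ (1-ε) (x / log x) S(B - B^0.97)`.
-/

set_option autoImplicit false

open Filter Topology Finset
open scoped ENNReal
open Crest.NumberTheoryR.TotientScale

namespace Crest.Agent.R020.Top

/-- tails with room -/
noncomputable def DL (η x : ℝ) : Finset ℕ :=
  TF ⌊x ^ η⌋₊ (fun d => FF aa d ≤ Real.log (Real.log x) - EE (Real.log (Real.log x)))

/-- pairs `(d, q)` -/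
noncomputable def PL (η x : ℝ) : Finset ((_ : ℕ) × ℕ) :=
  (DL η x).sigma (fun d => (Finset.Ioc ⌊Real.sqrt x⌋₊ ⌊x / d⌋₊).filter Nat.Prime)

theorem card_primes_Ioc (a b : ℕ) :
    (Nat.primeCounting b : ℝ) - a ≤ (((Finset.Ioc a b).filter Nat.Prime).card : ℝ) := by
  have h1 : Nat.primeCounting b = ((Finset.range (b + 1)).filter Nat.Prime).card := by
    rw [Nat.primeCounting, Nat.primeCounting', Nat.count_eq_card_filter_range]
  have h2 : (Finset.range (b + 1)).filter Nat.Prime ⊆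
      Finset.Ioc 0 a ∪ (Finset.Ioc a b).filter Nat.Prime := by
    intro p hp
    rw [Finset.mem_filter, Finset.mem_range] at hp
    rw [Finset.mem_union, Finset.mem_Ioc, Finset.mem_filter, Finset.mem_Ioc]
    have := hp.2.pos
    by_cases h : p ≤ a
    · left; exact ⟨this, h⟩
    · right; exact ⟨⟨by omega, by omega⟩, hp.2⟩
  have h3 := (Finset.card_le_card h2).trans (Finset.card_union_le _ _)
  rw [← h1, Nat.card_Ioc, Nat.sub_zero] at h3
  have h4 : (Nat.primeCounting b : ℝ) ≤ (a : ℝ) + (((Finset.Ioc a b).filter Nat.Prime).card : ℝ) := by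
    exact_mod_cast h3
  linarith

theorem card_TF_le {y : ℝ} (hy : 0 ≤ y) (P : ℕ → Prop) : ((TF ⌊y⌋₊ P).card : ℝ) ≤ y :=
  card_le_natFloor (fun _ hv => ⟨(mem_TF_real hy hv).1, (mem_TF_real hy hv).2.1⟩) hy

theorem card_PL_ge {η x : ℝ} (hx : 1 < x) (hη : 0 < η) (hη1 : η ≤ 1 / 10)
    (hpi : ∀ d : ℕ, 0 < d → (d : ℝ) ≤ x ^ η →
      (1 - η) * (x / Real.log x) * (1 / d) ≤ (Nat.primeCounting ⌊x / d⌋₊ : ℝ)) :
    (1 - η) * (x / Real.log x) * ∑ d ∈ DL η x, (1 : ℝ) / d - x ^ (3 / 5 : ℝ) ≤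
      ((PL η x).card : ℝ) := by
  have hx0 : 0 < x := by linarith
  have h1 : ((PL η x).card : ℝ) =
      ∑ d ∈ DL η x, (((Finset.Ioc ⌊Real.sqrt x⌋₊ ⌊x / d⌋₊).filter Nat.Prime).card : ℝ) := by
    unfold PL
    rw [Finset.card_sigma]
    push_cast
    rfl
  have h2 : ∑ d ∈ DL η x, ((1 - η) * (x / Real.log x) * (1 / (d : ℝ)) - Real.sqrt x) ≤
      ∑ d ∈ DL η x, (((Finset.Ioc ⌊Real.sqrt x⌋₊ ⌊x / d⌋₊).filter Nat.Prime).card : ℝ) := by
    apply Finset.sum_le_sum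
    intro d hd
    obtain ⟨a, b, c, -⟩ := mem_TF_real (x := x ^ η) (by positivity) hd
    have h3 := hpi d a b
    have h4 := card_primes_Ioc ⌊Real.sqrt x⌋₊ ⌊x / d⌋₊
    have h5 : (⌊Real.sqrt x⌋₊ : ℝ) ≤ Real.sqrt x := Nat.floor_le (Real.sqrt_nonneg x)
    linarith
  rw [h1]
  refine le_trans ?_ h2
  rw [Finset.sum_sub_distrib, ← Finset.mul_sum, Finset.sum_const, nsmul_eq_mul]
  have h3 : ((DL η x).card : ℝ) ≤ x ^ η := card_TF_le (by positivity) _
  have h4 : ((DL η x).card : ℝ) * Real.sqrt x ≤ x ^ (3 / 5 : ℝ) := by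
    calc ((DL η x).card : ℝ) * Real.sqrt x ≤ x ^ η * x ^ (1 / 2 : ℝ) := by
          rw [← Real.sqrt_eq_rpow]
          exact mul_le_mul_of_nonneg_right h3 (Real.sqrt_nonneg x)
      _ = x ^ (η + 1 / 2) := (Real.rpow_add hx0 _ _).symm
      _ ≤ x ^ (3 / 5 : ℝ) := Real.rpow_le_rpow_of_exponent_le hx.le (by linarith)
  linarith

theorem Pm_rr_le {d : ℕ} (hd : IsTot d) : Pm (rr d) ≤ d + 1 := by
  have hr := (rr_pos d).ne'
  rw [Pm_le_iff hr (by omega)]
  intro p hp hpd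
  have h1 : Nat.totient p ∣ Nat.totient (rr d) := Nat.totient_dvd_of_dvd hpd
  rw [Nat.totient_prime hp, totient_rr hd] at h1
  have := Nat.le_of_dvd hd.pos h1
  omega

/-- canonical pairs inject into the totients, non-canonical ones are counted by `StmtLc`. -/
theorem card_PL_le {η x : ℝ} (hη1 : η ≤ 1 / 10) (hx : 1 < x)
    (hx2 : x ^ η + 1 ≤ Real.sqrt x) (K : ℝ)
    (hK : (Set.ncard {p : ℕ × ℕ | NonCan p.1 p.2 ∧ Real.sqrt x < p.1 ∧
      (p.2 : ℝ) ≤ x ^ (1 / 10 : ℝ) ∧ (((p.1 - 1) * p.2 : ℕ) : ℝ) ≤ x ∧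
      FF aa p.2 + Real.log (Real.log x) ^ (19 / 20 : ℝ) ≤ Real.log (Real.log x)} : ℝ) ≤ K) :
    ((PL η x).card : ℝ) ≤ (totientCount x : ℝ) + K := by
  classical
  have hx0 : 0 < x := by linarith
  -- properties of pairs
  have hprop : ∀ z ∈ PL η x, z.2.Prime ∧ IsTot z.1 ∧ Pm (rr z.1) < z.2 ∧ Real.sqrt x < z.2 ∧
      (z.1 : ℝ) ≤ x ^ (1 / 10 : ℝ) ∧ (((z.2 - 1) * z.1 : ℕ) : ℝ) ≤ x ∧
      FF aa z.1 + Real.log (Real.log x) ^ (19 / 20 : ℝ) ≤ Real.log (Real.log x) := by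
    intro z hz
    unfold PL at hz
    rw [Finset.mem_sigma, Finset.mem_filter, Finset.mem_Ioc] at hz
    obtain ⟨h1, ⟨h2, h3⟩, h4⟩ := hz
    obtain ⟨a, b, c, e⟩ := mem_TF_real (x := x ^ η) (by positivity) h1
    have hd0 : (0 : ℝ) < z.1 := by exact_mod_cast a
    have h5 : Real.sqrt x < z.2 := (Nat.floor_lt (Real.sqrt_nonneg x)).1 h2
    have h6 : (z.2 : ℝ) ≤ x / z.1 := by
      have := Nat.floor_le (a := x / z.1) (by positivity)
      calc (z.2 : ℝ) ≤ (⌊x / z.1⌋₊ : ℝ) := by exact_mod_cast h3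
        _ ≤ _ := this
    refine ⟨h4, c, ?_, h5, ?_, ?_, ?_⟩
    · have h7 := Pm_rr_le c
      have h8 : ((z.1 : ℝ) + 1) < z.2 := by linarith
      have h9 : z.1 + 1 < z.2 := by exact_mod_cast h8
      omega
    · exact b.trans (Real.rpow_le_rpow_of_exponent_le hx.le hη1)
    · push_cast [Nat.cast_sub h4.one_le]
      have h7 : (z.2 : ℝ) * z.1 ≤ x := by rwa [le_div_iff₀ hd0] at h6
      nlinarith
    · have : FF aa z.1 ≤ Real.log (Real.log x) - EE (Real.log (Real.log x)) := e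
      unfold EE at this
      linarith
  set Pc := (PL η x).filter (fun z => rr ((z.2 - 1) * z.1) = z.2 * rr z.1) with hPc
  set Pn := (PL η x).filter (fun z => ¬ rr ((z.2 - 1) * z.1) = z.2 * rr z.1) with hPn
  have hsplit : (PL η x).card = Pc.card + Pn.card := by
    rw [hPc, hPn, Finset.card_filter_add_card_filter_not]
  have hc : Pc.card ≤ totientCount x := by
    rw [totientCount_eq x hx0.le]
    apply Finset.card_le_card_of_injOn (fun z => (z.2 - 1) * z.1)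
    · intro z hz
      rw [Finset.mem_coe, hPc, Finset.mem_filter] at hz
      obtain ⟨h1, h2, h3, h4, h5, h6, h7⟩ := hprop z hz.1
      show (z.2 - 1) * z.1 ∈ (TF ⌊x⌋₊ (fun _ => True) : Set ℕ)
      rw [Finset.mem_coe, mem_TF]
      refine ⟨Nat.le_floor h6, ?_, trivial⟩
      have hcop : Nat.Coprime z.2 (rr z.1) := by
        rw [Nat.Prime.coprime_iff_not_dvd h1]
        intro hd
        have := (Pm_lt_iff (rr_pos z.1).ne' h1.two_le).1 h3 z.2 h1 hd
        omega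
      refine ⟨z.2 * rr z.1, Nat.mul_pos h1.pos (rr_pos _), ?_⟩
      rw [Nat.totient_mul hcop, Nat.totient_prime h1, totient_rr h2]
    · intro z hz w hw hzw
      rw [Finset.mem_coe, hPc, Finset.mem_filter] at hz hw
      obtain ⟨h1, h2, h3, h4, h5, h6, h7⟩ := hprop z hz.1
      obtain ⟨k1, k2, k3, k4, k5, k6, k7⟩ := hprop w hw.1
      have e1 := (FF_of_canonical aa h1 h3 hz.2).2.2
      have e2 := (FF_of_canonical aa k1 k3 hw.2).2.2
      simp only at hzw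
      rw [hzw] at e1
      have e3 : z.2 = w.2 := e1.symm.trans e2
      rw [e3] at hzw
      have e4 : z.1 = w.1 := by
        have h8 : 0 < w.2 - 1 := by have := k1.two_le; omega
        exact Nat.eq_of_mul_eq_mul_left h8 hzw
      exact Sigma.ext e4 (heq_of_eq e3)
  have hn : (Pn.card : ℝ) ≤ K := by
    refine le_trans ?_ hK
    set NS := {p : ℕ × ℕ | NonCan p.1 p.2 ∧ Real.sqrt x < p.1 ∧
      (p.2 : ℝ) ≤ x ^ (1 / 10 : ℝ) ∧ (((p.1 - 1) * p.2 : ℕ) : ℝ) ≤ x ∧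
      FF aa p.2 + Real.log (Real.log x) ^ (19 / 20 : ℝ) ≤ Real.log (Real.log x)} with hNS
    have hfin : NS.Finite := by
      apply ((Set.finite_Iic (⌊x⌋₊ + 1)).prod (Set.finite_Iic (⌊x ^ (1 / 10 : ℝ)⌋₊))).subset
      rintro ⟨q, d⟩ ⟨h1, h2, h3, h4, h5⟩
      constructor
      · show q ≤ ⌊x⌋₊ + 1
        have hd := h1.2.1.pos
        have h6 : (q - 1) * d ≤ ⌊x⌋₊ := Nat.le_floor h4
        have h7 : q - 1 ≤ (q - 1) * d := Nat.le_mul_of_pos_right _ hd
        omega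
      · exact Nat.le_floor h3
    have hinj : Set.InjOn (fun z : (_ : ℕ) × ℕ => (z.2, z.1)) (Pn : Set ((_ : ℕ) × ℕ)) := by
      intro z _ w _ h
      simp only [Prod.mk.injEq] at h
      exact Sigma.ext h.2 (heq_of_eq h.1)
    rw [← Finset.card_image_of_injOn hinj, ← Set.ncard_coe_finset]
    have := Set.ncard_le_ncard (s := (↑(Pn.image (fun z : (_ : ℕ) × ℕ => (z.2, z.1))) :
      Set (ℕ × ℕ))) (t := NS) (by
      intro p hp
      rw [Finset.mem_coe, Finset.mem_image] at hp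
      obtain ⟨z, hz, rfl⟩ := hp
      rw [hPn, Finset.mem_filter] at hz
      obtain ⟨h1, h2, h3, h4, h5, h6, h7⟩ := hprop z hz.1
      exact ⟨⟨h1, h2, h3, hz.2⟩, h4, h5, h6, h7⟩) hfin
    exact_mod_cast this
  rw [hsplit]
  push_cast
  have : (Pc.card : ℝ) ≤ totientCount x := by exact_mod_cast hc
  linarith

end Crest.Agent.R020.Top
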