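import Mathlib
import Crest.Agent.R020.TopLower
import Crest.Agent.R020.Final2

/-!
Row 20, top step (helper369): `StmtTop` from `StmtUc`, `StmtLc`, `StmtS1`, `StmtChain`.
-/

set_option autoImplicit false

open Filter Topology Finset
open scoped ENNReal
open Crest.NumberTheoryR.TotientScale

namespace Crest.Agent.R020.Top

/-- `S(B - B^0.97)` is approximated by tails `≤ x^η`. -/
theorem SB_le_DL {η : ℝ} (hη : 0 < η) (hS1 : StmtS1) {δ : ℝ} (hδ : 0 < δ) :
    ∀ᶠ x : ℝ in atTop, (SB (bigB x - bigB x ^ (97 / 100 : ℝ))).toReal ≤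
      ∑ d ∈ DL η x, (1 : ℝ) / d + 960 * (S1B (95 / 100 * bigB x)).toReal + δ := by
  classical
  obtain ⟨hfin, -⟩ := hS1
  have hc1 : ∀ᶠ B : ℝ in atTop, 1 ≤ η * Real.exp (B / 20) := by
    have h2 : Tendsto (fun B : ℝ => Real.exp (B / 20)) atTop atTop :=
      Real.tendsto_exp_atTop.comp (tendsto_id.atTop_div_const (by norm_num))
    exact (h2.const_mul_atTop hη).eventually_ge_atTop 1
  have hlarge := sum_large EE_le hfin (δ := δ / 2) (by positivity)
  have hrare := sum_rare (δ := δ / 2) (by positivity)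
  filter_upwards [tendsto_loglog.eventually hc1, tendsto_loglog.eventually hlarge,
    tendsto_loglog.eventually hrare, tendsto_loglog.eventually EE_le,
    tendsto_loglog.eventually_ge_atTop 1, eventually_gt_atTop 1] with
    x hc1 hlarge hrare hEE hB hx1
  have hx0 : 0 < x := by linarith
  have hbigB : bigB x = Real.log (Real.log x) := rfl
  rw [hbigB]
  set B := Real.log (Real.log x) with hBdef
  have hkk : (kk B : ℝ) ≤ Real.exp (B / 20) := Nat.floor_le (Real.exp_pos _).le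
  have hBp : 0 ≤ B ^ (97 / 100 : ℝ) := by positivity
  have hE' := EE_le' hB
  have hEE0 : 0 ≤ EE B := by unfold EE; positivity
  have hK0 : 0 ≤ ∑ d ∈ DL η x, (1 : ℝ) / d + 960 * (S1B (95 / 100 * B)).toReal + δ := by
    have : 0 ≤ ∑ d ∈ DL η x, (1 : ℝ) / d := Finset.sum_nonneg (fun i _ => by positivity)
    have := ENNReal.toReal_nonneg (a := S1B (95 / 100 * B))
    positivity
  rw [SB_eq]
  apply ENNReal.toReal_le_of_le_ofReal hK0
  apply ws_le_of_finite (fun d => 1 / (d : ℝ)) _ _ (fun d _ => by positivity)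
  intro T hT
  have hT' : ∀ d ∈ T, IsTot d ∧ FF aa d ≤ B - B ^ (97 / 100 : ℝ) := fun d hd => hT d hd
  -- split
  have h1 : ∑ d ∈ T, (1 : ℝ) / d = ∑ d ∈ T.filter (fun d : ℕ => (d : ℝ) ≤ x ^ η), (1 : ℝ) / d +
      ∑ d ∈ T.filter (fun d : ℕ => ¬ (d : ℝ) ≤ x ^ η), (1 : ℝ) / d :=
    (Finset.sum_filter_add_sum_filter_not T _ _).symm
  have h2 : ∑ d ∈ T.filter (fun d : ℕ => (d : ℝ) ≤ x ^ η), (1 : ℝ) / d ≤
      ∑ d ∈ DL η x, (1 : ℝ) / d := by
    apply Finset.sum_le_sum_of_subset_of_nonneg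
    · intro d hd
      rw [Finset.mem_filter] at hd
      obtain ⟨a, b⟩ := hT' d hd.1
      unfold DL
      rw [mem_TF]
      exact ⟨Nat.le_floor hd.2, a, by rw [← hBdef]; linarith⟩
    · intro i _ _
      positivity
  set T2 := T.filter (fun d : ℕ => ¬ (d : ℝ) ≤ x ^ η) with hT2
  have h3 : ∑ d ∈ T2, (1 : ℝ) / d =
      ∑ d ∈ T2.filter (fun d => kk B ≤ ArithmeticFunction.cardFactors d), (1 : ℝ) / d +
      ∑ d ∈ T2.filter (fun d => ¬ kk B ≤ ArithmeticFunction.cardFactors d), (1 : ℝ) / d :=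
    (Finset.sum_filter_add_sum_filter_not T2 _ _).symm
  have h4 : ∑ d ∈ T2.filter (fun d => kk B ≤ ArithmeticFunction.cardFactors d), (1 : ℝ) / d ≤
      δ / 2 := by
    apply hrare
    intro d hd
    rw [Finset.mem_filter, hT2, Finset.mem_filter] at hd
    obtain ⟨a, b⟩ := hT' d hd.1.1
    exact ⟨a, by linarith, hd.2⟩
  have h5 : ∑ d ∈ T2.filter (fun d => ¬ kk B ≤ ArithmeticFunction.cardFactors d), (1 : ℝ) / d ≤
      960 * (S1B (95 / 100 * B)).toReal + δ / 2 := by
    apply hlarge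
    intro d hd
    rw [Finset.mem_filter, hT2, Finset.mem_filter] at hd
    obtain ⟨a, b⟩ := hT' d hd.1.1
    refine ⟨a, by linarith, ?_⟩
    have hΩ : ArithmeticFunction.cardFactors (rr d) ≤ kk B := by
      have h1 := (cardFactors_le_totient (rr d) (rr_pos d).ne').1
      rw [totient_rr a] at h1
      have := hd.2
      omega
    have hdx : x ^ η < (rr d : ℕ) := by
      have h6 : x ^ η < (d : ℝ) := not_le.1 hd.1.2
      have h7 : d ≤ rr d := by
        have := Nat.totient_le (rr d)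
        rwa [totient_rr a] at this
      calc x ^ η < (d : ℝ) := h6
        _ ≤ (rr d : ℝ) := by exact_mod_cast h7
    have h8 := large_case (E := EE B) (q := Pm (rr d)) hη hx1 hBdef (by linarith) hkk hc1 hEE rfl
      (d := d) (by linarith) (by
        intro r hr
        have := (mem_dl_iff (rr_pos d).ne').1 hr
        exact (Pm_le_iff (rr_pos d).ne' (by
          have h9 : 1 ≤ r := this.1.one_le
          by_contra hcon
          push Not at hcon
          have h10 : Pm (rr d) ≤ 1 := by omega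
          have := (Pm_le_iff (rr_pos d).ne' le_rfl).1 h10 r this.1 this.2
          have h11 := (prime_of_mem_dl hr).two_le
          omega)).1 le_rfl r this.1 this.2) hΩ hdx
    exact h8.1
  rw [h1, h3]
  linarith

/-- **Lower bound of the top step.** -/
theorem lower (hLc : StmtLc) (hS1 : StmtS1)
    (hR : ∀ᶠ x : ℝ in atTop, (SB (bigB x)).toReal ≤
      2 * (SB (bigB x - bigB x ^ (97 / 100 : ℝ))).toReal) {ε : ℝ} (hε : 0 < ε) :
    ∀ᶠ x : ℝ in atTop,
      (1 - ε) * (x / Real.log x) * (SB (bigB x - bigB x ^ (97 / 100 : ℝ))).toReal ≤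
        (totientCount x : ℝ) := by
  classical
  obtain ⟨c0, B0, hc0, hLc⟩ := hLc
  set δ : ℝ := ε / 16 with hδdef
  have hδ : 0 < δ := by positivity
  set η : ℝ := min (ε / 8) (1 / 10) with hηdef
  have hη : 0 < η := by positivity
  have hη1 : η ≤ 1 / 10 := min_le_right _ _
  have hη2 : η ≤ ε / 8 := min_le_left _ _
  have hbad : ∀ᶠ B : ℝ in atTop, Real.exp (-B ^ c0) ≤ δ :=
    (tendsto_exp_neg_rpow hc0).eventually_le_const hδ
  have hs1 : ∀ᶠ B : ℝ in atTop, (S1B (95 / 100 * B)).toReal / (SB B).toReal ≤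
      δ / 1920 := hS1.2.eventually_le_const (by positivity)
  have hx2 : ∀ᶠ x : ℝ in atTop, x ^ η + 1 ≤ Real.sqrt x := by
    have h1 : ∀ᶠ x : ℝ in atTop, (2 : ℝ) ≤ x ^ (1 / 4 : ℝ) :=
      (tendsto_rpow_atTop (by norm_num : (0 : ℝ) < 1 / 4)).eventually_ge_atTop _
    filter_upwards [h1, eventually_gt_atTop 1] with x h1 hx
    have hx0 : 0 < x := by linarith
    have h2 : x ^ η ≤ x ^ (1 / 4 : ℝ) := Real.rpow_le_rpow_of_exponent_le hx.le (by linarith)
    have h3 : Real.sqrt x = x ^ (1 / 4 : ℝ) * x ^ (1 / 4 : ℝ) := by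
      rw [Real.sqrt_eq_rpow, ← Real.rpow_add hx0]; norm_num
    rw [h3]
    nlinarith
  have h14 : ∀ᶠ x : ℝ in atTop, (1 : ℝ) ≤ (SB (bigB x - bigB x ^ (97 / 100 : ℝ))).toReal := by
    have h1 : Tendsto (fun B : ℝ => B ^ (3 / 100 : ℝ)) atTop atTop :=
      tendsto_rpow_atTop (by norm_num)
    filter_upwards [tendsto_loglog.eventually (h1.eventually_ge_atTop 1),
      tendsto_loglog.eventually_gt_atTop 0] with x h1 hB
    apply one_le_SB
    have h2 : bigB x = bigB x ^ (97 / 100 : ℝ) * bigB x ^ (3 / 100 : ℝ) := by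
      have hB' : 0 < bigB x := hB
      rw [← Real.rpow_add hB']; norm_num
    have h3 : 0 ≤ bigB x ^ (97 / 100 : ℝ) := by
      have hB' : 0 < bigB x := hB
      positivity
    have h4 : bigB x ^ (97 / 100 : ℝ) * 1 ≤ bigB x ^ (97 / 100 : ℝ) * bigB x ^ (3 / 100 : ℝ) :=
      mul_le_mul_of_nonneg_left h1 h3
    linarith
  filter_upwards [small_errors hδ hη (by linarith), SB_le_DL hη hS1 hδ,
    primeCounting_div_ge hη (by linarith), tendsto_loglog.eventually hbad,
    tendsto_loglog.eventually hs1, tendsto_loglog.eventually_ge_atTop (max B0 1),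
    eventually_ge_atTop 3, hx2, hR, h14] with x hsm hDL hpi hbad hs1 hB hx3 hx2 hR hS1'
  obtain ⟨-, -, -, -, -, e6⟩ := hsm
  have hx0 : 0 < x := by linarith
  have hx1 : 1 < x := by linarith
  have hlogx : 0 < Real.log x := Real.log_pos hx1
  have hbigB : bigB x = Real.log (Real.log x) := rfl
  rw [hbigB] at hR hDL hS1' ⊢
  set B := Real.log (Real.log x) with hBdef
  have hB0 : B0 ≤ B := (le_max_left _ _).trans hB
  have hB1 : 1 ≤ B := (le_max_right _ _).trans hB
  set X := x / Real.log x with hX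
  have hX0 : 0 < X := by positivity
  set S := (SB (B - B ^ (97 / 100 : ℝ))).toReal with hS
  have hSBpos : 0 < (SB B).toReal := by
    have := one_le_SB (R := B) (by linarith)
    linarith
  have h1 := card_PL_ge hx1 hη hη1 hpi
  have h2 := card_PL_le hη1 hx1 hx2 _ (hLc x hx3 hB0)
  have h3 : X * Real.exp (-B ^ c0) ≤ δ * X * S := by
    calc X * Real.exp (-B ^ c0) ≤ X * δ := mul_le_mul_of_nonneg_left hbad hX0.le
      _ = δ * X * 1 := by ring
      _ ≤ δ * X * S := mul_le_mul_of_nonneg_left hS1' (by positivity)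
  have h4 : x ^ (3 / 5 : ℝ) ≤ δ * X * S := by
    have : 0 < x ^ (3 / 5 : ℝ) := by positivity
    calc x ^ (3 / 5 : ℝ) ≤ δ * X := by linarith
      _ ≤ δ * X * S := le_mul_of_one_le_right (by positivity) hS1'
  have h5 : 960 * (S1B (95 / 100 * B)).toReal ≤ δ * S := by
    rw [div_le_iff₀ hSBpos] at hs1
    have : δ / 1920 * (SB B).toReal ≤ δ / 1920 * (2 * S) :=
      mul_le_mul_of_nonneg_left hR (by positivity)
    linarith
  have h6 : (1 - 2 * δ) * S ≤ ∑ d ∈ DL η x, (1 : ℝ) / d := by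
    have : δ ≤ δ * S := le_mul_of_one_le_right hδ.le hS1'
    linarith
  have hη3 : 0 ≤ (1 - η) * X := mul_nonneg (by linarith) hX0.le
  have h7 : (1 - η) * X * ((1 - 2 * δ) * S) ≤ (1 - η) * X * ∑ d ∈ DL η x, (1 : ℝ) / d :=
    mul_le_mul_of_nonneg_left h6 hη3
  have hXS : 0 < X * S := by positivity
  have h8 : (1 - ε) * X * S ≤ (1 - η) * X * ((1 - 2 * δ) * S) - 2 * (δ * X * S) := by
    have h9 : (1 - ε) ≤ (1 - η) * (1 - 2 * δ) - 2 * δ := by
      rw [hδdef]
      nlinarith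
    calc (1 - ε) * X * S = (1 - ε) * (X * S) := by ring
      _ ≤ ((1 - η) * (1 - 2 * δ) - 2 * δ) * (X * S) := mul_le_mul_of_nonneg_right h9 hXS.le
      _ = _ := by ring
  linarith

/-- both shifted sums are comparable. -/
theorem ratio_of_chain (hchain : StmtChain) {ε : ℝ} (hε : 0 < ε) :
    ∀ᶠ x : ℝ in atTop, (SB (bigB x + bigB x ^ (97 / 100 : ℝ))).toReal ≤
      (1 + ε) * (SB (bigB x - bigB x ^ (97 / 100 : ℝ))).toReal := by
  obtain ⟨ρ, hρ0, hρ1, hρ⟩ := exists_rho
  obtain ⟨A, e, he, hb, h⟩ := hchain ρ hρ0 hρ1 hρ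
  set κ : ℝ := min (ε / 4) (1 / 4) with hκ
  have hκ0 : 0 < κ := by positivity
  have hκ1 : κ ≤ ε / 4 := min_le_left _ _
  have hκ2 : κ ≤ 1 / 4 := min_le_right _ _
  have he1 : ∀ᶠ r in atTop, e r ≤ κ := he.eventually_le_const hκ0
  obtain ⟨r, hr1, hr2, hr3⟩ := (he1.and (hb.and h)).exists
  obtain ⟨c1, c2, hc1, hA⟩ := hr2
  have hph : ∀ᶠ x : ℝ in atTop, phase ρ x ∈ Set.Ico (0 : ℝ) 1 := fin_eventually_phase_mem hρ0 hρ1
  filter_upwards [hr3, hph, tendsto_loglog.eventually_gt_atTop 0] with x hx hph hB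
  obtain ⟨-, h1, h2⟩ := hx
  have hG : 0 < scaleG ρ x := scaleG_pos hB
  have hApos : 0 < A r (phase ρ x) := hc1.trans_le (hA _ hph).1
  have h3 := (abs_le.1 h1).2
  have h4 := (abs_le.1 h2).1
  set a := A r (phase ρ x) with ha
  set G := scaleG ρ x with hGdef
  have h5 : (SB (bigB x + bigB x ^ (97 / 100 : ℝ))).toReal / G ≤ (1 + κ) * a := by
    nlinarith
  have h6 : (1 - κ) * a ≤ (SB (bigB x - bigB x ^ (97 / 100 : ℝ))).toReal / G := by
    nlinarith
  rw [div_le_iff₀ hG] at h5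
  rw [le_div_iff₀ hG] at h6
  have h7 : 1 + κ ≤ (1 + ε) * (1 - κ) := by nlinarith
  calc (SB (bigB x + bigB x ^ (97 / 100 : ℝ))).toReal ≤ (1 + κ) * a * G := h5
    _ ≤ ((1 + ε) * (1 - κ)) * a * G := by
        apply mul_le_mul_of_nonneg_right _ hG.le
        exact mul_le_mul_of_nonneg_right h7 hApos.le
    _ = (1 + ε) * ((1 - κ) * a * G) := by ring
    _ ≤ _ := mul_le_mul_of_nonneg_left h6 (by linarith)

end Crest.Agent.R020.Top

namespace Crest.Agent.R020

open Crest.Agent.R020.Top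

/-- **Module H**: the top step. -/
theorem stmtTop_of (hUc : StmtUc) (hLc : StmtLc) (hS1 : StmtS1) (hchain : StmtChain) :
    StmtTop := by
  have hBpos : ∀ᶠ x : ℝ in atTop, 0 < bigB x := tendsto_loglog.eventually_gt_atTop 0
  have hR : ∀ᶠ x : ℝ in atTop, (SB (bigB x)).toReal ≤
      2 * (SB (bigB x - bigB x ^ (97 / 100 : ℝ))).toReal := by
    filter_upwards [ratio_of_chain hchain (ε := 1) one_pos, hBpos] with x h hB
    have h1 : 0 ≤ bigB x ^ (97 / 100 : ℝ) := by positivity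
    have := SB_toReal_mono (show bigB x ≤ bigB x + bigB x ^ (97 / 100 : ℝ) by linarith)
    linarith
  unfold StmtTop
  rw [Metric.tendsto_nhds]
  intro ε hε
  set κ : ℝ := min (ε / 4) (1 / 4) with hκ
  have hκ0 : 0 < κ := by positivity
  have hκ1 : κ ≤ ε / 4 := min_le_left _ _
  have hκ2 : κ ≤ 1 / 4 := min_le_right _ _
  filter_upwards [upper hUc hS1 hκ0, lower hLc hS1 hR hκ0, ratio_of_chain hchain hκ0, hBpos,
    eventually_ge_atTop 3] with x hup hlo hrat hB hx
  have hx0 : 0 < x := by linarith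
  have hlogx : 0 < Real.log x := Real.log_pos (by linarith)
  have h1 : 0 ≤ bigB x ^ (97 / 100 : ℝ) := by positivity
  set S := (SB (bigB x)).toReal with hS
  set Sp := (SB (bigB x + bigB x ^ (97 / 100 : ℝ))).toReal with hSp
  set Sm := (SB (bigB x - bigB x ^ (97 / 100 : ℝ))).toReal with hSm
  have h2 : S ≤ Sp := SB_toReal_mono (by linarith)
  have h3 : Sm ≤ S := SB_toReal_mono (by linarith)
  have hS1' : 1 ≤ S := one_le_SB hB.le
  set X := x / Real.log x with hX
  have hX0 : 0 < X := by positivity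
  have hXS : 0 < X * S := by positivity
  have h4 : Sp ≤ (1 + κ) * S := hrat.trans (mul_le_mul_of_nonneg_left h3 (by linarith))
  have h5 : S ≤ (1 + κ) * Sm := h2.trans hrat
  rw [Real.dist_eq, abs_lt]
  constructor
  · rw [lt_sub_iff_add_lt, lt_div_iff₀ hXS]
    have h6 : (1 - κ) * S ≤ Sm := by
      have : (1 - κ) * S ≤ (1 - κ) * ((1 + κ) * Sm) :=
        mul_le_mul_of_nonneg_left h5 (by linarith)
      have hSm0 : 0 ≤ Sm := ENNReal.toReal_nonneg
      nlinarith
    have h7 : (1 - κ) * X * ((1 - κ) * S) ≤ (totientCount x : ℝ) := by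
      refine le_trans ?_ hlo
      exact mul_le_mul_of_nonneg_left h6 (mul_nonneg (by linarith) hX0.le)
    have h8 : (-ε + 1) * (X * S) < (1 - κ) * X * ((1 - κ) * S) := by
      have h9 : -ε + 1 < (1 - κ) * (1 - κ) := by nlinarith
      calc (-ε + 1) * (X * S) < ((1 - κ) * (1 - κ)) * (X * S) :=
            mul_lt_mul_of_pos_right h9 hXS
        _ = _ := by ring
    linarith
  · rw [sub_lt_iff_lt_add, div_lt_iff₀ hXS]
    have h7 : (totientCount x : ℝ) ≤ (1 + κ) * X * ((1 + κ) * S) :=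
      hup.trans (mul_le_mul_of_nonneg_left h4 (by positivity))
    have h8 : (1 + κ) * X * ((1 + κ) * S) < (ε + 1) * (X * S) := by
      have h9 : (1 + κ) * (1 + κ) < ε + 1 := by nlinarith
      calc (1 + κ) * X * ((1 + κ) * S) = ((1 + κ) * (1 + κ)) * (X * S) := by ring
        _ < _ := mul_lt_mul_of_pos_right h9 hXS
    linarith

end Crest.Agent.R020
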