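import Crest.Agent.R020.Chain4
import Crest.Agent.R020.ChainFin
import Crest.Agent.R020.ChainAsy
import Crest.Agent.R020.ChainS1
import Crest.Agent.R020.TopStep
import Crest.Agent.R020.Final2
import Crest.Agent.R020.OneStepFin
import Crest.Agent.R020.Tail
import Crest.Agent.R020.PS
import Crest.Agent.R020.Sq
import Crest.Agent.R020.FamilyW

/-!
Row 20: assembly. Both frozen statements from the five number-theoretic inputs
`StmtZ`, `StmtU`, `StmtL`, `StmtUc`, `StmtLc`.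
-/

set_option autoImplicit false

open scoped ENNReal Topology
open MeasureTheory Filter Crest.NumberTheoryR.TotientScale

noncomputable section

namespace Crest.Agent.R020

theorem asm_up (hZ : StmtZ) (hU : StmtU) (hL : StmtL) {ρ : ℝ} (hρ0 : 0 < ρ) (hρ1 : ρ < 1)
    (hρ : HasSum (fun j : ℕ => aCoef (j + 1) * ρ ^ (j + 1)) 1) : StmtUpChain ρ := by
  have hT := stmtTail hZ
  exact stmtUpChain (stmtFup (by norm_num) psUp stmtSq hT hU)
    (stmtFupV (by norm_num) psUp stmtSq hT) (stmtFlow (by norm_num) psLow hZ hT hL) hZ hρ0 hρ1 hρ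

theorem asm_low (hZ : StmtZ) (hU : StmtU) (hL : StmtL) {ρ : ℝ} (hρ0 : 0 < ρ) (hρ1 : ρ < 1)
    (hρ : HasSum (fun j : ℕ => aCoef (j + 1) * ρ ^ (j + 1)) 1) : StmtLowChain ρ := by
  have hT := stmtTail hZ
  exact stmtLowChain (stmtFup (by norm_num) psUp stmtSq hT hU)
    (stmtFupV (by norm_num) psUp stmtSq hT) (stmtFlow (by norm_num) psLow hZ hT hL) hZ
    (stmtW hL stmtMlow) hρ0 hρ1 hρ

/-- The chain from (Z), (U), (L). -/
theorem asm_chain (hZ : StmtZ) (hU : StmtU) (hL : StmtL) : StmtChain :=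
  stmtChain_of (fun _ h0 h1 h => asm_low hZ hU hL h0 h1 h)
    (fun _ h0 h1 h => asm_up hZ hU hL h0 h1 h) (fun _ h0 h1 h => exists_asy hZ stmtR3 h0 h1 h)

theorem asm_S1 (hZ : StmtZ) (hU : StmtU) (hL : StmtL) : StmtS1 := by
  apply ChainS1.stmtS1_of
  intro ρ h0 h1 h
  obtain ⟨μ, _, h2, h3⟩ := exists_asy hZ stmtR3 h0 h1 h
  exact ⟨asm_up hZ hU hL h0 h1 h, asm_low hZ hU hL h0 h1 h, μ, h2, h3⟩

theorem asm_top (hZ : StmtZ) (hU : StmtU) (hL : StmtL) (hUc : StmtUc) (hLc : StmtLc) : StmtTop :=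
  stmtTop_of hUc hLc (asm_S1 hZ hU hL) (asm_chain hZ hU hL)

/-- S0026 from the five inputs. -/
theorem asm_26 (hZ : StmtZ) (hU : StmtU) (hL : StmtL) (hUc : StmtUc) (hLc : StmtLc)
    (c : ℝ) (hc : 0 < c) :
    Tendsto (fun x : ℝ => (totientCount (c * x) : ℝ) / (totientCount x : ℝ)) atTop (𝓝 c) :=
  result26_of (asm_chain hZ hU hL) (asm_top hZ hU hL hUc hLc) c hc

/-- S0027 from the five inputs. -/
theorem asm_27 (hZ : StmtZ) (hU : StmtU) (hL : StmtL) (hUc : StmtUc) (hLc : StmtLc)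
    (ρ : ℝ) (hρ0 : 0 < ρ) (hρ1 : ρ < 1)
    (hρ : HasSum (fun j : ℕ => aCoef (j + 1) * ρ ^ (j + 1)) 1) :
    ∃ A : ℝ → ℝ, (∃ c₁ c₂ : ℝ, 0 < c₁ ∧ ∀ s ∈ Set.Ico (0 : ℝ) 1, c₁ ≤ A s ∧ A s ≤ c₂) ∧
      Tendsto (fun x : ℝ =>
          (totientCount x : ℝ) / (x / Real.log x * scaleG ρ x * A (phase ρ x)))
        atTop (𝓝 1) :=
  result27_of (asm_chain hZ hU hL) (asm_top hZ hU hL hUc hLc) ρ hρ0 hρ1 hρ

end Crest.Agent.R020
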