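import Mathlib
import Crest.Agent.R020.Canon

/-!
Row 20 (S0026, S0027): deterministic cell sums (helper770).

* `bb k = (k+1) log (k+1) - k = ∑_{j<k} aa j`;
* `FL_sublist`: deleting primes decreases `FL c` when `c` is monotone and nonnegative;
* `cell p`: the natural number `i` with `i < yy p ≤ i + 1` (`0` if `yy p = 0`);
* `kap l i = #{q ∈ l : i ≤ cell q}`, `kc l c = #{q ∈ l : c + 1 < yy q}`;
* `sum_bb_kap_le`: `∑_{1 ≤ i ≤ M} bb (kap l i) ≤ FL aa l` for descending `l`;
* `FL_le_sum_bb_kc`: the reverse bound, with an explicit error;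
* `net_sum`: the net exponent of the collision matrices.
-/

set_option autoImplicit false

open Crest.NumberTheoryR.TotientScale

namespace Crest.Agent.R020.CellSum

/-- `b(k) = (k+1) log (k+1) - k`. -/
noncomputable def bb (k : ℕ) : ℝ := ((k : ℝ) + 1) * Real.log ((k : ℝ) + 1) - k

theorem bb_zero : bb 0 = 0 := by simp [bb]

theorem aa_eq (j : ℕ) :
    aa j = ((j : ℝ) + 2) * Real.log ((j : ℝ) + 2) - ((j : ℝ) + 1) * Real.log ((j : ℝ) + 1) - 1 := by
  unfold aa aCoef
  push_cast
  rw [show ((j : ℝ) + 1 + 1) = (j : ℝ) + 2 by ring]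

theorem bb_succ (k : ℕ) : bb (k + 1) = bb k + aa k := by
  rw [aa_eq]
  unfold bb
  push_cast
  rw [show ((k : ℝ) + 1 + 1) = (k : ℝ) + 2 by ring]
  ring

theorem bb_eq_sum (k : ℕ) : bb k = ∑ j ∈ Finset.range k, aa j := by
  induction k with
  | zero => simp [bb_zero]
  | succ k ih => rw [Finset.sum_range_succ, bb_succ, ih]

theorem log_le_aa (j : ℕ) : Real.log ((j : ℝ) + 1) ≤ aa j := by
  rw [aa_eq]
  have h1 : (0 : ℝ) < (j : ℝ) + 1 := by positivity
  have h2 : (0 : ℝ) < (j : ℝ) + 2 := by positivity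
  have h3 := Real.one_sub_inv_le_log_of_pos (show (0 : ℝ) < ((j : ℝ) + 2) / ((j : ℝ) + 1) by positivity)
  rw [Real.log_div h2.ne' h1.ne', inv_div] at h3
  have h4 : 1 - ((j : ℝ) + 1) / ((j : ℝ) + 2) = 1 / ((j : ℝ) + 2) := by
    field_simp
    ring
  rw [h4] at h3
  have h5 : 1 ≤ (Real.log ((j : ℝ) + 2) - Real.log ((j : ℝ) + 1)) * ((j : ℝ) + 2) := by
    rwa [div_le_iff₀ h2] at h3
  nlinarith

theorem aa_le_log (j : ℕ) : aa j ≤ Real.log ((j : ℝ) + 2) := by
  rw [aa_eq]
  have h1 : (0 : ℝ) < (j : ℝ) + 1 := by positivity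
  have h2 : (0 : ℝ) < (j : ℝ) + 2 := by positivity
  have h3 := Real.log_le_sub_one_of_pos (show (0 : ℝ) < ((j : ℝ) + 2) / ((j : ℝ) + 1) by positivity)
  rw [Real.log_div h2.ne' h1.ne'] at h3
  have h4 : ((j : ℝ) + 2) / ((j : ℝ) + 1) - 1 = 1 / ((j : ℝ) + 1) := by
    field_simp
    ring
  rw [h4] at h3
  have h5 : (Real.log ((j : ℝ) + 2) - Real.log ((j : ℝ) + 1)) * ((j : ℝ) + 1) ≤ 1 := by
    rwa [le_div_iff₀ h1] at h3
  nlinarith

theorem aa_nonneg (j : ℕ) : 0 ≤ aa j :=
  le_trans (Real.log_nonneg (by linarith [(Nat.cast_nonneg j : (0 : ℝ) ≤ j)])) (log_le_aa j)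

theorem aa_le_succ (j : ℕ) : aa j ≤ aa (j + 1) := by
  have h1 := aa_le_log j
  have h2 := log_le_aa (j + 1)
  push_cast at h2
  rw [show ((j : ℝ) + 1 + 1) = (j : ℝ) + 2 by ring] at h2
  linarith

theorem aa_mono : Monotone aa := monotone_nat_of_le_succ aa_le_succ

theorem bb_mono : Monotone bb :=
  monotone_nat_of_le_succ fun k => by
    rw [bb_succ]
    linarith [aa_nonneg k]

theorem bb_nonneg (k : ℕ) : 0 ≤ bb k := by
  rw [← bb_zero]
  exact bb_mono (Nat.zero_le k)

/-- `K log K - K = b(K-1) - 1`. -/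
theorem mul_log_sub_eq (K : ℕ) (hK : 1 ≤ K) :
    (K : ℝ) * Real.log K - K = bb (K - 1) - 1 := by
  obtain ⟨k, rfl⟩ : ∃ k, K = k + 1 := ⟨K - 1, by omega⟩
  simp only [Nat.add_sub_cancel]
  unfold bb
  push_cast
  ring

/-- `t ↦ K log t - t` is maximal at `t = K`. -/
theorem mul_log_sub_le (K t : ℝ) (hK : 0 < K) (ht : 0 < t) :
    K * Real.log t - t ≤ K * Real.log K - K := by
  have h := Real.log_le_sub_one_of_pos (show 0 < t / K by positivity)
  rw [Real.log_div ht.ne' hK.ne'] at h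
  have h2 : (Real.log t - Real.log K) * K ≤ t - K := by
    calc (Real.log t - Real.log K) * K ≤ (t / K - 1) * K :=
          mul_le_mul_of_nonneg_right h hK.le
      _ = t - K := by field_simp
  nlinarith

/-! ### Sublists -/

theorem FL_shift_ge {c : ℕ → ℝ} (hc : Monotone c) (l : List ℕ) :
    FL c l ≤ FL (fun i => c (i + 1)) l :=
  FL_mono (fun i => hc (Nat.le_succ i)) l

/-- Deleting primes decreases `FL c` (`c` monotone and nonnegative). -/
theorem FL_sublist {l' l : List ℕ} (h : l'.Sublist l) :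
    ∀ {c : ℕ → ℝ}, Monotone c → (∀ i, 0 ≤ c i) → FL c l' ≤ FL c l := by
  induction h with
  | slnil => intro c _ _; simp
  | cons a h ih =>
    intro c hc h0
    rw [FL_cons]
    have h1 := ih (c := fun i => c (i + 1)) (fun i j hij => hc (by omega)) (fun i => h0 _)
    have h3 := mul_nonneg (h0 0) (yy_nonneg a)
    exact ((FL_shift_ge hc _).trans h1).trans (by linarith)
  | cons_cons a h ih =>
    intro c hc h0
    rw [FL_cons, FL_cons]
    have h1 := ih (c := fun i => c (i + 1)) (fun i j hij => hc (by omega)) (fun i => h0 _)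
    linarith

theorem FL_aa_sublist {l' l : List ℕ} (h : l'.Sublist l) : FL aa l' ≤ FL aa l :=
  FL_sublist h aa_mono aa_nonneg

/-- Upper bound for `FL c l` by the plain sum of the `yy`. -/
theorem FL_le_mul_sum {l : List ℕ} :
    ∀ {c : ℕ → ℝ} {M : ℝ}, (∀ i, i < l.length → c i ≤ M) → FL c l ≤ M * (l.map yy).sum := by
  induction l with
  | nil => intro c M _; simp
  | cons a l ih =>
    intro c M h
    rw [FL_cons, List.map_cons, List.sum_cons, mul_add]
    have h1 := ih (c := fun i => c (i + 1)) (M := M) (fun i hi => h (i + 1) (by simpa using hi))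
    have h2 := mul_le_mul_of_nonneg_right (h 0 (by simp)) (yy_nonneg a)
    linarith

/-! ### Cells -/

/-- The cell of `p`: the natural number `i` with `i < yy p ≤ i + 1` (`0` if `yy p = 0`). -/
noncomputable def cell (p : ℕ) : ℕ := ⌈yy p⌉₊ - 1

theorem cell_mono {p q : ℕ} (h : p ≤ q) : cell p ≤ cell q := by
  unfold cell
  have := Nat.ceil_mono (yy_mono h)
  omega

theorem cell_le_yy (p : ℕ) : (cell p : ℝ) ≤ yy p := by
  unfold cell
  rcases Nat.eq_zero_or_pos ⌈yy p⌉₊ with h | h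
  · rw [h]
    simpa using yy_nonneg p
  · have h1 : ((⌈yy p⌉₊ - 1 : ℕ) : ℝ) = (⌈yy p⌉₊ : ℝ) - 1 := by
      rw [Nat.cast_sub h]
      simp
    rw [h1]
    have := Nat.ceil_lt_add_one (yy_nonneg p)
    linarith

theorem yy_le_cell (p : ℕ) : yy p ≤ cell p + 1 := by
  unfold cell
  have h0 := Nat.le_ceil (yy p)
  have h1 : ((⌈yy p⌉₊ : ℕ) : ℝ) ≤ ((⌈yy p⌉₊ - 1 : ℕ) : ℝ) + 1 := by
    have : ⌈yy p⌉₊ ≤ (⌈yy p⌉₊ - 1) + 1 := by omega
    exact_mod_cast this
  linarith

theorem lt_yy_of_lt_cell {p i : ℕ} (h : i < cell p) : (i : ℝ) + 1 < yy p := by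
  have h2 : i + 1 < ⌈yy p⌉₊ := by unfold cell at h; omega
  have h3 := Nat.lt_ceil.mp h2
  push_cast at h3
  exact h3

theorem le_cell_iff {p i : ℕ} (hi : 1 ≤ i) : i ≤ cell p ↔ (i : ℝ) < yy p := by
  unfold cell
  rw [← Nat.lt_ceil]
  omega

/-- `#{q ∈ l : i ≤ cell q}`. -/
noncomputable def kap (l : List ℕ) (i : ℕ) : ℕ := l.countP (fun q => decide (i ≤ cell q))

theorem kap_nil (i : ℕ) : kap [] i = 0 := rfl

theorem kap_cons (q : ℕ) (l : List ℕ) (i : ℕ) :
    kap (q :: l) i = kap l i + if i ≤ cell q then 1 else 0 := by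
  unfold kap
  rw [List.countP_cons]
  simp

theorem kap_anti (l : List ℕ) {i j : ℕ} (h : i ≤ j) : kap l j ≤ kap l i := by
  unfold kap
  apply List.countP_mono_left
  intro q _ hq
  simp only [decide_eq_true_eq] at hq ⊢
  omega

theorem kap_le_length (l : List ℕ) (i : ℕ) : kap l i ≤ l.length := List.countP_le_length

theorem kap_eq_length {l : List ℕ} {i : ℕ} (h : ∀ q ∈ l, i ≤ cell q) : kap l i = l.length := by
  unfold kap
  rw [List.countP_eq_length]
  intro q hq
  simpa using h q hq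

theorem kap_eq_zero {l : List ℕ} {i : ℕ} (h : ∀ q ∈ l, cell q < i) : kap l i = 0 := by
  unfold kap
  rw [List.countP_eq_zero]
  intro q hq
  simpa using h q hq

/-- Removing the head of a descending list. -/
theorem kap_tail {q : ℕ} {l : List ℕ} (hs : (q :: l).Pairwise (· ≥ ·)) (i : ℕ) :
    kap (q :: l) i - 1 = kap l i := by
  rw [kap_cons]
  by_cases h : i ≤ cell q
  · rw [if_pos h]
    omega
  · rw [if_neg h]
    rw [List.pairwise_cons] at hs
    have : kap l i = 0 := kap_eq_zero (fun p hp => by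
      have := cell_mono (hs.1 p hp)
      omega)
    omega

/-- `∑_{1 ≤ i ≤ A} [i ≤ n] = min A n`. -/
theorem sum_Icc_ite (A n : ℕ) : (∑ i ∈ Finset.Icc 1 A, if i ≤ n then 1 else 0) = min A n := by
  rw [← Finset.sum_filter, Finset.sum_const, smul_eq_mul, mul_one]
  have : Finset.filter (fun i => i ≤ n) (Finset.Icc 1 A) = Finset.Icc 1 (min A n) := by
    ext i
    simp only [Finset.mem_filter, Finset.mem_Icc]
    omega
  rw [this, Nat.card_Icc]
  omega

theorem sum_kap (l : List ℕ) (A : ℕ) :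
    (∑ i ∈ Finset.Icc 1 A, kap l i) = (l.map (fun q => min A (cell q))).sum := by
  induction l with
  | nil => simp [kap_nil]
  | cons q l ih =>
    simp only [kap_cons, Finset.sum_add_distrib, ih, sum_Icc_ite, List.map_cons, List.sum_cons]
    omega

theorem sum_kap_le (l : List ℕ) (A : ℕ) :
    (∑ i ∈ Finset.Icc 1 A, kap l i) ≤ (l.map cell).sum := by
  rw [sum_kap]
  apply List.sum_le_sum
  intro q _
  exact min_le_right _ _

theorem sum_kap_eq {l : List ℕ} {A : ℕ} (h : ∀ q ∈ l, cell q ≤ A) :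
    (∑ i ∈ Finset.Icc 1 A, kap l i) = (l.map cell).sum := by
  rw [sum_kap]
  congr 1
  apply List.map_congr_left
  intro q hq
  exact min_eq_right (h q hq)

/-- For a descending list, `∑_{j < kap l i} c j` splits off the head. -/
theorem sum_range_kap_cons {q : ℕ} {l : List ℕ} (hs : (q :: l).Pairwise (· ≥ ·)) (c : ℕ → ℝ)
    (i : ℕ) :
    ∑ j ∈ Finset.range (kap (q :: l) i), c j =
      (if i ≤ cell q then c 0 else 0) + ∑ j ∈ Finset.range (kap l i), c (j + 1) := by
  have h0 := kap_tail hs i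
  by_cases h : i ≤ cell q
  · have h1 : kap (q :: l) i = kap l i + 1 := by
      rw [kap_cons, if_pos h]
    rw [h1, Finset.sum_range_succ', if_pos h]
    ring
  · have h1 : kap (q :: l) i = kap l i := by
      rw [kap_cons, if_neg h, add_zero]
    have h2 : kap l i = 0 := by omega
    rw [h1, h2, if_neg h]
    simp

theorem sum_kap_le_FL {l : List ℕ} (hs : l.Pairwise (· ≥ ·)) (A : ℕ) :
    ∀ {c : ℕ → ℝ}, (∀ i, 0 ≤ c i) →
      ∑ i ∈ Finset.Icc 1 A, ∑ j ∈ Finset.range (kap l i), c j ≤ FL c l := by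
  induction l with
  | nil => intro c _; simp [kap_nil]
  | cons q l ih =>
    intro c hc
    have h1 := ih (List.pairwise_cons.mp hs).2 (c := fun i => c (i + 1)) (fun i => hc _)
    simp only [sum_range_kap_cons hs, Finset.sum_add_distrib]
    rw [FL_cons]
    have h2 : ∑ i ∈ Finset.Icc 1 A, (if i ≤ cell q then c 0 else 0) = c 0 * (min A (cell q) : ℕ) := by
      rw [← sum_Icc_ite A (cell q)]
      push_cast
      rw [Finset.mul_sum]
      apply Finset.sum_congr rfl
      intro i _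
      split_ifs <;> simp
    rw [h2]
    have h3 : ((min A (cell q) : ℕ) : ℝ) ≤ yy q := by
      have : ((min A (cell q) : ℕ) : ℝ) ≤ (cell q : ℝ) := by exact_mod_cast min_le_right _ _
      exact this.trans (cell_le_yy q)
    have h4 := mul_le_mul_of_nonneg_left h3 (hc 0)
    linarith

/-- (UP) `∑_{1 ≤ i ≤ A} b(κ_i) ≤ ∑ a_j y_j` for descending lists. -/
theorem sum_bb_kap_le {l : List ℕ} (hs : l.Pairwise (· ≥ ·)) (A : ℕ) :
    ∑ i ∈ Finset.Icc 1 A, bb (kap l i) ≤ FL aa l := by
  simp only [bb_eq_sum]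
  exact sum_kap_le_FL hs A aa_nonneg

/-- (UP), shifted: `∑_{1 ≤ i ≤ A} b(κ_i - 1) ≤ ∑_{j ≥ 1} a_j y_j`. -/
theorem sum_bb_kap_tail_le {q : ℕ} {l : List ℕ} (hs : (q :: l).Pairwise (· ≥ ·)) (A : ℕ) :
    ∑ i ∈ Finset.Icc 1 A, bb (kap (q :: l) i - 1) ≤ FL aa l := by
  simp only [kap_tail hs]
  exact sum_bb_kap_le (List.pairwise_cons.mp hs).2 A

/-! ### The lower bound used for (U) and (Uc) -/

/-- `#{q ∈ l : c + 1 < yy q}`. -/
noncomputable def kc (l : List ℕ) (c : ℕ) : ℕ := by
  classical exact l.countP (fun q => decide ((c : ℝ) + 1 < yy q))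

theorem kc_nil (c : ℕ) : kc [] c = 0 := rfl

theorem kc_cons (q : ℕ) (l : List ℕ) (c : ℕ) :
    kc (q :: l) c = kc l c + if (c : ℝ) + 1 < yy q then 1 else 0 := by
  unfold kc
  rw [List.countP_cons]
  simp

/-- `kc l c = kap l (c+1)`. -/
theorem kc_eq_kap (l : List ℕ) (c : ℕ) : kc l c = kap l (c + 1) := by
  induction l with
  | nil => rfl
  | cons q l ih =>
    rw [kc_cons, kap_cons, ih]
    have : ((c : ℝ) + 1 < yy q) ↔ c + 1 ≤ cell q := by
      rw [le_cell_iff (by omega)]
      push_cast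
      rfl
    simp only [this]

/-- `∑_{w0 ≤ c < C1} [c + 1 ≤ n] = min C1 n - w0`. -/
theorem sum_Ico_ite (w0 C1 n : ℕ) :
    (∑ c ∈ Finset.Ico w0 C1, if c + 1 ≤ n then 1 else 0) = min C1 n - w0 := by
  rw [← Finset.sum_filter, Finset.sum_const, smul_eq_mul, mul_one]
  have : Finset.filter (fun c => c + 1 ≤ n) (Finset.Ico w0 C1) = Finset.Ico w0 (min C1 n) := by
    ext i
    simp only [Finset.mem_filter, Finset.mem_Ico]
    omega
  rw [this, Nat.card_Ico]

theorem yy_le_min_cell (q w0 C1 : ℕ) :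
    yy q ≤ ((min C1 (cell q) - w0 : ℕ) : ℝ) + (min (yy q) (w0 + 1) + max 0 (yy q - C1)) := by
  have h0 := yy_nonneg q
  have h1 := yy_le_cell q
  have h4 : ((min C1 (cell q) : ℕ) : ℝ) ≤ ((min C1 (cell q) - w0 : ℕ) : ℝ) + w0 := by
    have : min C1 (cell q) ≤ (min C1 (cell q) - w0) + w0 := by omega
    exact_mod_cast this
  have h6 := le_max_right 0 (yy q - C1)
  have h7 := le_max_left 0 (yy q - C1)
  rcases le_total (yy q) ((w0 : ℝ) + 1) with h | h
  · rw [min_eq_left h]
    have : (0 : ℝ) ≤ ((min C1 (cell q) - w0 : ℕ) : ℝ) := Nat.cast_nonneg _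
    linarith
  · rw [min_eq_right h]
    rcases le_total C1 (cell q) with h5 | h5
    · rw [min_eq_left h5] at h4 ⊢
      linarith
    · rw [min_eq_right h5] at h4 ⊢
      linarith

theorem FL_le_sum_kc {l : List ℕ} (hs : l.Pairwise (· ≥ ·)) (w0 C1 : ℕ) :
    ∀ {c : ℕ → ℝ} {M : ℝ}, (∀ i, 0 ≤ c i) → (∀ i, i < l.length → c i ≤ M) →
      FL c l ≤ ∑ i ∈ Finset.Ico w0 C1, ∑ j ∈ Finset.range (kc l i), c j
        + M * (l.map (fun q => min (yy q) (w0 + 1) + max 0 (yy q - C1))).sum := by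
  induction l with
  | nil => intro c M _ _; simp [kc_nil]
  | cons q l ih =>
    intro c M hc hM
    have h1 := ih (List.pairwise_cons.mp hs).2 (c := fun i => c (i + 1)) (M := M) (fun i => hc _)
      (fun i hi => hM (i + 1) (by simpa using hi))
    have h5 : ∀ i, ∑ j ∈ Finset.range (kc (q :: l) i), c j =
        (if i + 1 ≤ cell q then c 0 else 0) + ∑ j ∈ Finset.range (kc l i), c (j + 1) := by
      intro i
      rw [kc_eq_kap, kc_eq_kap, sum_range_kap_cons hs]
    simp only [h5, Finset.sum_add_distrib]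
    rw [FL_cons, List.map_cons, List.sum_cons]
    have h2 : ∑ i ∈ Finset.Ico w0 C1, (if i + 1 ≤ cell q then c 0 else 0)
        = c 0 * (min C1 (cell q) - w0 : ℕ) := by
      rw [← sum_Ico_ite w0 C1 (cell q)]
      push_cast
      rw [Finset.mul_sum]
      apply Finset.sum_congr rfl
      intro i _
      split_ifs <;> simp
    rw [h2]
    have h3 := mul_le_mul_of_nonneg_left (yy_le_min_cell q w0 C1) (hc 0)
    have h4 : 0 ≤ min (yy q) ((w0 : ℝ) + 1) + max 0 (yy q - C1) := by
      have := yy_nonneg q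
      have := le_max_left 0 (yy q - C1)
      have : 0 ≤ min (yy q) ((w0 : ℝ) + 1) := le_min (yy_nonneg q) (by positivity)
      linarith
    have h6 := mul_le_mul_of_nonneg_right (hM 0 (by simp)) h4
    nlinarith

/-- (LOW) `∑ a_j y_j ≤ ∑_{w0 ≤ c < C1} b(k_c) + error`. -/
theorem FL_le_sum_bb_kc {l : List ℕ} (hs : l.Pairwise (· ≥ ·)) (w0 C1 : ℕ) :
    FL aa l ≤ ∑ i ∈ Finset.Ico w0 C1, bb (kc l i)
        + Real.log (l.length + 1) *
          (l.map (fun q => min (yy q) (w0 + 1) + max 0 (yy q - C1))).sum := by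
  simp only [bb_eq_sum]
  apply FL_le_sum_kc hs w0 C1 aa_nonneg
  intro i hi
  refine (aa_le_log i).trans ?_
  apply Real.log_le_log (by positivity)
  have : (i : ℝ) + 1 ≤ l.length := by exact_mod_cast hi
  linarith

/-- The tail version: for `q :: l` descending,
`∑_{w0 ≤ c < C1} b(kc (q :: l) c - 1) ≥ FL aa l - error`. -/
theorem FL_le_sum_bb_kc_tail {q : ℕ} {l : List ℕ} (hs : (q :: l).Pairwise (· ≥ ·))
    (w0 C1 : ℕ) :
    FL aa l ≤ ∑ i ∈ Finset.Ico w0 C1, bb (kc (q :: l) i - 1)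
        + Real.log (l.length + 1) *
          (l.map (fun q => min (yy q) (w0 + 1) + max 0 (yy q - C1))).sum := by
  have h : ∀ i, kc (q :: l) i - 1 = kc l i := by
    intro i
    rw [kc_eq_kap, kc_eq_kap, kap_tail hs]
  simp only [h]
  exact FL_le_sum_bb_kc (List.pairwise_cons.mp hs).2 w0 C1

/-- The error term in terms of the number `N` of primes of scale `> w` and of the total scale `S`
of the primes of scale `≤ w`. -/
theorem error_le {l : List ℕ} (w : ℝ) (w0 C1 : ℕ) (hC : ∀ q ∈ l, yy q ≤ C1) :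
    (l.map (fun q => min (yy q) ((w0 : ℝ) + 1) + max 0 (yy q - C1))).sum ≤
      ((l.filter (fun q => decide (w < yy q))).length : ℝ) * (w0 + 1)
        + ((l.filter (fun q => ! decide (w < yy q))).map yy).sum := by
  classical
  induction l with
  | nil => simp
  | cons q l ih =>
    have h1 := ih (fun p hp => hC p (List.mem_cons_of_mem _ hp))
    have h2 : max 0 (yy q - C1) = 0 := max_eq_left (by linarith [hC q (by simp)])
    rw [List.map_cons, List.sum_cons, List.filter_cons, List.filter_cons, h2]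
    by_cases h : w < yy q
    · simp only [h, decide_true, if_true, Bool.not_true, Bool.false_eq_true, if_false,
        List.length_cons, Nat.cast_add, Nat.cast_one]
      have := min_le_right (yy q) ((w0 : ℝ) + 1)
      linarith
    · simp only [h, decide_false, if_false, Bool.not_false, if_true, Bool.false_eq_true,
        List.map_cons, List.sum_cons]
      have := min_le_left (yy q) ((w0 : ℝ) + 1)
      linarith

/-! ### The net exponent -/

/-- Net exponent of a cell `i > w`: `κ log κ' + κ - κ - κ' ≤ κ log κ - κ` (`κ' = 0` included). -/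
theorem net_cell_large (κ κ' : ℕ) (hκ : 1 ≤ κ) :
    (κ : ℝ) * Real.log (max 1 (κ' : ℝ)) + (1 / max 1 (κ' : ℝ)) * ((κ : ℝ) * κ') - κ - κ'
      ≤ bb (κ - 1) - 1 := by
  rw [← mul_log_sub_eq κ hκ]
  have hκ0 : (1 : ℝ) ≤ κ := by exact_mod_cast hκ
  rcases Nat.eq_zero_or_pos κ' with h | h
  · subst h
    simp only [Nat.cast_zero, mul_zero, sub_zero, zero_le_one, max_eq_left, Real.log_one]
    have := mul_nonneg (by linarith : (0 : ℝ) ≤ κ) (Real.log_nonneg hκ0)
    linarith
  · have h1 : (1 : ℝ) ≤ κ' := by exact_mod_cast h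
    rw [max_eq_right h1]
    have h2 := mul_log_sub_le κ κ' (by linarith) (by linarith)
    have h3 : (1 / (κ' : ℝ)) * ((κ : ℝ) * κ') = κ := by field_simp
    rw [h3]
    linarith

/-- Net exponent of a cell `w0 ≤ i ≤ w`: `s log (t+1) + (s+1) - s - t ≤ s log s - s + 2`. -/
theorem net_cell_mid (s t : ℕ) (hs : 1 ≤ s) :
    (s : ℝ) * Real.log ((t : ℝ) + 1) + (1 / ((t : ℝ) + 1)) * (((s : ℝ) + 1) * ((t : ℝ) + 1)) - s - t
      ≤ bb (s - 1) - 1 + 2 := by
  rw [← mul_log_sub_eq s hs]
  have hs0 : (1 : ℝ) ≤ s := by exact_mod_cast hs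
  have h2 := mul_log_sub_le s ((t : ℝ) + 1) (by linarith) (by positivity)
  have h3 : (1 / ((t : ℝ) + 1)) * (((s : ℝ) + 1) * ((t : ℝ) + 1)) = (s : ℝ) + 1 := by field_simp
  rw [h3]
  linarith


section FinVersion

variable {s t : ℕ}

/-- `κ_i = #{a : i ≤ α a}`. -/
def kF (α : Fin s → ℕ) (i : ℕ) : ℕ := (Finset.univ.filter (fun a : Fin s => i ≤ α a)).card

theorem kF_le (α : Fin s → ℕ) (i : ℕ) : kF α i ≤ s := by
  unfold kF
  exact (Finset.card_le_univ _).trans (by simp)

theorem kF_eq {α : Fin s → ℕ} {i : ℕ} (h : ∀ a, i ≤ α a) : kF α i = s := by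
  unfold kF
  rw [Finset.filter_true_of_mem (fun a _ => h a)]
  simp

theorem kF_anti (α : Fin s → ℕ) {i j : ℕ} (h : i ≤ j) : kF α j ≤ kF α i := by
  unfold kF
  apply Finset.card_le_card
  intro a ha
  simp only [Finset.mem_filter, Finset.mem_univ, true_and] at ha ⊢
  omega

theorem kF_pos {α : Fin s → ℕ} {i : ℕ} {a : Fin s} (h : i ≤ α a) : 1 ≤ kF α i := by
  unfold kF
  exact Finset.card_pos.mpr ⟨a, by simpa using h⟩

theorem kF_eq_zero {α : Fin s → ℕ} {i : ℕ} (h : ∀ a, α a < i) : kF α i = 0 := by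
  unfold kF
  rw [Finset.card_eq_zero, Finset.filter_eq_empty_iff]
  intro a _
  have := h a
  omega

/-- For antitone `α` the set `{a : i ≤ α a}` is an initial segment. -/
theorem lt_kF_iff {α : Fin s → ℕ} (hα : Antitone α) (i : ℕ) (a : Fin s) :
    (a : ℕ) < kF α i ↔ i ≤ α a := by
  unfold kF
  constructor
  · intro h
    by_contra hlt
    have hsub : Finset.univ.filter (fun b : Fin s => i ≤ α b) ⊆ Finset.Iio a := by
      intro b hb
      simp only [Finset.mem_filter, Finset.mem_univ, true_and] at hb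
      rw [Finset.mem_Iio]
      by_contra hab
      rw [not_lt] at hab
      have := hα hab
      omega
    have := Finset.card_le_card hsub
    rw [Fin.card_Iio] at this
    omega
  · intro h
    have hsub : Finset.Iic a ⊆ Finset.univ.filter (fun b : Fin s => i ≤ α b) := by
      intro b hb
      rw [Finset.mem_Iic] at hb
      simp only [Finset.mem_filter, Finset.mem_univ, true_and]
      exact h.trans (hα hb)
    have := Finset.card_le_card hsub
    rw [Fin.card_Iic] at this
    omega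

theorem sum_kF (α : Fin s → ℕ) (A : ℕ) :
    ∑ i ∈ Finset.Icc 1 A, kF α i = ∑ a, min A (α a) := by
  unfold kF
  simp only [Finset.card_filter]
  rw [Finset.sum_comm]
  apply Finset.sum_congr rfl
  intro a _
  exact sum_Icc_ite A (α a)

theorem sum_kF_le (α : Fin s → ℕ) (A : ℕ) : ∑ i ∈ Finset.Icc 1 A, kF α i ≤ ∑ a, α a := by
  rw [sum_kF]
  exact Finset.sum_le_sum fun a _ => min_le_right _ _

theorem sum_kF_eq {α : Fin s → ℕ} {A : ℕ} (h : ∀ a, α a ≤ A) :
    ∑ i ∈ Finset.Icc 1 A, kF α i = ∑ a, α a := by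
  rw [sum_kF]
  exact Finset.sum_congr rfl fun a _ => min_eq_right (h a)

/-- `∑_{j < κ_i - 1} aa j` as a sum over `a ≥ 1`. -/
theorem bb_kF {α : Fin s → ℕ} (hα : Antitone α) (i : ℕ) :
    bb (kF α i - 1) = ∑ a : Fin s, if 1 ≤ (a : ℕ) ∧ i ≤ α a then aCoef a else 0 := by
  have h1 : ∀ a : Fin s, (if 1 ≤ (a : ℕ) ∧ i ≤ α a then aCoef a else 0)
      = (fun k : ℕ => if 1 ≤ k ∧ k < kF α i then aCoef k else 0) a := by
    intro a
    simp only [lt_kF_iff hα]
  rw [Finset.sum_congr rfl (fun a _ => h1 a),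
    Fin.sum_univ_eq_sum_range (fun k : ℕ => if 1 ≤ k ∧ k < kF α i then aCoef k else 0) s,
    ← Finset.sum_filter]
  have h2 : Finset.filter (fun k => 1 ≤ k ∧ k < kF α i) (Finset.range s)
      = (Finset.range (kF α i - 1)).map ⟨fun k => k + 1, fun a b h => by simpa using h⟩ := by
    ext k
    simp only [Finset.mem_filter, Finset.mem_range, Finset.mem_map]
    constructor
    · rintro ⟨h, h', h''⟩
      refine ⟨k - 1, by omega, ?_⟩
      change k - 1 + 1 = k
      omega
    · rintro ⟨j, hj, hjk⟩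
      have hjk' : j + 1 = k := hjk
      have := kF_le α i
      omega
  rw [h2, Finset.sum_map, bb_eq_sum]
  rfl

/-- (UP), `Fin` version: `∑_{1 ≤ i ≤ A} b(κ_i - 1) ≤ ∑_{a ≥ 1} a_a α_a`. -/
theorem sum_bb_kF_le {α : Fin s → ℕ} (hα : Antitone α) (A : ℕ) :
    ∑ i ∈ Finset.Icc 1 A, bb (kF α i - 1)
      ≤ ∑ a : Fin s, if 1 ≤ (a : ℕ) then aCoef a * (α a : ℝ) else 0 := by
  simp only [bb_kF hα]
  rw [Finset.sum_comm]
  apply Finset.sum_le_sum
  intro a _
  by_cases h : 1 ≤ (a : ℕ)
  · simp only [h, true_and, if_true]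
    have h1 : ∑ i ∈ Finset.Icc 1 A, (if i ≤ α a then aCoef a else 0)
        = aCoef a * ((min A (α a) : ℕ) : ℝ) := by
      rw [← sum_Icc_ite A (α a)]
      push_cast
      rw [Finset.mul_sum]
      apply Finset.sum_congr rfl
      intro i _
      split_ifs <;> simp
    rw [h1]
    apply mul_le_mul_of_nonneg_left
    · exact_mod_cast min_le_right _ _
    · obtain ⟨j, hj⟩ : ∃ j, (a : ℕ) = j + 1 := ⟨a - 1, by omega⟩
      rw [hj]
      exact aa_nonneg j
  · simp [h]

/-- `a_0 = -1`, so the left exponent `∑_{a ≥ 1} a_a α_a - α_0` is `∑_a aCoef a * α_a`. -/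
theorem aCoef_zero : aCoef 0 = -1 := by simp [aCoef]

theorem sum_aCoef_eq (hs : 0 < s) (x : Fin s → ℝ) :
    ∑ a : Fin s, aCoef a * x a
      = (∑ a : Fin s, if 1 ≤ (a : ℕ) then aCoef a * x a else 0) - x ⟨0, hs⟩ := by
  have h : ∀ a : Fin s, aCoef a * x a = (if 1 ≤ (a : ℕ) then aCoef a * x a else 0)
      + (if a = ⟨0, hs⟩ then - x a else 0) := by
    intro a
    by_cases h : 1 ≤ (a : ℕ)
    · have : a ≠ ⟨0, hs⟩ := by
        rintro rfl
        simp at h
      simp [h, this]
    · have h0 : a = ⟨0, hs⟩ := by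
        apply Fin.ext
        simp only
        omega
      subst h0
      simp [aCoef_zero]
  rw [Finset.sum_congr rfl (fun a _ => h a), Finset.sum_add_distrib]
  simp
  ring

/-- The weight exponent `ℓ_i = - log g_i`. -/
noncomputable def ellF (t w : ℕ) (β : Fin t → ℕ) (i : ℕ) : ℝ :=
  if i ≤ w then Real.log ((t : ℝ) + 1) else Real.log (max 1 (kF β i : ℝ))

/-- The weight `g_i`. -/
noncomputable def gF (t w : ℕ) (β : Fin t → ℕ) (i : ℕ) : ℝ :=
  if i ≤ w then 1 / ((t : ℝ) + 1) else 1 / max 1 (kF β i : ℝ)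

theorem gF_eq (w : ℕ) (β : Fin t → ℕ) (i : ℕ) : gF t w β i = Real.exp (- ellF t w β i) := by
  unfold gF ellF
  split_ifs
  · rw [Real.exp_neg, Real.exp_log (by positivity), one_div]
  · rw [Real.exp_neg, Real.exp_log (lt_of_lt_of_le one_pos (le_max_left _ _)), one_div]

theorem ellF_nonneg (w : ℕ) (β : Fin t → ℕ) (i : ℕ) : 0 ≤ ellF t w β i := by
  unfold ellF
  split_ifs
  · exact Real.log_nonneg (by linarith [(Nat.cast_nonneg t : (0 : ℝ) ≤ t)])
  · exact Real.log_nonneg (le_max_left _ _)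

theorem ellF_le (w : ℕ) (β : Fin t → ℕ) (i : ℕ) : ellF t w β i ≤ Real.log ((t : ℝ) + 1) := by
  unfold ellF
  split_ifs
  · exact le_refl _
  · apply Real.log_le_log (lt_of_lt_of_le one_pos (le_max_left _ _))
    apply max_le
    · linarith [(Nat.cast_nonneg t : (0 : ℝ) ≤ t)]
    · have : (kF β i : ℝ) ≤ t := by exact_mod_cast kF_le β i
      linarith

theorem gF_pos (w : ℕ) (β : Fin t → ℕ) (i : ℕ) : 0 < gF t w β i := by
  rw [gF_eq]; exact Real.exp_pos _

theorem gF_le_one (w : ℕ) (β : Fin t → ℕ) (i : ℕ) : gF t w β i ≤ 1 := by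
  rw [gF_eq]
  exact Real.exp_le_one_iff.mpr (by linarith [ellF_nonneg w β i])

/-- The number of entries which may contain the cell `i`. -/
def entF (w : ℕ) (α : Fin s → ℕ) (β : Fin t → ℕ) (i : ℕ) : ℕ :=
  if i ≤ w then (s + 1) * (t + 1) else kF α i * kF β i

theorem gF_mul_entF_le (w : ℕ) (α : Fin s → ℕ) (β : Fin t → ℕ) (i : ℕ) :
    gF t w β i * (entF w α β i : ℝ) ≤ (s : ℝ) + 1 := by
  unfold gF entF
  by_cases h : i ≤ w
  · rw [if_pos h, if_pos h]
    push_cast
    have : (0 : ℝ) < (t : ℝ) + 1 := by positivity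
    apply le_of_eq
    field_simp
  · rw [if_neg h, if_neg h]
    push_cast
    have h1 : (kF α i : ℝ) ≤ s := by exact_mod_cast kF_le α i
    have h0 : (0 : ℝ) ≤ kF α i := Nat.cast_nonneg _
    have h2 : (0 : ℝ) < max 1 (kF β i : ℝ) := lt_of_lt_of_le one_pos (le_max_left _ _)
    have h3 : (kF β i : ℝ) ≤ max 1 (kF β i : ℝ) := le_max_right _ _
    calc 1 / max 1 (kF β i : ℝ) * ((kF α i : ℝ) * (kF β i : ℝ))
        = (kF α i : ℝ) * ((kF β i : ℝ) / max 1 (kF β i : ℝ)) := by ring
      _ ≤ (kF α i : ℝ) * 1 := by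
        apply mul_le_mul_of_nonneg_left _ h0
        rw [div_le_one h2]
        exact h3
      _ ≤ (s : ℝ) + 1 := by linarith

/-- The net exponent of the cell `i` (without the variation of the cell masses). -/
theorem net_cell_le (hs : 1 ≤ s) {w0 w : ℕ} {α : Fin s → ℕ} {β : Fin t → ℕ}
    (hαw : ∀ a, w ≤ α a) (hβw : ∀ b, w ≤ β b) {i : ℕ} (hpos : 1 ≤ kF α i) :
    (if w0 ≤ i then (kF α i : ℝ) * ellF t w β i else 0) + gF t w β i * (entF w α β i : ℝ)
        - kF α i - kF β i
      ≤ bb (kF α i - 1) - 1 + (if i ≤ w then 2 else 0) := by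
  by_cases h : i ≤ w
  · have h1 : kF α i = s := kF_eq (fun a => h.trans (hαw a))
    have h2 : kF β i = t := kF_eq (fun b => h.trans (hβw b))
    unfold ellF gF entF
    simp only [if_pos h, h1, h2]
    have h3 := net_cell_mid s t hs
    have h4 : (0 : ℝ) ≤ (s : ℝ) * Real.log ((t : ℝ) + 1) :=
      mul_nonneg (Nat.cast_nonneg _) (Real.log_nonneg (by linarith [(Nat.cast_nonneg t : (0 : ℝ) ≤ t)]))
    push_cast
    split_ifs
    · linarith
    · linarith
  · unfold ellF gF entF
    simp only [if_neg h]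
    have h3 := net_cell_large (kF α i) (kF β i) hpos
    have h4 : (0 : ℝ) ≤ (kF α i : ℝ) * Real.log (max 1 (kF β i : ℝ)) :=
      mul_nonneg (Nat.cast_nonneg _) (Real.log_nonneg (le_max_left _ _))
    push_cast
    split_ifs
    · linarith
    · linarith

/-- **The net exponent.**  `s ≥ 1` left rows with cells `α` (antitone), `t` right columns with cells
`β`, all of cell `≥ w`; `M i` = mass of the cell `i`, `M i ≤ 1 + ε i`, `∑ ε ≤ E`. -/
theorem net_sum (hs : 0 < s) {w0 w J : ℕ} {α : Fin s → ℕ} (hα : Antitone α) {β : Fin t → ℕ}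
    (hαw : ∀ a, w ≤ α a) (hβw : ∀ b, w ≤ β b) (hw0 : 1 ≤ w0) (hαJ : ∀ a, α a < J)
    (M ε : ℕ → ℝ) (hε : ∀ i, 0 ≤ ε i) (hM : ∀ i, M i ≤ 1 + ε i) {E : ℝ}
    (hE : ∑ i ∈ Finset.range J, ε i ≤ E) :
    ∑ i ∈ Finset.range J, (if w0 ≤ i then (kF α i : ℝ) * ellF t w β i else 0)
      + ∑ i ∈ Finset.range J, M i * (gF t w β i * (entF w α β i : ℝ))
      - ∑ a, (α a : ℝ) - ∑ b, (β b : ℝ)
      ≤ ∑ a : Fin s, aCoef a * (α a : ℝ) + ((s : ℝ) + 1) * (1 + E) + 2 * w := by
  set A := α ⟨0, hs⟩ with hA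
  have hAle : ∀ a, α a ≤ A := fun a => hα (Fin.mk_le_of_le_val (Nat.zero_le _))
  have hAJ : A < J := hαJ _
  -- step 1: replace `M i` by `1`
  have h1 : ∑ i ∈ Finset.range J, M i * (gF t w β i * (entF w α β i : ℝ))
      ≤ ∑ i ∈ Finset.range J, gF t w β i * (entF w α β i : ℝ) + ((s : ℝ) + 1) * E := by
    calc ∑ i ∈ Finset.range J, M i * (gF t w β i * (entF w α β i : ℝ))
        ≤ ∑ i ∈ Finset.range J, (gF t w β i * (entF w α β i : ℝ) + ε i * ((s : ℝ) + 1)) := by
          apply Finset.sum_le_sum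
          intro i _
          have h2 : 0 ≤ gF t w β i * (entF w α β i : ℝ) :=
            mul_nonneg (gF_pos w β i).le (Nat.cast_nonneg _)
          have h3 := gF_mul_entF_le w α β i
          have h4 := mul_le_mul_of_nonneg_right (hM i) h2
          have h5 := mul_le_mul_of_nonneg_left h3 (hε i)
          nlinarith
      _ ≤ _ := by
          rw [Finset.sum_add_distrib, ← Finset.sum_mul]
          have : (∑ i ∈ Finset.range J, ε i) * ((s : ℝ) + 1) ≤ E * ((s : ℝ) + 1) :=
            mul_le_mul_of_nonneg_right hE (by positivity)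
          linarith
  -- step 2: split off `i = 0` and the cells beyond `A`
  have hsplit : ∀ f : ℕ → ℝ, (∀ i, A < i → f i = 0) →
      ∑ i ∈ Finset.range J, f i = f 0 + ∑ i ∈ Finset.Icc 1 A, f i := by
    intro f hf
    have h2 : Finset.range (A + 1) ⊆ Finset.range J := Finset.range_subset_range.mpr (by omega)
    rw [← Finset.sum_subset h2 (fun i _ hi => hf i (by simpa using hi)), Finset.range_eq_Ico,
      Finset.sum_eq_sum_Ico_succ_bot (by omega)]
    congr 1
  have hzero : ∀ i, A < i → kF α i = 0 := fun i hi => kF_eq_zero fun a => (hAle a).trans_lt hi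
  have hwA : w ≤ A := hαw _
  have e1 := hsplit (fun i => if w0 ≤ i then (kF α i : ℝ) * ellF t w β i else 0)
    (fun i hi => by simp [hzero i hi])
  have e2 := hsplit (fun i => gF t w β i * (entF w α β i : ℝ)) (fun i hi => by
    unfold entF
    rw [if_neg (by omega), hzero i hi]
    simp)
  rw [if_neg (by omega), zero_add] at e1
  rw [e1]
  rw [e2] at h1
  have e3 : ∑ a, (α a : ℝ) = ∑ i ∈ Finset.Icc 1 A, (kF α i : ℝ) := by
    have := sum_kF_eq hAle
    exact_mod_cast this.symm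
  have e4 : ∑ i ∈ Finset.Icc 1 A, (kF β i : ℝ) ≤ ∑ b, (β b : ℝ) := by
    have := sum_kF_le β A
    exact_mod_cast this
  have e5 := gF_mul_entF_le w α β 0
  have e6 : ∑ i ∈ Finset.Icc 1 A, ((if w0 ≤ i then (kF α i : ℝ) * ellF t w β i else 0)
      + gF t w β i * (entF w α β i : ℝ) - kF α i - kF β i)
      ≤ ∑ i ∈ Finset.Icc 1 A, (bb (kF α i - 1) - 1 + (if i ≤ w then 2 else 0)) := by
    apply Finset.sum_le_sum
    intro i hi
    rw [Finset.mem_Icc] at hi
    exact net_cell_le hs hαw hβw (kF_pos (a := ⟨0, hs⟩) hi.2)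
  rw [Finset.sum_sub_distrib, Finset.sum_sub_distrib, Finset.sum_add_distrib,
    Finset.sum_add_distrib, Finset.sum_sub_distrib] at e6
  have e7 : ∑ i ∈ Finset.Icc 1 A, (if i ≤ w then (2 : ℝ) else 0) = 2 * w := by
    have h3 := sum_Icc_ite A w
    have h4 : ∑ i ∈ Finset.Icc 1 A, (if i ≤ w then (2 : ℝ) else 0)
        = 2 * ((∑ i ∈ Finset.Icc 1 A, if i ≤ w then 1 else 0 : ℕ) : ℝ) := by
      push_cast
      rw [Finset.mul_sum]
      apply Finset.sum_congr rfl
      intro i _
      split_ifs <;> simp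
    rw [h4, h3, min_eq_right hwA]
  have e8 : ∑ _i ∈ Finset.Icc 1 A, (1 : ℝ) = A := by simp
  have e9 := sum_bb_kF_le hα A
  have e10 := sum_aCoef_eq hs (fun a => (α a : ℝ))
  rw [e7, e8] at e6
  rw [e10, e3]
  have e11 : ((α ⟨0, hs⟩ : ℕ) : ℝ) = (A : ℝ) := rfl
  rw [e11]
  nlinarith

/-- Is the cell `c` allowed in the entry `(i, j)`? -/
def allowed (w : ℕ) (α : Fin s → ℕ) (β : Fin t → ℕ) : Option (Fin s) → Option (Fin t) → ℕ → Prop
  | some a, some b, c => c ≤ w ∨ (c ≤ α a ∧ c ≤ β b)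
  | _, _, c => c ≤ w

instance (w : ℕ) (α : Fin s → ℕ) (β : Fin t → ℕ) (i : Option (Fin s)) (j : Option (Fin t)) :
    DecidablePred (allowed w α β i j) := fun c => by
  unfold allowed
  split <;> infer_instance

/-- Summing over the entries and the allowed cells = summing over the cells with multiplicity
`entF`. -/
theorem sum_allowed (w : ℕ) (α : Fin s → ℕ) (β : Fin t → ℕ) (J : ℕ) (x : ℕ → ℝ) :
    ∑ i : Option (Fin s), ∑ j : Option (Fin t),
        ∑ c ∈ (Finset.range J).filter (allowed w α β i j), x c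
      = ∑ c ∈ Finset.range J, (entF w α β c : ℝ) * x c := by
  have h1 : ∀ (i : Option (Fin s)) (j : Option (Fin t)),
      ∑ c ∈ (Finset.range J).filter (allowed w α β i j), x c
        = ∑ c ∈ Finset.range J, if allowed w α β i j c then x c else 0 := by
    intro i j
    rw [Finset.sum_filter]
  simp only [h1]
  have h2 : ∑ i : Option (Fin s), ∑ j : Option (Fin t), ∑ c ∈ Finset.range J,
        (if allowed w α β i j c then x c else 0)
      = ∑ c ∈ Finset.range J, ∑ i : Option (Fin s), ∑ j : Option (Fin t),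
        (if allowed w α β i j c then x c else 0) := by
    rw [Finset.sum_comm]
    simp only [Finset.sum_comm (s := (Finset.univ : Finset (Option (Fin t))))]
    rw [Finset.sum_comm]
  rw [h2]
  apply Finset.sum_congr rfl
  intro c _
  unfold entF
  by_cases h : c ≤ w
  · have h3 : ∀ (i : Option (Fin s)) (j : Option (Fin t)), allowed w α β i j c := by
      intro i j
      rcases i with _ | i <;> rcases j with _ | j <;> simp [allowed, h]
    simp only [h3, if_true, if_pos h]
    simp only [Finset.sum_const, Finset.card_univ, Fintype.card_option, Fintype.card_fin,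
      nsmul_eq_mul]
    push_cast
    ring
  · rw [if_neg h]
    rw [Fintype.sum_option]
    simp only [Fintype.sum_option]
    have h4 : ∀ (i : Option (Fin s)) (j : Option (Fin t)), (i = none ∨ j = none) →
        ¬ allowed w α β i j c := by
      intro i j hij
      rcases i with _ | i <;> rcases j with _ | j <;> simp_all [allowed]
    have h5 : ∀ (a : Fin s) (b : Fin t), (if allowed w α β (some a) (some b) c then x c else 0)
        = (if c ≤ α a then 1 else 0) * ((if c ≤ β b then 1 else 0) * x c) := by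
      intro a b
      have : allowed w α β (some a) (some b) c ↔ (c ≤ α a ∧ c ≤ β b) := by
        simp only [allowed]
        constructor
        · rintro (h' | h')
          · exact absurd h' h
          · exact h'
        · exact Or.inr
      simp only [this]
      by_cases h6 : c ≤ α a <;> by_cases h7 : c ≤ β b <;> simp [h6, h7]
    simp only [h5]
    rw [if_neg (h4 _ _ (Or.inl rfl))]
    simp only [if_neg (h4 none (some _) (Or.inl rfl)), if_neg (h4 (some _) none (Or.inr rfl)),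
      Finset.sum_const_zero, zero_add]
    simp only [← Finset.mul_sum, ← Finset.sum_mul]
    have h8 : ∀ {n : ℕ} (γ : Fin n → ℕ), ∑ a, (if c ≤ γ a then (1 : ℝ) else 0) = (kF γ c : ℝ) := by
      intro n γ
      unfold kF
      rw [Finset.card_filter]
      push_cast
      rfl
    rw [h8, h8]
    push_cast
    ring

end FinVersion

end Crest.Agent.R020.CellSum
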