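import Mathlib
import Crest.Agent.R020.Canon
import Crest.Agent.R020.CollBasic

/-!
Row 20, module (L): definitions shared by the collision files.
-/

set_option autoImplicit false

open Crest.NumberTheoryR.TotientScale

namespace Crest.Agent.R020.Coll

/-- cell of a prime: cell `i` is `{p : i < yy p ≤ i + 1}`, cell `0` also contains `yy p = 0`. -/
noncomputable def cl (p : ℕ) : ℕ := ⌈yy p⌉₊ - 1

/-- the statistic `∑_{p ∣ n} ℓ (cl p)`, with multiplicity -/
noncomputable def st (ell : ℕ → ℝ) (n : ℕ) : ℝ := (n.primeFactorsList.map fun p => ell (cl p)).sum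

/-- `q` is alive at level `w`: `P⁺(q-1) > exp(e^w)` -/
def Alive (w : ℕ) (q : ℕ) : Prop := (w : ℝ) < yy (Pm (q - 1))

open Classical in
/-- the alive primes of `n` -/
noncomputable def alv (w n : ℕ) : Finset ℕ := n.primeFactors.filter (Alive w)

/-- the dead part of `n` (alive primes are removed once) -/
noncomputable def deadPart (w n : ℕ) : ℕ := n / ∏ p ∈ alv w n, p

/-- `κ_i = #{p ∈ S : i ≤ cl p}` -/
noncomputable def kap (S : Finset ℕ) (i : ℕ) : ℕ := (S.filter (fun p => i ≤ cl p)).card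

/-- `ℓ_i` attached to a right profile `κ'` (`κ' 0` = number of right alive primes) -/
noncomputable def ell (w : ℕ) (κ' : ℕ → ℕ) (i : ℕ) : ℝ :=
  if i < w then Real.log (κ' 0 + 1) else Real.log (max 1 (κ' i : ℝ))

/-- The reduced left value attached to a set `S` of alive primes of `n`:
`∏_{p ∈ S} (p - 1) * φ (dead part)`. -/
noncomputable def redv (w n : ℕ) (S : Finset ℕ) : ℕ :=
  (∏ p ∈ S, (p - 1)) * Nat.totient (deadPart w n)

/-- Good left/right data for the pair `(q, d)`; `J` bounds all cells (`J = ⌈Y⌉₊ + 1`), `N` the number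
of alive primes, `F` the tolerance of the aggregated left statistic. -/
structure LGood (Y : ℝ) (w N J : ℕ) (F : ℝ) (q d : ℕ) : Prop where
  om : (((q - 1) * d).primeFactorsList.length : ℝ) ≤ 20 * Y
  cardL : (alv w (q * rr d)).card ≤ N
  cardR : (alv w (rr ((q - 1) * d))).card ≤ N
  sqL : ∀ p : ℕ, p.Prime → (w : ℝ) < yy p → ¬ p ^ 2 ∣ q * rr d
  sqR : ∀ p : ℕ, p.Prime → (w : ℝ) < yy p → ¬ p ^ 2 ∣ rr ((q - 1) * d)
  stat : ∀ S ⊆ alv w (q * rr d), ∀ κ' : ℕ → ℕ, Antitone κ' → κ' 0 ≤ N → (∀ i, J ≤ i → κ' i = 0) →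
    st (ell w κ') (redv w (q * rr d) S) ≤ ∑ i ∈ Finset.range J, kap S i * ell w κ' i + F

end Crest.Agent.R020.Coll
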