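import Mathlib
import Crest.Agent.R020.Canon
import Crest.Agent.R020.CollDefs
import Crest.Agent.R020.CellSum

/-!
Row 20 (S0026, S0027): the net exponent in the shapes used by the collision files (helper770).

* `net_coll`: the net exponent for unsorted profiles, with the weights `Coll.ell`;
* `entA`, `allowedA`, `sum_allowedA`: number of entries which may contain a cell;
* `up_canon`: `∑ (κ_i log κ_i - κ_i) ≤ FF aa d - yy q + 1`.
-/

set_option autoImplicit false

open Crest.NumberTheoryR.TotientScale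

namespace Crest.Agent.R020.CellSum

theorem cl_eq_cell (p : ℕ) : Coll.cl p = cell p := rfl

section Net

variable {s t : ℕ}

theorem ell_nonneg (w : ℕ) (κ : ℕ → ℕ) (i : ℕ) : 0 ≤ Coll.ell w κ i := by
  unfold Coll.ell
  split_ifs
  · exact Real.log_nonneg (by linarith [(Nat.cast_nonneg (κ 0) : (0 : ℝ) ≤ κ 0)])
  · exact Real.log_nonneg (le_max_left _ _)

theorem ell_le {κ : ℕ → ℕ} (hκ : Antitone κ) (w i : ℕ) :
    Coll.ell w κ i ≤ Real.log ((κ 0 : ℝ) + 1) := by
  unfold Coll.ell
  split_ifs
  · exact le_refl _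
  · apply Real.log_le_log (lt_of_lt_of_le one_pos (le_max_left _ _))
    apply max_le
    · linarith [(Nat.cast_nonneg (κ 0) : (0 : ℝ) ≤ κ 0)]
    · have : (κ i : ℝ) ≤ κ 0 := by exact_mod_cast hκ (Nat.zero_le i)
      linarith

theorem exp_neg_ell (w : ℕ) (κ : ℕ → ℕ) (i : ℕ) :
    Real.exp (- Coll.ell w κ i) =
      if i < w then 1 / ((κ 0 : ℝ) + 1) else 1 / max 1 (κ i : ℝ) := by
  unfold Coll.ell
  split_ifs
  · rw [Real.exp_neg, Real.exp_log (by positivity), one_div]
  · rw [Real.exp_neg, Real.exp_log (lt_of_lt_of_le one_pos (le_max_left _ _)), one_div]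

theorem exp_neg_ell_le_one (w : ℕ) (κ : ℕ → ℕ) (i : ℕ) : Real.exp (- Coll.ell w κ i) ≤ 1 :=
  Real.exp_le_one_iff.mpr (by linarith [ell_nonneg w κ i])

/-- The number of entries which may contain the cell `i` (dead row/column: cells `< w`). -/
def entA (w : ℕ) (α : Fin s → ℕ) (β : Fin t → ℕ) (i : ℕ) : ℕ :=
  if i < w then (s + 1) * (t + 1) else kF α i * kF β i

theorem exp_mul_entA_le (w : ℕ) (α : Fin s → ℕ) (β : Fin t → ℕ) (i : ℕ) :
    Real.exp (- Coll.ell w (kF β) i) * (entA w α β i : ℝ) ≤ (s : ℝ) + 1 := by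
  rw [exp_neg_ell]
  unfold entA
  by_cases h : i < w
  · rw [if_pos h, if_pos h]
    have h0 : kF β 0 = t := kF_eq (fun b => Nat.zero_le _)
    rw [h0]
    push_cast
    have : (0 : ℝ) < (t : ℝ) + 1 := by positivity
    apply le_of_eq
    field_simp
  · rw [if_neg h, if_neg h]
    push_cast
    have h1 : (kF α i : ℝ) ≤ s := by exact_mod_cast kF_le α i
    have h0 : (0 : ℝ) ≤ kF α i := Nat.cast_nonneg _
    have h2 : (0 : ℝ) < max 1 (kF β i : ℝ) := lt_of_lt_of_le one_pos (le_max_left _ _)
    have h3 : (kF β i : ℝ) ≤ max 1 (kF β i : ℝ) := le_max_right _ _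
    calc 1 / max 1 (kF β i : ℝ) * ((kF α i : ℝ) * (kF β i : ℝ))
        = (kF α i : ℝ) * ((kF β i : ℝ) / max 1 (kF β i : ℝ)) := by ring
      _ ≤ (kF α i : ℝ) * 1 := by
        apply mul_le_mul_of_nonneg_left _ h0
        rw [div_le_one h2]
        exact h3
      _ ≤ (s : ℝ) + 1 := by linarith

/-- Net exponent of one cell. -/
theorem net_cellA_le (hs : 1 ≤ s) {w : ℕ} {α : Fin s → ℕ} {β : Fin t → ℕ}
    (hαw : ∀ a, w ≤ α a) (hβw : ∀ b, w ≤ β b) (i : ℕ) :
    (kF α i : ℝ) * Coll.ell w (kF β) i + Real.exp (- Coll.ell w (kF β) i) * (entA w α β i : ℝ)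
        - kF α i - kF β i
      ≤ ((kF α i : ℝ) * Real.log (kF α i) - kF α i) + (if i < w then 2 else 0) := by
  rw [exp_neg_ell]
  unfold Coll.ell entA
  by_cases h : i < w
  · have h1 : kF α i = s := kF_eq (fun a => h.le.trans (hαw a))
    have h2 : kF β i = t := kF_eq (fun b => h.le.trans (hβw b))
    have h0 : kF β 0 = t := kF_eq (fun b => Nat.zero_le _)
    simp only [if_pos h, h1, h2, h0]
    have h3 := net_cell_mid s t hs
    rw [← mul_log_sub_eq s hs] at h3
    push_cast
    linarith
  · simp only [if_neg h]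
    push_cast
    rcases Nat.eq_zero_or_pos (kF α i) with h4 | h4
    · rw [h4]
      simp
    · have h3 := net_cell_large (kF α i) (kF β i) h4
      rw [← mul_log_sub_eq _ h4] at h3
      linarith

/-- **The net exponent**, unsorted profiles. -/
theorem net_coll (hs : 1 ≤ s) {w J : ℕ} {α : Fin s → ℕ} {β : Fin t → ℕ}
    (hαw : ∀ a, w ≤ α a) (hβw : ∀ b, w ≤ β b) (hαJ : ∀ a, α a < J)
    (M ε : ℕ → ℝ) (hε : ∀ i, 0 ≤ ε i) (hM : ∀ i, M i ≤ 1 + ε i) {E : ℝ}
    (hE : ∑ i ∈ Finset.range J, ε i ≤ E) :
    ∑ i ∈ Finset.range J, (kF α i : ℝ) * Coll.ell w (kF β) i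
      + ∑ i ∈ Finset.range J, M i * (Real.exp (- Coll.ell w (kF β) i) * (entA w α β i : ℝ))
      - ∑ a, (α a : ℝ) - ∑ b, (β b : ℝ)
      ≤ ∑ i ∈ Finset.Ico 1 J, ((kF α i : ℝ) * Real.log (kF α i) - kF α i)
        + 2 * w + ((s : ℝ) + 1) * (1 + E) + s * Real.log ((t : ℝ) + 1) := by
  have hJ : 1 ≤ J := by
    have := hαJ ⟨0, hs⟩
    omega
  -- replace `M i` by `1`
  have h1 : ∑ i ∈ Finset.range J, M i * (Real.exp (- Coll.ell w (kF β) i) * (entA w α β i : ℝ))
      ≤ ∑ i ∈ Finset.range J, Real.exp (- Coll.ell w (kF β) i) * (entA w α β i : ℝ)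
        + ((s : ℝ) + 1) * E := by
    calc ∑ i ∈ Finset.range J, M i * (Real.exp (- Coll.ell w (kF β) i) * (entA w α β i : ℝ))
        ≤ ∑ i ∈ Finset.range J, (Real.exp (- Coll.ell w (kF β) i) * (entA w α β i : ℝ)
            + ε i * ((s : ℝ) + 1)) := by
          apply Finset.sum_le_sum
          intro i _
          have h2 : 0 ≤ Real.exp (- Coll.ell w (kF β) i) * (entA w α β i : ℝ) :=
            mul_nonneg (Real.exp_pos _).le (Nat.cast_nonneg _)
          have h3 := exp_mul_entA_le w α β i
          have h4 := mul_le_mul_of_nonneg_right (hM i) h2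
          have h5 := mul_le_mul_of_nonneg_left h3 (hε i)
          nlinarith
      _ ≤ _ := by
          rw [Finset.sum_add_distrib, ← Finset.sum_mul]
          have : (∑ i ∈ Finset.range J, ε i) * ((s : ℝ) + 1) ≤ E * ((s : ℝ) + 1) :=
            mul_le_mul_of_nonneg_right hE (by positivity)
          linarith
  have hsplit : ∀ f : ℕ → ℝ, ∑ i ∈ Finset.range J, f i = f 0 + ∑ i ∈ Finset.Ico 1 J, f i := by
    intro f
    rw [Finset.range_eq_Ico, Finset.sum_eq_sum_Ico_succ_bot (by omega)]
  rw [hsplit (fun i => (kF α i : ℝ) * Coll.ell w (kF β) i)]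
  rw [hsplit (fun i => Real.exp (- Coll.ell w (kF β) i) * (entA w α β i : ℝ))] at h1
  have hIco : Finset.Ico 1 J = Finset.Icc 1 (J - 1) := by
    ext i
    simp only [Finset.mem_Ico, Finset.mem_Icc]
    omega
  have e3 : ∑ a, (α a : ℝ) = ∑ i ∈ Finset.Ico 1 J, (kF α i : ℝ) := by
    rw [hIco]
    have := sum_kF_eq (α := α) (A := J - 1) (fun a => by have := hαJ a; omega)
    exact_mod_cast this.symm
  have e4 : ∑ i ∈ Finset.Ico 1 J, (kF β i : ℝ) ≤ ∑ b, (β b : ℝ) := by
    rw [hIco]
    have := sum_kF_le β (J - 1)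
    exact_mod_cast this
  have e5 := exp_mul_entA_le w α β 0
  have e6 : ∑ i ∈ Finset.Ico 1 J, ((kF α i : ℝ) * Coll.ell w (kF β) i
      + Real.exp (- Coll.ell w (kF β) i) * (entA w α β i : ℝ) - kF α i - kF β i)
      ≤ ∑ i ∈ Finset.Ico 1 J, (((kF α i : ℝ) * Real.log (kF α i) - kF α i)
        + (if i < w then 2 else 0)) :=
    Finset.sum_le_sum fun i _ => net_cellA_le hs hαw hβw i
  rw [Finset.sum_sub_distrib, Finset.sum_sub_distrib, Finset.sum_add_distrib,
    Finset.sum_add_distrib] at e6
  have e7 : ∑ i ∈ Finset.Ico 1 J, (if i < w then (2 : ℝ) else 0) ≤ 2 * w := by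
    rw [← Finset.sum_filter, Finset.sum_const, nsmul_eq_mul]
    have : (Finset.filter (fun i => i < w) (Finset.Ico 1 J)).card ≤ w := by
      calc (Finset.filter (fun i => i < w) (Finset.Ico 1 J)).card ≤ (Finset.range w).card := by
            apply Finset.card_le_card
            intro i hi
            simp only [Finset.mem_filter, Finset.mem_Ico] at hi
            exact Finset.mem_range.mpr hi.2
        _ = w := Finset.card_range w
    have h2 : ((Finset.filter (fun i => i < w) (Finset.Ico 1 J)).card : ℝ) ≤ w := by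
      exact_mod_cast this
    linarith
  have e8 : (kF α 0 : ℝ) * Coll.ell w (kF β) 0 ≤ s * Real.log ((t : ℝ) + 1) := by
    have h2 : (kF α 0 : ℝ) ≤ s := by exact_mod_cast kF_le α 0
    have h3 := ell_le (κ := kF β) (fun i j h => kF_anti β h) w 0
    have h4 : kF β 0 = t := kF_eq (fun b => Nat.zero_le _)
    rw [h4] at h3
    exact mul_le_mul h2 h3 (ell_nonneg _ _ _) (by positivity)
  nlinarith

/-- Is the cell `c` allowed in the entry `(i, j)`? (dead row/column: cells `< w`). -/
def allowedA (w : ℕ) (α : Fin s → ℕ) (β : Fin t → ℕ) : Option (Fin s) → Option (Fin t) → ℕ → Prop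
  | some a, some b, c => c < w ∨ (c ≤ α a ∧ c ≤ β b)
  | _, _, c => c < w

instance (w : ℕ) (α : Fin s → ℕ) (β : Fin t → ℕ) (i : Option (Fin s)) (j : Option (Fin t)) :
    DecidablePred (allowedA w α β i j) := fun c => by
  unfold allowedA
  split <;> infer_instance

/-- Summing over the entries and the allowed cells = summing over the cells with multiplicity
`entA`. -/
theorem sum_allowedA (w : ℕ) (α : Fin s → ℕ) (β : Fin t → ℕ) (J : ℕ) (x : ℕ → ℝ) :
    ∑ i : Option (Fin s), ∑ j : Option (Fin t),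
        ∑ c ∈ (Finset.range J).filter (allowedA w α β i j), x c
      = ∑ c ∈ Finset.range J, (entA w α β c : ℝ) * x c := by
  have h1 : ∀ (i : Option (Fin s)) (j : Option (Fin t)),
      ∑ c ∈ (Finset.range J).filter (allowedA w α β i j), x c
        = ∑ c ∈ Finset.range J, if allowedA w α β i j c then x c else 0 := by
    intro i j
    rw [Finset.sum_filter]
  simp only [h1]
  have h2 : ∑ i : Option (Fin s), ∑ j : Option (Fin t), ∑ c ∈ Finset.range J,
        (if allowedA w α β i j c then x c else 0)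
      = ∑ c ∈ Finset.range J, ∑ i : Option (Fin s), ∑ j : Option (Fin t),
        (if allowedA w α β i j c then x c else 0) := by
    rw [Finset.sum_comm]
    simp only [Finset.sum_comm (s := (Finset.univ : Finset (Option (Fin t))))]
    rw [Finset.sum_comm]
  rw [h2]
  apply Finset.sum_congr rfl
  intro c _
  unfold entA
  by_cases h : c < w
  · have h3 : ∀ (i : Option (Fin s)) (j : Option (Fin t)), allowedA w α β i j c := by
      intro i j
      rcases i with _ | i <;> rcases j with _ | j <;> simp [allowedA, h]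
    simp only [h3, if_true, if_pos h]
    simp only [Finset.sum_const, Finset.card_univ, Fintype.card_option, Fintype.card_fin,
      nsmul_eq_mul]
    push_cast
    ring
  · rw [if_neg h]
    rw [Fintype.sum_option]
    simp only [Fintype.sum_option]
    have h4 : ∀ (i : Option (Fin s)) (j : Option (Fin t)), (i = none ∨ j = none) →
        ¬ allowedA w α β i j c := by
      intro i j hij
      rcases i with _ | i <;> rcases j with _ | j <;> simp_all [allowedA]
    have h5 : ∀ (a : Fin s) (b : Fin t), (if allowedA w α β (some a) (some b) c then x c else 0)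
        = (if c ≤ α a then 1 else 0) * ((if c ≤ β b then 1 else 0) * x c) := by
      intro a b
      have : allowedA w α β (some a) (some b) c ↔ (c ≤ α a ∧ c ≤ β b) := by
        simp only [allowedA]
        constructor
        · rintro (h' | h')
          · exact absurd h' h
          · exact h'
        · exact Or.inr
      simp only [this]
      by_cases h6 : c ≤ α a <;> by_cases h7 : c ≤ β b <;> simp [h6, h7]
    simp only [h5]
    rw [if_neg (h4 _ _ (Or.inl rfl))]
    simp only [if_neg (h4 none (some _) (Or.inl rfl)), if_neg (h4 (some _) none (Or.inr rfl)),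
      Finset.sum_const_zero, zero_add]
    simp only [← Finset.mul_sum, ← Finset.sum_mul]
    have h8 : ∀ {n : ℕ} (γ : Fin n → ℕ), ∑ a, (if c ≤ γ a then (1 : ℝ) else 0) = (kF γ c : ℝ) := by
      intro n γ
      unfold kF
      rw [Finset.card_filter]
      push_cast
      rfl
    rw [h8, h8]
    push_cast
    ring

end Net

/-! ### From sets of primes to `FF` -/

theorem kap_sort (S : Finset ℕ) (i : ℕ) : kap (S.sort (· ≥ ·)) i = Coll.kap S i := by
  classical
  unfold kap Coll.kap
  rw [List.countP_eq_length_filter]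
  have h1 : (S.filter (fun p => i ≤ Coll.cl p)).card
      = ((S.sort (· ≥ ·)).filter (fun q => decide (i ≤ cell q))).toFinset.card := by
    congr 1
    ext p
    rw [Finset.mem_filter]
    simp [cl_eq_cell]
  rw [h1, List.toFinset_card_of_nodup ((Finset.sort_nodup _ _).filter _)]

/-- The sorted list of a set of prime factors is a sublist of `dl`. -/
theorem sort_sublist_dl {n : ℕ} {S : Finset ℕ} (hS : S ⊆ n.primeFactors) :
    (S.sort (· ≥ ·)).Sublist (dl n) := by
  apply List.sublist_of_subperm_of_pairwise (r := (· ≥ ·))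
  · apply List.subperm_of_subset (Finset.sort_nodup _ _)
    intro p hp
    have := hS ((Finset.mem_sort _).mp hp)
    exact mem_dl.mpr (Nat.mem_primeFactors_iff_mem_primeFactorsList.mp this)
  · exact Finset.pairwise_sort _ _
  · exact dl_sorted n

/-- (UP) for canonical preimages. -/
theorem up_canon {q d J : ℕ} (hq : q.Prime) (hP : Pm (rr d) < q) {S : Finset ℕ}
    (hS : S ⊆ (q * rr d).primeFactors) (hqS : q ∈ S) (hJ : Coll.cl q < J) :
    ∑ i ∈ Finset.Ico 1 J, ((Coll.kap S i : ℝ) * Real.log (Coll.kap S i) - Coll.kap S i)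
      ≤ FF aa d - yy q + 1 := by
  have hr := rr_pos d
  have hP' := (Pm_lt_iff hr.ne' hq.two_le).mp hP
  have hdl : dl (q * rr d) = q :: dl (rr d) :=
    dl_mul hq hr.ne' (fun p hp hpd => (hP' p hp hpd).le)
  have hsub := sort_sublist_dl hS
  rw [hdl] at hsub
  have hpair : (S.sort (· ≥ ·)).Pairwise (· ≥ ·) := Finset.pairwise_sort _ _
  have hmem : q ∈ S.sort (· ≥ ·) := (Finset.mem_sort _).mpr hqS
  have hkap := kap_sort S
  obtain ⟨l', hl⟩ : ∃ l', S.sort (· ≥ ·) = q :: l' := by
    rcases hS' : S.sort (· ≥ ·) with _ | ⟨a, l'⟩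
    · rw [hS'] at hmem
      simp at hmem
    · have ha : a ≤ q := by
        have h1 : a ∈ q :: dl (rr d) := hsub.subset (by rw [hS']; simp)
        rcases List.mem_cons.mp h1 with h2 | h2
        · exact h2.le
        · have h3 := (mem_dl_iff hr.ne').mp h2
          exact (hP' a h3.1 h3.2).le
      have hb : q ≤ a := by
        rw [hS'] at hmem hpair
        rcases List.mem_cons.mp hmem with h2 | h2
        · exact h2.le
        · exact (List.pairwise_cons.mp hpair).1 q h2
      exact ⟨l', by rw [le_antisymm ha hb]⟩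
  rw [hl] at hsub hpair hkap
  have hsub' : l'.Sublist (dl (rr d)) := List.cons_sublist_cons.mp hsub
  have hall : ∀ p ∈ q :: l', cell p ≤ cell q := by
    intro p hp
    rcases List.mem_cons.mp hp with rfl | hp
    · exact le_refl _
    · exact cell_mono ((List.pairwise_cons.mp hpair).1 p hp)
  have hcl : Coll.cl q = cell q := rfl
  rw [hcl] at hJ
  have hterm : ∀ i ∈ Finset.Ico 1 J,
      ((Coll.kap S i : ℝ) * Real.log (Coll.kap S i) - Coll.kap S i)
        = if i ≤ cell q then bb (kap (q :: l') i - 1) - 1 else 0 := by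
    intro i _
    rw [← hkap i]
    by_cases h : i ≤ cell q
    · rw [if_pos h]
      apply mul_log_sub_eq
      rw [kap_cons, if_pos h]
      omega
    · rw [if_neg h, kap_eq_zero (fun p hp => (hall p hp).trans_lt (not_le.mp h))]
      simp
  rw [Finset.sum_congr rfl hterm, ← Finset.sum_filter]
  have hfil : Finset.filter (fun i => i ≤ cell q) (Finset.Ico 1 J) = Finset.Icc 1 (cell q) := by
    ext i
    simp only [Finset.mem_filter, Finset.mem_Ico, Finset.mem_Icc]
    omega
  rw [hfil, Finset.sum_sub_distrib]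
  have h1 := sum_bb_kap_tail_le hpair (cell q)
  have h2 : FL aa l' ≤ FF aa d := FL_aa_sublist hsub'
  have h3 := yy_le_cell q
  simp only [Finset.sum_const, Nat.card_Icc, nsmul_eq_mul, mul_one, Nat.add_sub_cancel]
  linarith

end Crest.Agent.R020.CellSum
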