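import Crest.Agent.R020.Canon
import Crest.Agent.R020.Wt
import Crest.Agent.R020.CollBasic
import Crest.Agent.Lib.Mertens
import Crest.Agent.Lib.HallTenWt

/-!
Row 20 (helper661): cells of primes.

* `cl p = ⌈yy p⌉₊ - 1`: the cell of `p`, i.e. `cl p = i` iff `i < yy p ≤ i + 1` (`cl p = 0` also if
  `yy p = 0`);
* `PU U` (for `0 ≤ U`): finset of the primes `p` with `yy p ≤ U`;
* `sum_inv_PU`, `sum_inv_CL`: Mertens bounds; `sum_cl_div_le`: sums of `f (cl p) / p`;
* `wt_sm_rankin`, `wt_omega_le`: Rankin's bound for integers composed of primes with `yy p ≤ U`.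
-/

set_option autoImplicit false

open scoped ENNReal

noncomputable section

namespace Crest.Agent.R020.LS

open Crest.Agent.Lib

/-- the cell of `p` -/
def cl (p : ℕ) : ℕ := ⌈yy p⌉₊ - 1

lemma yy_le_cl (p : ℕ) : yy p ≤ cl p + 1 := by
  have h := Nat.le_ceil (yy p)
  refine h.trans ?_
  have : ⌈yy p⌉₊ ≤ cl p + 1 := by unfold cl; omega
  exact_mod_cast this

lemma cl_le_yy (p : ℕ) : (cl p : ℝ) ≤ yy p := by
  rcases Nat.eq_zero_or_pos (cl p) with h | h
  · rw [h]; exact_mod_cast yy_nonneg p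
  · have h2 : cl p < ⌈yy p⌉₊ := by unfold cl at h ⊢; omega
    exact (Nat.lt_ceil.mp h2).le

lemma cl_lt_yy {p : ℕ} (h : cl p ≠ 0) : (cl p : ℝ) < yy p := by
  have h2 : cl p < ⌈yy p⌉₊ := by unfold cl at h ⊢; omega
  exact Nat.lt_ceil.mp h2

/-- `i < cl p ↔ i + 1 < yy p` -/
lemma lt_cl_iff {p i : ℕ} : i < cl p ↔ (i + 1 : ℝ) < yy p := by
  constructor
  · intro h
    have h2 : (i + 1 : ℝ) ≤ cl p := by exact_mod_cast h
    exact lt_of_le_of_lt h2 (cl_lt_yy (by omega))
  · intro h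
    have h2 : i + 1 < ⌈yy p⌉₊ := Nat.lt_ceil.mpr (by push_cast; exact h)
    unfold cl
    omega

lemma cl_le_iff {p i : ℕ} : cl p ≤ i ↔ yy p ≤ i + 1 := by
  rw [← not_lt, lt_cl_iff, not_lt]

lemma cl_mono {p q : ℕ} (h : p ≤ q) : cl p ≤ cl q := by
  rw [cl_le_iff]
  exact (yy_mono h).trans (yy_le_cl q)

/-- `yy p ≤ U ↔ p ≤ exp (exp U)` for `U ≥ 0`. -/
lemma yy_le_iff {p : ℕ} {U : ℝ} (hU : 0 ≤ U) : yy p ≤ U ↔ (p : ℝ) ≤ Real.exp (Real.exp U) := by
  have he : 2 < Real.exp (Real.exp U) := by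
    have h1 : (1 : ℝ) ≤ Real.exp U := Real.one_le_exp hU
    have h2 := Real.exp_one_gt_d9
    have h3 : Real.exp 1 ≤ Real.exp (Real.exp U) := Real.exp_le_exp.mpr h1
    linarith
  rcases Nat.lt_or_ge p 3 with hp | hp
  · have h1 : yy p = 0 := by
      interval_cases p
      · simp [yy]
      · exact yy_one
      · exact yy_two
    have h2 : (p : ℝ) ≤ 2 := by exact_mod_cast Nat.lt_succ_iff.mp hp
    rw [h1]
    exact ⟨fun _ => by linarith, fun _ => hU⟩
  · have hp3 : (3 : ℝ) ≤ p := by exact_mod_cast hp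
    have hl : 1 < Real.log p := by
      rw [Real.lt_log_iff_exp_lt (by linarith)]
      have := Real.exp_one_lt_d9
      linarith
    unfold yy
    rw [max_le_iff]
    constructor
    · rintro ⟨-, h⟩
      rw [Real.log_le_iff_le_exp (by linarith)] at h
      rwa [Real.log_le_iff_le_exp (by linarith)] at h
    · intro h
      refine ⟨hU, ?_⟩
      rw [Real.log_le_iff_le_exp (by linarith), Real.log_le_iff_le_exp (by linarith)]
      exact h

lemma lt_yy_iff {p : ℕ} {U : ℝ} (hU : 0 ≤ U) : U < yy p ↔ Real.exp (Real.exp U) < (p : ℝ) := by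
  rw [← not_le, yy_le_iff hU, not_le]

/-- the primes `p` with `yy p ≤ U` (for `U ≥ 0`) -/
def PU (U : ℝ) : Finset ℕ := Nat.primesLE ⌊Real.exp (Real.exp U)⌋₊

lemma mem_PU {p : ℕ} {U : ℝ} (hU : 0 ≤ U) : p ∈ PU U ↔ p.Prime ∧ yy p ≤ U := by
  unfold PU
  rw [Nat.mem_primesLE, Nat.le_floor_iff (Real.exp_pos _).le, yy_le_iff hU]
  tauto

lemma prime_of_mem_PU {p : ℕ} {U : ℝ} (h : p ∈ PU U) : p.Prime := by
  unfold PU at h
  rw [Nat.mem_primesLE] at h
  exact h.2

lemma PU_mono {U V : ℝ} (h : U ≤ V) : PU U ⊆ PU V := by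
  intro p hp
  unfold PU at *
  rw [Nat.mem_primesLE] at *
  exact ⟨hp.1.trans (Nat.floor_le_floor (Real.exp_le_exp.mpr (Real.exp_le_exp.mpr h))), hp.2⟩

lemma sum_inv_PU {U : ℝ} (hU : 0 ≤ U) : ∑ p ∈ PU U, (1 : ℝ) / p ≤ U + 12 := by
  have he : 2 ≤ Real.exp (Real.exp U) := by
    have h1 : (1 : ℝ) ≤ Real.exp U := Real.one_le_exp hU
    have h2 := Real.exp_one_gt_d9
    have h3 : Real.exp 1 ≤ Real.exp (Real.exp U) := Real.exp_le_exp.mpr h1
    linarith
  have hN : 2 ≤ ⌊Real.exp (Real.exp U)⌋₊ := Nat.le_floor (by exact_mod_cast he)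
  refine (HallTen.sum_inv_primesLE_le hN).trans ?_
  have hN2 : (2 : ℝ) ≤ (⌊Real.exp (Real.exp U)⌋₊ : ℝ) := by exact_mod_cast hN
  have h4 : (⌊Real.exp (Real.exp U)⌋₊ : ℝ) ≤ Real.exp (Real.exp U) :=
    Nat.floor_le (Real.exp_pos _).le
  have h5 : 0 < Real.log (⌊Real.exp (Real.exp U)⌋₊ : ℝ) := Real.log_pos (by linarith)
  have h6 : Real.log (⌊Real.exp (Real.exp U)⌋₊ : ℝ) ≤ Real.exp U := by
    rw [Real.log_le_iff_le_exp (by linarith)]; exact h4
  have h7 : Real.log (Real.log (⌊Real.exp (Real.exp U)⌋₊ : ℝ)) ≤ U := by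
    rw [Real.log_le_iff_le_exp h5]; exact h6
  linarith

lemma sum_inv_sq_PU (U : ℝ) : ∑ p ∈ PU U, (1 : ℝ) / (p : ℝ) ^ 2 ≤ 1 := by
  have := HallTen.sum_inv_sq_le (s := PU U) (U := 1) le_rfl
    (fun p hp => (prime_of_mem_PU hp).one_lt)
  simpa using this

/-- the primes of the cell `i` -/
def CL (i : ℕ) : Finset ℕ := (PU (i + 1)).filter (fun p => cl p = i)

lemma mem_CL {p i : ℕ} : p ∈ CL i ↔ p.Prime ∧ cl p = i := by
  unfold CL
  rw [Finset.mem_filter, mem_PU (by positivity)]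
  constructor
  · rintro ⟨⟨h1, -⟩, h2⟩
    exact ⟨h1, h2⟩
  · rintro ⟨h1, h2⟩
    refine ⟨⟨h1, ?_⟩, h2⟩
    rw [← cl_le_iff]
    exact h2.le

lemma sum_inv_CL (i : ℕ) : ∑ p ∈ CL i, (1 : ℝ) / p ≤ 1 + 18 * Real.exp (-(i : ℝ)) := by
  rcases Nat.eq_zero_or_pos i with rfl | hi
  · have h1 : ∑ p ∈ CL 0, (1 : ℝ) / p ≤ ∑ p ∈ PU 1, (1 : ℝ) / p := by
      apply Finset.sum_le_sum_of_subset_of_nonneg
      · intro p hp
        rw [mem_CL] at hp
        rw [mem_PU (by norm_num)]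
        refine ⟨hp.1, ?_⟩
        have := yy_le_cl p
        rw [hp.2] at this
        simpa using this
      · intro p _ _; positivity
    have h2 := sum_inv_PU (U := 1) (by norm_num)
    simp only [Nat.cast_zero, neg_zero, Real.exp_zero]
    linarith
  · have hi0 : (0 : ℝ) ≤ i := by positivity
    have hy : 2 ≤ Real.exp (Real.exp (i : ℝ)) := by
      have h1 : (1 : ℝ) ≤ Real.exp (i : ℝ) := Real.one_le_exp hi0
      have h2 := Real.exp_one_gt_d9
      have h3 : Real.exp 1 ≤ Real.exp (Real.exp (i : ℝ)) := Real.exp_le_exp.mpr h1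
      linarith
    have hyx : Real.exp (Real.exp (i : ℝ)) ≤ Real.exp (Real.exp ((i : ℝ) + 1)) := by
      apply Real.exp_le_exp.mpr (Real.exp_le_exp.mpr _)
      linarith
    have h := Mertens.mertens_two _ _ hy hyx
    have h1 := (abs_le.1 h).2
    rw [Real.log_exp, Real.log_exp, Real.log_exp, Real.log_exp] at h1
    have h2 : ∑ p ∈ CL i, (1 : ℝ) / p ≤
        ∑ p ∈ Mertens.pr (Real.exp (Real.exp (i : ℝ))) (Real.exp (Real.exp ((i : ℝ) + 1))),
          (1 : ℝ) / p := by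
      apply Finset.sum_le_sum_of_subset_of_nonneg
      · intro p hp
        rw [mem_CL] at hp
        rw [Mertens.pr_eq, Mertens.mem_primesIoc]
        have h3 : (i : ℝ) < yy p := by
          have := cl_lt_yy (p := p) (by omega)
          rwa [hp.2] at this
        have h4 : yy p ≤ (i : ℝ) + 1 := by
          have := yy_le_cl p
          rwa [hp.2] at this
        rw [lt_yy_iff hi0] at h3
        rw [yy_le_iff (by positivity)] at h4
        refine ⟨⟨?_, ?_⟩, hp.1⟩
        · exact (Nat.floor_lt (Real.exp_pos _).le).mpr h3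
        · exact (Nat.le_floor_iff (Real.exp_pos _).le).mpr h4
      · intro p _ _; positivity
    have h5 : 18 / Real.exp (i : ℝ) = 18 * Real.exp (-(i : ℝ)) := by
      rw [Real.exp_neg]; ring
    rw [h5] at h1
    linarith

lemma sum_exp_neg_le (n : ℕ) : ∑ i ∈ Finset.range n, Real.exp (-(i : ℝ)) ≤ 2 := by
  have h1 : ∀ n : ℕ, ∑ i ∈ Finset.range n, Real.exp (-(i : ℝ)) ≤ 2 - 2 * Real.exp (-(n : ℝ)) := by
    intro n
    induction n with
    | zero => simp
    | succ n ih =>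
      rw [Finset.sum_range_succ]
      have h2 : Real.exp (-((n + 1 : ℕ) : ℝ)) = Real.exp (-(n : ℝ)) * Real.exp (-1) := by
        rw [← Real.exp_add]; congr 1; push_cast; ring
      rw [h2]
      have h3 : Real.exp (-1) ≤ 1 / 2 := by
        rw [Real.exp_neg]
        have := Real.exp_one_gt_d9
        rw [inv_le_comm₀ (Real.exp_pos _) (by norm_num)]
        norm_num
        linarith
      have h4 := Real.exp_pos (-(n : ℝ))
      nlinarith
  have := h1 n
  have := Real.exp_pos (-(n : ℝ))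
  linarith

/-- Sums of `f (cl p) / p` over the primes with `yy p ≤ n`. -/
lemma sum_cl_div_le {f : ℕ → ℝ} {B : ℝ} (hf0 : ∀ i, 0 ≤ f i) (hfB : ∀ i, f i ≤ B) (n : ℕ) :
    ∑ p ∈ PU n, f (cl p) / p ≤ ∑ i ∈ Finset.range n, f i + 37 * B := by
  have hB : 0 ≤ B := (hf0 0).trans (hfB 0)
  rcases Nat.eq_zero_or_pos n with rfl | hn
  · have h1 : ∑ p ∈ PU ((0 : ℕ) : ℝ), f (cl p) / p ≤ ∑ p ∈ PU ((0 : ℕ) : ℝ), B * (1 / p) := by
      apply Finset.sum_le_sum
      intro p _
      rw [mul_one_div]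
      exact div_le_div_of_nonneg_right (hfB _) (Nat.cast_nonneg p)
    rw [← Finset.mul_sum] at h1
    have h2 := sum_inv_PU (U := ((0 : ℕ) : ℝ)) (by simp)
    have h3 := mul_le_mul_of_nonneg_left h2 hB
    simp only [Nat.cast_zero, zero_add] at h1 h3
    simp only [Nat.cast_zero, Finset.range_zero, Finset.sum_empty, zero_add]
    linarith
  · have h1 : ∑ p ∈ PU (n : ℝ), f (cl p) / p ≤
        ∑ i ∈ Finset.range n, ∑ p ∈ CL i, f (cl p) / p := by
      rw [Finset.sum_sigma']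
      apply le_of_eq
      symm
      apply Finset.sum_bij' (fun (x : (_ : ℕ) × ℕ) _ => x.2) (fun p _ => ⟨cl p, p⟩)
      · rintro ⟨i, p⟩ h
        simp only [Finset.mem_sigma, Finset.mem_range, mem_CL] at h
        rw [mem_PU (by positivity)]
        refine ⟨h.2.1, ?_⟩
        have h3 := yy_le_cl p
        have h4 : (cl p : ℝ) + 1 ≤ n := by
          rw [h.2.2]; exact_mod_cast h.1
        linarith
      · intro p hp
        rw [mem_PU (by positivity)] at hp
        simp only [Finset.mem_sigma, Finset.mem_range, mem_CL]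
        refine ⟨?_, hp.1, trivial⟩
        obtain ⟨m, rfl⟩ : ∃ m, n = m + 1 := ⟨n - 1, by omega⟩
        rw [Nat.lt_succ_iff, cl_le_iff]
        have := hp.2
        push_cast at this
        exact this
      · rintro ⟨i, p⟩ h
        simp only [Finset.mem_sigma, Finset.mem_range, mem_CL] at h
        simp [h.2.2]
      · intro p _; rfl
      · rintro ⟨i, p⟩ _; rfl
    refine h1.trans ?_
    have h2 : ∀ i ∈ Finset.range n, ∑ p ∈ CL i, f (cl p) / p ≤
        f i + B * (18 * Real.exp (-(i : ℝ))) := by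
      intro i _
      have h3 : ∑ p ∈ CL i, f (cl p) / p = f i * ∑ p ∈ CL i, (1 : ℝ) / p := by
        rw [Finset.mul_sum]
        apply Finset.sum_congr rfl
        intro p hp
        rw [mem_CL] at hp
        rw [hp.2, mul_one_div]
      rw [h3]
      have h4 := mul_le_mul_of_nonneg_left (sum_inv_CL i) (hf0 i)
      have h5 : f i * (18 * Real.exp (-(i : ℝ))) ≤ B * (18 * Real.exp (-(i : ℝ))) :=
        mul_le_mul_of_nonneg_right (hfB i) (by positivity)
      linarith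
    refine (Finset.sum_le_sum h2).trans ?_
    rw [Finset.sum_add_distrib, ← Finset.mul_sum, ← Finset.mul_sum]
    have h6 := sum_exp_neg_le n
    have h7 : B * (18 * ∑ i ∈ Finset.range n, Real.exp (-(i : ℝ))) ≤ B * (18 * 2) := by
      apply mul_le_mul_of_nonneg_left _ hB
      linarith
    linarith

/-! ### Rankin for integers -/

/-- Rankin: sums of completely multiplicative weights over integers whose primes have `yy ≤ U`. -/
lemma ws_sm_le {z : ℕ → ℝ} (hz0 : ∀ p, 0 ≤ z p) (hz : ∀ p, z p ≤ 3 / 2) (U : ℝ) :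
    ws (fun b => ENNReal.ofReal (HallTen.wt z b / b)) (Sm (PU U : Set ℕ)) ≤
      ENNReal.ofReal (Real.exp (∑ p ∈ PU U, z p / p + 9 / 2)) := by
  classical
  unfold ws
  rw [ENNReal.tsum_eq_iSup_sum]
  refine iSup_le fun T => ?_
  have h1 : ∑ b ∈ T, (Sm (PU U : Set ℕ)).indicator
      (fun b => ENNReal.ofReal (HallTen.wt z b / b)) b =
      ∑ b ∈ T.filter (fun b => b ∈ Sm (PU U : Set ℕ)), ENNReal.ofReal (HallTen.wt z b / b) := by
    rw [Finset.sum_filter]
    apply Finset.sum_congr rfl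
    intro b _
    rw [Set.indicator_apply]
  rw [h1, ← ENNReal.ofReal_sum_of_nonneg]
  · apply ENNReal.ofReal_le_ofReal
    have h2 := HallTen.sum_wt_div_le_exp hz0 (z := z) (by
      intro p hp
      have : (2 : ℝ) ≤ p := by exact_mod_cast hp.two_le
      have := hz p
      linarith) (PU U) (T.filter (fun b => b ∈ Sm (PU U : Set ℕ))) (by
      intro n hn
      rw [Finset.mem_filter] at hn
      refine ⟨hn.2.1, fun p hp hpn => ?_⟩
      exact_mod_cast hn.2.2 p (Nat.mem_primeFactors.mpr ⟨hp, hpn, hn.2.1⟩))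
    refine h2.trans (Real.exp_le_exp.mpr ?_)
    rw [Finset.filter_true_of_mem (fun p hp => prime_of_mem_PU hp), Finset.sum_add_distrib]
    have h3 : ∑ p ∈ PU U, 2 * (z p / p) ^ 2 ≤ ∑ p ∈ PU U, 9 / 2 * (1 / (p : ℝ) ^ 2) := by
      apply Finset.sum_le_sum
      intro p _
      rw [div_pow]
      have h4 : z p ^ 2 ≤ 9 / 4 := by nlinarith [hz0 p, hz p]
      have h5 : (0 : ℝ) ≤ 1 / (p : ℝ) ^ 2 := by positivity
      calc 2 * (z p ^ 2 / (p : ℝ) ^ 2) = 2 * z p ^ 2 * (1 / (p : ℝ) ^ 2) := by ring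
        _ ≤ 9 / 2 * (1 / (p : ℝ) ^ 2) := by
          apply mul_le_mul_of_nonneg_right _ h5
          linarith
    rw [← Finset.mul_sum (PU U) (fun p : ℕ => 1 / (p : ℝ) ^ 2) (9 / 2)] at h3
    have h6 := sum_inv_sq_PU U
    linarith
  · intro b _
    exact div_nonneg (HallTen.wt_nonneg hz0 b) (Nat.cast_nonneg b)

lemma wt_const_eq (z : ℝ) {b : ℕ} (hb : b ≠ 0) :
    HallTen.wt (fun _ => z) b = z ^ b.primeFactorsList.length := by
  rw [HallTen.wt_of_ne_zero _ hb]
  have h1 : b.factorization.prod (fun _ k => z ^ k) = z ^ (b.factorization.sum fun _ k => k) := by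
    unfold Finsupp.prod Finsupp.sum
    rw [Finset.prod_pow_eq_pow_sum]
  rw [h1]
  congr 1
  have h2 := ArithmeticFunction.cardFactors_eq_sum_factorization (n := b)
  rw [← h2, ArithmeticFunction.cardFactors_apply]

/-- Rankin bound for integers with many prime factors, all of them with `yy ≤ U`. -/
theorem wt_omega_le {U : ℝ} (hU : 0 ≤ U) (k : ℕ) :
    wt {b : ℕ | b ∈ Sm (PU U : Set ℕ) ∧ k ≤ b.primeFactorsList.length} ≤
      ENNReal.ofReal ((3 / 2 : ℝ)⁻¹ ^ k * Real.exp (3 / 2 * U + 23)) := by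
  have h1 := ws_sm_le (z := fun _ => 3 / 2) (fun _ => by norm_num) (fun _ => le_rfl) U
  have h2 : wt {b : ℕ | b ∈ Sm (PU U : Set ℕ) ∧ k ≤ b.primeFactorsList.length} ≤
      ENNReal.ofReal ((3 / 2 : ℝ)⁻¹ ^ k) *
        ws (fun b => ENNReal.ofReal (HallTen.wt (fun _ => 3 / 2) b / b)) (Sm (PU U : Set ℕ)) := by
    unfold wt ws
    rw [← ENNReal.tsum_mul_left]
    apply ENNReal.tsum_le_tsum
    intro b
    by_cases hb : b ∈ {b : ℕ | b ∈ Sm (PU U : Set ℕ) ∧ k ≤ b.primeFactorsList.length}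
    · rw [Set.indicator_of_mem hb, Set.indicator_of_mem hb.1, ← ENNReal.ofReal_mul (by positivity),
        wt_const_eq _ hb.1.1]
      have hb0 : (0 : ℝ) < b := by exact_mod_cast Nat.pos_of_ne_zero hb.1.1
      have h3 : ((b : ℝ≥0∞))⁻¹ = ENNReal.ofReal ((b : ℝ)⁻¹) := by
        rw [ENNReal.ofReal_inv_of_pos hb0, ENNReal.ofReal_natCast]
      rw [h3]
      apply ENNReal.ofReal_le_ofReal
      have h4 : (1 : ℝ) ≤ (3 / 2 : ℝ)⁻¹ ^ k * (3 / 2) ^ b.primeFactorsList.length := by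
        obtain ⟨m, hm⟩ : ∃ m, b.primeFactorsList.length = k + m := ⟨_, (Nat.add_sub_cancel' hb.2).symm⟩
        rw [hm, pow_add, ← mul_assoc, ← mul_pow]
        norm_num
        exact one_le_pow₀ (by norm_num)
      calc ((b : ℝ))⁻¹ = 1 * (b : ℝ)⁻¹ := (one_mul _).symm
        _ ≤ ((3 / 2 : ℝ)⁻¹ ^ k * (3 / 2) ^ b.primeFactorsList.length) * (b : ℝ)⁻¹ :=
          mul_le_mul_of_nonneg_right h4 (by positivity)
        _ = _ := by ring
    · rw [Set.indicator_of_notMem hb]; exact zero_le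
  refine h2.trans ?_
  refine (mul_le_mul' le_rfl h1).trans ?_
  rw [← ENNReal.ofReal_mul (by positivity)]
  apply ENNReal.ofReal_le_ofReal
  apply mul_le_mul_of_nonneg_left _ (by positivity)
  apply Real.exp_le_exp.mpr
  have h5 := sum_inv_PU hU
  have h6 : ∑ p ∈ PU U, (3 / 2 : ℝ) / p = 3 / 2 * ∑ p ∈ PU U, (1 : ℝ) / p := by
    rw [Finset.mul_sum]
    apply Finset.sum_congr rfl
    intro p _; ring
  rw [h6]
  linarith

/-- the total weight of the integers all of whose primes have `yy ≤ U` -/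
theorem wt_Sm_le {U : ℝ} (hU : 0 ≤ U) :
    wt (Sm (PU U : Set ℕ)) ≤ ENNReal.ofReal (Real.exp (U + 17)) := by
  have h1 := ws_sm_le (z := fun _ => 1) (fun _ => by norm_num) (fun _ => by norm_num) U
  have h2 : wt (Sm (PU U : Set ℕ)) ≤
        ws (fun b => ENNReal.ofReal (HallTen.wt (fun _ => 1) b / b)) (Sm (PU U : Set ℕ)) := by
    apply ws_mono_fun
    intro b hb
    have hb0 : (0 : ℝ) < b := by exact_mod_cast Nat.pos_of_ne_zero hb.1
    rw [wt_const_eq _ hb.1, one_pow, one_div, ENNReal.ofReal_inv_of_pos hb0, ENNReal.ofReal_natCast]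
  refine h2.trans (h1.trans ?_)
  apply ENNReal.ofReal_le_ofReal
  apply Real.exp_le_exp.mpr
  have h5 := sum_inv_PU hU
  linarith

end Crest.Agent.R020.LS
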