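import Mathlib

/-!
Row 20, module G1: an abstract renewal theorem with exponential rate (aperiodic because `p 0 > 0`,
geometric tails).
-/

set_option autoImplicit false

noncomputable section

open Finset Filter Topology

namespace Crest.Agent.R020

namespace Renewal

/-- Data of a discrete renewal equation: `p n` is the mass at distance `n+1`, `r n` the tail
`∑_{d ≥ n} p d`, `u` the renewal sequence. -/
structure Data where
  p : ℕ → ℝ
  r : ℕ → ℝ
  u : ℕ → ℝ
  κ : ℝ
  C : ℝ
  hp : ∀ n, 0 ≤ p n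
  hp0 : 0 < p 0
  hr0 : r 0 = 1
  hr : ∀ n, r (n + 1) = r n - p n
  hrn : ∀ n, 0 ≤ r n
  hκ0 : 0 < κ
  hκ1 : κ < 1
  hrC : ∀ n, r n ≤ C * κ ^ n
  hu0 : u 0 = 1
  hu : ∀ n, u (n + 1) = ∑ d ∈ range (n + 1), p d * u (n - d)

variable (D : Data)

theorem Data.u_nonneg (n : ℕ) : 0 ≤ D.u n := by
  induction n using Nat.strong_induction_on with
  | _ n ih =>
    cases n with
    | zero => rw [D.hu0]; norm_num
    | succ n =>
      rw [D.hu]
      exact Finset.sum_nonneg fun d hd => mul_nonneg (D.hp d) (ih _ (by omega))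

/-- the renewal identity `∑_{k ≤ n} u_k r_{n-k} = 1`. -/
theorem Data.conv (n : ℕ) : ∑ k ∈ range (n + 1), D.u k * D.r (n - k) = 1 := by
  induction n with
  | zero => simp [D.hu0, D.hr0]
  | succ n ih =>
    rw [Finset.sum_range_succ]
    have h1 : ∑ k ∈ range (n + 1), D.u k * D.r (n + 1 - k)
        = ∑ k ∈ range (n + 1), D.u k * D.r (n - k) - ∑ k ∈ range (n + 1), D.u k * D.p (n - k) := by
      rw [← Finset.sum_sub_distrib]
      refine Finset.sum_congr rfl fun k hk => ?_
      have hk' : k ≤ n := by simpa [Nat.lt_succ_iff] using hk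
      rw [show n + 1 - k = (n - k) + 1 by omega, D.hr]
      ring
    rw [h1, ih, Nat.sub_self, D.hr0, D.hu n, mul_one]
    have h2 : ∑ d ∈ range (n + 1), D.p d * D.u (n - d) = ∑ k ∈ range (n + 1), D.u k * D.p (n - k) := by
      rw [← Finset.sum_range_reflect]
      refine Finset.sum_congr rfl fun k hk => ?_
      have hk' : k ≤ n := by simpa [Nat.lt_succ_iff] using hk
      rw [show n + 1 - 1 - k = n - k by omega, show n - (n - k) = k by omega]
      ring
    rw [h2]
    ring

theorem Data.u_le_one (n : ℕ) : D.u n ≤ 1 := by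
  have h := D.conv n
  rw [Finset.sum_range_succ, Nat.sub_self, D.hr0, mul_one] at h
  have : 0 ≤ ∑ k ∈ range n, D.u k * D.r (n - k) :=
    Finset.sum_nonneg fun k _ => mul_nonneg (D.u_nonneg k) (D.hrn _)
  linarith

theorem Data.C_ge_one : 1 ≤ D.C := by
  have := D.hrC 0
  rw [D.hr0] at this
  simpa using this

theorem Data.p_le (n : ℕ) : D.p n ≤ D.r n := by
  have := D.hrn (n + 1)
  rw [D.hr] at this
  linarith

/-- `R z = ∑ r_n z^n`. -/
def Data.R (z : ℂ) : ℂ := ∑' n, (D.r n : ℂ) * z ^ n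

/-- `P z = ∑ p_n z^(n+1)`. -/
def Data.P (z : ℂ) : ℂ := ∑' n, (D.p n : ℂ) * z ^ (n + 1)

theorem Data.norm_term_le {ρ1 : ℝ} {z : ℂ} (hz : ‖z‖ ≤ ρ1) (n : ℕ) :
    ‖(D.r n : ℂ) * z ^ n‖ ≤ D.C * (D.κ * ρ1) ^ n := by
  rw [norm_mul, norm_pow, mul_pow, ← mul_assoc]
  have h1 : ‖(D.r n : ℂ)‖ ≤ D.C * D.κ ^ n := by
    rw [Complex.norm_real, Real.norm_of_nonneg (D.hrn n)]
    exact D.hrC n
  exact mul_le_mul h1 (pow_le_pow_left₀ (norm_nonneg _) hz n) (by positivity)
    (mul_nonneg (by linarith [D.C_ge_one]) (pow_nonneg D.hκ0.le n))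

theorem Data.summable_geo {ρ1 : ℝ} (h0 : 0 ≤ ρ1) (h1 : D.κ * ρ1 < 1) :
    Summable fun n : ℕ => D.C * (D.κ * ρ1) ^ n :=
  (summable_geometric_of_lt_one (mul_nonneg D.hκ0.le h0) h1).mul_left _

theorem Data.summable_R {z : ℂ} (hz : D.κ * ‖z‖ < 1) : Summable fun n => ‖(D.r n : ℂ) * z ^ n‖ :=
  Summable.of_nonneg_of_le (fun _ => norm_nonneg _) (fun n => D.norm_term_le le_rfl n)
    (D.summable_geo (norm_nonneg _) hz)

theorem Data.summable_P {z : ℂ} (hz : D.κ * ‖z‖ < 1) :
    Summable fun n => ‖(D.p n : ℂ) * z ^ (n + 1)‖ := by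
  refine Summable.of_nonneg_of_le (fun _ => norm_nonneg _) (fun n => ?_)
    ((D.summable_R hz).mul_left ‖z‖)
  rw [norm_mul, norm_mul, norm_pow, norm_pow, Complex.norm_real, Complex.norm_real,
    Real.norm_of_nonneg (D.hp n), Real.norm_of_nonneg (D.hrn n), pow_succ]
  have := D.p_le n
  have h2 : 0 ≤ ‖z‖ ^ n * ‖z‖ := by positivity
  nlinarith

theorem Data.R_differentiableOn {ρ1 : ℝ} (h0 : 0 ≤ ρ1) (h1 : D.κ * ρ1 < 1) :
    DifferentiableOn ℂ D.R (Metric.ball 0 ρ1) := by
  refine Complex.differentiableOn_tsum_of_summable_norm (D.summable_geo h0 h1) (fun n => ?_)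
    Metric.isOpen_ball (fun n w hw => ?_)
  · exact ((differentiable_id.pow n).const_mul _).differentiableOn
  · exact D.norm_term_le (by simpa using (mem_ball_zero_iff.1 hw).le) n

theorem Data.one_sub_mul_R {z : ℂ} (hz : D.κ * ‖z‖ < 1) : (1 - z) * D.R z = 1 - D.P z := by
  have hR := (D.summable_R hz).of_norm
  have hP := (D.summable_P hz).of_norm
  have h1 : D.R z = 1 + ∑' n, (D.r (n + 1) : ℂ) * z ^ (n + 1) := by
    rw [Data.R, hR.tsum_eq_zero_add]
    simp [D.hr0]
  have h2 : z * D.R z = ∑' n, (D.r n : ℂ) * z ^ (n + 1) := by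
    rw [Data.R, ← tsum_mul_left]
    refine tsum_congr fun n => ?_
    rw [pow_succ]; ring
  have hR1 : Summable fun n => (D.r (n + 1) : ℂ) * z ^ (n + 1) :=
    (summable_nat_add_iff (f := fun n => (D.r n : ℂ) * z ^ n) 1).2 hR
  have hR2 : Summable fun n => (D.r n : ℂ) * z ^ (n + 1) := by
    refine (hR.mul_left z).congr fun n => ?_
    rw [pow_succ]; ring
  rw [sub_mul, one_mul, h2, h1, add_sub_assoc, ← hR1.tsum_sub hR2, Data.P, sub_eq_add_neg (1:ℂ),
    ← tsum_neg]
  congr 1
  refine tsum_congr fun n => ?_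
  rw [D.hr]
  push_cast
  ring

/-- `U z = ∑ u_n z^n`. -/
def Data.U (z : ℂ) : ℂ := ∑' n, (D.u n : ℂ) * z ^ n

theorem Data.summable_U {z : ℂ} (hz : ‖z‖ < 1) : Summable fun n => ‖(D.u n : ℂ) * z ^ n‖ := by
  refine Summable.of_nonneg_of_le (fun _ => norm_nonneg _) (fun n => ?_)
    (summable_geometric_of_lt_one (norm_nonneg _) hz)
  rw [norm_mul, norm_pow, Complex.norm_real, Real.norm_of_nonneg (D.u_nonneg n)]
  exact mul_le_of_le_one_left (by positivity) (D.u_le_one n)

theorem Data.U_mul_R {z : ℂ} (hz : ‖z‖ < 1) : D.U z * D.R z = (1 - z)⁻¹ := by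
  have hκz : D.κ * ‖z‖ < 1 := by nlinarith [D.hκ0, D.hκ1, norm_nonneg z]
  rw [Data.U, Data.R, tsum_mul_tsum_eq_tsum_sum_range_of_summable_norm (D.summable_U hz)
    (D.summable_R hκz), ← tsum_geometric_of_norm_lt_one hz]
  refine tsum_congr fun n => ?_
  have h := D.conv n
  have h' : (∑ k ∈ range (n + 1), (D.u k : ℂ) * (D.r (n - k) : ℂ)) = 1 := by
    exact_mod_cast congrArg (fun x : ℝ => (x : ℂ)) h
  rw [← one_mul (z ^ n), ← h', Finset.sum_mul]
  refine Finset.sum_congr rfl fun k hk => ?_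
  have hk' : k ≤ n := by simpa [Nat.lt_succ_iff] using hk
  have : z ^ n = z ^ k * z ^ (n - k) := by rw [← pow_add]; congr 1; omega
  rw [this]
  ring

theorem Data.R_ne_zero {z : ℂ} (hz : ‖z‖ ≤ 1) : D.R z ≠ 0 := by
  have hκz : D.κ * ‖z‖ < 1 := by nlinarith [D.hκ0, D.hκ1, norm_nonneg z]
  rcases hz.lt_or_eq with h | h
  · intro h0
    have := D.U_mul_R h
    rw [h0, mul_zero] at this
    have h1 : (1 - z) ≠ 0 := by
      intro h2
      have : z = 1 := by linear_combination -h2
      rw [this] at h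
      simp at h
    exact (inv_ne_zero h1) this.symm
  · by_cases hz1 : z = 1
    · subst hz1
      have hs : Summable D.r := by
        have := D.summable_R (z := 1) hκz
        simpa [abs_of_nonneg (D.hrn _)] using this
      have : D.R 1 = ((∑' n, D.r n : ℝ) : ℂ) := by
        rw [Data.R, Complex.ofReal_tsum]
        simp
      rw [this]
      have hpos : 0 < ∑' n, D.r n := by
        refine hs.tsum_pos (fun n => D.hrn n) 0 ?_
        rw [D.hr0]; norm_num
      exact_mod_cast hpos.ne'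
    · intro h0
      have h1 := D.one_sub_mul_R hκz
      rw [h0, mul_zero] at h1
      have hP1 : D.P z = 1 := by linear_combination h1
      -- total mass one
      have hone := D.one_sub_mul_R (z := 1) (by simpa using D.hκ1)
      rw [sub_self, zero_mul] at hone
      have hP2 : D.P 1 = 1 := by linear_combination hone
      have hsP := D.summable_P hκz
      have hsP1 := D.summable_P (z := 1) (by simpa using D.hκ1)
      have hre : ∑' n, D.p n * (1 - (z ^ (n + 1)).re) = 0 := by
        have e1 : HasSum (fun n => (D.p n : ℂ) * (1:ℂ) ^ (n + 1)) 1 := by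
          have := hsP1.of_norm.hasSum
          rwa [show (∑' (b : ℕ), (D.p b : ℂ) * (1:ℂ) ^ (b + 1)) = 1 from hP2] at this
        have e2 : HasSum (fun n => (D.p n : ℂ) * z ^ (n + 1)) 1 := by
          have := hsP.of_norm.hasSum
          rwa [show (∑' (b : ℕ), (D.p b : ℂ) * z ^ (b + 1)) = 1 from hP1] at this
        have e3 := Complex.hasSum_re (e1.sub e2)
        rw [sub_self, Complex.zero_re] at e3
        rw [← e3.tsum_eq]
        refine tsum_congr fun n => ?_
        simp [mul_sub]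
      have hterm : ∀ n, 0 ≤ D.p n * (1 - (z ^ (n + 1)).re) := fun n => by
        refine mul_nonneg (D.hp n) ?_
        have := Complex.re_le_norm (z ^ (n + 1))
        rw [norm_pow, h, one_pow] at this
        linarith
      have hsum : Summable fun n => D.p n * (1 - (z ^ (n + 1)).re) := by
        have e1 := (hsP1.of_norm.sub hsP.of_norm)
        have e2 := (Complex.hasSum_re e1.hasSum).summable
        refine e2.congr fun n => ?_
        simp [mul_sub]
      have h3 := (hasSum_zero_iff_of_nonneg hterm).1 (hre ▸ hsum.hasSum)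
      have h4 := congrFun h3 0
      simp only [Pi.zero_apply, zero_add, pow_one] at h4
      have h5 : z.re = 1 := by
        rcases mul_eq_zero.1 h4 with h6 | h6
        · exact absurd h6 D.hp0.ne'
        · linarith
      apply hz1
      have h6 : z.re ^ 2 + z.im ^ 2 = 1 := by
        have := Complex.sq_norm z
        rw [h, Complex.normSq_apply] at this
        nlinarith
      have h7 : z.im = 0 := by
        have : z.im ^ 2 = 0 := by rw [h5] at h6; linarith
        exact pow_eq_zero_iff (two_ne_zero) |>.1 this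
      apply Complex.ext <;> simp [h5, h7]

/-- the differences `v_n = u_n - u_{n-1}`. -/
def Data.v (n : ℕ) : ℝ := match n with
  | 0 => D.u 0
  | n + 1 => D.u (n + 1) - D.u n

theorem Data.sum_v (n : ℕ) : ∑ k ∈ range (n + 1), D.v k = D.u n := by
  induction n with
  | zero => simp [Data.v]
  | succ n ih => rw [Finset.sum_range_succ, ih]; simp [Data.v]

theorem Data.abs_v_le (n : ℕ) : |D.v n| ≤ 1 := by
  cases n with
  | zero => simp [Data.v, D.hu0]
  | succ n =>
    have h1 := D.u_nonneg n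
    have h2 := D.u_nonneg (n + 1)
    have h3 := D.u_le_one n
    have h4 := D.u_le_one (n + 1)
    simp only [Data.v]
    rw [abs_le]
    constructor <;> linarith

theorem Data.hasSum_v {z : ℂ} (hz : ‖z‖ < 1) :
    HasSum (fun n => (D.v n : ℂ) * z ^ n) ((D.R z)⁻¹) := by
  have hU := (D.summable_U hz).of_norm
  have hsv : Summable fun n => (D.v n : ℂ) * z ^ n := by
    refine Summable.of_norm (Summable.of_nonneg_of_le (fun _ => norm_nonneg _) (fun n => ?_)
      (summable_geometric_of_lt_one (norm_nonneg _) hz))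
    rw [norm_mul, norm_pow, Complex.norm_real]
    exact mul_le_of_le_one_left (by positivity) (by simpa using D.abs_v_le n)
  have h1 : ∑' n, (D.v n : ℂ) * z ^ n = (1 - z) * D.U z := by
    have hU1 : Summable fun n => (D.u (n + 1) : ℂ) * z ^ (n + 1) :=
      (summable_nat_add_iff (f := fun n => (D.u n : ℂ) * z ^ n) 1).2 hU
    have hU2 : Summable fun n => (D.u n : ℂ) * z ^ (n + 1) := by
      refine (hU.mul_left z).congr fun n => ?_
      rw [pow_succ]; ring
    rw [hsv.tsum_eq_zero_add, sub_mul, one_mul, Data.U]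
    conv_rhs => rw [hU.tsum_eq_zero_add]
    have h2 : z * (((D.u 0 : ℝ) : ℂ) * z ^ 0 + ∑' n, (D.u (n + 1) : ℂ) * z ^ (n + 1))
        = ∑' n, (D.u n : ℂ) * z ^ (n + 1) := by
      rw [← hU.tsum_eq_zero_add, ← tsum_mul_left]
      refine tsum_congr fun n => ?_
      rw [pow_succ]; ring
    rw [h2, add_sub_assoc, ← hU1.tsum_sub hU2]
    simp only [Data.v]
    congr 1
    refine tsum_congr fun n => ?_
    push_cast
    ring
  have h2 : (1 - z) * D.U z = (D.R z)⁻¹ := by
    have h3 := D.U_mul_R hz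
    have h4 : D.R z ≠ 0 := D.R_ne_zero hz.le
    have h5 : (1 - z) ≠ 0 := by
      intro h2
      have : z = 1 := by linear_combination -h2
      rw [this] at hz
      simp at hz
    field_simp
    field_simp at h3
    linear_combination h3
  rw [← h2, ← h1]
  exact hsv.hasSum

theorem Data.R_one : D.R 1 = ((∑' n, D.r n : ℝ) : ℂ) := by
  rw [Data.R, Complex.ofReal_tsum]
  simp

theorem Data.summable_r : Summable D.r := by
  have := D.summable_R (z := 1) (by simpa using D.hκ1)
  simpa [abs_of_nonneg (D.hrn _)] using this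

theorem Data.tsum_r_pos : 0 < ∑' n, D.r n := by
  refine D.summable_r.tsum_pos (fun n => D.hrn n) 0 ?_
  rw [D.hr0]; norm_num

/-- The renewal theorem with exponential rate. -/
theorem Data.rate : ∃ C' η : ℝ, 0 < C' ∧ 0 < η ∧ η < 1 ∧
    ∀ n, |D.u n - (∑' k, D.r k)⁻¹| ≤ C' * η ^ n := by
  set ρ1 : ℝ := (1 + 1 / D.κ) / 2 with hρ1
  have hκ0 := D.hκ0
  have hκ1 := D.hκ1
  have hκρ1 : D.κ * ρ1 < 1 := by
    rw [hρ1]; field_simp; linarith
  have h1ρ1 : 1 < ρ1 := by
    rw [hρ1]
    have : 1 < 1 / D.κ := by rw [lt_div_iff₀ hκ0]; linarith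
    linarith
  have hdiff := D.R_differentiableOn (by linarith) hκρ1
  -- the open set where `R ≠ 0`
  have hopen : IsOpen (Metric.ball (0:ℂ) ρ1 ∩ D.R ⁻¹' {0}ᶜ) :=
    hdiff.continuousOn.isOpen_inter_preimage Metric.isOpen_ball isOpen_compl_singleton
  have hsub : Metric.closedBall (0:ℂ) 1 ⊆ Metric.ball (0:ℂ) ρ1 ∩ D.R ⁻¹' {0}ᶜ := by
    intro z hz
    have hz' : ‖z‖ ≤ 1 := by simpa using hz
    exact ⟨by simpa using lt_of_le_of_lt hz' h1ρ1, D.R_ne_zero hz'⟩
  obtain ⟨δ, hδ, hcth⟩ := (isCompact_closedBall (0:ℂ) 1).exists_cthickening_subset_open hopen hsub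
  rw [cthickening_closedBall hδ.le zero_le_one] at hcth
  set ρ2 : NNReal := ⟨δ + 1, by positivity⟩ with hρ2
  have hρ2c : (ρ2 : ℝ) = δ + 1 := rfl
  have hρ2pos : 0 < ρ2 := by
    rw [← NNReal.coe_pos, hρ2c]; positivity
  set V : ℂ → ℂ := fun z => (D.R z)⁻¹ with hV
  have hVd : DifferentiableOn ℂ V (Metric.closedBall 0 (δ + 1)) :=
    (hdiff.mono fun z hz => (hcth hz).1).inv fun z hz => (hcth hz).2
  have hVcl : DiffContOnCl ℂ V (Metric.ball 0 ρ2) := by
    refine DifferentiableOn.diffContOnCl ?_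
    rw [closure_ball _ (by rw [hρ2c]; positivity), hρ2c]
    exact hVd
  have hfps := hVcl.hasFPowerSeriesOnBall hρ2pos
  -- the other power series
  set q : FormalMultilinearSeries ℂ ℂ ℂ := FormalMultilinearSeries.ofScalars ℂ (fun n => (D.v n : ℂ))
    with hq
  have hcoef : ∀ n, q.coeff n = (D.v n : ℂ) := fun n => by
    rw [hq, FormalMultilinearSeries.coeff_ofScalars]
  have hfps2 : HasFPowerSeriesAt V q 0 := by
    rw [hasFPowerSeriesAt_iff]
    have : Metric.ball (0:ℂ) 1 ∈ 𝓝 (0:ℂ) := Metric.ball_mem_nhds _ one_pos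
    filter_upwards [this] with z hz
    have h := D.hasSum_v (z := z) (by simpa using hz)
    simp only [hcoef, zero_add, smul_eq_mul]
    simpa [mul_comm] using h
  have heq : q = cauchyPowerSeries V 0 ρ2 :=
    hfps2.eq_formalMultilinearSeries hfps.hasFPowerSeriesAt
  -- bounds
  set M : ℝ := (2 * Real.pi)⁻¹ * ∫ θ in (0:ℝ)..2 * Real.pi, ‖V (circleMap 0 ρ2 θ)‖ with hM
  have hM0 : 0 ≤ M := by
    refine mul_nonneg (by positivity) (intervalIntegral.integral_nonneg (by positivity)
      fun _ _ => norm_nonneg _)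
  set η : ℝ := (δ + 1)⁻¹ with hη
  have hη0 : 0 < η := by positivity
  have hη1 : η < 1 := inv_lt_one_of_one_lt₀ (by linarith)
  have hvb : ∀ n, |D.v n| ≤ M * η ^ n := fun n => by
    have h1 := norm_cauchyPowerSeries_le V 0 ρ2 n
    rw [← heq, FormalMultilinearSeries.norm_apply_eq_norm_coef, hcoef, Complex.norm_real,
      Real.norm_eq_abs] at h1
    have h2 : |(ρ2:ℝ)|⁻¹ = η := by rw [hρ2c, abs_of_pos (by positivity)]
    rw [h2] at h1
    exact h1
  -- the sum at `z = 1`
  have hone : HasSum (fun n => (D.v n : ℂ)) ((D.R 1)⁻¹) := by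
    have hmem : (1:ℂ) ∈ Metric.eball (0:ℂ) (ρ2 : ENNReal) := by
      rw [Metric.mem_eball, edist_eq_enorm_sub, sub_zero]
      have : ‖(1:ℂ)‖₊ < ρ2 := by
        rw [← NNReal.coe_lt_coe, hρ2c]
        simp [hδ]
      exact ENNReal.coe_lt_coe.2 this
    have h := hfps.hasSum hmem
    rw [← heq] at h
    have e : ∀ n, (q n fun _ => (1:ℂ)) = (D.v n : ℂ) := fun n => by
      have := FormalMultilinearSeries.apply_eq_pow_smul_coeff (p := q) (n := n) (z := (1:ℂ))
      rw [this, hcoef]
      simp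
    simp only [e, zero_add] at h
    exact h
  have honeR : HasSum D.v ((∑' k, D.r k)⁻¹) := by
    rw [D.R_one, ← Complex.ofReal_inv] at hone
    exact_mod_cast hone
  refine ⟨M * η / (1 - η) + 1, η, ?_, hη0, hη1, fun n => ?_⟩
  · have : 0 ≤ M * η / (1 - η) := div_nonneg (mul_nonneg hM0 hη0.le) (by linarith)
    linarith
  have htail : HasSum (fun k => D.v (k + (n + 1))) ((∑' k, D.r k)⁻¹ - D.u n) := by
    have := (hasSum_nat_add_iff' (f := D.v) (n + 1)).2 honeR
    rwa [D.sum_v] at this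
  have hgeo : HasSum (fun k : ℕ => M * η ^ (n + 1) * η ^ k) (M * η ^ (n + 1) * (1 - η)⁻¹) :=
    (hasSum_geometric_of_lt_one hη0.le hη1).mul_left _
  have hb : |(∑' k, D.r k)⁻¹ - D.u n| ≤ M * η ^ (n + 1) * (1 - η)⁻¹ := by
    rw [← htail.tsum_eq, ← hgeo.tsum_eq, ← Real.norm_eq_abs]
    refine tsum_of_norm_bounded hgeo.summable.hasSum fun k => ?_
    rw [Real.norm_eq_abs]
    refine (hvb _).trans (le_of_eq ?_)
    generalize M = M'
    rw [pow_add]
    ring
  rw [abs_sub_comm]
  refine hb.trans ?_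
  have h1 : M * η ^ (n + 1) * (1 - η)⁻¹ = M * η / (1 - η) * η ^ n := by
    rw [pow_succ, div_eq_mul_inv]; ring
  rw [h1]
  have : 0 ≤ η ^ n := by positivity
  nlinarith

end Renewal

end Crest.Agent.R020
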