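import Mathlib
import Crest.Prelude.Def_TotientScale
import Crest.Agent.R020.Renewal
import Crest.Agent.R020.RenewalAbs

/-!
Row 20, module G1: the renewal theorem for `g_j ρ^j`, and the profile functions
`h_j = ∑_{i ≥ 0} ρ^i a_{i+j}`.
-/

set_option autoImplicit false

noncomputable section

open Finset Filter Topology
open Crest.NumberTheoryR.TotientScale

namespace Crest.Agent.R020

section

variable {ρ : ℝ} (hρ0 : 0 < ρ) (hρ1 : ρ < 1)
  (hρ : HasSum (fun j : ℕ => aCoef (j + 1) * ρ ^ (j + 1)) 1)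

/-- `(j+1) r^j` is bounded by `C κ^j` for `r < κ`. -/
theorem exists_lin_geo_bound {r κ : ℝ} (hr : 0 ≤ r) (hrκ : r < κ) :
    ∃ C : ℝ, 0 < C ∧ ∀ j : ℕ, ((j:ℝ) + 1) * r ^ j ≤ C * κ ^ j := by
  have hκ : 0 < κ := lt_of_le_of_lt hr hrκ
  have hq0 : 0 ≤ r / κ := div_nonneg hr hκ.le
  have hq1 : r / κ < 1 := (div_lt_one hκ).2 hrκ
  have h1 : Tendsto (fun j : ℕ => ((j:ℝ)) * (r / κ) ^ j) atTop (𝓝 0) :=
    tendsto_self_mul_const_pow_of_lt_one hq0 hq1
  have h2 : Tendsto (fun j : ℕ => (r / κ) ^ j) atTop (𝓝 0) :=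
    tendsto_pow_atTop_nhds_zero_of_lt_one hq0 hq1
  have h3 : Tendsto (fun j : ℕ => ((j:ℝ) + 1) * (r / κ) ^ j) atTop (𝓝 0) := by
    have := h1.add h2
    simp only [add_zero] at this
    refine this.congr fun j => ?_
    ring
  obtain ⟨C, hC⟩ := h3.bddAbove_range
  refine ⟨max C 1, by positivity, fun j => ?_⟩
  have h4 : ((j:ℝ) + 1) * (r / κ) ^ j ≤ max C 1 := (hC ⟨j, rfl⟩).trans (le_max_left _ _)
  have h5 : ((j:ℝ) + 1) * r ^ j = ((j:ℝ) + 1) * (r / κ) ^ j * κ ^ j := by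
    rw [div_pow]; field_simp
  rw [h5]
  exact mul_le_mul_of_nonneg_right h4 (by positivity)

include hρ0 hρ1 hρ

/-- the renewal data attached to `ρ`. -/
theorem exists_renewalData : ∃ D : Renewal.Data, (∀ n, D.p n = aCoef (n + 1) * ρ ^ (n + 1)) ∧
    (∀ n, D.u n = gSeq n * ρ ^ n) ∧
    (∀ n, D.r n = ∑' d, aCoef (n + d + 1) * ρ ^ (n + d + 1)) := by
  obtain ⟨C, hC, hCb⟩ := exists_lin_geo_bound (r := ρ) (κ := (1 + ρ) / 2) hρ0.le (by linarith)
  set κ : ℝ := (1 + ρ) / 2 with hκ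
  have hκ0 : 0 < κ := by positivity
  have hκ1 : κ < 1 := by rw [hκ]; linarith
  have hpb : ∀ n : ℕ, aCoef (n + 1) * ρ ^ (n + 1) ≤ C * κ ^ n := fun n => by
    have h1 : aCoef (n + 1) ≤ (n:ℝ) + 1 := by
      have := aCoef_le_self (n + 1)
      push_cast at this
      exact this
    calc aCoef (n + 1) * ρ ^ (n + 1) ≤ ((n:ℝ) + 1) * ρ ^ (n + 1) :=
          mul_le_mul_of_nonneg_right h1 (by positivity)
      _ ≤ ((n:ℝ) + 1) * ρ ^ n := by
          refine mul_le_mul_of_nonneg_left ?_ (by positivity)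
          exact pow_le_pow_of_le_one hρ0.le hρ1.le (by omega)
      _ ≤ C * κ ^ n := hCb n
  have hs := hρ.summable
  have hsn : ∀ n, Summable fun d => aCoef (n + d + 1) * ρ ^ (n + d + 1) := fun n => by
    have := (summable_nat_add_iff (f := fun j : ℕ => aCoef (j + 1) * ρ ^ (j + 1)) n).2 hs
    refine this.congr fun d => ?_
    rw [add_comm d n]
  refine ⟨{ p := fun n => aCoef (n + 1) * ρ ^ (n + 1)
            r := fun n => ∑' d, aCoef (n + d + 1) * ρ ^ (n + d + 1)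
            u := fun n => gSeq n * ρ ^ n
            κ := κ
            C := C / (1 - κ)
            hp := fun n => mul_nonneg (aCoef_pos _ (by omega)).le (by positivity)
            hp0 := mul_pos (aCoef_pos _ (by omega)) (by positivity)
            hr0 := ?_
            hr := ?_
            hrn := fun n => tsum_nonneg fun d =>
              mul_nonneg (aCoef_pos _ (by omega)).le (by positivity)
            hκ0 := hκ0
            hκ1 := hκ1
            hrC := ?_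
            hu0 := by simp [gSeq_zero]
            hu := ?_ }, fun _ => rfl, fun _ => rfl, fun _ => rfl⟩
  · rw [← hρ.tsum_eq]
    refine tsum_congr fun d => ?_
    rw [zero_add]
  · intro n
    have h1 := (hsn n).tsum_eq_zero_add
    rw [h1]
    have h2 : (∑' b, aCoef (n + (b + 1) + 1) * ρ ^ (n + (b + 1) + 1))
        = ∑' d, aCoef (n + 1 + d + 1) * ρ ^ (n + 1 + d + 1) := by
      refine tsum_congr fun d => ?_
      rw [show n + (d + 1) + 1 = n + 1 + d + 1 by ring]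
    rw [h2, add_zero]
    ring
  · intro n
    have hg : HasSum (fun d : ℕ => C * κ ^ n * κ ^ d) (C * κ ^ n * (1 - κ)⁻¹) :=
      (hasSum_geometric_of_lt_one hκ0.le hκ1).mul_left _
    have h1 : ∑' d, aCoef (n + d + 1) * ρ ^ (n + d + 1) ≤ ∑' d : ℕ, C * κ ^ n * κ ^ d := by
      refine (hsn n).tsum_le_tsum (fun d => ?_) hg.summable
      refine (hpb (n + d)).trans (le_of_eq ?_)
      rw [pow_add]; ring
    refine h1.trans (le_of_eq ?_)
    rw [hg.tsum_eq, div_eq_mul_inv]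
    ring
  · intro n
    rw [gSeq_succ, Finset.sum_mul]
    refine Finset.sum_congr rfl fun d hd => ?_
    have hd' : d ≤ n := by simpa [Nat.lt_succ_iff] using hd
    have : ρ ^ (n + 1) = ρ ^ (d + 1) * ρ ^ (n - d) := by
      rw [← pow_add]; congr 1; omega
    rw [this]
    ring

/-- **Renewal theorem**: `g_n ρ^n → μ` with exponential rate. -/
theorem exists_gSeq_rate : ∃ μ C η : ℝ, 0 < μ ∧ 0 < C ∧ 0 < η ∧ η < 1 ∧
    ∀ n, |gSeq n * ρ ^ n - μ| ≤ C * η ^ n := by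
  obtain ⟨D, _, hu, _⟩ := exists_renewalData hρ0 hρ1 hρ
  obtain ⟨C, η, hC, h0, h1, h⟩ := D.rate
  exact ⟨(∑' k, D.r k)⁻¹, C, η, inv_pos.2 D.tsum_r_pos, hC, h0, h1, fun n => by
    rw [← hu]; exact h n⟩

theorem gSeq_mul_pow_le_one (n : ℕ) : gSeq n * ρ ^ n ≤ 1 := by
  obtain ⟨D, _, hu, _⟩ := exists_renewalData hρ0 hρ1 hρ
  rw [← hu]
  exact D.u_le_one n

theorem exists_gSeq_lower : ∃ c : ℝ, 0 < c ∧ ∀ n, c ≤ gSeq n * ρ ^ n := by
  obtain ⟨μ, C, η, hμ, hC, h0, h1, h⟩ := exists_gSeq_rate hρ0 hρ1 hρ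
  have ht : Tendsto (fun n : ℕ => gSeq n * ρ ^ n) atTop (𝓝 μ) := by
    rw [tendsto_iff_norm_sub_tendsto_zero]
    refine squeeze_zero (fun _ => norm_nonneg _) (fun n => ?_)
      (by simpa using (tendsto_pow_atTop_nhds_zero_of_lt_one h0.le h1).const_mul C)
    rw [Real.norm_eq_abs]
    exact h n
  have hev := ht.eventually (lt_mem_nhds (show μ / 2 < μ by linarith))
  obtain ⟨N, hN⟩ := eventually_atTop.1 hev
  have hpos : ∀ n, 0 < gSeq n * ρ ^ n := fun n => mul_pos (gSeq_pos n) (by positivity)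
  obtain ⟨m, hm⟩ : ∃ m : ℝ, 0 < m ∧ ∀ n ∈ range (N + 1), m ≤ gSeq n * ρ ^ n := by
    obtain ⟨n0, _, hn0⟩ := Finset.exists_min_image (range (N + 1)) (fun n => gSeq n * ρ ^ n)
      ⟨0, by simp⟩
    exact ⟨gSeq n0 * ρ ^ n0, hpos n0, fun n hn => hn0 n hn⟩
  refine ⟨min (μ / 2) m, lt_min (by linarith) hm.1, fun n => ?_⟩
  rcases le_or_gt N n with hn | hn
  · exact (min_le_left _ _).trans (hN n hn).le
  · exact (min_le_right _ _).trans (hm.2 n (by simp; omega))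

end

/-! ### the profile `h_j` -/

/-- `h_j = ∑_{i ≥ 0} ρ^i a_{i+j}`. -/
def hSeq (ρ : ℝ) (j : ℕ) : ℝ := ∑' i : ℕ, ρ ^ i * aCoef (i + j)

/-- `c^(k)_j = ∑_{i ≤ k} g_i a_{k+j-i}`. -/
def cSeq (k j : ℕ) : ℝ := ∑ i ∈ range (k + 1), gSeq i * aCoef (k + j - i)

theorem cSeq_zero (j : ℕ) : cSeq 0 j = aCoef j := by
  simp [cSeq, gSeq_zero]

theorem cSeq_one (k : ℕ) : cSeq k 1 = gSeq (k + 1) := by
  rw [gSeq_succ, cSeq, ← Finset.sum_range_reflect]
  refine Finset.sum_congr rfl fun i hi => ?_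
  have hi' : i ≤ k := by simpa [Nat.lt_succ_iff] using hi
  rw [show k + 1 - 1 - i = k - i by omega, show k + 1 - (k - i) = i + 1 by omega]
  ring

theorem cSeq_succ (k j : ℕ) : cSeq (k + 1) j = gSeq (k + 1) * aCoef j + cSeq k (j + 1) := by
  rw [cSeq, Finset.sum_range_succ, cSeq, add_comm]
  congr 1
  · rw [show k + 1 + j - (k + 1) = j by omega]
  · refine Finset.sum_congr rfl fun i _ => ?_
    rw [show k + 1 + j - i = k + (j + 1) - i by omega]

theorem cSeq_pos (k j : ℕ) (hj : 1 ≤ j) : 0 < cSeq k j := by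
  refine Finset.sum_pos (fun i hi => ?_) ⟨0, by simp⟩
  have hi' : i ≤ k := by simpa [Nat.lt_succ_iff] using hi
  exact mul_pos (gSeq_pos i) (aCoef_pos _ (by omega))

theorem cSeq_mono {k i j : ℕ} (hi : 1 ≤ i) (hij : i ≤ j) : cSeq k i ≤ cSeq k j := by
  refine Finset.sum_le_sum fun l hl => ?_
  have hl' : l ≤ k := by simpa [Nat.lt_succ_iff] using hl
  exact mul_le_mul_of_nonneg_left (aCoef_mono (by omega) (by omega)) (gSeq_pos l).le

theorem half_log_le_aCoef (j : ℕ) (hj : 1 ≤ j) : Real.log (j + 1) / 2 ≤ aCoef j := by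
  rcases Nat.eq_or_lt_of_le hj with h | h
  · rw [← h, aCoef_one]
    have h1 := Real.log_two_gt_d9
    have h2 := Real.log_two_lt_d9
    push_cast
    norm_num
    linarith
  · refine le_trans ?_ (aCoef_ge_log j hj)
    have hj2 : (2:ℝ) ≤ j := by exact_mod_cast h
    have : Real.log ((j:ℝ) + 1) ≤ Real.log ((j:ℝ) ^ 2) :=
      Real.log_le_log (by positivity) (by nlinarith)
    rw [Real.log_pow] at this
    push_cast at this
    linarith

theorem aCoef_add_le (s j : ℕ) (hj : 1 ≤ j) :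
    aCoef (s + j) ≤ (2 * (s:ℝ) + 1) * Real.log (j + 1) := by
  have h1 : aCoef (s + j) ≤ Real.log ((s + j : ℕ) + 1) := aCoef_le_log (s + j) (by omega)
  have h2 : Real.log (((s + j : ℕ) : ℝ) + 1) ≤ Real.log (((s:ℝ) + 1) * ((j:ℝ) + 1)) := by
    refine Real.log_le_log (by positivity) ?_
    push_cast
    have : 0 ≤ (s:ℝ) * j := by positivity
    nlinarith
  rw [Real.log_mul (by positivity) (by positivity)] at h2
  have h3 : Real.log ((s:ℝ) + 1) ≤ s := by
    have := Real.log_le_sub_one_of_pos (show (0:ℝ) < (s:ℝ) + 1 by positivity)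
    linarith
  have h4 : (1:ℝ) / 2 ≤ Real.log (j + 1) := by
    have h5 : Real.log 2 ≤ Real.log ((j:ℝ) + 1) := by
      refine Real.log_le_log (by norm_num) ?_
      have : (1:ℝ) ≤ j := by exact_mod_cast hj
      linarith
    have := Real.log_two_gt_d9
    linarith
  have h5 : (0:ℝ) ≤ s := by positivity
  nlinarith

section

variable {ρ : ℝ} (hρ0 : 0 < ρ) (hρ1 : ρ < 1)

include hρ0 hρ1

theorem hSeq_summable (j : ℕ) (hj : 1 ≤ j) : Summable fun i : ℕ => ρ ^ i * aCoef (i + j) := by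
  obtain ⟨C, hC, hCb⟩ := exists_lin_geo_bound (r := ρ) (κ := (1 + ρ) / 2) hρ0.le (by linarith)
  have hs : Summable fun i : ℕ => 2 * Real.log (j + 1) * C * ((1 + ρ) / 2) ^ i :=
    (summable_geometric_of_lt_one (by positivity) (by linarith)).mul_left _
  refine Summable.of_nonneg_of_le (fun i => mul_nonneg (by positivity) (aCoef_pos _ (by omega)).le)
    (fun i => ?_) hs
  have hl : 0 ≤ Real.log ((j:ℝ) + 1) := Real.log_nonneg (by
    have : (1:ℝ) ≤ j := by exact_mod_cast hj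
    linarith)
  calc ρ ^ i * aCoef (i + j) ≤ ρ ^ i * ((2 * (i:ℝ) + 1) * Real.log (j + 1)) :=
        mul_le_mul_of_nonneg_left (aCoef_add_le i j hj) (by positivity)
    _ ≤ ρ ^ i * ((2 * ((i:ℝ) + 1)) * Real.log (j + 1)) := by
        refine mul_le_mul_of_nonneg_left (mul_le_mul_of_nonneg_right (by linarith) hl) (by positivity)
    _ = 2 * Real.log (j + 1) * (((i:ℝ) + 1) * ρ ^ i) := by ring
    _ ≤ 2 * Real.log (j + 1) * (C * ((1 + ρ) / 2) ^ i) :=
        mul_le_mul_of_nonneg_left (hCb i) (by positivity)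
    _ = 2 * Real.log (j + 1) * C * ((1 + ρ) / 2) ^ i := by ring

theorem hSeq_eq (j : ℕ) (hj : 1 ≤ j) : hSeq ρ j = aCoef j + ρ * hSeq ρ (j + 1) := by
  rw [hSeq, (hSeq_summable hρ0 hρ1 j hj).tsum_eq_zero_add, hSeq, ← tsum_mul_left]
  congr 1
  · simp
  · refine tsum_congr fun i => ?_
    rw [pow_succ, show i + 1 + j = i + (j + 1) by ring]
    ring

theorem aCoef_le_hSeq (j : ℕ) (hj : 1 ≤ j) : aCoef j ≤ hSeq ρ j := by
  have h := (hSeq_summable hρ0 hρ1 j hj).le_tsum 0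
    (fun i _ => mul_nonneg (by positivity) (aCoef_pos _ (by omega)).le)
  simpa [hSeq] using h

theorem hSeq_pos (j : ℕ) (hj : 1 ≤ j) : 0 < hSeq ρ j :=
  lt_of_lt_of_le (aCoef_pos j hj) (aCoef_le_hSeq hρ0 hρ1 j hj)

theorem hSeq_mono {i j : ℕ} (hi : 1 ≤ i) (hij : i ≤ j) : hSeq ρ i ≤ hSeq ρ j := by
  refine (hSeq_summable hρ0 hρ1 i hi).tsum_le_tsum (fun s => ?_)
    (hSeq_summable hρ0 hρ1 j (hi.trans hij))
  exact mul_le_mul_of_nonneg_left (aCoef_mono (by omega) (by omega)) (by positivity)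

theorem exists_hSeq_le : ∃ C : ℝ, 0 < C ∧ ∀ j : ℕ, 1 ≤ j → hSeq ρ j ≤ C * Real.log (j + 1) := by
  obtain ⟨C, hC, hCb⟩ := exists_lin_geo_bound (r := ρ) (κ := (1 + ρ) / 2) hρ0.le (by linarith)
  refine ⟨2 * C * (1 - (1 + ρ) / 2)⁻¹, mul_pos (by positivity) (inv_pos.2 (by linarith)),
    fun j hj => ?_⟩
  have hl : 0 ≤ Real.log ((j:ℝ) + 1) := Real.log_nonneg (by
    have : (1:ℝ) ≤ j := by exact_mod_cast hj
    linarith)
  have hg : HasSum (fun i : ℕ => 2 * Real.log (j + 1) * C * ((1 + ρ) / 2) ^ i)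
      (2 * Real.log (j + 1) * C * (1 - (1 + ρ) / 2)⁻¹) :=
    (hasSum_geometric_of_lt_one (by positivity) (by linarith)).mul_left _
  have h1 : hSeq ρ j ≤ ∑' i : ℕ, 2 * Real.log (j + 1) * C * ((1 + ρ) / 2) ^ i := by
    refine (hSeq_summable hρ0 hρ1 j hj).tsum_le_tsum (fun i => ?_) hg.summable
    calc ρ ^ i * aCoef (i + j) ≤ ρ ^ i * ((2 * (i:ℝ) + 1) * Real.log (j + 1)) :=
          mul_le_mul_of_nonneg_left (aCoef_add_le i j hj) (by positivity)
      _ ≤ ρ ^ i * ((2 * ((i:ℝ) + 1)) * Real.log (j + 1)) := by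
          refine mul_le_mul_of_nonneg_left (mul_le_mul_of_nonneg_right (by linarith) hl)
            (by positivity)
      _ = 2 * Real.log (j + 1) * (((i:ℝ) + 1) * ρ ^ i) := by ring
      _ ≤ 2 * Real.log (j + 1) * (C * ((1 + ρ) / 2) ^ i) :=
          mul_le_mul_of_nonneg_left (hCb i) (by positivity)
      _ = 2 * Real.log (j + 1) * C * ((1 + ρ) / 2) ^ i := by ring
  rw [hg.tsum_eq] at h1
  refine h1.trans (le_of_eq (by ring))

theorem hSeq_one (hρ : HasSum (fun j : ℕ => aCoef (j + 1) * ρ ^ (j + 1)) 1) :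
    hSeq ρ 1 = 1 / ρ := by
  rw [eq_div_iff hρ0.ne', ← hρ.tsum_eq, hSeq, ← tsum_mul_right]
  refine tsum_congr fun i => ?_
  rw [pow_succ]; ring

/-- `c^(k)_j = μ ρ^{-k} h_j (1 + O(η^k))`, uniformly in `j ≥ 1`. -/
theorem exists_cSeq_rate (hρ : HasSum (fun j : ℕ => aCoef (j + 1) * ρ ^ (j + 1)) 1) :
    ∃ μ C η : ℝ, 0 < μ ∧ 0 < C ∧ 0 < η ∧ η < 1 ∧ (∀ n, |gSeq n * ρ ^ n - μ| ≤ C * η ^ n) ∧
      ∀ k j : ℕ, 1 ≤ j → |cSeq k j * ρ ^ k - μ * hSeq ρ j| ≤ C * η ^ k * hSeq ρ j := by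
  obtain ⟨μ, C, η, hμ, hC, h0, h1, h⟩ := exists_gSeq_rate hρ0 hρ1 hρ
  set q : ℝ := max η ρ with hq
  have hq0 : 0 < q := lt_of_lt_of_le h0 (le_max_left _ _)
  have hq1 : q < 1 := max_lt h1 hρ1
  -- intermediate ratios
  set q1 : ℝ := (1 + 2 * q) / 3 with hq1d
  set q2 : ℝ := (2 + q) / 3 with hq2d
  have hqq1 : q < q1 := by rw [hq1d]; linarith
  have hq12 : q1 < q2 := by rw [hq1d, hq2d]; linarith
  have hq2 : q2 < 1 := by rw [hq2d]; linarith
  have hq1pos : 0 < q1 := hq0.trans hqq1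
  have hq2pos : 0 < q2 := hq1pos.trans hq12
  obtain ⟨C1, hC1, hC1b⟩ := exists_lin_geo_bound (r := q) (κ := q1) hq0.le hqq1
  obtain ⟨C2, hC2, hC2b⟩ := exists_lin_geo_bound (r := q1) (κ := q2) hq1pos.le hq12
  have hlog : ∀ j : ℕ, 1 ≤ j → Real.log ((j:ℝ) + 1) ≤ 2 * hSeq ρ j := fun j hj => by
    have h2 := half_log_le_aCoef j hj
    have h3 := aCoef_le_hSeq hρ0 hρ1 j hj
    linarith
  -- the constant
  set C3 : ℝ := C * 4 * C1 * C2 + μ * 4 * C1 * q1 * (1 - q1)⁻¹ + C with hC3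
  have hinv : 0 < (1 - q1)⁻¹ := inv_pos.2 (by linarith)
  refine ⟨μ, C3, q2, hμ, by positivity, hq2pos, hq2, fun n => ?_, fun k j hj => ?_⟩
  · refine (h n).trans ?_
    have e1 : η ^ n ≤ q2 ^ n :=
      pow_le_pow_left₀ h0.le (((le_max_left η ρ).trans hqq1.le).trans hq12.le) n
    have e2 : C ≤ C3 := by rw [hC3]; have : 0 ≤ C * 4 * C1 * C2 + μ * 4 * C1 * q1 * (1 - q1)⁻¹ := by positivity
                           linarith
    exact mul_le_mul e2 e1 (by positivity) (by linarith)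
  have hlogj := hlog j hj
  have hl0 : 0 ≤ Real.log ((j:ℝ) + 1) := Real.log_nonneg (by
    have : (1:ℝ) ≤ j := by exact_mod_cast hj
    linarith)
  -- rewrite `c^(k)_j ρ^k`
  have e1 : cSeq k j * ρ ^ k = ∑ s ∈ range (k + 1), (gSeq (k - s) * ρ ^ (k - s)) *
      (ρ ^ s * aCoef (s + j)) := by
    rw [cSeq, ← Finset.sum_range_reflect, Finset.sum_mul]
    refine Finset.sum_congr rfl fun s hs => ?_
    have hs' : s ≤ k := by simpa [Nat.lt_succ_iff] using hs
    rw [show k + 1 - 1 - s = k - s by omega, show k + j - (k - s) = s + j by omega]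
    have : ρ ^ k = ρ ^ (k - s) * ρ ^ s := by rw [← pow_add]; congr 1; omega
    rw [this]; ring
  have hsm := hSeq_summable hρ0 hρ1 j hj
  have e2 : hSeq ρ j = ∑ s ∈ range (k + 1), ρ ^ s * aCoef (s + j)
      + ∑' s : ℕ, ρ ^ (s + (k + 1)) * aCoef (s + (k + 1) + j) :=
    (hsm.sum_add_tsum_nat_add (k + 1)).symm
  have e3 : cSeq k j * ρ ^ k - μ * hSeq ρ j
      = ∑ s ∈ range (k + 1), (gSeq (k - s) * ρ ^ (k - s) - μ) * (ρ ^ s * aCoef (s + j))
        - μ * ∑' s : ℕ, ρ ^ (s + (k + 1)) * aCoef (s + (k + 1) + j) := by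
    rw [e1]
    conv_lhs => rw [e2]
    rw [mul_add, Finset.mul_sum, ← sub_sub, ← Finset.sum_sub_distrib]
    congr 1
    refine Finset.sum_congr rfl fun s _ => ?_
    ring
  -- term bound
  have hterm : ∀ s : ℕ, ρ ^ s * aCoef (s + j) ≤ 4 * hSeq ρ j * (C1 * q1 ^ s) := fun s => by
    have hH : 0 < hSeq ρ j := hSeq_pos hρ0 hρ1 j hj
    calc ρ ^ s * aCoef (s + j) ≤ q ^ s * ((2 * (s:ℝ) + 1) * Real.log (j + 1)) :=
          mul_le_mul (pow_le_pow_left₀ hρ0.le (le_max_right _ _) s) (aCoef_add_le s j hj)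
            (aCoef_pos _ (by omega)).le (by positivity)
      _ ≤ q ^ s * ((2 * ((s:ℝ) + 1)) * (2 * hSeq ρ j)) := by
          refine mul_le_mul_of_nonneg_left (mul_le_mul (by linarith) hlogj hl0 (by positivity))
            (by positivity)
      _ = 4 * hSeq ρ j * (((s:ℝ) + 1) * q ^ s) := by ring
      _ ≤ 4 * hSeq ρ j * (C1 * q1 ^ s) := mul_le_mul_of_nonneg_left (hC1b s) (by positivity)
  have hH : 0 < hSeq ρ j := hSeq_pos hρ0 hρ1 j hj
  -- first part
  have p1 : |∑ s ∈ range (k + 1), (gSeq (k - s) * ρ ^ (k - s) - μ) * (ρ ^ s * aCoef (s + j))|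
      ≤ C * 4 * C1 * C2 * q2 ^ k * hSeq ρ j := by
    calc |∑ s ∈ range (k + 1), (gSeq (k - s) * ρ ^ (k - s) - μ) * (ρ ^ s * aCoef (s + j))|
        ≤ ∑ s ∈ range (k + 1), |(gSeq (k - s) * ρ ^ (k - s) - μ) * (ρ ^ s * aCoef (s + j))| :=
          Finset.abs_sum_le_sum_abs _ _
      _ ≤ ∑ s ∈ range (k + 1), (C * q1 ^ (k - s)) * (4 * hSeq ρ j * (C1 * q1 ^ s)) := by
          refine Finset.sum_le_sum fun s _ => ?_
          rw [abs_mul, abs_of_nonneg (mul_nonneg (by positivity : (0:ℝ) ≤ ρ ^ s)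
            (aCoef_pos (s + j) (by omega)).le)]
          refine mul_le_mul ((h _).trans ?_) (hterm s) (mul_nonneg (by positivity)
            (aCoef_pos (s + j) (by omega)).le) (by positivity)
          exact mul_le_mul_of_nonneg_left (pow_le_pow_left₀ h0.le
            ((le_max_left η ρ).trans hqq1.le) _) hC.le
      _ = ∑ s ∈ range (k + 1), C * 4 * C1 * hSeq ρ j * q1 ^ k := by
          refine Finset.sum_congr rfl fun s hs => ?_
          have hs' : s ≤ k := by simpa [Nat.lt_succ_iff] using hs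
          have : q1 ^ k = q1 ^ (k - s) * q1 ^ s := by rw [← pow_add]; congr 1; omega
          rw [this]; ring
      _ = C * 4 * C1 * hSeq ρ j * (((k:ℝ) + 1) * q1 ^ k) := by
          rw [Finset.sum_const, Finset.card_range, nsmul_eq_mul]
          push_cast; ring
      _ ≤ C * 4 * C1 * hSeq ρ j * (C2 * q2 ^ k) :=
          mul_le_mul_of_nonneg_left (hC2b k) (by positivity)
      _ = C * 4 * C1 * C2 * q2 ^ k * hSeq ρ j := by ring
  -- second part
  have hst : Summable fun s : ℕ => ρ ^ (s + (k + 1)) * aCoef (s + (k + 1) + j) :=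
    (summable_nat_add_iff (f := fun s : ℕ => ρ ^ s * aCoef (s + j)) (k + 1)).2 hsm
  have p2 : |μ * ∑' s : ℕ, ρ ^ (s + (k + 1)) * aCoef (s + (k + 1) + j)|
      ≤ μ * 4 * C1 * q1 * (1 - q1)⁻¹ * q2 ^ k * hSeq ρ j := by
    have hnn : 0 ≤ ∑' s : ℕ, ρ ^ (s + (k + 1)) * aCoef (s + (k + 1) + j) :=
      tsum_nonneg fun s => mul_nonneg (by positivity) (aCoef_pos _ (by omega)).le
    rw [abs_of_nonneg (mul_nonneg hμ.le hnn)]
    have hg : HasSum (fun s : ℕ => 4 * hSeq ρ j * (C1 * q1 ^ (k + 1)) * q1 ^ s)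
        (4 * hSeq ρ j * (C1 * q1 ^ (k + 1)) * (1 - q1)⁻¹) :=
      (hasSum_geometric_of_lt_one hq1pos.le (by linarith)).mul_left _
    have h2 : ∑' s : ℕ, ρ ^ (s + (k + 1)) * aCoef (s + (k + 1) + j)
        ≤ 4 * hSeq ρ j * (C1 * q1 ^ (k + 1)) * (1 - q1)⁻¹ := by
      rw [← hg.tsum_eq]
      refine hst.tsum_le_tsum (fun s => (hterm (s + (k + 1))).trans (le_of_eq ?_)) hg.summable
      rw [pow_add]; ring
    calc μ * ∑' s : ℕ, ρ ^ (s + (k + 1)) * aCoef (s + (k + 1) + j)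
        ≤ μ * (4 * hSeq ρ j * (C1 * q1 ^ (k + 1)) * (1 - q1)⁻¹) :=
          mul_le_mul_of_nonneg_left h2 hμ.le
      _ = μ * 4 * C1 * q1 * (1 - q1)⁻¹ * q1 ^ k * hSeq ρ j := by rw [pow_succ]; ring
      _ ≤ μ * 4 * C1 * q1 * (1 - q1)⁻¹ * q2 ^ k * hSeq ρ j := by
          refine mul_le_mul_of_nonneg_right (mul_le_mul_of_nonneg_left
            (pow_le_pow_left₀ hq1pos.le hq12.le k) (by positivity)) hH.le
  rw [e3]
  refine (abs_sub _ _).trans ?_
  refine (add_le_add p1 p2).trans ?_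
  have : 0 ≤ C * q2 ^ k * hSeq ρ j := by positivity
  rw [hC3]
  nlinarith

end

end Crest.Agent.R020
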