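import Mathlib
import Crest.Prelude.Def_TotientScale
import Crest.Agent.R020.RenewalG

/-!
Row 20, module G1d: asymptotics of the scale `G = B^m/(m! g_1 ⋯ g_m)` and of the phase.
-/

set_option autoImplicit false

noncomputable section

open Finset Filter Topology
open Crest.NumberTheoryR.TotientScale

namespace Crest.Agent.R020

theorem tendsto_bigB : Tendsto bigB atTop atTop :=
  Real.tendsto_log_atTop.comp Real.tendsto_log_atTop

/-- `B^k / (k! g_1 ⋯ g_k)`. -/
def scaleAt (B : ℝ) (k : ℕ) : ℝ :=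
  B ^ k / ((Nat.factorial k : ℝ) * ∏ i ∈ Finset.range k, gSeq (i + 1))

theorem scaleG_eq (ρ x : ℝ) : scaleG ρ x = scaleAt (bigB x) (mIndex ρ x) := rfl

theorem scaleAt_succ (B : ℝ) (k : ℕ) :
    scaleAt B (k + 1) = scaleAt B k * (B / (((k:ℝ) + 1) * gSeq (k + 1))) := by
  have h1 : (∏ i ∈ Finset.range k, gSeq (i + 1)) ≠ 0 :=
    Finset.prod_ne_zero_iff.2 fun i _ => (gSeq_pos _).ne'
  have h2 := (gSeq_pos (k + 1)).ne'
  have h3 : (Nat.factorial k : ℝ) ≠ 0 := by positivity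
  rw [scaleAt, scaleAt, Finset.prod_range_succ, Nat.factorial_succ, pow_succ]
  push_cast
  field_simp

theorem scaleAt_pos {B : ℝ} (hB : 0 < B) (k : ℕ) : 0 < scaleAt B k := by
  rw [scaleAt]
  have : 0 < ∏ i ∈ Finset.range k, gSeq (i + 1) := Finset.prod_pos fun i _ => gSeq_pos _
  positivity

/-- Going down `r` steps from `m`. -/
theorem scaleAt_sub {B : ℝ} (hB : 0 < B) (m r : ℕ) (hr : r ≤ m) :
    scaleAt B (m - r) = scaleAt B m * ∏ s ∈ range r, (((m - s : ℕ) : ℝ) * gSeq (m - s) / B) := by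
  induction r with
  | zero => simp
  | succ r ih =>
    have ih' := ih (by omega)
    rw [Finset.prod_range_succ, ← mul_assoc, ← ih']
    obtain ⟨k, hk⟩ : ∃ k, m - r = k + 1 := ⟨m - r - 1, by omega⟩
    rw [hk, show m - (r + 1) = k by omega, scaleAt_succ]
    have h2 := (gSeq_pos (k + 1)).ne'
    have h3 := hB.ne'
    push_cast
    field_simp

section

variable {ρ : ℝ} (hρ0 : 0 < ρ) (hρ1 : ρ < 1)

include hρ0 hρ1

theorem lam_pos : 0 < lam ρ := by
  rw [lam]
  exact Real.log_pos (by rw [lt_div_iff₀ hρ0]; linarith)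

theorem exp_neg_lam : Real.exp (-lam ρ) = ρ := by
  rw [lam, one_div, Real.log_inv, neg_neg, Real.exp_log hρ0]

theorem rpow_eq_exp (n : ℕ) : ρ ^ n = Real.exp (-(lam ρ * n)) := by
  rw [← exp_neg_lam hρ0 hρ1, ← Real.exp_nat_mul]
  congr 1
  rw [exp_neg_lam hρ0 hρ1]
  ring

theorem tendsto_phaseArg_div :
    Tendsto (fun x => phaseArg ρ x / Real.log (bigB x)) atTop (𝓝 (1 / lam ρ)) := by
  have hL : Tendsto (fun x => Real.log (bigB x)) atTop atTop :=
    Real.tendsto_log_atTop.comp tendsto_bigB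
  have h1 : Tendsto (fun y : ℝ => Real.log y / y) atTop (𝓝 0) := by
    have := Real.isLittleO_log_id_atTop.tendsto_div_nhds_zero
    simpa using this
  have h2 := h1.comp hL
  have h3 : Tendsto (fun x => (1 - (Real.log (Real.log (bigB x)) / Real.log (bigB x))) / lam ρ)
      atTop (𝓝 ((1 - 0) / lam ρ)) := (tendsto_const_nhds.sub h2).div_const _
  rw [sub_zero] at h3
  refine h3.congr' ?_
  filter_upwards [hL.eventually_gt_atTop 0] with x hx
  rw [phaseArg]
  have := (lam_pos hρ0 hρ1).ne'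
  field_simp

theorem tendsto_phaseArg : Tendsto (phaseArg ρ) atTop atTop := by
  have hL : Tendsto (fun x => Real.log (bigB x)) atTop atTop :=
    Real.tendsto_log_atTop.comp tendsto_bigB
  have h := (tendsto_phaseArg_div hρ0 hρ1).pos_mul_atTop
    (one_div_pos.2 (lam_pos hρ0 hρ1)) hL
  refine h.congr' ?_
  filter_upwards [hL.eventually_gt_atTop 0] with x hx
  field_simp

theorem tendsto_mIndex : Tendsto (mIndex ρ) atTop atTop :=
  tendsto_nat_floor_atTop.comp (tendsto_phaseArg hρ0 hρ1)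

theorem eventually_phase_mem : ∀ᶠ x in atTop, phase ρ x ∈ Set.Ico (0:ℝ) 1 := by
  filter_upwards [(tendsto_phaseArg hρ0 hρ1).eventually_ge_atTop 0] with x hx
  rw [phase, mIndex]
  refine ⟨sub_nonneg.2 (Nat.floor_le hx), ?_⟩
  have := Nat.lt_floor_add_one (phaseArg ρ x)
  linarith

/-- `ρ^{-m} = (B / log B) e^{-λθ}`. -/
theorem eventually_rpow_mIndex : ∀ᶠ x in atTop,
    ρ ^ (mIndex ρ x) * (bigB x / Real.log (bigB x) * Real.exp (-(lam ρ * phase ρ x))) = 1 := by
  have hL : Tendsto (fun x => Real.log (bigB x)) atTop atTop :=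
    Real.tendsto_log_atTop.comp tendsto_bigB
  filter_upwards [hL.eventually_gt_atTop 0, tendsto_bigB.eventually_gt_atTop 0] with x hx hB
  have hlam := (lam_pos hρ0 hρ1).ne'
  have h1 : bigB x / Real.log (bigB x) = Real.exp (lam ρ * phaseArg ρ x) := by
    rw [phaseArg, mul_div_cancel₀ _ hlam, Real.exp_sub, Real.exp_log hB, Real.exp_log hx]
  rw [rpow_eq_exp hρ0 hρ1, h1, ← Real.exp_add, ← Real.exp_add, phase]
  rw [← Real.exp_zero]
  congr 1
  ring

theorem tendsto_mIndex_sub_div (s : ℕ) :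
    Tendsto (fun x => ((mIndex ρ x - s : ℕ) : ℝ) / Real.log (bigB x)) atTop (𝓝 (1 / lam ρ)) := by
  have hL : Tendsto (fun x => Real.log (bigB x)) atTop atTop :=
    Real.tendsto_log_atTop.comp tendsto_bigB
  have h0 := tendsto_phaseArg_div hρ0 hρ1
  have h1 : Tendsto (fun x => (((s:ℝ) + 1)) / Real.log (bigB x)) atTop (𝓝 0) :=
    tendsto_const_nhds.div_atTop hL
  have hlow : Tendsto (fun x => phaseArg ρ x / Real.log (bigB x)
      - ((s:ℝ) + 1) / Real.log (bigB x)) atTop (𝓝 (1 / lam ρ)) := by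
    simpa using h0.sub h1
  refine tendsto_of_tendsto_of_tendsto_of_le_of_le' hlow h0 ?_ ?_
  · filter_upwards [hL.eventually_gt_atTop 0, eventually_phase_mem hρ0 hρ1,
      (tendsto_mIndex hρ0 hρ1).eventually_ge_atTop s] with x hx hp hm
    rw [← sub_div]
    refine div_le_div_of_nonneg_right ?_ hx.le
    have h2 : phaseArg ρ x = phase ρ x + mIndex ρ x := by rw [phase]; ring
    rw [Nat.cast_sub hm, h2]
    have := hp.2
    linarith
  · filter_upwards [hL.eventually_gt_atTop 0, eventually_phase_mem hρ0 hρ1] with x hx hp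
    refine div_le_div_of_nonneg_right ?_ hx.le
    have h2 : phaseArg ρ x = phase ρ x + mIndex ρ x := by rw [phase]; ring
    have h3 : ((mIndex ρ x - s : ℕ) : ℝ) ≤ mIndex ρ x := by exact_mod_cast Nat.sub_le _ _
    rw [h2]
    have := hp.1
    linarith

/-- the function `z(θ) = μ e^{-λθ}/λ`. -/
def zPhase (ρ μ θ : ℝ) : ℝ := μ * Real.exp (-(lam ρ * θ)) / lam ρ

/-- `(m-s) g_{m-s} / B - z(θ) ρ^s → 0`. -/
theorem tendsto_mul_gSeq_div {μ : ℝ} (hμ : Tendsto (fun n : ℕ => gSeq n * ρ ^ n) atTop (𝓝 μ))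
    (s : ℕ) :
    Tendsto (fun x => ((mIndex ρ x - s : ℕ) : ℝ) * gSeq (mIndex ρ x - s) / bigB x
      - zPhase ρ μ (phase ρ x) * ρ ^ s) atTop (𝓝 0) := by
  have hL : Tendsto (fun x => Real.log (bigB x)) atTop atTop :=
    Real.tendsto_log_atTop.comp tendsto_bigB
  have hm : Tendsto (fun x => mIndex ρ x - s) atTop atTop :=
    (tendsto_sub_atTop_nat s).comp (tendsto_mIndex hρ0 hρ1)
  have h1 : Tendsto (fun x => gSeq (mIndex ρ x - s) * ρ ^ (mIndex ρ x - s)) atTop (𝓝 μ) :=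
    hμ.comp hm
  have h2 := tendsto_mIndex_sub_div hρ0 hρ1 s
  have h3 : Tendsto (fun x => (gSeq (mIndex ρ x - s) * ρ ^ (mIndex ρ x - s)) *
      (((mIndex ρ x - s : ℕ) : ℝ) / Real.log (bigB x)) - μ * (1 / lam ρ)) atTop (𝓝 0) := by
    have := (h1.mul h2).sub_const (μ * (1 / lam ρ))
    simpa using this
  -- multiply by the bounded function `e^{-λθ} ρ^s`
  have h4 : Tendsto (fun x => (Real.exp (-(lam ρ * phase ρ x)) * ρ ^ s) *
      ((gSeq (mIndex ρ x - s) * ρ ^ (mIndex ρ x - s)) *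
      (((mIndex ρ x - s : ℕ) : ℝ) / Real.log (bigB x)) - μ * (1 / lam ρ))) atTop (𝓝 0) := by
    refine squeeze_zero_norm' ?_ (tendsto_zero_iff_norm_tendsto_zero.1 h3)
    filter_upwards [eventually_phase_mem hρ0 hρ1] with x hp
    rw [norm_mul]
    refine mul_le_of_le_one_left (norm_nonneg _) ?_
    rw [norm_mul, Real.norm_of_nonneg (Real.exp_pos _).le, Real.norm_of_nonneg (by positivity)]
    have e1 : Real.exp (-(lam ρ * phase ρ x)) ≤ 1 := by
      rw [Real.exp_le_one_iff]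
      have := mul_nonneg (lam_pos hρ0 hρ1).le hp.1
      linarith
    have e2 : ρ ^ s ≤ 1 := pow_le_one₀ hρ0.le hρ1.le
    exact mul_le_one₀ e1 (by positivity) e2
  refine h4.congr' ?_
  filter_upwards [eventually_rpow_mIndex hρ0 hρ1, hL.eventually_gt_atTop 0,
    tendsto_bigB.eventually_gt_atTop 0, (tendsto_mIndex hρ0 hρ1).eventually_ge_atTop s]
    with x hx hl hB hms
  rw [mul_sub]
  congr 1
  · -- exp(-λθ) ρ^s g ρ^(m-s) (m-s)/log B = (m-s) g / B
    have e1 : ρ ^ s * ρ ^ (mIndex ρ x - s) = ρ ^ (mIndex ρ x) := by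
      rw [← pow_add]; congr 1; omega
    have e2 : Real.exp (-(lam ρ * phase ρ x)) * ρ ^ (mIndex ρ x) / Real.log (bigB x)
        = 1 / bigB x := by
      rw [div_eq_div_iff hl.ne' hB.ne', one_mul]
      have : ρ ^ (mIndex ρ x) * (bigB x * Real.exp (-(lam ρ * phase ρ x)))
          = Real.log (bigB x) := by
        field_simp at hx
        linarith
      linarith
    calc Real.exp (-(lam ρ * phase ρ x)) * ρ ^ s *
          (gSeq (mIndex ρ x - s) * ρ ^ (mIndex ρ x - s) *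
            (((mIndex ρ x - s : ℕ) : ℝ) / Real.log (bigB x)))
        = ((mIndex ρ x - s : ℕ) : ℝ) * gSeq (mIndex ρ x - s) *
          (Real.exp (-(lam ρ * phase ρ x)) * (ρ ^ s * ρ ^ (mIndex ρ x - s))
            / Real.log (bigB x)) := by ring
      _ = _ := by rw [e1, e2]; ring
  · rw [zPhase]
    ring

/-- `scaleAt B (m-r) / G - ∏_{s<r} (z(θ) ρ^s) → 0`. -/
theorem tendsto_scaleAt_div {μ : ℝ} (hμ : Tendsto (fun n : ℕ => gSeq n * ρ ^ n) atTop (𝓝 μ))
    (hμ0 : 0 ≤ μ) (r : ℕ) :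
    Tendsto (fun x => scaleAt (bigB x) (mIndex ρ x - r) / scaleG ρ x
      - ∏ s ∈ range r, (zPhase ρ μ (phase ρ x) * ρ ^ s)) atTop (𝓝 0) := by
  have hz : ∀ᶠ x in atTop, 0 ≤ zPhase ρ μ (phase ρ x) ∧ zPhase ρ μ (phase ρ x) ≤ μ / lam ρ := by
    filter_upwards [eventually_phase_mem hρ0 hρ1] with x hp
    have hl := lam_pos hρ0 hρ1
    refine ⟨by rw [zPhase]; positivity, ?_⟩
    rw [zPhase]
    refine div_le_div_of_nonneg_right ?_ hl.le
    refine mul_le_of_le_one_right hμ0 ?_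
    rw [Real.exp_le_one_iff]
    have := mul_nonneg hl.le hp.1
    linarith
  have key : ∀ r : ℕ, Tendsto (fun x => ∏ s ∈ range r,
      (((mIndex ρ x - s : ℕ) : ℝ) * gSeq (mIndex ρ x - s) / bigB x)
      - ∏ s ∈ range r, (zPhase ρ μ (phase ρ x) * ρ ^ s)) atTop (𝓝 0) := by
    intro r
    induction r with
    | zero => simp
    | succ r ih =>
      have h1 := tendsto_mul_gSeq_div hρ0 hρ1 hμ r
      -- a_{r+1} b - a' b' = (a-a') b + a' (b-b')
      have hb : ∀ᶠ x in atTop, ‖((mIndex ρ x - r : ℕ) : ℝ) * gSeq (mIndex ρ x - r) / bigB x‖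
          ≤ 1 + μ / lam ρ := by
        filter_upwards [hz, (tendsto_zero_iff_norm_tendsto_zero.1 h1).eventually
          (gt_mem_nhds one_pos)] with x hx h2
        have e1 : ‖((mIndex ρ x - r : ℕ) : ℝ) * gSeq (mIndex ρ x - r) / bigB x‖
            ≤ ‖((mIndex ρ x - r : ℕ) : ℝ) * gSeq (mIndex ρ x - r) / bigB x
              - zPhase ρ μ (phase ρ x) * ρ ^ r‖ + ‖zPhase ρ μ (phase ρ x) * ρ ^ r‖ := by
          simpa using norm_add_le (((mIndex ρ x - r : ℕ) : ℝ) * gSeq (mIndex ρ x - r) / bigB x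
              - zPhase ρ μ (phase ρ x) * ρ ^ r) (zPhase ρ μ (phase ρ x) * ρ ^ r)
        have e2 : ‖zPhase ρ μ (phase ρ x) * ρ ^ r‖ ≤ μ / lam ρ := by
          rw [Real.norm_of_nonneg (mul_nonneg hx.1 (by positivity))]
          exact (mul_le_of_le_one_right hx.1 (pow_le_one₀ hρ0.le hρ1.le)).trans hx.2
        linarith
      have hc : ∀ᶠ x in atTop, ‖∏ s ∈ range r, (zPhase ρ μ (phase ρ x) * ρ ^ s)‖
          ≤ (μ / lam ρ) ^ r := by
        filter_upwards [hz] with x hx
        rw [norm_prod, ← Finset.card_range r, ← Finset.prod_const, Finset.card_range]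
        refine Finset.prod_le_prod (fun _ _ => norm_nonneg _) fun s _ => ?_
        rw [Real.norm_of_nonneg (mul_nonneg hx.1 (by positivity))]
        exact (mul_le_of_le_one_right hx.1 (pow_le_one₀ hρ0.le hρ1.le)).trans hx.2
      have t1 : Tendsto (fun x => (∏ s ∈ range r,
          (((mIndex ρ x - s : ℕ) : ℝ) * gSeq (mIndex ρ x - s) / bigB x)
          - ∏ s ∈ range r, (zPhase ρ μ (phase ρ x) * ρ ^ s)) *
          (((mIndex ρ x - r : ℕ) : ℝ) * gSeq (mIndex ρ x - r) / bigB x)) atTop (𝓝 0) := by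
        refine squeeze_zero_norm' (a := fun x => ‖∏ s ∈ range r,
          (((mIndex ρ x - s : ℕ) : ℝ) * gSeq (mIndex ρ x - s) / bigB x)
          - ∏ s ∈ range r, (zPhase ρ μ (phase ρ x) * ρ ^ s)‖ * (1 + μ / lam ρ)) ?_ ?_
        · filter_upwards [hb] with x hx
          rw [norm_mul]
          exact mul_le_mul_of_nonneg_left hx (norm_nonneg _)
        · simpa using (tendsto_zero_iff_norm_tendsto_zero.1 ih).mul_const (1 + μ / lam ρ)
      have t2 : Tendsto (fun x => (∏ s ∈ range r, (zPhase ρ μ (phase ρ x) * ρ ^ s)) *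
          (((mIndex ρ x - r : ℕ) : ℝ) * gSeq (mIndex ρ x - r) / bigB x
            - zPhase ρ μ (phase ρ x) * ρ ^ r)) atTop (𝓝 0) := by
        refine squeeze_zero_norm' (a := fun x => (μ / lam ρ) ^ r *
          ‖((mIndex ρ x - r : ℕ) : ℝ) * gSeq (mIndex ρ x - r) / bigB x
            - zPhase ρ μ (phase ρ x) * ρ ^ r‖) ?_ ?_
        · filter_upwards [hc] with x hx
          rw [norm_mul]
          exact mul_le_mul_of_nonneg_right hx (norm_nonneg _)
        · simpa using (tendsto_zero_iff_norm_tendsto_zero.1 h1).const_mul ((μ / lam ρ) ^ r)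
      have t3 := t1.add t2
      rw [add_zero] at t3
      refine t3.congr fun x => ?_
      rw [Finset.prod_range_succ, Finset.prod_range_succ]
      ring
  refine (key r).congr' ?_
  filter_upwards [tendsto_bigB.eventually_gt_atTop 0,
    (tendsto_mIndex hρ0 hρ1).eventually_ge_atTop r] with x hB hm
  rw [scaleAt_sub hB _ _ hm, scaleG_eq]
  congr 1
  rw [mul_comm, mul_div_assoc, div_self (scaleAt_pos hB _).ne', mul_one]

end

end Crest.Agent.R020
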