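import Crest.Agent.R020.Stmt
import Crest.Agent.R020.ScalePhase
import Crest.Agent.R020.RenewalG

/-!
Row 20: definitions for the chain `ψ_k^±`, and the exact shapes of its real-analysis inputs.
-/

set_option autoImplicit false

open scoped ENNReal Topology
open MeasureTheory Filter Crest.NumberTheoryR.TotientScale

noncomputable section

namespace Crest.Agent.R020

/-- `c^{(k)}`, 0-indexed: `cc k i = cSeq k (i+1)`; `cc 0 = aa`, `cc (k+1) = Tc (cc k)`. -/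
def cc (k i : ℕ) : ℝ := cSeq k (i + 1)

theorem cc_zero : cc 0 = aa := by
  funext i
  rw [cc, cSeq_zero, aa]

theorem cc_first (k : ℕ) : cc k 0 = gSeq (k + 1) := cSeq_one k

theorem cc_succ (k : ℕ) : cc (k + 1) = Tc (cc k) := by
  funext i
  rw [cc, cSeq_succ, Tc, cc_first, aa, cc]

theorem cc_pos (k i : ℕ) : 0 < cc k i := cSeq_pos k (i + 1) (by omega)

theorem aa_pos (i : ℕ) : 0 < aa i := aCoef_pos _ (by omega)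

/-- The scale of step `k`: `4B / ((k+1) g_{k+1})`. -/
def Ysc (B : ℝ) (k : ℕ) : ℝ := 4 * B / (((k : ℝ) + 1) * gSeq (k + 1))

/-- The accumulated slack `Δ_k = Δ_0 + ∑_{i<k} 8 g_{i+1} Ys_i^{24/25}`. -/
def Del (B Δ : ℝ) (k : ℕ) : ℝ :=
  Δ + ∑ i ∈ Finset.range k, 8 * gSeq (i + 1) * Ysc B i ^ (24 / 25 : ℝ)

theorem Del_zero (B Δ : ℝ) : Del B Δ 0 = Δ := by simp [Del]

theorem Del_succ (B Δ : ℝ) (k : ℕ) :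
    Del B Δ (k + 1) = Del B Δ k + 8 * gSeq (k + 1) * Ysc B k ^ (24 / 25 : ℝ) := by
  rw [Del, Finset.sum_range_succ, Del]
  ring

/-- `ψ_{R,k}(t) = (R - t)^k / (k! g_1 ⋯ g_k)` for `t ≤ R`, and `0` for `t > R`. -/
def psi (R : ℝ) (k : ℕ) (t : ℝ) : ℝ := if t ≤ R then scaleAt (R - t) k else 0

/-- `ψ_k^+`. -/
def psiP (B Δ : ℝ) (k : ℕ) : ℝ → ℝ := psi (B + Del B Δ k) k

/-- `ψ_k^-`. -/
def psiM (B Δ : ℝ) (k : ℕ) : ℝ → ℝ := psi (B - Del B Δ k) k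

/-- Upper sums over a class `A`. -/
def SP (B Δ : ℝ) (k : ℕ) (A : Set ℕ) : ℝ≥0∞ := wsum (fun v => psiP B Δ k (FF (cc k) v)) A

/-- Lower sums over a class `A`. -/
def SM (B Δ : ℝ) (k : ℕ) (A : Set ℕ) : ℝ≥0∞ := wsum (fun v => psiM B Δ k (FF (cc k) v)) A

/-- Dilated upper sums over a class `A`. -/
def QP (δ B Δ : ℝ) (k : ℕ) (A : Set ℕ) : ℝ≥0∞ :=
  wsum (fun v => psiP B Δ k ((1 + δ) * FF (cc k) v)) A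

/-! ### Real-analysis inputs (owners in brackets) -/

/-- (R1) [984] the coefficient inequality behind the treatment of ordering violations
(0-indexed: `i = j - 1`). -/
def StmtR1 : Prop := ∃ δ : ℝ, 0 < δ ∧ δ ≤ 1 / 100 ∧ ∀ k i : ℕ,
  (1 + δ) * (gSeq (k + 1) * aa i + cc k (i + 1)) ≤
    gSeq (k + 1) * aa (i + 1) / (1 - aa 0) + cc k (i + 1)

/-- (R2) [984] growth: `g_{k+2} ≥ (1 + a_1) g_{k+1}`, hence `Ysc B k ≥ (1+a_1)^(l-k) Ysc B l`. -/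
def StmtR2 : Prop := ∀ (B : ℝ), 0 < B → ∀ k l : ℕ, k ≤ l →
  (1 + aa 0) ^ (l - k) * Ysc B l ≤ Ysc B k

/-- (R3) [984] total slack: `(k+1) Δ_k ≤ B (C Ysc^{-1/25} ) + (k+1) Δ`. -/
def StmtR3 : Prop := ∃ C : ℝ, 0 < C ∧ ∀ (B Δ : ℝ), 0 < B → 0 ≤ Δ → ∀ k : ℕ,
  ((k : ℝ) + 1) * Del B Δ k ≤ C * B * Ysc B k ^ (-(1 / 25) : ℝ) + ((k : ℝ) + 1) * Δ

/-- (R4) [984] comparison of `ψ_k(0)` on consecutive levels, when `8 (k+1) Δ_{k+1} ≤ B`. -/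
def StmtR4 : Prop := ∀ (B Δ : ℝ), 0 < B → 0 ≤ Δ → ∀ k : ℕ,
  8 * ((k : ℝ) + 1) * Del B Δ (k + 1) ≤ B →
    psiP B Δ k 0 ≤ 8 / Ysc B k * psiP B Δ (k + 1) 0 ∧
    psiM B Δ k 0 ≤ 8 / Ysc B k * psiM B Δ (k + 1) 0 ∧
    psiP B Δ k 0 ≤ 2 * psiM B Δ k 0 ∧ psiM B Δ k 0 ≤ psiP B Δ k 0 ∧
    scaleAt B k ≤ psiP B Δ k 0 ∧ psiP B Δ k 0 ≤ 2 * scaleAt B k

/-- (R5) [990] admissibility of `ψ_k^±` with coefficients `s c^{(k)}`, `1 ≤ s ≤ 2`. -/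
def StmtR5 : Prop := ∀ (B Δ : ℝ), 0 < B → 0 ≤ Δ → ∀ k : ℕ,
  8 * ((k : ℝ) + 1) * Del B Δ k ≤ B → ∀ s : ℝ, 1 ≤ s → s ≤ 2 →
    Adm (Ysc B k) (fun i => s * cc k i) (psiP B Δ k) ∧
    Adm (Ysc B k) (fun i => s * cc k i) (psiM B Δ k)

/-- (R6) [990] the tail integral: `(1/g_{k+1}) ∫_t^∞ ψ_{R,k} = ψ_{R,k+1}(t)`. -/
def StmtR6 : Prop := ∀ (R t : ℝ) (k : ℕ), TI (psi R k) t = gSeq (k + 1) * psi R (k + 1) t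

/-- Weight of the totient `v` (zero if `v` is not a totient). -/
def wv (v : ℕ) : ℝ := by
  classical
  exact if IsTot v then 1 / (v : ℝ) else 0

/-- The limiting height `H(v) = F_h(v)`, `h_j = ∑_i ρ^i a_{i+j}`. -/
def Hv (ρ : ℝ) (v : ℕ) : ℝ := FF (fun i => hSeq ρ (i + 1)) v

/-- `D(η) = ∑_{v totient} e^{-η H(v)} / v`. -/
def DH (ρ η : ℝ) : ℝ := ∑' v : ℕ, wv v * Real.exp (-(η * Hv ρ v))

/-- The approximate profile `A_r(θ) = ∏_{s<r} (z ρ^s) · D(z ρ^r)`, `z = μ e^{-λθ}/λ`. -/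
def Ar (ρ μ : ℝ) (r : ℕ) (θ : ℝ) : ℝ :=
  (∏ s ∈ Finset.range r, zPhase ρ μ θ * ρ ^ s) * DH ρ (zPhase ρ μ θ * ρ ^ r)

/-- (LIM) [881] the limit at the fundamental range: for every fixed `r` and every function
`R(x) ∼ B(x)`. -/
def StmtLim : Prop := ∀ ρ : ℝ, 0 < ρ → ρ < 1 →
  HasSum (fun j : ℕ => aCoef (j + 1) * ρ ^ (j + 1)) 1 →
  ∃ μ : ℝ, 0 < μ ∧
    (∀ r : ℕ, ∃ c₁ c₂ : ℝ, 0 < c₁ ∧ ∀ θ ∈ Set.Ico (0 : ℝ) 1, c₁ ≤ Ar ρ μ r θ ∧ Ar ρ μ r θ ≤ c₂) ∧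
    (∀ r : ℕ, ∀ R : ℝ → ℝ, Tendsto (fun x => R x / bigB x) atTop (𝓝 1) →
      (∀ᶠ x in atTop, Summable fun v => wv v *
        (max 0 (1 - FF (cc (mIndex ρ x - r)) v / R x)) ^ (mIndex ρ x - r)) ∧
      Tendsto (fun x => scaleAt (bigB x) (mIndex ρ x - r) / scaleG ρ x *
        (∑' v, wv v * (max 0 (1 - FF (cc (mIndex ρ x - r)) v / R x)) ^ (mIndex ρ x - r))
        - Ar ρ μ r (phase ρ x)) atTop (𝓝 0)) ∧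
    (∀ r : ℕ, 1 ≤ r → ∃ c₁ c₂ : ℝ, 0 < c₁ ∧ (∀ᶠ x in atTop, c₁ ≤ Ysc (bigB x) (mIndex ρ x - r) ∧
        Ysc (bigB x) (mIndex ρ x - r) ≤ c₂)) ∧
    (∀ Λ : ℝ, ∃ r₀ : ℕ, ∀ r ≥ r₀, ∀ᶠ x in atTop, Λ ≤ Ysc (bigB x) (mIndex ρ x - r))

/-- (REC) [684] abstract recursion. `K` levels `0 ≤ k ≤ K`; `x_k` lower sums, `q_k` dilated sums,
`e_k = ψ_k(0)`. -/
def StmtRec : Prop := ∀ (δ C1 θ : ℝ), 0 < δ → δ ≤ 1 → 0 < C1 → 0 < θ → θ ≤ 1 / 4 →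
  ∀ (K : ℕ) (x q e : ℕ → ℝ),
    (∀ k, 0 ≤ x k) → (∀ k, 0 ≤ q k) → (∀ k, 0 ≤ e k) →
    (∀ k < K, e k ≤ θ * e (k + 1)) →
    (∀ k < K, q k ≤ (1 + δ)⁻¹ * q (k + 1) + C1 * e k) →
    (∀ k, k + 1 < K → x (k + 1) ≤ x k + q (k + 2) + C1 * (e k + e (k + 1))) →
    (∀ k ≤ K, q k ≤ ((1 + δ)⁻¹) ^ (K - k) * (q K + 4 * C1 * θ * e K)) ∧
    (∀ j k, j ≤ k → k < K → x k ≤ x j +
      (1 + δ) / δ * ((1 + δ)⁻¹) ^ (K - (k + 1)) * (q K + 4 * C1 * θ * e K) +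
        4 * C1 * θ ^ (K - k) * e K)

end Crest.Agent.R020
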