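import Crest.Agent.R020.Chain0

/-!
Row 20: the functions `ψ_{R,k}` (R5, R6).
-/

set_option autoImplicit false

open scoped ENNReal Topology
open MeasureTheory Filter Crest.NumberTheoryR.TotientScale

noncomputable section

namespace Crest.Agent.R020

theorem scaleAt_zero' (x : ℝ) : scaleAt x 0 = 1 := by simp [scaleAt]

theorem prod_gSeq_pos (k : ℕ) : 0 < ∏ i ∈ Finset.range k, gSeq (i + 1) :=
  Finset.prod_pos fun i _ => gSeq_pos _

theorem scaleAt_nonneg {x : ℝ} (hx : 0 ≤ x) (k : ℕ) : 0 ≤ scaleAt x k := by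
  unfold scaleAt
  have := prod_gSeq_pos k
  positivity

theorem scaleAt_mono {x y : ℝ} (hx : 0 ≤ x) (hxy : x ≤ y) (k : ℕ) : scaleAt x k ≤ scaleAt y k := by
  unfold scaleAt
  have := prod_gSeq_pos k
  gcongr

theorem psi_nonneg (R : ℝ) (k : ℕ) (t : ℝ) : 0 ≤ psi R k t := by
  unfold psi
  split_ifs with h
  · exact scaleAt_nonneg (by linarith) k
  · exact le_rfl

theorem psi_anti (R : ℝ) (k : ℕ) : Antitone (psi R k) := by
  intro s t hst
  unfold psi
  split_ifs with h1 h2 h2
  · exact scaleAt_mono (by linarith) (by linarith) k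
  · exfalso; linarith
  · exact scaleAt_nonneg (by linarith) k
  · exact le_rfl

theorem psi_mono_R {R R' : ℝ} (h : R ≤ R') (k : ℕ) (t : ℝ) : psi R k t ≤ psi R' k t := by
  unfold psi
  split_ifs with h1 h2 h2
  · exact scaleAt_mono (by linarith) (by linarith) k
  · exfalso; linarith
  · exact scaleAt_nonneg (by linarith) k
  · exact le_rfl

theorem psi_sub (R : ℝ) (k : ℕ) (t s : ℝ) : psi R k (t - s) = psi (R + s) k t := by
  unfold psi
  have h1 : t - s ≤ R ↔ t ≤ R + s := by constructor <;> intro h <;> linarith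
  have h2 : R - (t - s) = R + s - t := by ring
  simp only [h1, h2]

theorem psi_add (R : ℝ) (k : ℕ) (t s : ℝ) : psi R k (t + s) = psi (R - s) k t := by
  have := psi_sub R k t (-s)
  rw [sub_neg_eq_add] at this
  rw [this, sub_eq_add_neg]

theorem psi_zero_arg {R : ℝ} (hR : 0 ≤ R) (k : ℕ) : psi R k 0 = scaleAt R k := by
  unfold psi
  rw [if_pos hR, sub_zero]

theorem psi_eq_indicator (R : ℝ) (k : ℕ) (t : ℝ) :
    (Set.Ioi t).indicator (psi R k) = (Set.Ioc t R).indicator (fun u => scaleAt (R - u) k) := by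
  funext u
  by_cases h1 : t < u
  · by_cases h2 : u ≤ R
    · rw [Set.indicator_of_mem (by exact h1), Set.indicator_of_mem (by exact ⟨h1, h2⟩)]
      unfold psi
      rw [if_pos h2]
    · rw [Set.indicator_of_mem (by exact h1), Set.indicator_of_notMem (by simp [h2])]
      unfold psi
      rw [if_neg h2]
  · rw [Set.indicator_of_notMem (by simpa using h1), Set.indicator_of_notMem (by simp [h1])]

theorem continuous_scaleAt (R : ℝ) (k : ℕ) : Continuous fun u : ℝ => scaleAt (R - u) k := by
  unfold scaleAt
  fun_prop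

theorem psi_integrable (R : ℝ) (k : ℕ) (t : ℝ) : IntegrableOn (psi R k) (Set.Ioi t) := by
  rw [← integrable_indicator_iff measurableSet_Ioi, psi_eq_indicator,
    integrable_indicator_iff measurableSet_Ioc]
  exact ((continuous_scaleAt R k).integrableOn_Icc (a := t) (b := R)).mono_set Set.Ioc_subset_Icc_self

theorem stmtR6 : StmtR6 := by
  intro R t k
  have h0 : TI (psi R k) t = ∫ u in Set.Ioc t R, scaleAt (R - u) k := by
    unfold TI
    rw [← integral_indicator measurableSet_Ioi, psi_eq_indicator,
      integral_indicator measurableSet_Ioc]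
  rw [h0]
  rcases le_or_gt R t with h | h
  · rw [Set.Ioc_eq_empty (by simpa using h)]
    simp only [Measure.restrict_empty, integral_zero_measure]
    unfold psi
    split_ifs with h2
    · have : R - t = 0 := by linarith
      rw [this]
      unfold scaleAt
      simp
    · simp
  · rw [← intervalIntegral.integral_of_le h.le]
    unfold psi
    rw [if_pos h.le]
    unfold scaleAt
    have h1 : ∫ u in t..R, (R - u) ^ k / ((Nat.factorial k : ℝ) * ∏ i ∈ Finset.range k, gSeq (i + 1))
        = (R - t) ^ (k + 1) / ((k : ℝ) + 1) /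
          ((Nat.factorial k : ℝ) * ∏ i ∈ Finset.range k, gSeq (i + 1)) := by
      rw [intervalIntegral.integral_div]
      congr 1
      rw [intervalIntegral.integral_comp_sub_left (fun x => x ^ k) R]
      rw [integral_pow]
      simp
    rw [h1, Finset.prod_range_succ, Nat.factorial_succ]
    have h3 := (gSeq_pos (k + 1)).ne'
    have h4 := (prod_gSeq_pos k).ne'
    push_cast
    field_simp

/-- `(1 - x)_+^k ≤ exp (-k x)` in the form needed here. -/
theorem scaleAt_sub_le {R t : ℝ} (hR : 0 < R) (ht : 0 ≤ t) (htR : t ≤ R) (k : ℕ) :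
    scaleAt (R - t) k ≤ scaleAt R k * Real.exp (-(k * (t / R))) := by
  unfold scaleAt
  rw [div_mul_eq_mul_div]
  have hP := prod_gSeq_pos k
  apply div_le_div_of_nonneg_right _ (by positivity)
  have h1 : R - t = R * (1 - t / R) := by field_simp
  rw [h1, mul_pow]
  apply mul_le_mul_of_nonneg_left _ (by positivity)
  have h2 : 1 - t / R ≤ Real.exp (-(t / R)) := by
    have := Real.add_one_le_exp (-(t / R))
    linarith
  have h3 : 0 ≤ 1 - t / R := by
    rw [sub_nonneg, div_le_one hR]
    exact htR
  calc (1 - t / R) ^ k ≤ (Real.exp (-(t / R))) ^ k := pow_le_pow_left₀ h3 h2 k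
    _ = Real.exp (-(k * (t / R))) := by
      rw [← Real.exp_nat_mul]
      ring_nf

theorem psi_le_exp {R t : ℝ} (hR : 0 < R) (ht : 0 ≤ t) (k : ℕ) :
    psi R k t ≤ psi R k 0 * Real.exp (-(k * (t / R))) := by
  rw [psi_zero_arg hR.le]
  unfold psi
  split_ifs with h
  · exact scaleAt_sub_le hR ht h k
  · exact mul_nonneg (scaleAt_nonneg hR.le k) (Real.exp_pos _).le

theorem psi_adm {B R : ℝ} (hB : 0 < B) (hR0 : 0 < R) (hR : R ≤ 9 / 8 * B) (k : ℕ) {s : ℝ}
    (hs1 : 1 ≤ s) : Adm (Ysc B k) (fun i => s * cc k i) (psi R k) where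
  c_pos := mul_pos (by linarith) (cc_pos k 0)
  c_nonneg := fun i => (mul_pos (by linarith) (cc_pos k i)).le
  anti := psi_anti R k
  nonneg := psi_nonneg R k
  integrable := psi_integrable R k
  decay := by
    intro y hy
    have hg := gSeq_pos (k + 1)
    have hc : 0 ≤ s * cc k 0 * y := by
      have := cc_pos k 0
      positivity
    rcases Nat.eq_zero_or_pos k with rfl | hk
    · -- level 0: indicator
      have h0 : psi R 0 0 = 1 := by rw [psi_zero_arg hR0.le, scaleAt_zero']
      rw [h0]
      unfold psi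
      split_ifs with h
      · rw [scaleAt_zero']
        have h1 : y * gSeq 1 ≤ R := by
          rw [cc_first] at h
          have : gSeq 1 * y ≤ s * (gSeq 1 * y) := by
            have h2 : 0 ≤ gSeq 1 * y := mul_nonneg hg.le hy
            nlinarith
          have h3 : s * gSeq (0 + 1) * y = s * (gSeq 1 * y) := by ring
          rw [h3] at h
          linarith
        have h2 : y / Ysc B 0 ≤ 9 / 32 := by
          unfold Ysc
          rw [div_div_eq_mul_div, div_le_iff₀ (by positivity)]
          push_cast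
          nlinarith
        have h3 : (1 : ℝ) / 3 ≤ Real.exp (-y / Ysc B 0) := by
          have h4 := Real.add_one_le_exp (-y / Ysc B 0)
          have h5 : -y / Ysc B 0 = -(y / Ysc B 0) := by ring
          rw [h5] at h4 ⊢
          linarith
        linarith
      · positivity
    · have h1 := psi_le_exp hR0 hc k
      have h2 : Real.exp (-(k * (s * cc k 0 * y / R))) ≤ Real.exp (-y / Ysc B k) := by
        apply Real.exp_le_exp.mpr
        have hk1 : (1 : ℝ) ≤ k := by exact_mod_cast hk
        have h3 : y / Ysc B k ≤ k * (s * cc k 0 * y / R) := by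
          rw [cc_first]
          unfold Ysc
          rw [div_div_eq_mul_div]
          have e1 : (k : ℝ) * (s * gSeq (k + 1) * y / R) = (k * s * gSeq (k + 1) * y) / R := by ring
          rw [e1, div_le_div_iff₀ (by positivity) hR0]
          have h4 : 0 ≤ y * gSeq (k + 1) := mul_nonneg hy hg.le
          have h5 : ((k : ℝ) + 1) * R ≤ 4 * B * (k * s) := by
            have h6 : ((k : ℝ) + 1) * R ≤ (2 * k) * (9 / 8 * B) := by
              apply mul_le_mul (by linarith) hR hR0.le (by positivity)
            have h7 : (k : ℝ) * 1 ≤ k * s := mul_le_mul_of_nonneg_left hs1 (by positivity)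
            nlinarith
          nlinarith
        have h4 : -y / Ysc B k = -(y / Ysc B k) := by ring
        rw [h4]
        linarith
      have h0 : 0 ≤ psi R k 0 := psi_nonneg R k 0
      have h3 : psi R k 0 * Real.exp (-(k * (s * cc k 0 * y / R))) ≤
          psi R k 0 * Real.exp (-y / Ysc B k) := mul_le_mul_of_nonneg_left h2 h0
      have h4 : 0 ≤ psi R k 0 * Real.exp (-y / Ysc B k) := mul_nonneg h0 (Real.exp_pos _).le
      linarith

theorem Del_nonneg {B Δ : ℝ} (hB : 0 ≤ B) (hΔ : 0 ≤ Δ) (k : ℕ) : 0 ≤ Del B Δ k := by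
  unfold Del
  apply add_nonneg hΔ
  apply Finset.sum_nonneg
  intro i _
  have hg := gSeq_pos (i + 1)
  have : 0 ≤ Ysc B i := by unfold Ysc; positivity
  positivity

theorem stmtR5 : StmtR5 := by
  intro B Δ hB hΔ k hk s hs1 _
  have hD := Del_nonneg hB.le hΔ k
  have h8 : 8 * Del B Δ k ≤ B := by
    have h1 : 8 * 1 * Del B Δ k ≤ 8 * ((k : ℝ) + 1) * Del B Δ k := by
      apply mul_le_mul_of_nonneg_right _ hD
      have : (0 : ℝ) ≤ k := Nat.cast_nonneg k
      linarith
    linarith
  exact ⟨psi_adm hB (by linarith) (by linarith) k hs1,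
    psi_adm hB (by linarith) (by linarith) k hs1⟩

end Crest.Agent.R020
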