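import Mathlib
import Crest.Prelude.Def_TotientScale
import Crest.Agent.R020.RenewalG

/-!
Row 20 (helper984): real-analytic lemmas for the chain.
-/

set_option autoImplicit false

noncomputable section

open Finset Filter Topology
open Crest.NumberTheoryR.TotientScale

namespace Crest.Agent.R020

/-- `a_j = ∫_0^1 log (j + t) dt`. -/
theorem aCoef_eq_integral (j : ℕ) : aCoef j = ∫ t in (0:ℝ)..1, Real.log ((j:ℝ) + t) := by
  rw [intervalIntegral.integral_comp_add_left (fun x => Real.log x) (j:ℝ), integral_log]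
  rw [aCoef]
  ring_nf

theorem intervalIntegrable_log_add {j : ℕ} (hj : 1 ≤ j) :
    IntervalIntegrable (fun t : ℝ => Real.log ((j:ℝ) + t)) MeasureTheory.volume 0 1 := by
  apply ContinuousOn.intervalIntegrable
  apply ContinuousOn.log (by fun_prop)
  intro t ht
  rw [Set.uIcc_of_le zero_le_one] at ht
  have : (1:ℝ) ≤ j := by exact_mod_cast hj
  have := ht.1
  linarith

/-- Concavity of `j ↦ a_j`. -/
theorem aCoef_sub_le {s : ℕ} (hs : 1 ≤ s) (j : ℕ) :
    aCoef (s + j) - aCoef s ≤ aCoef (1 + j) - aCoef 1 := by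
  rw [aCoef_eq_integral, aCoef_eq_integral, aCoef_eq_integral, aCoef_eq_integral,
    ← intervalIntegral.integral_sub (intervalIntegrable_log_add (by omega))
      (intervalIntegrable_log_add hs),
    ← intervalIntegral.integral_sub (intervalIntegrable_log_add (by omega))
      (intervalIntegrable_log_add le_rfl)]
  apply intervalIntegral.integral_mono_on zero_le_one
  · exact (intervalIntegrable_log_add (by omega)).sub (intervalIntegrable_log_add hs)
  · exact (intervalIntegrable_log_add (by omega)).sub (intervalIntegrable_log_add le_rfl)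
  intro t ht
  have hs' : (1:ℝ) ≤ s := by exact_mod_cast hs
  have ht0 := ht.1
  have hj : (0:ℝ) ≤ j := Nat.cast_nonneg j
  push_cast
  rw [← Real.log_div (by positivity) (by positivity), ← Real.log_div (by positivity) (by positivity)]
  apply Real.log_le_log (by positivity)
  rw [div_le_div_iff₀ (by positivity) (by positivity)]
  nlinarith [mul_nonneg hj (sub_nonneg.2 hs')]

/-- `a_{s+j} a_1 ≤ a_{1+j} a_s`. -/
theorem aCoef_add_mul_le {s : ℕ} (hs : 1 ≤ s) (j : ℕ) :
    aCoef (s + j) * aCoef 1 ≤ aCoef (1 + j) * aCoef s := by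
  have h1 := aCoef_sub_le hs j
  have h2 : aCoef 1 ≤ aCoef s := aCoef_mono le_rfl hs
  have h3 := aCoef_one_pos
  have h4 : aCoef 1 ≤ aCoef (1 + j) := aCoef_mono le_rfl (by omega)
  nlinarith [mul_nonneg (sub_nonneg.2 h4) (sub_nonneg.2 h2), mul_le_mul_of_nonneg_right h1 h3.le]

/-- `a_1 c^{(k)}_{j+1} ≤ g_{k+1} a_{j+1}`. -/
theorem cSeq_mul_le (k j : ℕ) : cSeq k (j + 1) * aCoef 1 ≤ gSeq (k + 1) * aCoef (j + 1) := by
  have h1 : cSeq k (j + 1) * aCoef 1 ≤ cSeq k 1 * aCoef (j + 1) := by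
    rw [cSeq, cSeq, Finset.sum_mul, Finset.sum_mul]
    refine Finset.sum_le_sum fun i hi => ?_
    have hi' : i ≤ k := by simpa [Nat.lt_succ_iff] using hi
    rw [mul_assoc, mul_assoc]
    refine mul_le_mul_of_nonneg_left ?_ (gSeq_pos i).le
    have := aCoef_add_mul_le (s := k + 1 - i) (by omega) j
    rw [show k + (j + 1) - i = (k + 1 - i) + j by omega, show j + 1 = 1 + j by omega]
    linarith
  rwa [cSeq_one] at h1

/-- The coefficient inequality behind the ordering violations: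
`(1+δ) c^{(k+1)}_{j} ≤ g_{k+1} a_{j+1} / (1-a_1) + c^{(k)}_{j+1}` for `δ ≤ 1/10`. -/
theorem cSeq_violation {δ : ℝ} (hδ : δ ≤ 1 / 10) (k j : ℕ) (hj : 1 ≤ j) :
    (1 + δ) * cSeq (k + 1) j ≤ gSeq (k + 1) * (aCoef (j + 1) / (1 - aCoef 1)) + cSeq k (j + 1) := by
  rw [cSeq_succ]
  have hg := gSeq_pos (k + 1)
  have h1 := cSeq_mul_le k j
  have hc := cSeq_pos k (j + 1) (by omega)
  have ha := aCoef_pos (j + 1) (by omega)
  have ha' := aCoef_pos j hj
  have hm : aCoef j ≤ aCoef (j + 1) := aCoef_mono hj (by omega)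
  have ha1 := aCoef_one
  have l1 := Real.log_two_gt_d9
  have l2 := Real.log_two_lt_d9
  have hb1 : (386:ℝ) / 1000 ≤ aCoef 1 := by rw [ha1]; linarith
  have hb2 : aCoef 1 ≤ 387 / 1000 := by rw [ha1]; linarith
  have h3 : (16:ℝ) / 10 * aCoef (j + 1) ≤ aCoef (j + 1) / (1 - aCoef 1) := by
    rw [le_div_iff₀ (by linarith)]
    nlinarith
  have h4 : cSeq k (j + 1) ≤ 3 * (gSeq (k + 1) * aCoef (j + 1)) := by
    nlinarith [mul_pos hg ha]
  have h5 : gSeq (k + 1) * (16 / 10 * aCoef (j + 1)) ≤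
      gSeq (k + 1) * (aCoef (j + 1) / (1 - aCoef 1)) := mul_le_mul_of_nonneg_left h3 hg.le
  have h6 : gSeq (k + 1) * aCoef j ≤ gSeq (k + 1) * aCoef (j + 1) :=
    mul_le_mul_of_nonneg_left hm hg.le
  have h7 : 0 ≤ gSeq (k + 1) * aCoef j := (mul_pos hg ha').le
  nlinarith [mul_nonneg (sub_nonneg.2 hδ) hc.le, mul_nonneg (sub_nonneg.2 hδ) h7]

end Crest.Agent.R020
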