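import Mathlib
import Crest.Prelude.Def_TotientScale
import Crest.Agent.R020.RenewalG
import Crest.Agent.R020.Chain0
import Crest.Agent.R020.ChainReal

/-!
Row 20 (helper984): the real-analytic inputs `StmtR1`, …, `StmtR4` of the chain.
-/

set_option autoImplicit false

noncomputable section

open Finset Filter Topology
open Crest.NumberTheoryR.TotientScale

namespace Crest.Agent.R020.CR2

/-- (R1). -/
theorem stmtR1 : StmtR1 := by
  refine ⟨1 / 100, by norm_num, le_rfl, fun k i => ?_⟩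
  have h := cSeq_violation (δ := 1 / 100) (by norm_num) k (i + 1) (by omega)
  rw [cSeq_succ] at h
  unfold cc aa
  rw [mul_div_assoc]
  exact h

/-- `(1 + a_1) g_{k+1} ≤ g_{k+2}`. -/
theorem gSeq_growthR (k : ℕ) : (1 + aCoef 1) * gSeq (k + 1) ≤ gSeq (k + 2) := by
  have h1 : gSeq (k + 2) = ∑ d ∈ range (k + 2), aCoef (d + 1) * gSeq (k + 1 - d) := gSeq_succ (k + 1)
  rw [h1, Finset.sum_range_succ']
  have h2 : gSeq (k + 1) = ∑ d ∈ range (k + 1), aCoef (d + 1) * gSeq (k - d) := gSeq_succ k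
  have h3 : ∑ d ∈ range (k + 1), aCoef (d + 1) * gSeq (k - d) ≤
      ∑ d ∈ range (k + 1), aCoef (d + 1 + 1) * gSeq (k + 1 - (d + 1)) := by
    refine Finset.sum_le_sum fun d _ => ?_
    rw [show k + 1 - (d + 1) = k - d by omega]
    exact mul_le_mul_of_nonneg_right (aCoef_mono (by omega) (by omega)) (gSeq_pos _).le
  simp only [Nat.sub_zero, zero_add] at h3 ⊢
  nlinarith

theorem gSeq_growthR_pow (k s : ℕ) : (1 + aCoef 1) ^ s * gSeq (k + 1) ≤ gSeq (k + s + 1) := by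
  induction s with
  | zero => simp
  | succ s ih =>
    have h1 := gSeq_growthR (k + s)
    have h2 := aCoef_one_pos
    calc (1 + aCoef 1) ^ (s + 1) * gSeq (k + 1)
        = (1 + aCoef 1) * ((1 + aCoef 1) ^ s * gSeq (k + 1)) := by ring
      _ ≤ (1 + aCoef 1) * gSeq (k + s + 1) := mul_le_mul_of_nonneg_left ih (by linarith)
      _ ≤ gSeq (k + s + 2) := h1
      _ = gSeq (k + (s + 1) + 1) := by ring_nf

theorem Ysc_posR {B : ℝ} (hB : 0 < B) (k : ℕ) : 0 < Ysc B k := by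
  have := gSeq_pos (k + 1)
  unfold Ysc
  positivity

/-- `(1+a_1)^s Ys_{k+s} ≤ Ys_k`. -/
theorem Ysc_growthR {B : ℝ} (hB : 0 < B) (k s : ℕ) :
    (1 + aCoef 1) ^ s * Ysc B (k + s) ≤ Ysc B k := by
  have h1 := gSeq_growthR_pow k s
  have h2 := gSeq_pos (k + 1)
  have h3 := gSeq_pos (k + s + 1)
  have h4 := aCoef_one_pos
  unfold Ysc
  rw [← mul_div_assoc, div_le_div_iff₀ (by positivity) (by positivity)]
  push_cast
  have h5 : ((1 + aCoef 1) ^ s * gSeq (k + 1)) * ((k:ℝ) + 1) ≤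
      gSeq (k + s + 1) * ((k:ℝ) + s + 1) := by
    apply mul_le_mul h1 (by linarith [(Nat.cast_nonneg s : (0:ℝ) ≤ s)]) (by positivity) h3.le
  nlinarith [mul_le_mul_of_nonneg_left h5 (by positivity : (0:ℝ) ≤ 4 * B)]

/-- (R2). -/
theorem stmtR2 : StmtR2 := by
  intro B hB k l hkl
  obtain ⟨s, rfl⟩ := Nat.exists_eq_add_of_le hkl
  have := Ysc_growthR hB k s
  rw [show k + s - k = s by omega]
  exact this

/-- The margins: `(k+1) ∑_{i<k} g_{i+1} Ys_i^{24/25} ≤ C B Ys_k^{-1/25}`. -/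
theorem exists_margin_le : ∃ C : ℝ, 0 < C ∧ ∀ B : ℝ, 0 < B → ∀ k : ℕ,
    ((k:ℝ) + 1) * ∑ i ∈ range k, gSeq (i + 1) * Ysc B i ^ (24 / 25 : ℝ) ≤
      C * B * Ysc B k ^ (-(1 / 25) : ℝ) := by
  set q : ℝ := (1 + aCoef 1) ^ (-(1 / 25) : ℝ) with hq
  have ha := aCoef_one_pos
  have hq0 : 0 < q := Real.rpow_pos_of_pos (by linarith) _
  have hq1 : q < 1 := Real.rpow_lt_one_of_one_lt_of_neg (by linarith) (by norm_num)
  have hsum : Summable fun s : ℕ => (1 + (s:ℝ)) * q ^ s := by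
    have h1 : Summable fun s : ℕ => (s:ℝ) * q ^ s := by
      have := summable_pow_mul_geometric_of_norm_lt_one 1 (r := q)
        (by rw [Real.norm_of_nonneg hq0.le]; exact hq1)
      simpa using this
    have h2 : Summable fun s : ℕ => q ^ s := summable_geometric_of_lt_one hq0.le hq1
    refine (h2.add h1).congr fun s => ?_
    ring
  refine ⟨4 * (∑' s : ℕ, (1 + (s:ℝ)) * q ^ s) + 1, ?_, fun B hB k => ?_⟩
  · have : 0 ≤ ∑' s : ℕ, (1 + (s:ℝ)) * q ^ s := tsum_nonneg fun s => by positivity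
    linarith
  have hYk := Ysc_posR hB k
  have hterm : ∀ i ∈ range k, ((k:ℝ) + 1) * (gSeq (i + 1) * Ysc B i ^ (24 / 25 : ℝ)) ≤
      4 * B * Ysc B k ^ (-(1 / 25) : ℝ) * ((1 + ((k - i : ℕ):ℝ)) * q ^ (k - i)) := by
    intro i hi
    have hik : i < k := Finset.mem_range.1 hi
    obtain ⟨s, rfl⟩ := Nat.exists_eq_add_of_le hik.le
    have hYi := Ysc_posR hB i
    have hg := gSeq_pos (i + 1)
    have e1 : Ysc B i ^ (24 / 25 : ℝ) = Ysc B i * Ysc B i ^ (-(1 / 25) : ℝ) := by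
      nth_rewrite 2 [← Real.rpow_one (Ysc B i)]
      rw [← Real.rpow_add hYi]
      norm_num
    have e2 : gSeq (i + 1) * Ysc B i = 4 * B / ((i:ℝ) + 1) := by
      unfold Ysc
      field_simp
    have e3 : Ysc B i ^ (-(1 / 25) : ℝ) ≤ q ^ s * Ysc B (i + s) ^ (-(1 / 25) : ℝ) := by
      have h1 := Ysc_growthR hB i s
      have h2 : Ysc B i ^ (-(1 / 25) : ℝ) ≤
          ((1 + aCoef 1) ^ s * Ysc B (i + s)) ^ (-(1 / 25) : ℝ) :=
        Real.rpow_le_rpow_of_nonpos (mul_pos (by positivity) hYk) h1 (by norm_num)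
      refine h2.trans (le_of_eq ?_)
      rw [Real.mul_rpow (by positivity) hYk.le, hq, ← Real.rpow_natCast, ← Real.rpow_natCast,
        ← Real.rpow_mul (by linarith), ← Real.rpow_mul (by linarith)]
      congr 2
      ring
    rw [show i + s - i = s by omega]
    have e4 : ((i + s : ℕ):ℝ) + 1 ≤ (1 + (s:ℝ)) * ((i:ℝ) + 1) := by
      push_cast
      nlinarith [mul_nonneg (Nat.cast_nonneg s : (0:ℝ) ≤ s) (Nat.cast_nonneg i : (0:ℝ) ≤ i)]
    calc (((i + s : ℕ):ℝ) + 1) * (gSeq (i + 1) * Ysc B i ^ (24 / 25 : ℝ))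
        = (((i + s : ℕ):ℝ) + 1) * ((gSeq (i + 1) * Ysc B i) * Ysc B i ^ (-(1 / 25) : ℝ)) := by
          rw [e1]; ring
      _ = ((((i + s : ℕ):ℝ) + 1) / ((i:ℝ) + 1)) * (4 * B) * Ysc B i ^ (-(1 / 25) : ℝ) := by
          rw [e2]; ring
      _ ≤ (1 + (s:ℝ)) * (4 * B) * (q ^ s * Ysc B (i + s) ^ (-(1 / 25) : ℝ)) := by
          have hp : (0:ℝ) < (i:ℝ) + 1 := by positivity
          have h5 : ((((i + s : ℕ):ℝ) + 1) / ((i:ℝ) + 1)) ≤ 1 + (s:ℝ) := by
            rw [div_le_iff₀ hp]; exact e4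
          refine mul_le_mul ?_ e3 (Real.rpow_nonneg hYi.le _) (by positivity)
          exact mul_le_mul_of_nonneg_right h5 (by positivity)
      _ = _ := by ring
  rw [Finset.mul_sum]
  refine (Finset.sum_le_sum hterm).trans ?_
  rw [← Finset.mul_sum]
  have h6 : ∑ i ∈ range k, (1 + ((k - i : ℕ):ℝ)) * q ^ (k - i) ≤ ∑' s : ℕ, (1 + (s:ℝ)) * q ^ s := by
    have h7 : ∑ i ∈ range k, (1 + ((k - i : ℕ):ℝ)) * q ^ (k - i) =
        ∑ s ∈ (range k).image (fun i => k - i), (1 + (s:ℝ)) * q ^ s := by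
      rw [Finset.sum_image]
      intro a ha b hb hab
      have ha' := Finset.mem_range.1 (Finset.mem_coe.1 ha)
      have hb' := Finset.mem_range.1 (Finset.mem_coe.1 hb)
      simp only at hab
      omega
    rw [h7]
    exact hsum.sum_le_tsum _ fun s _ => by positivity
  have h8 : 0 ≤ B * Ysc B k ^ (-(1 / 25) : ℝ) := mul_nonneg hB.le (Real.rpow_nonneg hYk.le _)
  nlinarith [mul_le_mul_of_nonneg_left h6 h8]

/-- (R3). -/
theorem stmtR3 : StmtR3 := by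
  obtain ⟨C, hC, h⟩ := exists_margin_le
  refine ⟨8 * C, by positivity, fun B Δ hB hΔ k => ?_⟩
  have h1 := h B hB k
  have h2 : ∑ i ∈ range k, 8 * gSeq (i + 1) * Ysc B i ^ (24 / 25 : ℝ) =
      8 * ∑ i ∈ range k, gSeq (i + 1) * Ysc B i ^ (24 / 25 : ℝ) := by
    rw [Finset.mul_sum]
    exact Finset.sum_congr rfl fun i _ => by ring
  unfold Del
  rw [h2]
  nlinarith

theorem Del_nonneg {B Δ : ℝ} (hB : 0 < B) (hΔ : 0 ≤ Δ) (k : ℕ) : 0 ≤ Del B Δ k := by
  unfold Del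
  have h : 0 ≤ ∑ i ∈ range k, 8 * gSeq (i + 1) * Ysc B i ^ (24 / 25 : ℝ) :=
    Finset.sum_nonneg fun i _ => mul_nonneg (mul_nonneg (by norm_num) (gSeq_pos _).le)
      (Real.rpow_nonneg (Ysc_posR hB i).le _)
  linarith

theorem Del_le_succ {B Δ : ℝ} (hB : 0 < B) (k : ℕ) : Del B Δ k ≤ Del B Δ (k + 1) := by
  rw [Del_succ]
  have := mul_nonneg (mul_nonneg (by norm_num : (0:ℝ) ≤ 8) (gSeq_pos (k + 1)).le)
      (Real.rpow_nonneg (Ysc_posR hB k).le (24 / 25 : ℝ))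
  linarith

theorem Del_mono {B Δ : ℝ} (hB : 0 < B) {i k : ℕ} (hik : i ≤ k) : Del B Δ i ≤ Del B Δ k := by
  induction hik with
  | refl => exact le_rfl
  | step _ ih => exact ih.trans (Del_le_succ hB _)

/-- the constant in `scaleAt R k = R^k * sc k`. -/
theorem scaleAt_eq_mul (R : ℝ) (k : ℕ) : scaleAt R k = R ^ k * scaleAt 1 k := by
  unfold scaleAt
  rw [one_pow]
  ring

theorem scaleAt_mono {R R' : ℝ} (h0 : 0 ≤ R) (h : R ≤ R') (k : ℕ) : scaleAt R k ≤ scaleAt R' k := by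
  rw [scaleAt_eq_mul R, scaleAt_eq_mul R']
  exact mul_le_mul_of_nonneg_right (pow_le_pow_left₀ h0 h k) (scaleAt_pos one_pos k).le

theorem psi_zero_eq {R : ℝ} (hR : 0 ≤ R) (k : ℕ) : psi R k 0 = scaleAt R k := by
  unfold psi
  rw [if_pos hR, sub_zero]

/-- Lower Bernoulli: `(7/8) ≤ (1-u)^k` for `8 k u ≤ 1`. -/
theorem one_sub_pow_ge {u : ℝ} (_hu : 0 ≤ u) {k : ℕ} (h : 8 * (k:ℝ) * u ≤ 1) (hu1 : u ≤ 1) :
    7 / 8 ≤ (1 - u) ^ k := by
  have h1 := one_add_mul_le_pow (a := -u) (by linarith) k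
  rw [show (1:ℝ) - u = 1 + -u by ring]
  linarith

/-- Upper: `(1+u)^k ≤ 8/7` for `8 k u ≤ 1`. -/
theorem one_add_pow_le {u : ℝ} (hu : 0 ≤ u) {k : ℕ} (h : 8 * (k:ℝ) * u ≤ 1) (hu1 : u ≤ 1) :
    (1 + u) ^ k ≤ 8 / 7 := by
  have h1 := one_sub_pow_ge hu h hu1
  have h2 : (1 + u) ^ k * (1 - u) ^ k ≤ 1 := by
    rw [← mul_pow]
    exact pow_le_one₀ (by nlinarith) (by nlinarith)
  have h3 : 0 ≤ (1 + u) ^ k := by positivity
  nlinarith

/-- (R4). -/
theorem stmtR4 : StmtR4 := by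
  intro B Δ hB hΔ k hk
  have hD0 := Del_nonneg hB hΔ k
  have hD1 := Del_nonneg hB hΔ (k + 1)
  have hDD := Del_le_succ (Δ := Δ) hB k
  have hk0 : (0:ℝ) ≤ k := Nat.cast_nonneg k
  have hDB : Del B Δ (k + 1) ≤ B := by nlinarith
  set D0 := Del B Δ k with hD0def
  set D1 := Del B Δ (k + 1) with hD1def
  have hg := gSeq_pos (k + 1)
  have hs := scaleAt_pos one_pos k
  have hY := Ysc_posR hB k
  have eP0 : psiP B Δ k 0 = scaleAt (B + D0) k := psi_zero_eq (by linarith) k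
  have eM0 : psiM B Δ k 0 = scaleAt (B - D0) k := psi_zero_eq (by linarith) k
  have eP1 : psiP B Δ (k + 1) 0 = scaleAt (B + D1) (k + 1) := psi_zero_eq (by linarith) (k + 1)
  have eM1 : psiM B Δ (k + 1) 0 = scaleAt (B - D1) (k + 1) := psi_zero_eq (by linarith) (k + 1)
  -- `8 / Ysc * scaleAt R (k+1) = 2 R / B * scaleAt R k`
  have key : ∀ R : ℝ, 8 / Ysc B k * scaleAt R (k + 1) = 2 * (R / B) * scaleAt R k := by
    intro R
    rw [scaleAt_succ]
    unfold Ysc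
    field_simp
    ring
  -- u's
  set u0 := D0 / B with hu0
  set u1 := D1 / B with hu1
  have hu0n : 0 ≤ u0 := div_nonneg hD0 hB.le
  have hu1n : 0 ≤ u1 := div_nonneg hD1 hB.le
  have hu01 : u0 ≤ u1 := div_le_div_of_nonneg_right hDD hB.le
  have h8 : 8 * ((k:ℝ) + 1) * u1 ≤ 1 := by
    rw [hu1, ← mul_div_assoc, div_le_one hB]
    exact hk
  have hu1le : u1 ≤ 1 := by nlinarith
  have h80 : 8 * (k:ℝ) * u0 ≤ 1 := by nlinarith [mul_nonneg hk0 hu0n, mul_nonneg hk0 hu1n]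
  have h81 : 8 * (k:ℝ) * u1 ≤ 1 := by nlinarith
  have eD0 : B + D0 = B * (1 + u0) := by rw [hu0]; field_simp
  have eD0' : B - D0 = B * (1 - u0) := by rw [hu0]; field_simp
  have eD1' : B - D1 = B * (1 - u1) := by rw [hu1]; field_simp
  have hsB := scaleAt_pos hB k
  have e1 : scaleAt (B + D0) k = (1 + u0) ^ k * scaleAt B k := by
    rw [scaleAt_eq_mul (B + D0), scaleAt_eq_mul B, eD0, mul_pow]; ring
  have e2 : scaleAt (B - D0) k = (1 - u0) ^ k * scaleAt B k := by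
    rw [scaleAt_eq_mul (B - D0), scaleAt_eq_mul B, eD0', mul_pow]; ring
  have e3 : scaleAt (B - D1) k = (1 - u1) ^ k * scaleAt B k := by
    rw [scaleAt_eq_mul (B - D1), scaleAt_eq_mul B, eD1', mul_pow]; ring
  have b1 := one_add_pow_le hu0n h80 (hu01.trans hu1le)
  have b2 := one_sub_pow_ge hu0n h80 (hu01.trans hu1le)
  have b3 := one_sub_pow_ge hu1n h81 hu1le
  have b4 : (1 - u0) ^ k ≤ 1 := pow_le_one₀ (by linarith) (by linarith)
  have b5 : 1 ≤ (1 + u0) ^ k := one_le_pow₀ (by linarith)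
  refine ⟨?_, ?_, ?_, ?_, ?_, ?_⟩
  · rw [eP0, eP1, key]
    have h1 : scaleAt (B + D0) k ≤ scaleAt (B + D1) k := scaleAt_mono (by linarith) (by linarith) k
    have h2 : 1 ≤ (B + D1) / B := by rw [le_div_iff₀ hB]; linarith
    have h3 := scaleAt_pos (show 0 < B + D1 by linarith) k
    nlinarith [mul_le_mul_of_nonneg_right h2 h3.le]
  · rw [eM0, eM1, key, e2, e3]
    have h2 : (B - D1) / B = 1 - u1 := by rw [eD1']; field_simp
    rw [h2]
    have h3 : (7:ℝ) / 8 ≤ 1 - u1 := by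
      have := mul_nonneg hk0 hu1n
      linarith
    have h4 : (1:ℝ) ≤ 2 * (1 - u1) * (1 - u1) ^ k := by
      have := mul_le_mul h3 b3 (by norm_num) (by linarith)
      rw [mul_assoc]
      linarith
    calc (1 - u0) ^ k * scaleAt B k ≤ (2 * (1 - u1) * (1 - u1) ^ k) * scaleAt B k :=
          mul_le_mul_of_nonneg_right (b4.trans h4) hsB.le
      _ = _ := by ring
  · rw [eP0, eM0, e1, e2]
    have c1 := mul_le_mul_of_nonneg_right b1 hsB.le
    have c2 := mul_le_mul_of_nonneg_right b2 hsB.le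
    linarith
  · rw [eP0, eM0, e1, e2]
    exact mul_le_mul_of_nonneg_right (b4.trans b5) hsB.le
  · rw [eP0, e1]
    have c1 := mul_le_mul_of_nonneg_right b5 hsB.le
    linarith
  · rw [eP0, e1]
    have c1 := mul_le_mul_of_nonneg_right b1 hsB.le
    linarith

end Crest.Agent.R020.CR2

namespace Crest.Agent.R020

/-- (R1). -/
theorem stmtR1 : StmtR1 := CR2.stmtR1
/-- (R2). -/
theorem stmtR2 : StmtR2 := CR2.stmtR2
/-- (R3). -/
theorem stmtR3 : StmtR3 := CR2.stmtR3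
/-- (R4). -/
theorem stmtR4 : StmtR4 := CR2.stmtR4

end Crest.Agent.R020
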