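import Crest.Agent.R020.Chain0

/-!
Row 20: the abstract recursion of the chain (`StmtRec`).
-/

set_option autoImplicit false

noncomputable section

namespace Crest.Agent.R020

theorem stmtRec : StmtRec := by
  intro δ C1 θ hδ hδ1 hC1 hθ hθ4 K x q e hx hq he hee hqq hxx
  set b : ℝ := (1 + δ)⁻¹ with hb
  have h1δ : (0 : ℝ) < 1 + δ := by linarith
  have hb0 : 0 < b := inv_pos.mpr h1δ
  have hb1 : b * (1 + δ) = 1 := inv_mul_cancel₀ h1δ.ne'
  have hb12 : 1 / 2 ≤ b := by
    rw [hb, le_inv_comm₀ (by norm_num) h1δ]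
    norm_num
    linarith
  have heK : ∀ n ≤ K, e (K - n) ≤ θ ^ n * e K := by
    intro n
    induction n with
    | zero => intro _; simp
    | succ n ih =>
      intro hn
      have h1 := hee (K - (n + 1)) (by omega)
      have h2 : K - (n + 1) + 1 = K - n := by omega
      rw [h2] at h1
      have h3 := ih (by omega)
      calc e (K - (n + 1)) ≤ θ * e (K - n) := h1
        _ ≤ θ * (θ ^ n * e K) := by gcongr
        _ = θ ^ (n + 1) * e K := by ring
  have heK' : ∀ k ≤ K, e k ≤ θ ^ (K - k) * e K := by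
    intro k hk
    have := heK (K - k) (by omega)
    rwa [show K - (K - k) = k by omega] at this
  set M : ℝ := q K + 4 * C1 * θ * e K with hM
  have hM0 : 0 ≤ M := by
    have := hq K
    have := he K
    positivity
  have heK0 : 0 ≤ e K := he K
  have key : ∀ n ≤ K, q (K - n) + 4 * C1 * θ * (θ ^ n * e K) ≤ b ^ n * M := by
    intro n
    induction n with
    | zero => intro _; simp [hM]
    | succ n ih =>
      intro hn
      have h1 := hqq (K - (n + 1)) (by omega)
      have h2 : K - (n + 1) + 1 = K - n := by omega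
      rw [h2] at h1
      have h3 := ih (by omega)
      have h4 := heK (n + 1) hn
      have hT : 0 ≤ θ ^ n * e K := by positivity
      have h5 : b * (q (K - n) + 4 * C1 * θ * (θ ^ n * e K)) ≤ b * (b ^ n * M) :=
        mul_le_mul_of_nonneg_left h3 hb0.le
      have h6 : C1 * e (K - (n + 1)) ≤ C1 * (θ ^ (n + 1) * e K) :=
        mul_le_mul_of_nonneg_left h4 hC1.le
      have h7 : 0 ≤ C1 * θ * (θ ^ n * e K) * (4 * b - 1 - 4 * θ) := by
        have : 0 ≤ 4 * b - 1 - 4 * θ := by linarith
        positivity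
      calc q (K - (n + 1)) + 4 * C1 * θ * (θ ^ (n + 1) * e K)
          ≤ b * q (K - n) + C1 * (θ ^ (n + 1) * e K) + 4 * C1 * θ * (θ ^ (n + 1) * e K) := by
            linarith
        _ = b * (q (K - n) + 4 * C1 * θ * (θ ^ n * e K))
            - C1 * θ * (θ ^ n * e K) * (4 * b - 1 - 4 * θ) := by ring
        _ ≤ b * (b ^ n * M) := by linarith
        _ = b ^ (n + 1) * M := by ring
  have hqK : ∀ k ≤ K, q k ≤ b ^ (K - k) * M := by
    intro k hk
    have h := key (K - k) (by omega)
    rw [show K - (K - k) = k by omega] at h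
    have : 0 ≤ 4 * C1 * θ * (θ ^ (K - k) * e K) := by positivity
    linarith
  refine ⟨hqK, ?_⟩
  intro j k hjk
  induction k, hjk using Nat.le_induction with
  | base =>
    intro hk
    have h1 : 0 ≤ (1 + δ) / δ * b ^ (K - (j + 1)) * M := by positivity
    have h2 : 0 ≤ 4 * C1 * θ ^ (K - j) * e K := by positivity
    linarith
  | succ k hjk ih =>
    intro hk
    have h1 := ih (by omega)
    have h2 := hxx k hk
    have h3 := hqK (k + 2) (by omega)
    have h4 := heK' k (by omega)
    have h5 := heK' (k + 1) (by omega)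
    obtain ⟨n, hn⟩ : ∃ n, K = k + 2 + n := ⟨K - (k + 2), by omega⟩
    have e1 : K - (k + 1) = n + 1 := by omega
    have e2 : K - (k + 1 + 1) = n := by omega
    have e3 : K - (k + 2) = n := by omega
    have e4 : K - k = n + 2 := by omega
    rw [e1, e4] at h1
    rw [e3] at h3
    rw [e4] at h4
    rw [e1] at h5
    rw [e2, e1]
    have hL : (1 + δ) / δ * b ^ (n + 1) * M + b ^ n * M = (1 + δ) / δ * b ^ n * M := by
      have : (1 + δ) / δ * b + 1 = (1 + δ) / δ := by
        field_simp
        linarith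
      calc (1 + δ) / δ * b ^ (n + 1) * M + b ^ n * M
          = ((1 + δ) / δ * b + 1) * b ^ n * M := by ring
        _ = _ := by rw [this]
    have h6 : C1 * (e k + e (k + 1)) ≤ C1 * (θ ^ (n + 2) * e K + θ ^ (n + 1) * e K) :=
      mul_le_mul_of_nonneg_left (add_le_add h4 h5) hC1.le
    have h7 : 0 ≤ C1 * (θ ^ (n + 1) * e K) * (3 - 5 * θ) := by
      have : 0 ≤ 3 - 5 * θ := by linarith
      positivity
    have h8 : 4 * C1 * θ ^ (n + 2) * e K + C1 * (θ ^ (n + 2) * e K + θ ^ (n + 1) * e K)
        = 4 * C1 * θ ^ (n + 1) * e K - C1 * (θ ^ (n + 1) * e K) * (3 - 5 * θ) := by ring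
    linarith

end Crest.Agent.R020
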