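import Crest.Agent.R020.Chain0

/-!
Row 20: last interfaces of the chain (the assembly of `StmtChain` and `StmtS1`).
-/

set_option autoImplicit false

open scoped ENNReal Topology
open MeasureTheory Filter Crest.NumberTheoryR.TotientScale

noncomputable section

namespace Crest.Agent.R020

/-- The initial slack `Δ_0 = B^{0.97}`. -/
def Sh (x : ℝ) : ℝ := bigB x ^ (97 / 100 : ℝ)

/-- (LOW) [990] the lower sums hardly decrease from the fundamental range down to level `0`. -/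
def StmtLowChain (ρ : ℝ) : Prop := ∀ ε : ℝ, 0 < ε → ∀ᶠ r : ℕ in atTop, ∀ᶠ x in atTop,
  SM (bigB x) (Sh x) (mIndex ρ x - r) Tot ≤ ENNReal.ofReal (1 + ε) * SM (bigB x) (Sh x) 0 Tot

/-- (UP) [990] the upper sums hardly increase from the fundamental range down to levels `0, 1`. -/
def StmtUpChain (ρ : ℝ) : Prop := ∀ ε : ℝ, 0 < ε → ∀ᶠ r : ℕ in atTop, ∀ᶠ x in atTop,
  SP (bigB x) (Sh x) 0 Tot ≤ ENNReal.ofReal (1 + ε) * SP (bigB x) (Sh x) (mIndex ρ x - r) Tot ∧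
  SP (bigB x) (Sh x) 1 Tot ≤ ENNReal.ofReal (1 + ε) * SP (bigB x) (Sh x) (mIndex ρ x - r) Tot

/-- (ASY) [826] asymptotics at the fundamental range, `μ` as in `StmtLim`. -/
def StmtAsy (ρ μ : ℝ) : Prop := ∀ ε : ℝ, 0 < ε → ∀ᶠ r : ℕ in atTop, ∀ᶠ x in atTop,
  SP (bigB x) (Sh x) (mIndex ρ x - r) Tot ≤
    ENNReal.ofReal ((1 + ε) * (Ar ρ μ r (phase ρ x) * scaleG ρ x)) ∧
  ENNReal.ofReal ((1 - ε) * (Ar ρ μ r (phase ρ x) * scaleG ρ x)) ≤
    SM (bigB x) (Sh x) (mIndex ρ x - r) Tot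

end Crest.Agent.R020
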