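import Crest.Agent.R020.Chain2
import Crest.Agent.R020.ChainReal2
import Crest.Agent.R020.ChainRec
import Crest.Agent.R020.ChainS
import Crest.Agent.R020.LaplaceTot

/-!
Row 20: finiteness of the chain sums, positive proportion, `StmtLowChain`, `StmtUpChain`.
-/

set_option autoImplicit false

open scoped ENNReal Topology
open MeasureTheory Filter Crest.NumberTheoryR.TotientScale

noncomputable section

namespace Crest.Agent.R020

/-! ### Finiteness -/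

theorem psiP_nonneg (B Δ : ℝ) (k : ℕ) (t : ℝ) : 0 ≤ psiP B Δ k t := psi_nonneg _ _ _

theorem psiM_nonneg (B Δ : ℝ) (k : ℕ) (t : ℝ) : 0 ≤ psiM B Δ k t := psi_nonneg _ _ _

theorem psiM_le_psiP {B Δ : ℝ} (hB : 0 < B) (hΔ : 0 ≤ Δ) (k : ℕ) (t : ℝ) :
    psiM B Δ k t ≤ psiP B Δ k t := by
  apply psi_mono_R
  have := CR2.Del_nonneg hB hΔ k
  linarith

theorem FF_cc_nonneg (k v : ℕ) : 0 ≤ FF (cc k) v := FF_nonneg (fun i => (cc_pos k i).le) v

theorem g_mul_y1_le (k v : ℕ) : gSeq (k + 1) * y1 v ≤ FF (cc k) v := by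
  have := mul_y1_le_FF (c := cc k) (fun i => (cc_pos k i).le) v
  rwa [cc_first] at this

theorem SP_ne_top (hZ : StmtZ) {B Δ : ℝ} (hB : 0 < B) (hΔ : 0 ≤ Δ) (k : ℕ) :
    SP B Δ k Tot ≠ ⊤ := by
  obtain ⟨C, hC, hZ⟩ := hZ
  have hg := gSeq_pos (k + 1)
  set R := B + Del B Δ k with hR
  have hR0 : 0 ≤ R := by
    have := CR2.Del_nonneg hB hΔ k
    linarith
  have h1 : SP B Δ k Tot ≤
      ENNReal.ofReal (psiP B Δ k 0) * wt {v | IsTot v ∧ y1 v ≤ R / gSeq (k + 1)} := by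
    rw [← wsum_const]
    unfold SP wsum ws
    apply ENNReal.tsum_le_tsum
    intro v
    by_cases hv : IsTot v
    · rw [Set.indicator_of_mem (show v ∈ Tot from hv)]
      by_cases hy : y1 v ≤ R / gSeq (k + 1)
      · rw [Set.indicator_of_mem (show v ∈ {v | IsTot v ∧ y1 v ≤ R / gSeq (k + 1)} from ⟨hv, hy⟩)]
        apply mul_le_mul_left
        apply ENNReal.ofReal_le_ofReal
        exact psi_anti _ _ (FF_cc_nonneg k v)
      · have h2 : psiP B Δ k (FF (cc k) v) = 0 := by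
          unfold psiP psi
          rw [if_neg]
          rw [not_le]
          rw [not_le, div_lt_iff₀ hg] at hy
          have := g_mul_y1_le k v
          linarith
        have h3 : ENNReal.ofReal ((fun v => psiP B Δ k (FF (cc k) v)) v) = 0 := by
          show ENNReal.ofReal (psiP B Δ k (FF (cc k) v)) = 0
          rw [h2, ENNReal.ofReal_zero]
        rw [h3, zero_mul]
        exact zero_le
    · rw [Set.indicator_of_notMem (show v ∉ Tot from hv)]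
      exact zero_le
  refine ne_top_of_le_ne_top ?_ h1
  apply ENNReal.mul_ne_top ENNReal.ofReal_ne_top
  exact ne_top_of_le_ne_top ENNReal.ofReal_ne_top (hZ (R / gSeq (k + 1)) (by positivity))

theorem SM_le_SP {B Δ : ℝ} (hB : 0 < B) (hΔ : 0 ≤ Δ) (k : ℕ) (A : Set ℕ) :
    SM B Δ k A ≤ SP B Δ k A := wsum_mono_fun fun _ _ => psiM_le_psiP hB hΔ k _

theorem QP_le_SP {δ : ℝ} (hδ : 0 ≤ δ) (B Δ : ℝ) (k : ℕ) (A : Set ℕ) :
    QP δ B Δ k A ≤ SP B Δ k A := by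
  apply wsum_mono_fun
  intro v _
  apply psi_anti
  have := FF_cc_nonneg k v
  nlinarith

theorem SM_ne_top (hZ : StmtZ) {B Δ : ℝ} (hB : 0 < B) (hΔ : 0 ≤ Δ) (k : ℕ) {A : Set ℕ}
    (hA : A ⊆ Tot) : SM B Δ k A ≠ ⊤ :=
  ne_top_of_le_ne_top (SP_ne_top hZ hB hΔ k) ((wsum_mono_set _ hA).trans (SM_le_SP hB hΔ k _))

theorem QP_ne_top (hZ : StmtZ) {δ : ℝ} (hδ : 0 ≤ δ) {B Δ : ℝ} (hB : 0 < B) (hΔ : 0 ≤ Δ) (k : ℕ)
    {A : Set ℕ} (hA : A ⊆ Tot) : QP δ B Δ k A ≠ ⊤ :=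
  ne_top_of_le_ne_top (SP_ne_top hZ hB hΔ k) ((wsum_mono_set _ hA).trans (QP_le_SP hδ B Δ k _))

/-- The Laplace sum in `y1`. -/
def Lap (Y : ℝ) : ℝ≥0∞ := wsum (fun v => Real.exp (-(y1 v) / Y)) Tot

theorem Lap_ne_top (hZ : StmtZ) {Y : ℝ} (hY : 0 < Y) : Lap Y ≠ ⊤ := by
  obtain ⟨C, hC, hZ⟩ := hZ
  have hD : Laplace.Data wtot y1 := by
    apply Laplace.Data.of_logsq wtot_nonneg y1_nonneg _ hC.le
    · intro N s hs
      refine sum_wtot_le s {v | IsTot v ∧ y1 v ≤ (N : ℝ) + 1} (fun v hv ht => ⟨ht, (hs v hv).le⟩)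
        (Real.exp_pos _).le ?_
      have := hZ ((N : ℝ) + 1) (by positivity)
      have e : (N : ℝ) + 1 + 2 = N + 3 := by ring
      rwa [e] at this
    · refine ⟨1, ?_⟩
      unfold wtot
      rw [if_pos isTot_one]
      norm_num
  have h1 := hD.summable (1 / Y) (by positivity)
  have h2 : Lap Y = ∑' v, ENNReal.ofReal (wtot v * Real.exp (-(1 / Y * y1 v))) := by
    unfold Lap
    have e : Tot = {v | IsTot v} := rfl
    rw [e, wsum_eq_tsum]
    apply tsum_congr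
    intro v
    congr 3
    ring
  rw [h2]
  rw [← ENNReal.ofReal_tsum_of_nonneg (fun v => mul_nonneg (wtot_nonneg v) (Real.exp_pos _).le) h1]
  exact ENNReal.ofReal_ne_top

theorem Lap_mono {Y Y' : ℝ} (hY : 0 < Y) (h : Y ≤ Y') : Lap Y ≤ Lap Y' := by
  apply wsum_mono_fun
  intro v _
  apply Real.exp_le_exp.mpr
  have h1 := y1_nonneg v
  rw [neg_div, neg_div]
  apply neg_le_neg
  exact div_le_div_of_nonneg_left h1 hY h

theorem SP_le_Lap {B Δ : ℝ} (hB : 0 < B) (hΔ : 0 ≤ Δ) {k : ℕ}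
    (hk : 8 * ((k : ℝ) + 1) * Del B Δ k ≤ B) :
    SP B Δ k Tot ≤ ENNReal.ofReal (3 * psiP B Δ k 0) * Lap (Ysc B k) := by
  unfold Lap
  rw [← wsum_const_mul (mul_nonneg (by norm_num) (psiP_nonneg _ _ _ _))]
  apply wsum_mono_fun
  intro v _
  have hadm := adm_P hB hΔ hk le_rfl (by norm_num : (1 : ℝ) ≤ 2)
  have h1 := hadm.decay (y1 v) (y1_nonneg v)
  rw [one_mul, cc_first] at h1
  exact (psi_anti _ _ (g_mul_y1_le k v)).trans h1

/-! ### Slack conditions -/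

theorem slack_mono {B Δ : ℝ} (hB : 0 < B) (hΔ : 0 ≤ Δ) {K : ℕ}
    (hK : 8 * ((K : ℝ) + 1) * Del B Δ K ≤ B) {k : ℕ} (hk : k ≤ K) :
    8 * ((k : ℝ) + 1) * Del B Δ k ≤ B := by
  refine le_trans ?_ hK
  have h1 := CR2.Del_mono (Δ := Δ) hB hk
  have h2 := CR2.Del_nonneg hB hΔ k
  have h3 : (k : ℝ) ≤ K := by exact_mod_cast hk
  have h4 : (0 : ℝ) ≤ k := Nat.cast_nonneg k
  apply mul_le_mul (by linarith) h1 h2 (by positivity)

theorem Ysc_ge_of_le {B : ℝ} (hB : 0 < B) {k K : ℕ} (h : k ≤ K) : Ysc B K ≤ Ysc B k := by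
  have h1 := stmtR2 B hB k K h
  have h2 : (1 : ℝ) ≤ (1 + aa 0) ^ (K - k) := one_le_pow₀ (by linarith [aa_pos 0])
  have h3 := Ysc_pos hB K
  nlinarith

/-- `e_k ≤ (8 / Ysc_K) e_{k+1}` for `k < K`. -/
theorem e_step {B Δ : ℝ} (hB : 0 < B) (hΔ : 0 ≤ Δ) {K : ℕ}
    (hK : 8 * ((K : ℝ) + 1) * Del B Δ K ≤ B) {k : ℕ} (hk : k < K) :
    psiP B Δ k 0 ≤ 8 / Ysc B K * psiP B Δ (k + 1) 0 := by
  have h1 := slack_mono hB hΔ hK (show k + 1 ≤ K from hk)
  have h2 := CR2.Del_nonneg hB hΔ (k + 1)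
  have h3 := (stmtR4 B Δ hB hΔ k (by
    refine le_trans ?_ h1
    push_cast
    nlinarith)).1
  refine h3.trans ?_
  apply mul_le_mul_of_nonneg_right _ (psiP_nonneg _ _ _ _)
  apply div_le_div_of_nonneg_left (by norm_num) (Ysc_pos hB K)
  exact Ysc_ge_of_le hB hk.le

/-! ### Restricted classes -/

/-- Totients whose tail lies in `D`. -/
def upc (D : Set ℕ) : Set ℕ := {v | IsTot v ∧ v ≠ 1 ∧ ¬ Sq v ∧ tl v ∈ D}

/-- `n`-fold extension of the class `W`. -/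
def upn (W : Set ℕ) : ℕ → Set ℕ
  | 0 => W
  | n + 1 => upc (upn W n)

theorem upn_sub_Tot {W : Set ℕ} (hW : W ⊆ Tot) (n : ℕ) : upn W n ⊆ Tot := by
  cases n with
  | zero => exact hW
  | succ n => exact fun v hv => hv.1

theorem upc_sub_Tot (D : Set ℕ) : upc D ⊆ Tot := fun _ hv => hv.1

/-! ### Positive proportion -/

theorem exp_neg_two_mul_le {u : ℝ} (h0 : 0 ≤ u) (h1 : u ≤ 1 / 2) : Real.exp (-(2 * u)) ≤ 1 - u := by
  have h2 := Real.add_one_le_exp (2 * u)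
  rw [Real.exp_neg, inv_le_comm₀ (Real.exp_pos _) (by linarith)]
  refine le_trans ?_ h2
  rw [inv_le_iff_one_le_mul₀ (by linarith)]
  nlinarith

/-- (a) the dilated function is much smaller than the lower one at heights `t ≥ 4 M B/(K+1)`. -/
theorem psiP_dil_le {B Δ : ℝ} (hB : 0 < B) (hΔ : 0 ≤ Δ) {K : ℕ} (hK1 : 1 ≤ K)
    (hK : 8 * ((K : ℝ) + 1) * Del B Δ K ≤ B) {δ ϵ M t : ℝ} (hδ0 : 0 < δ) (hϵ0 : 0 < ϵ)
    (hϵ1 : ϵ < 1) (hM : 1 / 4 + Real.log (1 / ϵ) ≤ 2 * δ * M) (ht : 4 * M * B / ((K : ℝ) + 1) ≤ t)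
    (ht2 : t ≤ B / 4) : psiP B Δ K ((1 + δ) * t) ≤ ϵ * psiM B Δ K t := by
  have hD := CR2.Del_nonneg hB hΔ K
  set D := Del B Δ K with hDdef
  have hKr : (1 : ℝ) ≤ K := by exact_mod_cast hK1
  have hlog : 0 < Real.log (1 / ϵ) := Real.log_pos (by rw [lt_div_iff₀ hϵ0]; linarith)
  have h8 : 8 * (K : ℝ) * D ≤ B := by nlinarith
  have h8' : 8 * D ≤ B := by nlinarith
  have hM0 : 0 < M := by
    by_contra h
    push Not at h
    have : 2 * δ * M ≤ 0 := by nlinarith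
    linarith
  -- the key lower bound
  have hkey : Real.log (1 / ϵ) * B ≤ K * (δ * t - 2 * D) := by
    have h1 : 4 * M * B ≤ t * ((K : ℝ) + 1) := by
      rwa [div_le_iff₀ (by positivity)] at ht
    have ht0 : 0 < t := lt_of_lt_of_le (by positivity) ht
    have h2 : 2 * M * B ≤ t * K := by nlinarith
    have h3 : δ * (2 * M * B) ≤ δ * (t * K) := mul_le_mul_of_nonneg_left h2 hδ0.le
    have h4 : (1 / 4 + Real.log (1 / ϵ)) * B ≤ 2 * δ * M * B :=
      mul_le_mul_of_nonneg_right hM hB.le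
    nlinarith
  have hRm : 0 < B - D - t := by linarith
  unfold psiP psiM psi
  rw [← hDdef]
  have hcond : t ≤ B - D := by linarith
  rw [if_pos hcond]
  split_ifs with h
  · rw [CR2.scaleAt_eq_mul (B + D - (1 + δ) * t), CR2.scaleAt_eq_mul (B - D - t), ← mul_assoc]
    apply mul_le_mul_of_nonneg_right _ (scaleAt_pos one_pos K).le
    set R := B - D - t with hR
    have h1 : B + D - (1 + δ) * t = R * (1 - (δ * t - 2 * D) / R) := by
      field_simp
      rw [hR]; ring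
    rw [h1, mul_pow, mul_comm ϵ]
    apply mul_le_mul_of_nonneg_left _ (by positivity)
    have h2 : 0 ≤ 1 - (δ * t - 2 * D) / R := by
      have h3 : 0 ≤ R * (1 - (δ * t - 2 * D) / R) := by rw [← h1]; linarith
      exact nonneg_of_mul_nonneg_right h3 hRm
    have h3 : 1 - (δ * t - 2 * D) / R ≤ Real.exp (-((δ * t - 2 * D) / R)) := by
      have := Real.add_one_le_exp (-((δ * t - 2 * D) / R))
      linarith
    have h4 : Real.log (1 / ϵ) ≤ K * ((δ * t - 2 * D) / R) := by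
      have h5 : 0 ≤ δ * t - 2 * D := by
        have h6 : 0 ≤ (K : ℝ) * (δ * t - 2 * D) := by
          refine le_trans (by positivity) hkey
        exact nonneg_of_mul_nonneg_right h6 (by linarith)
      have h6 : R ≤ B := by rw [hR]; linarith [lt_of_lt_of_le (by positivity : (0:ℝ) < 4 * M * B / ((K : ℝ) + 1)) ht]
      rw [← mul_div_assoc, le_div_iff₀ hRm]
      refine le_trans ?_ hkey
      exact mul_le_mul_of_nonneg_left h6 hlog.le
    calc (1 - (δ * t - 2 * D) / R) ^ K ≤ (Real.exp (-((δ * t - 2 * D) / R))) ^ K :=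
          pow_le_pow_left₀ h2 h3 K
      _ = Real.exp (-(K * ((δ * t - 2 * D) / R))) := by
          rw [← Real.exp_nat_mul]; ring_nf
      _ ≤ Real.exp (-(Real.log (1 / ϵ))) := Real.exp_le_exp.mpr (by linarith)
      _ = ϵ := by
          rw [one_div, Real.log_inv, neg_neg, Real.exp_log hϵ0]
  · exact mul_nonneg hϵ0.le (scaleAt_nonneg hRm.le K)

/-- (b) the lower function at bounded heights is a positive proportion of `ψ_K^+(0)`. -/
theorem psiM_ge {B Δ : ℝ} (hB : 0 < B) (hΔ : 0 ≤ Δ) {K : ℕ}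
    (hK : 8 * ((K : ℝ) + 1) * Del B Δ K ≤ B) {M t : ℝ} (ht0 : 0 ≤ t)
    (ht : t ≤ M * B / ((K : ℝ) + 1)) (ht2 : t ≤ B / 4) :
    Real.exp (-(1 / 2 + 2 * M)) * psiP B Δ K 0 ≤ psiM B Δ K t := by
  have hD := CR2.Del_nonneg hB hΔ K
  set D := Del B Δ K with hDdef
  have hK0 : (0 : ℝ) ≤ K := Nat.cast_nonneg K
  have h8 : 8 * (K : ℝ) * D ≤ B := by nlinarith
  have h8' : 8 * D ≤ B := by nlinarith
  have hRp : 0 < B + D := by linarith
  unfold psiP psiM psi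
  rw [← hDdef]
  rw [if_pos (by linarith), if_pos (by linarith), sub_zero]
  rw [CR2.scaleAt_eq_mul (B + D), CR2.scaleAt_eq_mul (B - D - t), ← mul_assoc]
  apply mul_le_mul_of_nonneg_right _ (scaleAt_pos one_pos K).le
  set u := (2 * D + t) / (B + D) with hu
  have h1 : B - D - t = (B + D) * (1 - u) := by
    rw [hu]; field_simp; ring
  rw [h1, mul_pow, mul_comm]
  apply mul_le_mul_of_nonneg_left _ (by positivity)
  have hu0 : 0 ≤ u := by rw [hu]; positivity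
  have hu1 : u ≤ 1 / 2 := by
    rw [hu, div_le_iff₀ hRp]; linarith
  have h2 := exp_neg_two_mul_le hu0 hu1
  have h3 : (K : ℝ) * u ≤ 1 / 4 + M := by
    rw [hu, ← mul_div_assoc, div_le_iff₀ hRp]
    have h4 : t * ((K : ℝ) + 1) ≤ M * B := by
      rwa [le_div_iff₀ (by positivity)] at ht
    have hM : 0 ≤ M := by
      by_contra h
      push Not at h
      have : M * B < 0 := mul_neg_of_neg_of_pos h hB
      have : 0 ≤ t * ((K : ℝ) + 1) := by positivity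
      linarith
    nlinarith
  calc Real.exp (-(1 / 2 + 2 * M)) ≤ Real.exp (K * (-(2 * u))) :=
        Real.exp_le_exp.mpr (by nlinarith)
    _ = (Real.exp (-(2 * u))) ^ K := by rw [← Real.exp_nat_mul]
    _ ≤ (1 - u) ^ K := pow_le_pow_left₀ (Real.exp_pos _).le h2 K

theorem wsum_empty (φ : ℕ → ℝ) : wsum φ ∅ = 0 := by
  unfold wsum ws
  simp

theorem arith_T {c2 cW T : ℝ} (hc2 : 0 < c2) (hcW : 0 < cW) (h1 : 1 ≤ T)
    (h2 : 1 / (cW * c2) ≤ T) : 1 ≤ c2 * (cW * T ^ 2) := by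
  have h3 : 1 ≤ T * (cW * c2) := by
    rwa [div_le_iff₀ (by positivity)] at h2
  have h4 : T * (cW * c2) ≤ T ^ 2 * (cW * c2) := by
    apply mul_le_mul_of_nonneg_right _ (by positivity)
    nlinarith
  nlinarith

theorem arith_fin {A1 C1 θ qK xK eK xj xK1 eK1 ϵ : ℝ} (hA1 : 0 < A1) (hC1 : 0 < C1) (hθ : 0 < θ)
    (hϵA : A1 * ϵ = 1 / 8) (hq : qK ≤ ϵ * xK) (he0 : 0 ≤ eK) (hex : eK ≤ xK)
    (heK1 : eK1 ≤ θ * eK) (hlast : xK ≤ xK1 + C1 * eK1)
    (hr : xK1 ≤ xj + A1 * (qK + 4 * C1 * θ * eK) + 4 * C1 * θ * eK)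
    (hθC : 64 * C1 * (A1 + 1) * θ ≤ 1) : eK / 2 ≤ xj := by
  have h1 : A1 * (qK + 4 * C1 * θ * eK) ≤ 1 / 8 * xK + A1 * (4 * C1 * θ) * eK := by
    have h2 : A1 * qK ≤ A1 * (ϵ * xK) := mul_le_mul_of_nonneg_left hq hA1.le
    have h3 : A1 * (ϵ * xK) = 1 / 8 * xK := by rw [← mul_assoc, hϵA]
    nlinarith
  have h4 : (A1 * (4 * C1 * θ) + 4 * C1 * θ + C1 * θ) * eK ≤ 1 / 8 * eK := by
    apply mul_le_mul_of_nonneg_right _ he0
    have := mul_pos hC1 hθ
    have := mul_pos this hA1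
    nlinarith
  have h5 : C1 * eK1 ≤ C1 * θ * eK := by
    have := mul_le_mul_of_nonneg_left heK1 hC1.le
    linarith
  linarith

section

variable {C1 Ys0 δ : ℝ}

set_option maxHeartbeats 2000000 in
/-- Positive proportion. -/
theorem pos_prop (hO : OneStep C1 Ys0) (hZ : StmtZ) (hW : StmtW) {C3 : ℝ}
    (hC3 : 0 < C3) (hratio : ∀ k, cc k 1 ≤ C3 * gSeq (k + 1)) (hδ0 : 0 < δ) (hδ1 : δ ≤ 1)
    (hδ : ∀ k i : ℕ, (1 + δ) * (gSeq (k + 1) * aa i + cc k (i + 1)) ≤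
      gSeq (k + 1) * aa (i + 1) / (1 - aa 0) + cc k (i + 1)) :
    ∃ (Λ : ℝ) (K0 : ℕ), 1 ≤ K0 ∧ Ys0 ≤ Λ ∧ 1 ≤ Λ ∧ ∀ (B Δ : ℝ) (K : ℕ), 0 < B → 0 ≤ Δ → K0 ≤ K →
      8 * ((K : ℝ) + 1) * Del B Δ K ≤ B → Λ ≤ Ysc B K →
      ∀ j < K, ENNReal.ofReal (psiP B Δ K 0 / 2) ≤ SM B Δ j Tot := by
  obtain ⟨cW, T0, hcW, hWW⟩ := hW
  have hC1 := hO.C1_pos
  -- constants
  set ϵ : ℝ := δ / (8 * (1 + δ)) with hϵ
  have hϵ0 : 0 < ϵ := by rw [hϵ]; positivity
  have hϵ1 : ϵ < 1 := by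
    rw [hϵ, div_lt_one (by positivity)]; linarith
  have hϵδ : (1 + δ) / δ * ϵ = 1 / 8 := by rw [hϵ]; field_simp
  set M : ℝ := (1 / 4 + Real.log (1 / ϵ)) / (2 * δ) with hM
  have hlog : 0 < Real.log (1 / ϵ) := Real.log_pos (by rw [lt_div_iff₀ hϵ0]; linarith)
  have hM0 : 0 < M := by rw [hM]; positivity
  have hM2 : 1 / 4 + Real.log (1 / ϵ) ≤ 2 * δ * M := by
    rw [hM]; field_simp; rfl
  set M2 : ℝ := 8 * (1 + C3) * M with hM2d
  have hM2pos : 0 < M2 := by rw [hM2d]; positivity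
  set c2 : ℝ := Real.exp (-(1 / 2 + 2 * M2)) with hc2
  have hc2pos : 0 < c2 := Real.exp_pos _
  set T1 : ℝ := max T0 (max 1 (1 / (cW * c2))) with hT1
  set A1 : ℝ := (1 + δ) / δ with hA1
  have hA1pos : 0 < A1 := by rw [hA1]; positivity
  set Λ : ℝ := max Ys0 (max 32 (max (T1 / M) (8 * (64 * C1 * (A1 + 1))))) with hΛ
  obtain ⟨K0, hK0⟩ := exists_nat_ge (4 * M2)
  refine ⟨Λ, max 1 K0, le_max_left _ _, le_max_left _ _, ?_, ?_⟩
  · exact le_trans (by norm_num) (le_trans (le_max_left _ _) (le_max_right _ _) : (32 : ℝ) ≤ Λ)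
  intro B Δ K hB hΔ hK0K hK hΛY j hj
  have hK1 : 1 ≤ K := le_trans (le_max_left _ _) hK0K
  have hKr : 4 * M2 ≤ K := hK0.trans (by exact_mod_cast le_trans (le_max_right _ _) hK0K)
  set Y := Ysc B K with hY
  have hYpos : 0 < Y := Ysc_pos hB K
  have hYs0 : Ys0 ≤ Y := le_trans (le_max_left _ _) hΛY
  have h32 : 32 ≤ Y := le_trans (le_trans (le_max_left _ _) (le_max_right _ _)) hΛY
  have hT1Y : T1 ≤ M * Y := by
    have h1 : T1 / M ≤ Y := le_trans (le_trans (le_trans (le_max_left _ _) (le_max_right _ _))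
      (le_max_right _ _)) hΛY
    rw [div_le_iff₀ hM0] at h1
    linarith
  have hC1Y : 8 * (64 * C1 * (A1 + 1)) ≤ Y := le_trans (le_trans (le_trans (le_max_right _ _)
    (le_max_right _ _)) (le_max_right _ _)) hΛY
  set θ : ℝ := 8 / Y with hθ
  have hθ0 : 0 < θ := by rw [hθ]; positivity
  have hθ4 : θ ≤ 1 / 4 := by
    rw [hθ, div_le_iff₀ hYpos]; linarith
  have hθC : 64 * C1 * (A1 + 1) * θ ≤ 1 := by
    rw [hθ, mul_div_assoc', div_le_one hYpos]; linarith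
  -- the special family
  set T : ℝ := M * Y with hT
  obtain ⟨W, hWprop, hWwt⟩ := hWW T (le_trans (le_max_left _ _) hT1Y)
  have hTge1 : 1 ≤ T := le_trans (le_trans (le_max_left _ _) (le_max_right _ _)) hT1Y
  have hTge2 : 1 / (cW * c2) ≤ T := le_trans (le_trans (le_max_right _ _) (le_max_right _ _)) hT1Y
  have hWTot : W ⊆ Tot := fun v hv => (hWprop v hv).1
  have hg := gSeq_pos (K + 1)
  have hgT : gSeq (K + 1) * T = 4 * M * B / ((K : ℝ) + 1) := by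
    rw [hT, hY, Ysc]; field_simp
  -- heights on W
  have hheight : ∀ v ∈ W, 4 * M * B / ((K : ℝ) + 1) ≤ FF (cc K) v ∧
      FF (cc K) v ≤ M2 * B / ((K : ℝ) + 1) ∧ FF (cc K) v ≤ B / 4 ∧ 0 ≤ FF (cc K) v := by
    intro v hv
    obtain ⟨-, hTy, -, hFF⟩ := hWprop v hv
    have h1 : 4 * M * B / ((K : ℝ) + 1) ≤ FF (cc K) v := by
      rw [← hgT]
      exact le_trans (mul_le_mul_of_nonneg_left hTy hg.le) (g_mul_y1_le K v)
    have h2 : FF (cc K) v ≤ M2 * B / ((K : ℝ) + 1) := by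
      have h3 := hFF (cc K) (fun i => (cc_pos K i).le)
      have h4 := hratio K
      rw [cc_first] at h3
      have h5 : (gSeq (K + 1) + cc K 1) * (2 * T) ≤ (1 + C3) * 2 * (gSeq (K + 1) * T) := by
        have : 0 < T := by linarith
        nlinarith
      rw [hgT] at h5
      refine (h3.trans h5).trans (le_of_eq ?_)
      rw [hM2d]; ring
    refine ⟨h1, h2, h2.trans ?_, FF_cc_nonneg K v⟩
    rw [div_le_div_iff₀ (by positivity) (by norm_num)]
    nlinarith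
  -- x_K and q_K
  have hxK : ENNReal.ofReal (psiP B Δ K 0) ≤ SM B Δ K W := by
    have h1 : ENNReal.ofReal (c2 * psiP B Δ K 0) * wt W ≤ SM B Δ K W := by
      rw [← wsum_const]
      apply wsum_mono_fun
      intro v hv
      obtain ⟨ha, hb, hc, hd⟩ := hheight v hv
      exact psiM_ge hB hΔ hK hd hb hc
    refine le_trans ?_ h1
    refine le_trans ?_ (mul_le_mul_right hWwt _)
    rw [← ENNReal.ofReal_mul (mul_nonneg hc2pos.le (psiP_nonneg _ _ _ _))]
    apply ENNReal.ofReal_le_ofReal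
    have h2 : 1 ≤ c2 * (cW * T ^ 2) := arith_T hc2pos hcW hTge1 hTge2
    have h5 := psiP_nonneg B Δ K 0
    have h6 := mul_le_mul_of_nonneg_right h2 h5
    linarith
  have hqK : QP δ B Δ K W ≤ ENNReal.ofReal ϵ * SM B Δ K W := by
    unfold QP SM
    rw [← wsum_const_mul hϵ0.le]
    apply wsum_mono_fun
    intro v hv
    obtain ⟨ha, hb, hc, hd⟩ := hheight v hv
    exact psiP_dil_le hB hΔ hK1 hK hδ0 hϵ0 hϵ1 hM2 ha hc
  -- real sequences
  set x : ℕ → ℝ := fun k => (SM B Δ k (upn W (K - k))).toReal with hx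
  set q : ℕ → ℝ := fun k => (QP δ B Δ k (upn W (K - k))).toReal with hq
  set e : ℕ → ℝ := fun k => psiP B Δ k 0 with he
  have hSMtop : ∀ k (A : Set ℕ), A ⊆ Tot → SM B Δ k A ≠ ⊤ := fun k A hA => SM_ne_top hZ hB hΔ k hA
  have hQPtop : ∀ k (A : Set ℕ), A ⊆ Tot → QP δ B Δ k A ≠ ⊤ :=
    fun k A hA => QP_ne_top hZ hδ0.le hB hΔ k hA
  have hSub : ∀ n, upn W n ⊆ Tot := upn_sub_Tot hWTot
  have hYk : ∀ k ≤ K, Ys0 ≤ Ysc B k := fun k hk => hYs0.trans (Ysc_ge_of_le hB hk)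
  have hrec := stmtRec δ C1 θ hδ0 hδ1 hC1 hθ0 hθ4 K x q e (fun k => ENNReal.toReal_nonneg)
    (fun k => ENNReal.toReal_nonneg) (fun k => psiP_nonneg _ _ _ _)
    (fun k hk => e_step hB hΔ hK hk)
    (by
      intro k hk
      have hs : K - k = (K - (k + 1)) + 1 := by omega
      have h1 := QP_up hO hB hΔ (slack_mono hB hΔ hK hk.le) (hYk k hk.le) hδ0.le hδ1
        (A := upn W (K - k)) (D := upn W (K - (k + 1))) (by
          rw [hs]
          intro v hv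
          exact ⟨hv.1, fun _ _ => hv.2.2.2⟩)
      have h2 := ENNReal.toReal_mono (by
        apply ENNReal.add_ne_top.mpr
        refine ⟨ENNReal.mul_ne_top ENNReal.ofReal_ne_top (hQPtop _ _ (hSub _)),
          ENNReal.ofReal_ne_top⟩) h1
      rw [ENNReal.toReal_add (ENNReal.mul_ne_top ENNReal.ofReal_ne_top (hQPtop _ _ (hSub _)))
        ENNReal.ofReal_ne_top, ENNReal.toReal_mul, ENNReal.toReal_ofReal (by positivity),
        ENNReal.toReal_ofReal (mul_nonneg hC1.le (psiP_nonneg _ _ _ _))] at h2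
      exact h2)
    (by
      intro k hk
      have hs : K - k = (K - (k + 1)) + 1 := by omega
      have hs2 : K - (k + 1) = (K - (k + 2)) + 1 := by omega
      have h1 := SM_low_viol hO hB hΔ (slack_mono hB hΔ hK (show k ≤ K by omega))
        (slack_mono hB hΔ hK (show k + 1 ≤ K by omega)) (hYk k (by omega)) (hYk (k + 1) (by omega))
        hδ (D := upn W (K - (k + 1))) (D2 := upn W (K - (k + 2)))
        (fun v hv => hSub _ hv) (by
          rw [hs2]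
          intro v hv _ _
          exact hv.2.2.2)
      have h0 : {v | IsTot v ∧ v ≠ 1 ∧ ¬ Sq v ∧ tl v ∈ upn W (K - (k + 1))} = upn W (K - k) := by
        rw [hs]; rfl
      rw [h0] at h1
      have h2 := ENNReal.toReal_mono (by
        apply ENNReal.add_ne_top.mpr
        refine ⟨ENNReal.add_ne_top.mpr ⟨hSMtop _ _ (hSub _), hQPtop _ _ (hSub _)⟩,
          ENNReal.add_ne_top.mpr ⟨ENNReal.ofReal_ne_top, ENNReal.ofReal_ne_top⟩⟩) h1
      rw [ENNReal.toReal_add (ENNReal.add_ne_top.mpr ⟨hSMtop _ _ (hSub _), hQPtop _ _ (hSub _)⟩)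
        (ENNReal.add_ne_top.mpr ⟨ENNReal.ofReal_ne_top, ENNReal.ofReal_ne_top⟩),
        ENNReal.toReal_add (hSMtop _ _ (hSub _)) (hQPtop _ _ (hSub _)),
        ENNReal.toReal_add ENNReal.ofReal_ne_top ENNReal.ofReal_ne_top,
        ENNReal.toReal_ofReal (mul_nonneg hC1.le (psiM_nonneg _ _ _ _)),
        ENNReal.toReal_ofReal (mul_nonneg hC1.le (psiP_nonneg _ _ _ _))] at h2
      have h3 := psiM_le_psiP hB hΔ k 0
      have h4 : C1 * psiM B Δ k 0 ≤ C1 * psiP B Δ k 0 := mul_le_mul_of_nonneg_left h3 hC1.le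
      simp only [hx, hq, he]
      linarith)
  obtain ⟨-, hrec2⟩ := hrec
  have hr := hrec2 j (K - 1) (by omega) (by omega)
  have e1 : K - (K - 1 + 1) = 0 := by omega
  have e2 : K - (K - 1) = 1 := by omega
  rw [e1, e2, pow_zero, pow_one, mul_one] at hr
  -- the step from K-1 to K
  have hlast : x K ≤ x (K - 1) + C1 * e (K - 1) := by
    obtain ⟨K', rfl⟩ : ∃ K', K = K' + 1 := ⟨K - 1, by omega⟩
    have h1 := SM_low hO hB hΔ (slack_mono hB hΔ hK (show K' ≤ K' + 1 by omega))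
      (hYk K' (by omega)) (D := W) (fun v hv => hWTot hv)
    have h0 : {d | d ∈ W ∧ FF aa d < y1 d} = ∅ := by
      ext v
      simp only [Set.mem_ofPred_eq, Set.mem_empty_iff_false, iff_false, not_and, not_lt]
      intro hv
      exact (hWprop v hv).2.2.1
    rw [h0] at h1
    have h00 : SP B Δ (K' + 1) ∅ = 0 := wsum_empty _
    rw [h00, add_zero] at h1
    have htop : SM B Δ K' {v | IsTot v ∧ v ≠ 1 ∧ ¬ Sq v ∧ tl v ∈ W} ≠ ⊤ :=
      hSMtop _ _ (upc_sub_Tot W)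
    have h2 := ENNReal.toReal_mono (ENNReal.add_ne_top.mpr ⟨htop, ENNReal.ofReal_ne_top⟩) h1
    rw [ENNReal.toReal_add htop ENNReal.ofReal_ne_top,
      ENNReal.toReal_ofReal (mul_nonneg hC1.le (psiM_nonneg _ _ _ _))] at h2
    have h3 := psiM_le_psiP hB hΔ K' 0
    have h4 : C1 * psiM B Δ K' 0 ≤ C1 * psiP B Δ K' 0 := mul_le_mul_of_nonneg_left h3 hC1.le
    simp only [hx, he, Nat.add_sub_cancel, Nat.sub_self, Nat.add_sub_cancel_left]
    have h2' : (SM B Δ (K' + 1) W).toReal ≤ (SM B Δ K' (upc W)).toReal + C1 * psiM B Δ K' 0 := h2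
    change (SM B Δ (K' + 1) W).toReal ≤ (SM B Δ K' (upc W)).toReal + C1 * psiP B Δ K' 0
    linarith
  have heK : e (K - 1) ≤ θ * e K := by
    have := e_step hB hΔ hK (show K - 1 < K by omega)
    rw [show K - 1 + 1 = K by omega] at this
    exact this
  have hxKW : x K = (SM B Δ K W).toReal := by simp only [hx, Nat.sub_self]; rfl
  have hqKW : q K = (QP δ B Δ K W).toReal := by simp only [hq, Nat.sub_self]; rfl
  have hxK' : e K ≤ x K := by
    rw [hxKW]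
    have := ENNReal.toReal_mono (hSMtop _ _ hWTot) hxK
    rwa [ENNReal.toReal_ofReal (psiP_nonneg _ _ _ _)] at this
  have hqK' : q K ≤ ϵ * x K := by
    rw [hxKW, hqKW]
    have := ENNReal.toReal_mono (ENNReal.mul_ne_top ENNReal.ofReal_ne_top (hSMtop _ _ hWTot)) hqK
    rwa [ENNReal.toReal_mul, ENNReal.toReal_ofReal hϵ0.le] at this
  have heK0 : 0 ≤ e K := psiP_nonneg _ _ _ _
  have hfin : e K / 2 ≤ x j :=
    arith_fin hA1pos hC1 hθ0 hϵδ hqK' heK0 hxK' heK hlast hr hθC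
  -- conclude
  have hmono : SM B Δ j (upn W (K - j)) ≤ SM B Δ j Tot := wsum_mono_set _ (hSub _)
  refine le_trans ?_ hmono
  rw [← ENNReal.ofReal_toReal (hSMtop j _ (hSub (K - j)))]
  exact ENNReal.ofReal_le_ofReal hfin

end

end Crest.Agent.R020
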