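import Crest.Agent.R020.Chain3
import Crest.Agent.R020.ChainLim

/-!
Row 20: `StmtLowChain`, `StmtUpChain`.
-/

set_option autoImplicit false

open scoped ENNReal Topology
open MeasureTheory Filter Crest.NumberTheoryR.TotientScale

noncomputable section

namespace Crest.Agent.R020

/-! ### The ratio `c^{(k)}_2 / c^{(k)}_1` -/

theorem exists_ratio {ρ : ℝ} (hρ0 : 0 < ρ) (hρ1 : ρ < 1)
    (hρ : HasSum (fun j : ℕ => aCoef (j + 1) * ρ ^ (j + 1)) 1) :
    ∃ C3 : ℝ, 0 < C3 ∧ ∀ k, cc k 1 ≤ C3 * gSeq (k + 1) := by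
  obtain ⟨c, hc, hcl⟩ := exists_gSeq_lower hρ0 hρ1 hρ
  refine ⟨1 / (ρ * c), by positivity, fun k => ?_⟩
  have h1 : cc k 1 ≤ gSeq (k + 2) := by
    have h2 : cc (k + 1) 0 = gSeq (k + 2) := cc_first (k + 1)
    rw [← h2, cc_succ, Tc]
    have h3 := mul_pos (cc_pos k 0) (aa_pos 0)
    have h4 : cc k (0 + 1) = cc k 1 := rfl
    linarith
  refine h1.trans ?_
  have h2 : gSeq (k + 2) * ρ ^ (k + 2) ≤ 1 := gSeq_mul_pow_le_one hρ0 hρ1 hρ _
  have h3 : c ≤ gSeq (k + 1) * ρ ^ (k + 1) := hcl _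
  rw [div_mul_eq_mul_div, one_mul, le_div_iff₀ (by positivity)]
  have h4 : 0 < ρ ^ (k + 1) := by positivity
  have h5 : gSeq (k + 2) * (ρ * c) * ρ ^ (k + 1) ≤ gSeq (k + 1) * ρ ^ (k + 1) := by
    calc gSeq (k + 2) * (ρ * c) * ρ ^ (k + 1) = (gSeq (k + 2) * ρ ^ (k + 2)) * c := by ring
      _ ≤ 1 * c := mul_le_mul_of_nonneg_right h2 hc.le
      _ ≤ gSeq (k + 1) * ρ ^ (k + 1) := by rw [one_mul]; exact h3
  exact le_of_mul_le_mul_right h5 h4

/-! ### Slack -/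

theorem slack_eventually {ρ : ℝ} (hρ0 : 0 < ρ) (hρ1 : ρ < 1) :
    ∃ Λ : ℝ, ∀ r : ℕ, (∀ᶠ x in atTop, Λ ≤ Ysc (bigB x) (mIndex ρ x - r)) →
      ∀ᶠ x in atTop, 8 * (((mIndex ρ x - r : ℕ) : ℝ) + 1) *
        Del (bigB x) (Sh x) (mIndex ρ x - r) ≤ bigB x := by
  obtain ⟨C, hC, hR3⟩ := stmtR3
  refine ⟨(16 * C) ^ (25 : ℕ), fun r hr => ?_⟩
  -- `m + 1 ≤ B^{0.03}/16` eventually
  have hm : ∀ᶠ x in atTop, 16 * (((mIndex ρ x : ℕ) : ℝ) + 1) ≤ bigB x ^ (3 / 100 : ℝ) := by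
    have h1 := tendsto_mIndex_sub_div hρ0 hρ1 0
    have h2 : Tendsto (fun x => Real.log (bigB x) / bigB x ^ (3 / 100 : ℝ)) atTop (𝓝 0) := by
      have := (isLittleO_log_rpow_atTop (show (0 : ℝ) < 3 / 100 by norm_num)).tendsto_div_nhds_zero
      exact this.comp tendsto_bigB
    have h3 : Tendsto (fun x => 1 / bigB x ^ (3 / 100 : ℝ)) atTop (𝓝 0) := by
      have := (tendsto_rpow_atTop (show (0 : ℝ) < 3 / 100 by norm_num)).comp tendsto_bigB
      exact Tendsto.comp (f := fun x => bigB x ^ (3 / 100 : ℝ)) (g := fun y : ℝ => 1 / y)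
        (by simpa using tendsto_inv_atTop_zero) this
    have h4 := (h1.mul h2).add h3
    rw [mul_zero, zero_add] at h4
    have hL : Tendsto (fun x => Real.log (bigB x)) atTop atTop :=
      Real.tendsto_log_atTop.comp tendsto_bigB
    filter_upwards [h4.eventually_lt_const (show (0 : ℝ) < 1 / 16 by norm_num),
      tendsto_bigB.eventually_gt_atTop 0, hL.eventually_gt_atTop 0] with x hx hB hLx
    have hp : 0 < bigB x ^ (3 / 100 : ℝ) := Real.rpow_pos_of_pos hB _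
    have h5 : ((mIndex ρ x - 0 : ℕ) : ℝ) / Real.log (bigB x) * (Real.log (bigB x) /
        bigB x ^ (3 / 100 : ℝ)) + 1 / bigB x ^ (3 / 100 : ℝ) =
        (((mIndex ρ x : ℕ) : ℝ) + 1) / bigB x ^ (3 / 100 : ℝ) := by
      rw [Nat.sub_zero]
      field_simp
    rw [h5, div_lt_iff₀ hp] at hx
    linarith
  filter_upwards [hr, hm, tendsto_bigB.eventually_gt_atTop 1] with x hY hmx hB1
  have hB : 0 < bigB x := by linarith
  have hSh : 0 ≤ Sh x := Real.rpow_nonneg hB.le _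
  set K := mIndex ρ x - r with hK
  have h1 := hR3 (bigB x) (Sh x) hB hSh K
  have hYp := Ysc_pos hB K
  have h2 : C * bigB x * Ysc (bigB x) K ^ (-(1 / 25) : ℝ) ≤ bigB x / 16 := by
    have h3 : 16 * C ≤ Ysc (bigB x) K ^ (1 / 25 : ℝ) := by
      have h4 : (16 * C : ℝ) = ((16 * C) ^ (25 : ℕ)) ^ (1 / 25 : ℝ) := by
        rw [← Real.rpow_natCast, ← Real.rpow_mul (by positivity)]
        norm_num
      rw [h4]
      exact Real.rpow_le_rpow (by positivity) hY (by norm_num)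
    rw [Real.rpow_neg hYp.le]
    have h5 : 0 < Ysc (bigB x) K ^ (1 / 25 : ℝ) := Real.rpow_pos_of_pos hYp _
    rw [← div_eq_mul_inv, div_le_div_iff₀ h5 (by norm_num)]
    nlinarith
  have h3 : ((K : ℝ) + 1) * Sh x ≤ bigB x / 16 := by
    have h4 : (K : ℝ) ≤ mIndex ρ x := by exact_mod_cast Nat.sub_le _ _
    have h5 : bigB x ^ (3 / 100 : ℝ) * Sh x = bigB x := by
      unfold Sh
      rw [← Real.rpow_add hB]
      norm_num
    have h6 : 16 * ((K : ℝ) + 1) * Sh x ≤ bigB x ^ (3 / 100 : ℝ) * Sh x := by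
      apply mul_le_mul_of_nonneg_right _ hSh
      linarith
    linarith
  nlinarith

/-! ### Upper chain -/

theorem psiP_le_SP {B Δ : ℝ} (k : ℕ) : ENNReal.ofReal (psiP B Δ k 0) ≤ SP B Δ k Tot := by
  unfold SP wsum ws
  refine le_trans (le_of_eq ?_) (ENNReal.le_tsum 1)
  rw [Set.indicator_of_mem (show 1 ∈ Tot from isTot_one)]
  show ENNReal.ofReal (psiP B Δ k 0) = ENNReal.ofReal (psiP B Δ k (FF (cc k) 1)) * ((1 : ℕ) : ℝ≥0∞)⁻¹
  rw [FF_one]
  simp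

section

variable {C1 Ys0 : ℝ}

theorem SP_chain (hO : OneStep C1 Ys0) {B Δ : ℝ} (hB : 0 < B) (hΔ : 0 ≤ Δ) {K : ℕ}
    (hK : 8 * ((K : ℝ) + 1) * Del B Δ K ≤ B) (hY : Ys0 ≤ Ysc B K) :
    ∀ n j : ℕ, j + n ≤ K →
      SP B Δ j Tot ≤ SP B Δ (j + n) Tot +
        ENNReal.ofReal (C1 * ∑ i ∈ Finset.range n, psiP B Δ (j + i) 0) := by
  intro n
  induction n with
  | zero => intro j _; simp
  | succ n ih =>
    intro j hj
    have h1 := ih j (by omega)
    have h2 := SP_up hO hB hΔ (slack_mono hB hΔ hK (show j + n ≤ K by omega))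
      (hY.trans (Ysc_ge_of_le hB (show j + n ≤ K by omega))) (A := Tot) (D := Tot)
      (fun v hv => ⟨hv, fun h1 hsq => (totient_decomp hv h1 hsq).2.1⟩)
    refine h1.trans ?_
    rw [Finset.sum_range_succ, mul_add, ENNReal.ofReal_add
      (mul_nonneg hO.C1_pos.le (Finset.sum_nonneg fun i _ => psiP_nonneg _ _ _ _))
      (mul_nonneg hO.C1_pos.le (psiP_nonneg _ _ _ _))]
    calc SP B Δ (j + n) Tot + ENNReal.ofReal (C1 * ∑ i ∈ Finset.range n, psiP B Δ (j + i) 0)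
        ≤ (SP B Δ (j + n + 1) Tot + ENNReal.ofReal (C1 * psiP B Δ (j + n) 0)) +
          ENNReal.ofReal (C1 * ∑ i ∈ Finset.range n, psiP B Δ (j + i) 0) := by gcongr
      _ = _ := by rw [add_assoc, add_comm (ENNReal.ofReal (C1 * psiP B Δ (j + n) 0))]; rfl

/-- `∑_{i<n} e_{j+i} ≤ 2 θ e_{j+n}`. -/
theorem sum_e_le {e : ℕ → ℝ} {θ : ℝ} (hθ0 : 0 ≤ θ) (hθ : θ ≤ 1 / 4) (he : ∀ k, 0 ≤ e k) {K : ℕ}
    (hs : ∀ k < K, e k ≤ θ * e (k + 1)) :
    ∀ n j : ℕ, j + n ≤ K → ∑ i ∈ Finset.range n, e (j + i) ≤ 2 * θ * e (j + n) := by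
  intro n
  induction n with
  | zero =>
    intro j _
    simp only [Finset.range_zero, Finset.sum_empty, Nat.add_zero]
    have := he j
    positivity
  | succ n ih =>
    intro j hj
    have h1 := ih j (by omega)
    have h2 := hs (j + n) (by omega)
    rw [Finset.sum_range_succ]
    have h3 := he (j + n)
    have h4 := he (j + (n + 1))
    have e1 : j + n + 1 = j + (n + 1) := by ring
    rw [e1] at h2
    have h5 : 2 * θ * e (j + n) ≤ e (j + n) := by nlinarith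
    have h6 : 2 * θ * e (j + n) ≤ 1 / 2 * e (j + n) := by nlinarith
    nlinarith

theorem upChain (hO : OneStep C1 Ys0) {B Δ : ℝ} (hB : 0 < B) (hΔ : 0 ≤ Δ) {K : ℕ}
    (hK : 8 * ((K : ℝ) + 1) * Del B Δ K ≤ B) (hY : Ys0 ≤ Ysc B K) (h32 : 32 ≤ Ysc B K) {ε : ℝ}
    (hε : 16 * C1 / Ysc B K ≤ ε) {j : ℕ} (hj : j ≤ K) :
    SP B Δ j Tot ≤ ENNReal.ofReal (1 + ε) * SP B Δ K Tot := by
  have hYp := Ysc_pos hB K
  have hC1 := hO.C1_pos
  have h1 := SP_chain hO hB hΔ hK hY (K - j) j (by omega)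
  have e1 : j + (K - j) = K := by omega
  rw [e1] at h1
  have h2 := sum_e_le (e := fun k => psiP B Δ k 0) (θ := 8 / Ysc B K) (by positivity)
    (by rw [div_le_iff₀ hYp]; linarith) (fun k => psiP_nonneg _ _ _ _) (K := K)
    (fun k hk => e_step hB hΔ hK hk) (K - j) j (by omega)
  simp only [e1] at h2
  have hε0 : 0 ≤ ε := le_trans (by positivity) hε
  rw [ENNReal.ofReal_add zero_le_one hε0, ENNReal.ofReal_one, add_mul, one_mul]
  refine h1.trans (add_le_add_right ?_ _)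
  have h3 : C1 * ∑ i ∈ Finset.range (K - j), psiP B Δ (j + i) 0 ≤ ε * psiP B Δ K 0 := by
    have h4 := psiP_nonneg B Δ K 0
    calc C1 * ∑ i ∈ Finset.range (K - j), psiP B Δ (j + i) 0
        ≤ C1 * (2 * (8 / Ysc B K) * psiP B Δ K 0) := mul_le_mul_of_nonneg_left h2 hC1.le
      _ = 16 * C1 / Ysc B K * psiP B Δ K 0 := by ring
      _ ≤ ε * psiP B Δ K 0 := mul_le_mul_of_nonneg_right hε h4
  calc ENNReal.ofReal (C1 * ∑ i ∈ Finset.range (K - j), psiP B Δ (j + i) 0)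
      ≤ ENNReal.ofReal (ε * psiP B Δ K 0) := ENNReal.ofReal_le_ofReal h3
    _ = ENNReal.ofReal ε * ENNReal.ofReal (psiP B Δ K 0) := ENNReal.ofReal_mul hε0
    _ ≤ ENNReal.ofReal ε * SP B Δ K Tot := by gcongr; exact psiP_le_SP K

end

theorem stmtUpChain (h1 : StmtFup) (h2 : StmtFupV) (h3 : StmtFlow) (hZ : StmtZ) {ρ : ℝ}
    (hρ0 : 0 < ρ) (hρ1 : ρ < 1) (hρ : HasSum (fun j : ℕ => aCoef (j + 1) * ρ ^ (j + 1)) 1) :
    StmtUpChain ρ := by
  obtain ⟨C1, Ys0, -, hO⟩ := exists_oneStep h1 h2 h3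
  obtain ⟨μ, hμ, -, -, -, hlim⟩ := stmtLim hZ ρ hρ0 hρ1 hρ
  obtain ⟨Λs, hΛs⟩ := slack_eventually hρ0 hρ1
  have hC1 := hO.C1_pos
  intro ε hε
  obtain ⟨r0, hr0⟩ := hlim (max Λs (max Ys0 (max 32 (16 * C1 / ε))))
  rw [eventually_atTop]
  refine ⟨r0, fun r hr => ?_⟩
  have hY := hr0 r hr
  have hs := hΛs r (by
    filter_upwards [hY] with x hx
    exact le_trans (le_max_left _ _) hx)
  filter_upwards [hY, hs, tendsto_bigB.eventually_gt_atTop 0,
    (tendsto_mIndex hρ0 hρ1).eventually_ge_atTop (r + 1)] with x hx hsx hB hm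
  have hΔ : 0 ≤ Sh x := Real.rpow_nonneg hB.le _
  have hYp := Ysc_pos hB (mIndex ρ x - r)
  have hy1 : Ys0 ≤ Ysc (bigB x) (mIndex ρ x - r) :=
    le_trans (le_trans (le_max_left _ _) (le_max_right _ _)) hx
  have hy2 : 32 ≤ Ysc (bigB x) (mIndex ρ x - r) :=
    le_trans (le_trans (le_trans (le_max_left _ _) (le_max_right _ _)) (le_max_right _ _)) hx
  have hy3 : 16 * C1 / ε ≤ Ysc (bigB x) (mIndex ρ x - r) :=
    le_trans (le_trans (le_trans (le_max_right _ _) (le_max_right _ _)) (le_max_right _ _)) hx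
  have hy4 : 16 * C1 / Ysc (bigB x) (mIndex ρ x - r) ≤ ε := by
    rw [div_le_iff₀ hYp]
    rw [div_le_iff₀ hε] at hy3
    linarith
  exact ⟨upChain hO hB hΔ hsx hy1 hy2 hy4 (Nat.zero_le _),
    upChain hO hB hΔ hsx hy1 hy2 hy4 (by omega)⟩

/-! ### Lower chain -/

theorem stmtLowChain (h1 : StmtFup) (h2 : StmtFupV) (h3 : StmtFlow) (hZ : StmtZ) (hW : StmtW)
    {ρ : ℝ} (hρ0 : 0 < ρ) (hρ1 : ρ < 1)
    (hρ : HasSum (fun j : ℕ => aCoef (j + 1) * ρ ^ (j + 1)) 1) : StmtLowChain ρ := by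
  obtain ⟨C1, Ys0, -, hO⟩ := exists_oneStep h1 h2 h3
  obtain ⟨μ, hμ, -, -, hlim3, hlim⟩ := stmtLim hZ ρ hρ0 hρ1 hρ
  obtain ⟨Λs, hΛs⟩ := slack_eventually hρ0 hρ1
  obtain ⟨C3, hC3, hratio⟩ := exists_ratio hρ0 hρ1 hρ
  obtain ⟨δ, hδ0, hδ1, hδ⟩ := stmtR1
  obtain ⟨Λ, K0, hK0, hΛY, hΛ1, hpos⟩ := pos_prop hO hZ hW hC3 hratio hδ0 (by linarith) hδ
  have hC1 := hO.C1_pos
  -- choose the base level r₀
  obtain ⟨ra, hra⟩ := hlim (max Λs (max Λ 32))
  set r0 := max 1 ra with hr0d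
  have hr01 : 1 ≤ r0 := le_max_left _ _
  have hY0 := hra r0 (le_max_right _ _)
  obtain ⟨c₁, c₂, hc₁, hc₂⟩ := hlim3 r0 hr01
  have hc₂pos : 0 < c₂ := by
    obtain ⟨x, hx⟩ := hc₂.exists
    linarith [hx.1, hx.2]
  set CL : ℝ := (Lap c₂).toReal with hCL
  have hCL0 : 0 ≤ CL := ENNReal.toReal_nonneg
  have hs0 := hΛs r0 (by
    filter_upwards [hY0] with x hx
    exact le_trans (le_max_left _ _) hx)
  intro ε hε
  -- the error tends to zero
  set s : ℝ := (1 + δ)⁻¹ with hs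
  have hs0' : 0 ≤ s := by rw [hs]; positivity
  have hs1 : s < 1 := inv_lt_one_of_one_lt₀ (by linarith)
  have herr : Tendsto (fun n : ℕ => 2 * ((1 + δ) / δ * s ^ n * (3 * CL + C1) +
      4 * C1 * (1 / 4) ^ (n + 1))) atTop (𝓝 0) := by
    have t1 : Tendsto (fun n : ℕ => s ^ n) atTop (𝓝 0) := tendsto_pow_atTop_nhds_zero_of_lt_one hs0' hs1
    have t2 : Tendsto (fun n : ℕ => ((1 : ℝ) / 4) ^ (n + 1)) atTop (𝓝 0) :=
      (tendsto_pow_atTop_nhds_zero_of_lt_one (by norm_num) (by norm_num)).comp (tendsto_add_atTop_nat 1)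
    have t3 := (((t1.const_mul ((1 + δ) / δ)).mul_const (3 * CL + C1)).add
      (t2.const_mul (4 * C1))).const_mul 2
    simpa using t3
  obtain ⟨N, hN⟩ := eventually_atTop.mp (herr.eventually_le_const hε)
  rw [eventually_atTop]
  refine ⟨r0 + 1 + N, fun r hr => ?_⟩
  filter_upwards [hY0, hs0, hc₂, tendsto_bigB.eventually_gt_atTop 0,
    (tendsto_mIndex hρ0 hρ1).eventually_ge_atTop (r + r0 + K0 + 2)] with x hx hsx hcx hB hm
  have hΔ : 0 ≤ Sh x := Real.rpow_nonneg hB.le _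
  set K := mIndex ρ x - r0 with hK
  set k := mIndex ρ x - r with hk
  have hkK : k < K := by omega
  have hKk : K - k = r - r0 := by omega
  set B := bigB x with hBd
  set Δ := Sh x with hΔd
  have hYp := Ysc_pos hB K
  have hyΛ : Λ ≤ Ysc B K := le_trans (le_trans (le_max_left _ _) (le_max_right _ _)) hx
  have hy32 : 32 ≤ Ysc B K := le_trans (le_trans (le_max_right _ _) (le_max_right _ _)) hx
  have hyYs : Ys0 ≤ Ysc B K := hΛY.trans hyΛ
  have hposK := hpos B Δ K hB hΔ (by omega) hsx hyΛ 0 (by omega)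
  have hSMtop : ∀ i, SM B Δ i Tot ≠ ⊤ := fun i => SM_ne_top hZ hB hΔ i (le_refl _)
  have hQPtop : ∀ i, QP δ B Δ i Tot ≠ ⊤ := fun i => QP_ne_top hZ hδ0.le hB hΔ i (le_refl _)
  set θ : ℝ := 8 / Ysc B K with hθ
  have hθ0 : 0 < θ := by rw [hθ]; positivity
  have hθ4 : θ ≤ 1 / 4 := by rw [hθ, div_le_iff₀ hYp]; linarith
  have hYk : ∀ i ≤ K, Ys0 ≤ Ysc B i := fun i hi => hyYs.trans (Ysc_ge_of_le hB hi)
  have htail : ∀ v ∈ Tot, IsTot v ∧ (v ≠ 1 → ¬ Sq v → tl v ∈ Tot) :=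
    fun v hv => ⟨hv, fun h1 hsq => (totient_decomp hv h1 hsq).2.1⟩
  have hrec := stmtRec δ C1 θ hδ0 (by linarith) hC1 hθ0 hθ4 K (fun i => (SM B Δ i Tot).toReal)
    (fun i => (QP δ B Δ i Tot).toReal) (fun i => psiP B Δ i 0) (fun i => ENNReal.toReal_nonneg)
    (fun i => ENNReal.toReal_nonneg) (fun i => psiP_nonneg _ _ _ _)
    (fun i hi => e_step hB hΔ hsx hi)
    (by
      intro i hi
      have h1 := QP_up hO hB hΔ (slack_mono hB hΔ hsx hi.le) (hYk i hi.le) hδ0.le (by linarith)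
        (A := Tot) (D := Tot) htail
      have h2 := ENNReal.toReal_mono (ENNReal.add_ne_top.mpr
        ⟨ENNReal.mul_ne_top ENNReal.ofReal_ne_top (hQPtop _), ENNReal.ofReal_ne_top⟩) h1
      rw [ENNReal.toReal_add (ENNReal.mul_ne_top ENNReal.ofReal_ne_top (hQPtop _))
        ENNReal.ofReal_ne_top, ENNReal.toReal_mul, ENNReal.toReal_ofReal (by positivity),
        ENNReal.toReal_ofReal (mul_nonneg hC1.le (psiP_nonneg _ _ _ _))] at h2
      exact h2)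
    (by
      intro i hi
      have h1 := SM_low_viol hO hB hΔ (slack_mono hB hΔ hsx (show i ≤ K by omega))
        (slack_mono hB hΔ hsx (show i + 1 ≤ K by omega)) (hYk i (by omega)) (hYk (i + 1) (by omega))
        hδ (D := Tot) (D2 := Tot) (fun v hv => hv) (fun v hv => (htail v hv).2)
      have h1' : SM B Δ (i + 1) Tot ≤ SM B Δ i Tot + QP δ B Δ (i + 2) Tot +
          (ENNReal.ofReal (C1 * psiM B Δ i 0) + ENNReal.ofReal (C1 * psiP B Δ (i + 1) 0)) := by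
        refine h1.trans ?_
        gcongr
        exact wsum_mono_set _ (fun v hv => hv.1)
      have h2 := ENNReal.toReal_mono (ENNReal.add_ne_top.mpr
        ⟨ENNReal.add_ne_top.mpr ⟨hSMtop _, hQPtop _⟩,
          ENNReal.add_ne_top.mpr ⟨ENNReal.ofReal_ne_top, ENNReal.ofReal_ne_top⟩⟩) h1'
      rw [ENNReal.toReal_add (ENNReal.add_ne_top.mpr ⟨hSMtop _, hQPtop _⟩)
        (ENNReal.add_ne_top.mpr ⟨ENNReal.ofReal_ne_top, ENNReal.ofReal_ne_top⟩),
        ENNReal.toReal_add (hSMtop _) (hQPtop _),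
        ENNReal.toReal_add ENNReal.ofReal_ne_top ENNReal.ofReal_ne_top,
        ENNReal.toReal_ofReal (mul_nonneg hC1.le (psiM_nonneg _ _ _ _)),
        ENNReal.toReal_ofReal (mul_nonneg hC1.le (psiP_nonneg _ _ _ _))] at h2
      have h3 := psiM_le_psiP hB hΔ i 0
      have h4 : C1 * psiM B Δ i 0 ≤ C1 * psiP B Δ i 0 := mul_le_mul_of_nonneg_left h3 hC1.le
      linarith)
  have hr := hrec.2 0 k (Nat.zero_le _) hkK
  -- bound for q_K
  have hqK : (QP δ B Δ K Tot).toReal ≤ 3 * CL * psiP B Δ K 0 := by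
    have h4 : QP δ B Δ K Tot ≤ ENNReal.ofReal (3 * psiP B Δ K 0) * Lap c₂ :=
      (QP_le_SP hδ0.le B Δ K Tot).trans ((SP_le_Lap hB hΔ hsx).trans
        (mul_le_mul_right (Lap_mono hYp hcx.2) _))
    have h5 := ENNReal.toReal_mono (ENNReal.mul_ne_top ENNReal.ofReal_ne_top
      (Lap_ne_top hZ hc₂pos)) h4
    rw [ENNReal.toReal_mul, ENNReal.toReal_ofReal
      (mul_nonneg (by norm_num) (psiP_nonneg _ _ _ _))] at h5
    linarith
  have hx0 : psiP B Δ K 0 / 2 ≤ (SM B Δ 0 Tot).toReal := by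
    have := ENNReal.toReal_mono (hSMtop 0) hposK
    rwa [ENNReal.toReal_ofReal (by have := psiP_nonneg B Δ K 0; positivity)] at this
  have he0 := psiP_nonneg B Δ K 0
  -- the relative error
  set n := r - r0 - 1 with hn
  have hn1 : K - (k + 1) = n := by omega
  have hn2 : K - k = n + 1 := by omega
  rw [hn1, hn2] at hr
  have hNn := hN n (by omega)
  have hθn : θ ^ (n + 1) ≤ (1 / 4) ^ (n + 1) := pow_le_pow_left₀ hθ0.le hθ4 _
  have hkey : (SM B Δ k Tot).toReal ≤ (1 + ε) * (SM B Δ 0 Tot).toReal := by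
    have hA : 0 < (1 + δ) / δ := by positivity
    have hsn : 0 ≤ s ^ n := pow_nonneg hs0' n
    have h5 : (QP δ B Δ K Tot).toReal + 4 * C1 * θ * psiP B Δ K 0 ≤
        (3 * CL + C1) * psiP B Δ K 0 := by
      have : 4 * C1 * θ * psiP B Δ K 0 ≤ C1 * psiP B Δ K 0 := by
        apply mul_le_mul_of_nonneg_right _ he0
        nlinarith
      linarith
    have h6 : (1 + δ) / δ * s ^ n * ((QP δ B Δ K Tot).toReal + 4 * C1 * θ * psiP B Δ K 0) ≤
        (1 + δ) / δ * s ^ n * ((3 * CL + C1) * psiP B Δ K 0) :=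
      mul_le_mul_of_nonneg_left h5 (by positivity)
    have h7 : 4 * C1 * θ ^ (n + 1) * psiP B Δ K 0 ≤ 4 * C1 * (1 / 4) ^ (n + 1) * psiP B Δ K 0 := by
      apply mul_le_mul_of_nonneg_right _ he0
      exact mul_le_mul_of_nonneg_left hθn (by positivity)
    set E : ℝ := (1 + δ) / δ * s ^ n * (3 * CL + C1) + 4 * C1 * (1 / 4) ^ (n + 1) with hE
    have hE0 : 0 ≤ E := by positivity
    have h8 : (SM B Δ k Tot).toReal ≤ (SM B Δ 0 Tot).toReal + E * psiP B Δ K 0 := by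
      have h9 : E * psiP B Δ K 0 = (1 + δ) / δ * s ^ n * ((3 * CL + C1) * psiP B Δ K 0) +
          4 * C1 * (1 / 4) ^ (n + 1) * psiP B Δ K 0 := by rw [hE]; ring
      rw [h9]
      linarith
    have h10 : E * psiP B Δ K 0 ≤ 2 * E * (SM B Δ 0 Tot).toReal := by
      have := mul_le_mul_of_nonneg_left hx0 hE0
      linarith
    have h11 : 2 * E * (SM B Δ 0 Tot).toReal ≤ ε * (SM B Δ 0 Tot).toReal :=
      mul_le_mul_of_nonneg_right hNn ENNReal.toReal_nonneg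
    linarith
  rw [← ENNReal.ofReal_toReal (hSMtop k), ← ENNReal.ofReal_toReal (hSMtop 0),
    ← ENNReal.ofReal_mul (by linarith)]
  exact ENNReal.ofReal_le_ofReal hkey

end Crest.Agent.R020
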