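import Mathlib
import Crest.Agent.R020.Stmt
import Crest.Agent.R020.ScalePhase

/-!
Row 20 (helper984): corollaries of `StmtChain`: slow variation of `S(B)` (input (in3) of the top step).
-/

set_option autoImplicit false

open scoped ENNReal Topology
open MeasureTheory Filter Crest.NumberTheoryR.TotientScale

noncomputable section

namespace Crest.Agent.R020

theorem SB_monoC {R R' : ℝ} (h : R ≤ R') : SB R ≤ SB R' :=
  wt_mono fun _ hd => ⟨hd.1, hd.2.trans h⟩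

/-- `S(R) ≥ 1` for `R ≥ 0` (the totient `1`). -/
theorem one_le_SB {R : ℝ} (hR : 0 ≤ R) : 1 ≤ SB R := by
  unfold SB wt ws
  refine le_trans (le_of_eq ?_) (ENNReal.le_tsum 1)
  rw [Set.indicator_of_mem]
  · simp
  · exact ⟨isTot_one, by rw [FF_one]; exact hR⟩

theorem scaleG_pos' {ρ x : ℝ} (hB : 0 < bigB x) : 0 < scaleG ρ x := by
  rw [scaleG_eq]
  exact scaleAt_pos hB _

/-- Eventually in `x`, `S(B+B^{.97}) ≤ (1+ε) S(B-B^{.97})`. -/
theorem eventually_SB_ratio (h : StmtChain)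
    (hρ : ∃ ρ : ℝ, 0 < ρ ∧ ρ < 1 ∧ HasSum (fun j : ℕ => aCoef (j + 1) * ρ ^ (j + 1)) 1)
    {δ : ℝ} (hδ : 0 < δ) :
    ∀ᶠ x in atTop, SB (bigB x + bigB x ^ (97 / 100 : ℝ)) ≠ ⊤ ∧
      (SB (bigB x + bigB x ^ (97 / 100 : ℝ))).toReal ≤
        (1 + δ) * (SB (bigB x - bigB x ^ (97 / 100 : ℝ))).toReal := by
  obtain ⟨ρ, hρ0, hρ1, hs⟩ := hρ
  obtain ⟨A, ε, hε, hb, hA⟩ := h ρ hρ0 hρ1 hs
  have he : ∀ᶠ r in atTop, |ε r| ≤ min (1 / 2) (δ / 8) := by
    have := hε.abs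
    simp only [abs_zero] at this
    exact this.eventually_le_const (by positivity)
  obtain ⟨r, ⟨hr, hbr⟩, her⟩ := ((hA.and hb).and he).exists
  obtain ⟨c1, c2, hc1, hc⟩ := hbr
  filter_upwards [hr, eventually_phase_mem hρ0 hρ1, tendsto_bigB.eventually_gt_atTop 0]
    with x hx hph hB
  refine ⟨hx.1, ?_⟩
  have h1 := abs_le.mp hx.2.1
  have h2 := abs_le.mp hx.2.2
  have hG : 0 < scaleG ρ x := scaleG_pos' hB
  set a := A r (phase ρ x) with ha
  have hapos : 0 < a := lt_of_lt_of_le hc1 (hc _ hph).1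
  have e1 : ε r ≤ 1 / 2 := (le_abs_self _).trans (her.trans (min_le_left _ _))
  have e2 : ε r ≤ δ / 8 := (le_abs_self _).trans (her.trans (min_le_right _ _))
  set P := (SB (bigB x + bigB x ^ (97 / 100 : ℝ))).toReal with hP
  set M := (SB (bigB x - bigB x ^ (97 / 100 : ℝ))).toReal with hM
  have h3 : P ≤ (a + ε r * a) * scaleG ρ x := by
    rw [← div_le_iff₀ hG]; linarith [h1.2]
  have h4 : (a - ε r * a) * scaleG ρ x ≤ M := by
    rw [← le_div_iff₀ hG]; linarith [h2.1]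
  refine h3.trans (le_trans ?_ (mul_le_mul_of_nonneg_left h4 (by linarith)))
  have h5 : a + ε r * a ≤ (1 + δ) * (a - ε r * a) := by
    have h6 : (1 + ε r) ≤ (1 + δ) * (1 - ε r) := by nlinarith
    nlinarith [mul_le_mul_of_nonneg_right h6 hapos.le]
  calc (a + ε r * a) * scaleG ρ x ≤ ((1 + δ) * (a - ε r * a)) * scaleG ρ x :=
        mul_le_mul_of_nonneg_right h5 hG.le
    _ = _ := by ring

/-- `x = exp (exp B)` has `bigB x = B`. -/
theorem bigB_exp_exp (B : ℝ) : bigB (Real.exp (Real.exp B)) = B := by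
  unfold bigB
  rw [Real.log_exp, Real.log_exp]

theorem tendsto_exp_exp : Tendsto (fun B : ℝ => Real.exp (Real.exp B)) atTop atTop :=
  Real.tendsto_exp_atTop.comp Real.tendsto_exp_atTop

/-- The same in terms of `B`. -/
theorem eventually_SB_ratio' (h : StmtChain)
    (hρ : ∃ ρ : ℝ, 0 < ρ ∧ ρ < 1 ∧ HasSum (fun j : ℕ => aCoef (j + 1) * ρ ^ (j + 1)) 1)
    {δ : ℝ} (hδ : 0 < δ) :
    ∀ᶠ B : ℝ in atTop, SB (B + B ^ (97 / 100 : ℝ)) ≠ ⊤ ∧
      (SB (B + B ^ (97 / 100 : ℝ))).toReal ≤ (1 + δ) * (SB (B - B ^ (97 / 100 : ℝ))).toReal := by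
  have h1 := tendsto_exp_exp.eventually (eventually_SB_ratio h hρ hδ)
  filter_upwards [h1] with B hB
  rwa [bigB_exp_exp] at hB

theorem eventually_rpow_le_self : ∀ᶠ B : ℝ in atTop, B ^ (97 / 100 : ℝ) ≤ B := by
  filter_upwards [eventually_ge_atTop (1:ℝ)] with B hB
  calc B ^ (97 / 100 : ℝ) ≤ B ^ (1 : ℝ) := Real.rpow_le_rpow_of_exponent_le hB (by norm_num)
    _ = B := Real.rpow_one B

/-- (in3): `S(B + B^{.97}) / S(B - B^{.97}) → 1`. -/
theorem tendsto_SB_ratio (h : StmtChain)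
    (hρ : ∃ ρ : ℝ, 0 < ρ ∧ ρ < 1 ∧ HasSum (fun j : ℕ => aCoef (j + 1) * ρ ^ (j + 1)) 1) :
    Tendsto (fun B : ℝ => (SB (B + B ^ (97 / 100 : ℝ))).toReal /
      (SB (B - B ^ (97 / 100 : ℝ))).toReal) atTop (𝓝 1) := by
  rw [Metric.tendsto_nhds]
  intro δ hδ
  filter_upwards [eventually_SB_ratio' h hρ (half_pos hδ), eventually_rpow_le_self,
    eventually_ge_atTop (0:ℝ)] with B hB hB2 hB0
  have hfin : SB (B - B ^ (97 / 100 : ℝ)) ≠ ⊤ := by
    refine ne_top_of_le_ne_top hB.1 (SB_monoC ?_)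
    have := Real.rpow_nonneg hB0 (97 / 100 : ℝ)
    linarith
  have hM : 1 ≤ (SB (B - B ^ (97 / 100 : ℝ))).toReal := by
    have := one_le_SB (R := B - B ^ (97 / 100 : ℝ)) (by linarith)
    rw [← ENNReal.toReal_one]
    exact (ENNReal.toReal_le_toReal ENNReal.one_ne_top hfin).2 this
  have hP : (SB (B - B ^ (97 / 100 : ℝ))).toReal ≤ (SB (B + B ^ (97 / 100 : ℝ))).toReal := by
    refine (ENNReal.toReal_le_toReal hfin hB.1).2 (SB_monoC ?_)
    have := Real.rpow_nonneg hB0 (97 / 100 : ℝ)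
    linarith
  have hM0 : 0 < (SB (B - B ^ (97 / 100 : ℝ))).toReal := by linarith
  rw [Real.dist_eq, div_sub_one hM0.ne', abs_div, abs_of_pos hM0, div_lt_iff₀ hM0,
    abs_of_nonneg (by linarith)]
  nlinarith [hB.2]

/-- Sandwich version: if `E(B) ≤ B^{.97}` eventually, then `S(B + E(B)) / S(B) → 1`. -/
theorem tendsto_SB_add_ratio (h : StmtChain)
    (hρ : ∃ ρ : ℝ, 0 < ρ ∧ ρ < 1 ∧ HasSum (fun j : ℕ => aCoef (j + 1) * ρ ^ (j + 1)) 1)
    {E F : ℝ → ℝ} (hE : ∀ᶠ B in atTop, |E B| ≤ B ^ (97 / 100 : ℝ))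
    (hF : ∀ᶠ B in atTop, |F B| ≤ B ^ (97 / 100 : ℝ)) :
    Tendsto (fun B : ℝ => (SB (B + E B)).toReal / (SB (B + F B)).toReal) atTop (𝓝 1) := by
  have h1 := tendsto_SB_ratio h hρ
  have h2 : Tendsto (fun B : ℝ => ((SB (B + B ^ (97 / 100 : ℝ))).toReal /
      (SB (B - B ^ (97 / 100 : ℝ))).toReal)⁻¹) atTop (𝓝 1) := by
    simpa using h1.inv₀ one_ne_zero
  refine tendsto_of_tendsto_of_tendsto_of_le_of_le' h2 h1 ?_ ?_
  · filter_upwards [eventually_SB_ratio' h hρ one_pos, eventually_rpow_le_self,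
      eventually_ge_atTop (0:ℝ), hE, hF] with B hB hB2 hB0 hEB hFB
    have hE' := abs_le.mp hEB
    have hF' := abs_le.mp hFB
    have f1 : SB (B + E B) ≠ ⊤ := ne_top_of_le_ne_top hB.1 (SB_monoC (by linarith))
    have f2 : SB (B + F B) ≠ ⊤ := ne_top_of_le_ne_top hB.1 (SB_monoC (by linarith))
    have f3 : SB (B - B ^ (97 / 100 : ℝ)) ≠ ⊤ := ne_top_of_le_ne_top hB.1 (SB_monoC (by linarith))
    have hF0 : 0 < (SB (B + F B)).toReal := by
      have := one_le_SB (R := B + F B) (by linarith)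
      exact ENNReal.toReal_pos (by intro h0; rw [h0] at this; simp at this) f2
    rw [inv_div]
    refine div_le_div₀ ENNReal.toReal_nonneg ?_ hF0 ?_
    · exact (ENNReal.toReal_le_toReal f3 f1).2 (SB_monoC (by linarith))
    · exact (ENNReal.toReal_le_toReal f2 hB.1).2 (SB_monoC (by linarith))
  · filter_upwards [eventually_SB_ratio' h hρ one_pos, eventually_rpow_le_self,
      eventually_ge_atTop (0:ℝ), hE, hF] with B hB hB2 hB0 hEB hFB
    have hE' := abs_le.mp hEB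
    have hF' := abs_le.mp hFB
    have f1 : SB (B + E B) ≠ ⊤ := ne_top_of_le_ne_top hB.1 (SB_monoC (by linarith))
    have f2 : SB (B + F B) ≠ ⊤ := ne_top_of_le_ne_top hB.1 (SB_monoC (by linarith))
    have f3 : SB (B - B ^ (97 / 100 : ℝ)) ≠ ⊤ := ne_top_of_le_ne_top hB.1 (SB_monoC (by linarith))
    have hM0 : 0 < (SB (B - B ^ (97 / 100 : ℝ))).toReal := by
      have := one_le_SB (R := B - B ^ (97 / 100 : ℝ)) (by linarith)
      exact ENNReal.toReal_pos (by intro h0; rw [h0] at this; simp at this) f3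
    refine div_le_div₀ ENNReal.toReal_nonneg ?_ hM0 ?_
    · exact (ENNReal.toReal_le_toReal f1 hB.1).2 (SB_monoC (by linarith))
    · exact (ENNReal.toReal_le_toReal f3 f2).2 (SB_monoC (by linarith))

end Crest.Agent.R020
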