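import Mathlib
import Crest.Agent.R020.Chain0
import Crest.Agent.R020.ChainReal2

/-!
Row 20 (helper984): the real-analytic inputs `StmtR5`, `StmtR6` of the chain.
-/

set_option autoImplicit false

noncomputable section

open Finset Filter Topology MeasureTheory
open Crest.NumberTheoryR.TotientScale
open Crest.Agent.R020.CR2

namespace Crest.Agent.R020.CR3

theorem psi_eq_indicator (R : ℝ) (k : ℕ) :
    psi R k = Set.indicator (Set.Iic R) (fun u => (R - u) ^ k * scaleAt 1 k) := by
  funext u
  unfold psi Set.indicator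
  simp only [Set.mem_Iic]
  split_ifs with h
  · rw [scaleAt_eq_mul]
  · rfl

theorem psi_nonneg (R : ℝ) (k : ℕ) (t : ℝ) : 0 ≤ psi R k t := by
  rw [psi_eq_indicator]
  apply Set.indicator_nonneg
  intro u hu
  exact mul_nonneg (pow_nonneg (sub_nonneg.2 hu) k) (scaleAt_pos one_pos k).le

theorem psi_anti (R : ℝ) (k : ℕ) : Antitone (psi R k) := by
  intro u v huv
  unfold psi
  by_cases hv : v ≤ R
  · rw [if_pos hv, if_pos (huv.trans hv)]
    exact scaleAt_mono (by linarith) (by linarith) k
  · rw [if_neg hv]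
    have := psi_nonneg R k u
    unfold psi at this
    exact this

theorem psi_integrableOn (R : ℝ) (k : ℕ) (t : ℝ) : IntegrableOn (psi R k) (Set.Ioi t) := by
  rw [psi_eq_indicator]
  unfold IntegrableOn
  rw [integrable_indicator_iff measurableSet_Iic]
  unfold IntegrableOn
  rw [Measure.restrict_restrict measurableSet_Iic, Set.inter_comm, Set.Ioi_inter_Iic]
  have h : IntegrableOn (fun u : ℝ => (R - u) ^ k * scaleAt 1 k) (Set.Icc t R) := by
    apply ContinuousOn.integrableOn_Icc
    fun_prop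
  exact h.mono_set Set.Ioc_subset_Icc_self

/-- (R6). -/
theorem stmtR6 : StmtR6 := by
  intro R t k
  unfold TI
  by_cases ht : t ≤ R
  · rw [psi_eq_indicator, setIntegral_indicator measurableSet_Iic, Set.Ioi_inter_Iic,
      ← intervalIntegral.integral_of_le ht]
    rw [intervalIntegral.integral_mul_const]
    have h1 : ∫ u in t..R, (R - u) ^ k = (R - t) ^ (k + 1) / ((k:ℝ) + 1) := by
      rw [intervalIntegral.integral_comp_sub_left (fun x => x ^ k) R, integral_pow]
      simp
    rw [h1]
    unfold psi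
    rw [if_pos ht, scaleAt_eq_mul (R - t), scaleAt_succ]
    have := (gSeq_pos (k + 1)).ne'
    field_simp
  · have h2 : psi R (k + 1) t = 0 := by unfold psi; rw [if_neg ht]
    rw [h2, mul_zero]
    apply setIntegral_eq_zero_of_forall_eq_zero
    intro u hu
    have hu' : t < u := hu
    unfold psi
    rw [if_neg (by linarith)]

/-- The decay of `psi`. -/
theorem psi_decay {B R s y : ℝ} (hB : 0 < B) (hR1 : 7 / 8 * B ≤ R) (hR2 : R ≤ 9 / 8 * B) (k : ℕ)
    (hs1 : 1 ≤ s) (hy : 0 ≤ y) :
    psi R k (s * gSeq (k + 1) * y) ≤ 3 * psi R k 0 * Real.exp (-y / Ysc B k) := by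
  have hg := gSeq_pos (k + 1)
  have hR : 0 < R := by linarith
  have hs := scaleAt_pos one_pos k
  have hY := Ysc_posR hB k
  by_cases h : s * gSeq (k + 1) * y ≤ R
  · rw [psi_zero_eq hR.le]
    have e0 : psi R k (s * gSeq (k + 1) * y) = scaleAt (R - s * gSeq (k + 1) * y) k := by
      unfold psi; rw [if_pos h]
    rw [e0, scaleAt_eq_mul (R - _), scaleAt_eq_mul R]
    set a := s * gSeq (k + 1) * y / R with ha
    have ha0 : 0 ≤ a := by positivity
    have ha1 : a ≤ 1 := (div_le_one hR).2 h
    have e1 : R - s * gSeq (k + 1) * y = R * (1 - a) := by rw [ha]; field_simp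
    have e2 : (1 - a) ^ k ≤ Real.exp (-(k * a)) := by
      have h1 : 1 - a ≤ Real.exp (-a) := by
        have := Real.add_one_le_exp (-a)
        linarith
      calc (1 - a) ^ k ≤ Real.exp (-a) ^ k := pow_le_pow_left₀ (by linarith) h1 k
        _ = Real.exp (-(k * a)) := by rw [← Real.exp_nat_mul]; congr 1; ring
    have e3 : y / Ysc B k ≤ 9 / 32 * (((k:ℝ) + 1) * a) := by
      have h1 : y / Ysc B k = ((k:ℝ) + 1) * (gSeq (k + 1) * y) / (4 * B) := by
        unfold Ysc
        field_simp
      have h2 : gSeq (k + 1) * y ≤ a * R := by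
        have : a * R = s * (gSeq (k + 1) * y) := by rw [ha]; field_simp
        rw [this]
        nlinarith [mul_nonneg hg.le hy]
      rw [h1, div_le_iff₀ (by positivity)]
      have h3 : a * R ≤ a * (9 / 8 * B) := mul_le_mul_of_nonneg_left hR2 ha0
      have h4 : ((k:ℝ) + 1) * (gSeq (k + 1) * y) ≤ ((k:ℝ) + 1) * (a * (9 / 8 * B)) :=
        mul_le_mul_of_nonneg_left (h2.trans h3) (by positivity)
      calc ((k:ℝ) + 1) * (gSeq (k + 1) * y) ≤ ((k:ℝ) + 1) * (a * (9 / 8 * B)) := h4
        _ = _ := by ring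
    have e4 : Real.exp (-(k * a)) ≤ 3 * Real.exp (-y / Ysc B k) := by
      have h1 : -(k * a) ≤ 1 + -y / Ysc B k := by
        rw [neg_div]
        have hk : 0 ≤ (k:ℝ) * a := by positivity
        nlinarith
      calc Real.exp (-(k * a)) ≤ Real.exp (1 + -y / Ysc B k) := Real.exp_le_exp.2 h1
        _ = Real.exp 1 * Real.exp (-y / Ysc B k) := Real.exp_add _ _
        _ ≤ 3 * Real.exp (-y / Ysc B k) := by
          apply mul_le_mul_of_nonneg_right _ (Real.exp_pos _).le
          have := Real.exp_one_lt_d9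
          linarith
    rw [e1, mul_pow]
    have h5 : (1 - a) ^ k ≤ 3 * Real.exp (-y / Ysc B k) := e2.trans e4
    have h6 : 0 ≤ R ^ k * scaleAt 1 k := by positivity
    calc R ^ k * (1 - a) ^ k * scaleAt 1 k = (R ^ k * scaleAt 1 k) * (1 - a) ^ k := by ring
      _ ≤ (R ^ k * scaleAt 1 k) * (3 * Real.exp (-y / Ysc B k)) :=
          mul_le_mul_of_nonneg_left h5 h6
      _ = _ := by ring
  · have e0 : psi R k (s * gSeq (k + 1) * y) = 0 := by unfold psi; rw [if_neg h]
    rw [e0]
    have := psi_nonneg R k 0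
    positivity

theorem adm_psi {B R s : ℝ} (hB : 0 < B) (hR1 : 7 / 8 * B ≤ R) (hR2 : R ≤ 9 / 8 * B) (k : ℕ)
    (hs1 : 1 ≤ s) : Adm (Ysc B k) (fun i => s * cc k i) (psi R k) where
  c_pos := mul_pos (by linarith) (cc_pos k 0)
  c_nonneg := fun i => (mul_pos (by linarith) (cc_pos k i)).le
  anti := psi_anti R k
  nonneg := psi_nonneg R k
  integrable := psi_integrableOn R k
  decay := by
    intro y hy
    have := psi_decay hB hR1 hR2 k hs1 hy
    rw [cc_first]
    exact this

/-- (R5). -/
theorem stmtR5 : StmtR5 := by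
  intro B Δ hB hΔ k hk s hs1 _
  have hD0 := Del_nonneg hB hΔ k
  have hk0 : (0:ℝ) ≤ k := Nat.cast_nonneg k
  have h1 : 8 * Del B Δ k ≤ B := by nlinarith [mul_nonneg hk0 hD0]
  exact ⟨adm_psi hB (by linarith) (by linarith) k hs1, adm_psi hB (by linarith) (by linarith) k hs1⟩

end Crest.Agent.R020.CR3
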