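import Mathlib
import Crest.Prelude.Def_TotientScale
import Crest.Agent.R020.Renewal
import Crest.Agent.R020.RenewalG

/-!
Row 20: scalar inequalities for the chain: growth of `g_k`, comparison `c^(k)_j ≤ C g_{k+1} a_j`,
the `(1+δ)`-inequality, and the accumulated errors `Δ_k`.
-/

set_option autoImplicit false

noncomputable section

open Finset Filter Topology
open Crest.NumberTheoryR.TotientScale

namespace Crest.Agent.R020.ChainScal

/-- (b) `g_{k+2} ≥ (1 + a_1) g_{k+1}`. -/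
theorem gSeq_growth (k : ℕ) : (1 + aCoef 1) * gSeq (k + 1) ≤ gSeq (k + 2) := by
  rw [gSeq_succ (k + 1), Finset.sum_range_succ']
  have h1 : ∑ d ∈ range (k + 1), aCoef (d + 1) * gSeq (k - d)
      ≤ ∑ d ∈ range (k + 1), aCoef (d + 1 + 1) * gSeq (k + 1 - (d + 1)) := by
    refine Finset.sum_le_sum fun d _ => ?_
    rw [show k + 1 - (d + 1) = k - d by omega]
    exact mul_le_mul_of_nonneg_right (aCoef_mono (by omega) (by omega)) (gSeq_pos _).le
  rw [← gSeq_succ k] at h1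
  have h2 : k + 1 - 0 = k + 1 := rfl
  rw [h2, zero_add]
  linarith

theorem gSeq_growth' (k : ℕ) (hk : 1 ≤ k) : (1 + aCoef 1) * gSeq k ≤ gSeq (k + 1) := by
  obtain ⟨m, rfl⟩ : ∃ m, k = m + 1 := ⟨k - 1, by omega⟩
  exact gSeq_growth m

/-- `g_{i+1} (1+a_1)^s ≤ g_{i+s+1}`. -/
theorem gSeq_growth_pow (i s : ℕ) : gSeq (i + 1) * (1 + aCoef 1) ^ s ≤ gSeq (i + s + 1) := by
  induction s with
  | zero => simp
  | succ s ih =>
    have h1 := gSeq_growth (i + s)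
    have h2 : 0 ≤ 1 + aCoef 1 := by have := aCoef_one_pos; linarith
    calc gSeq (i + 1) * (1 + aCoef 1) ^ (s + 1) = (1 + aCoef 1) * (gSeq (i + 1) * (1 + aCoef 1) ^ s) := by
          rw [pow_succ]; ring
      _ ≤ (1 + aCoef 1) * gSeq (i + s + 1) := mul_le_mul_of_nonneg_left ih h2
      _ ≤ gSeq (i + (s + 1) + 1) := h1

theorem gSeq_one : gSeq 1 = aCoef 1 := by
  have := gSeq_succ 0
  simp [gSeq_zero] at this
  exact this

/-- `a_1 g_i (1+a_1)^s ≤ g_{i+s+1}`, also for `i = 0`. -/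
theorem gSeq_growth_pow' (i s : ℕ) : aCoef 1 * gSeq i * (1 + aCoef 1) ^ s ≤ gSeq (i + s + 1) := by
  have ha := aCoef_one_pos
  have ha1 : aCoef 1 ≤ 1 := by
    have := aCoef_le_self 1
    simpa using this
  rcases Nat.eq_zero_or_pos i with h | h
  · subst h
    have := gSeq_growth_pow 0 s
    rw [gSeq_one] at this
    rw [gSeq_zero, mul_one]
    simpa using this
  · obtain ⟨m, rfl⟩ : ∃ m, i = m + 1 := ⟨i - 1, by omega⟩
    refine le_trans ?_ (gSeq_growth_pow (m + 1) s)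
    refine mul_le_mul_of_nonneg_right ?_ (by positivity)
    have h1 := gSeq_growth m
    have h2 := gSeq_pos (m + 1)
    nlinarith

theorem gSeq_mono_succ {i j : ℕ} (hij : i ≤ j) : gSeq (i + 1) ≤ gSeq (j + 1) := by
  obtain ⟨s, rfl⟩ := Nat.exists_eq_add_of_le hij
  refine le_trans ?_ (gSeq_growth_pow i s)
  have ha := aCoef_one_pos
  have : (1:ℝ) ≤ (1 + aCoef 1) ^ s := one_le_pow₀ (by linarith)
  exact le_mul_of_one_le_right (gSeq_pos _).le this

theorem aCoef_one_lt : aCoef 1 < 39 / 100 := by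
  rw [aCoef_one]
  have := Real.log_two_lt_d9
  linarith

theorem aCoef_one_gt : 38 / 100 < aCoef 1 := by
  rw [aCoef_one]
  have := Real.log_two_gt_d9
  linarith

/-- `c^(k)_j ≤ C g_{k+1} a_j` for `j ≥ 1`. -/
theorem exists_cSeq_le : ∃ C : ℝ, 0 < C ∧ ∀ k j : ℕ, 1 ≤ j →
    cSeq k j ≤ C * (gSeq (k + 1) * aCoef j) := by
  have ha := aCoef_one_pos
  set r : ℝ := (1 + aCoef 1)⁻¹ with hr
  have hr0 : 0 < r := by rw [hr]; positivity
  have hr1 : r < 1 := by rw [hr]; exact inv_lt_one_of_one_lt₀ (by linarith)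
  obtain ⟨C, hC, hCb⟩ := exists_lin_geo_bound (r := r) (κ := (1 + r) / 2) hr0.le (by linarith)
  have hinv : 0 < (1 - (1 + r) / 2)⁻¹ := inv_pos.2 (by linarith)
  refine ⟨4 / aCoef 1 * (C * (1 - (1 + r) / 2)⁻¹), by positivity, fun k j hj => ?_⟩
  have hG := gSeq_pos (k + 1)
  have hA := aCoef_pos j hj
  have e1 : cSeq k j = ∑ s ∈ range (k + 1), gSeq (k - s) * aCoef (s + j) := by
    rw [cSeq, ← Finset.sum_range_reflect]
    refine Finset.sum_congr rfl fun s hs => ?_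
    have hs' : s ≤ k := by simpa [Nat.lt_succ_iff] using hs
    rw [show k + 1 - 1 - s = k - s by omega, show k + j - (k - s) = s + j by omega]
  have hlog : Real.log ((j:ℝ) + 1) ≤ 2 * aCoef j := by
    have := half_log_le_aCoef j hj
    linarith
  have hterm : ∀ s ∈ range (k + 1), gSeq (k - s) * aCoef (s + j) ≤
      4 / aCoef 1 * (gSeq (k + 1) * aCoef j) * (C * ((1 + r) / 2) ^ s) := fun s hs => by
    have hs' : s ≤ k := by simpa [Nat.lt_succ_iff] using hs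
    have h1 : gSeq (k - s) ≤ gSeq (k + 1) / aCoef 1 * r ^ s := by
      have h2 := gSeq_growth_pow' (k - s) s
      rw [show k - s + s + 1 = k + 1 by omega] at h2
      rw [hr, inv_pow, ← div_eq_mul_inv, le_div_iff₀ (by positivity), le_div_iff₀ ha]
      linarith
    have h3 : aCoef (s + j) ≤ 4 * ((s:ℝ) + 1) * aCoef j := by
      refine (aCoef_add_le s j hj).trans ?_
      have hs0 : (0:ℝ) ≤ s := Nat.cast_nonneg s
      calc (2 * (s:ℝ) + 1) * Real.log (j + 1) ≤ (2 * (s:ℝ) + 1) * (2 * aCoef j) :=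
            mul_le_mul_of_nonneg_left hlog (by positivity)
        _ ≤ 4 * ((s:ℝ) + 1) * aCoef j := by nlinarith
    calc gSeq (k - s) * aCoef (s + j) ≤ (gSeq (k + 1) / aCoef 1 * r ^ s) * (4 * ((s:ℝ) + 1) * aCoef j) :=
          mul_le_mul h1 h3 (aCoef_pos _ (by omega)).le (by positivity)
      _ = 4 / aCoef 1 * (gSeq (k + 1) * aCoef j) * (((s:ℝ) + 1) * r ^ s) := by ring
      _ ≤ 4 / aCoef 1 * (gSeq (k + 1) * aCoef j) * (C * ((1 + r) / 2) ^ s) :=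
          mul_le_mul_of_nonneg_left (hCb s) (by positivity)
  rw [e1]
  refine (Finset.sum_le_sum hterm).trans ?_
  rw [← Finset.mul_sum, ← Finset.mul_sum]
  have hgeo : ∑ i ∈ range (k + 1), ((1 + r) / 2) ^ i ≤ (1 - (1 + r) / 2)⁻¹ := by
    rw [← tsum_geometric_of_lt_one (by positivity) (by linarith : (1 + r) / 2 < 1)]
    exact (summable_geometric_of_lt_one (by positivity) (by linarith)).sum_le_tsum _
      (fun i _ => by positivity)
  calc 4 / aCoef 1 * (gSeq (k + 1) * aCoef j) * (C * ∑ i ∈ range (k + 1), ((1 + r) / 2) ^ i)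
      ≤ 4 / aCoef 1 * (gSeq (k + 1) * aCoef j) * (C * (1 - (1 + r) / 2)⁻¹) :=
        mul_le_mul_of_nonneg_left (mul_le_mul_of_nonneg_left hgeo hC.le) (by positivity)
    _ = 4 / aCoef 1 * (C * (1 - (1 + r) / 2)⁻¹) * (gSeq (k + 1) * aCoef j) := by ring

/-- (a) the `(1+δ)`-inequality. -/
theorem exists_delta : ∃ δ : ℝ, 0 < δ ∧ δ ≤ 1 / 100 ∧ ∀ k j : ℕ, 1 ≤ j →
    (1 + δ) * (gSeq (k + 2) * aCoef j + cSeq (k + 1) (j + 1)) ≤
      gSeq (k + 2) * aCoef (j + 1) / (1 - aCoef 1) + cSeq (k + 1) (j + 1) := by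
  obtain ⟨C, hC, h⟩ := exists_cSeq_le
  have ha := aCoef_one_gt
  have ha' := aCoef_one_lt
  refine ⟨min (1 / 100) (1 / (2 * (C + 1))), by positivity, min_le_left _ _, fun k j hj => ?_⟩
  set δ := min (1 / 100) (1 / (2 * (C + 1))) with hδ
  have hδ0 : 0 < δ := by rw [hδ]; positivity
  have hδ1 : δ * (C + 1) ≤ 1 / 2 := by
    have h1 : δ ≤ 1 / (2 * (C + 1)) := min_le_right _ _
    calc δ * (C + 1) ≤ 1 / (2 * (C + 1)) * (C + 1) := mul_le_mul_of_nonneg_right h1 (by positivity)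
      _ = 1 / 2 := by field_simp
  have hG := gSeq_pos (k + 2)
  have hA := aCoef_pos j hj
  have hA1 := aCoef_pos (j + 1) (by omega)
  have hmono : aCoef j ≤ aCoef (j + 1) := aCoef_mono hj (by omega)
  have hc := h (k + 1) (j + 1) (by omega)
  have h1 : 3 / 2 * (gSeq (k + 2) * aCoef (j + 1)) ≤ gSeq (k + 2) * aCoef (j + 1) / (1 - aCoef 1) := by
    rw [le_div_iff₀ (by linarith)]
    have : 0 ≤ gSeq (k + 2) * aCoef (j + 1) := by positivity
    nlinarith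
  have h2 : gSeq (k + 2) * aCoef j ≤ gSeq (k + 2) * aCoef (j + 1) :=
    mul_le_mul_of_nonneg_left hmono hG.le
  have h3 : δ * (gSeq (k + 2) * aCoef j + cSeq (k + 1) (j + 1)) ≤ 1 / 2 * (gSeq (k + 2) * aCoef (j + 1)) := by
    calc δ * (gSeq (k + 2) * aCoef j + cSeq (k + 1) (j + 1))
        ≤ δ * (gSeq (k + 2) * aCoef (j + 1) + C * (gSeq (k + 2) * aCoef (j + 1))) :=
          mul_le_mul_of_nonneg_left (add_le_add h2 hc) hδ0.le
      _ = δ * (C + 1) * (gSeq (k + 2) * aCoef (j + 1)) := by ring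
      _ ≤ 1 / 2 * (gSeq (k + 2) * aCoef (j + 1)) :=
          mul_le_mul_of_nonneg_right hδ1 (by positivity)
  linarith

/-! ### the scales `Y_k = 4 B / ((k+1) g_{k+1})` and the accumulated errors -/

/-- the scale of the `k`-th step. -/
def Ysc (B : ℝ) (k : ℕ) : ℝ := 4 * B / (((k:ℝ) + 1) * gSeq (k + 1))

theorem Ysc_pos {B : ℝ} (hB : 0 < B) (k : ℕ) : 0 < Ysc B k := by
  have := gSeq_pos (k + 1)
  rw [Ysc]; positivity

/-- `Y_{i+s} (1+a_1)^s ≤ Y_i`. -/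
theorem Ysc_growth {B : ℝ} (hB : 0 < B) (i s : ℕ) :
    Ysc B (i + s) * (1 + aCoef 1) ^ s ≤ Ysc B i := by
  have h1 := gSeq_growth_pow i s
  have hg1 := gSeq_pos (i + 1)
  have hg2 := gSeq_pos (i + s + 1)
  have ha := aCoef_one_pos
  rw [Ysc, Ysc, div_mul_eq_mul_div, div_le_div_iff₀ (by positivity) (by positivity)]
  push_cast
  have h2 : (i:ℝ) + 1 ≤ (i:ℝ) + s + 1 := by have : (0:ℝ) ≤ s := Nat.cast_nonneg s; linarith
  calc 4 * B * (1 + aCoef 1) ^ s * (((i:ℝ) + 1) * gSeq (i + 1))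
      = 4 * B * (((i:ℝ) + 1) * (gSeq (i + 1) * (1 + aCoef 1) ^ s)) := by ring
    _ ≤ 4 * B * (((i:ℝ) + s + 1) * gSeq (i + s + 1)) := by
        refine mul_le_mul_of_nonneg_left (mul_le_mul h2 h1 (by positivity) (by positivity)) (by positivity)

theorem Ysc_anti {B : ℝ} (hB : 0 < B) {i k : ℕ} (hik : i ≤ k) : Ysc B k ≤ Ysc B i := by
  obtain ⟨s, rfl⟩ := Nat.exists_eq_add_of_le hik
  refine le_trans ?_ (Ysc_growth hB i s)
  have ha := aCoef_one_pos
  exact le_mul_of_one_le_right (Ysc_pos hB _).le (one_le_pow₀ (by linarith))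

theorem gSeq_mul_Ysc {B : ℝ} (k : ℕ) : gSeq (k + 1) * Ysc B k = 4 * B / ((k:ℝ) + 1) := by
  have := gSeq_pos (k + 1)
  rw [Ysc]; field_simp

/-- (c) the accumulated error: `(k+1) ∑_{i<k} g_{i+1} Y_i^γ ≤ C B Y_k^{γ-1}`. -/
theorem exists_sum_err (γ : ℝ) (hγ : γ < 1) : ∃ C : ℝ, 0 < C ∧ ∀ B : ℝ, 0 < B → ∀ k : ℕ,
    ((k:ℝ) + 1) * ∑ i ∈ range k, gSeq (i + 1) * Ysc B i ^ γ ≤ C * B * Ysc B k ^ (γ - 1) := by
  have ha := aCoef_one_pos
  set q : ℝ := (1 + aCoef 1) ^ (γ - 1) with hq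
  have hq0 : 0 < q := by rw [hq]; positivity
  have hq1 : q < 1 := by
    rw [hq]
    exact Real.rpow_lt_one_of_one_lt_of_neg (by linarith) (by linarith)
  obtain ⟨C, hC, hCb⟩ := exists_lin_geo_bound (r := q) (κ := (1 + q) / 2) hq0.le (by linarith)
  have hinv : 0 < (1 - (1 + q) / 2)⁻¹ := inv_pos.2 (by linarith)
  refine ⟨4 * (C * (1 - (1 + q) / 2)⁻¹), by positivity, fun B hB k => ?_⟩
  have hYk := Ysc_pos hB k
  have hterm : ∀ i ∈ range k, ((k:ℝ) + 1) * (gSeq (i + 1) * Ysc B i ^ γ) ≤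
      4 * B * Ysc B k ^ (γ - 1) * (C * ((1 + q) / 2) ^ (k - i)) := fun i hi => by
    have hi' : i < k := by simpa using hi
    have hYi := Ysc_pos hB i
    obtain ⟨s, hs⟩ := Nat.exists_eq_add_of_le hi'.le
    have hks : k - i = s := by omega
    rw [hks]
    have e1 : gSeq (i + 1) * Ysc B i ^ γ = 4 * B / ((i:ℝ) + 1) * Ysc B i ^ (γ - 1) := by
      rw [← gSeq_mul_Ysc, mul_assoc]
      congr 1
      rw [Real.rpow_sub_one hYi.ne']
      field_simp
    have e2 : Ysc B i ^ (γ - 1) ≤ Ysc B k ^ (γ - 1) * q ^ s := by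
      have h1 := Ysc_growth hB i s
      rw [← hs] at h1
      have h2 : Ysc B i ^ (γ - 1) ≤ (Ysc B k * (1 + aCoef 1) ^ s) ^ (γ - 1) :=
        Real.rpow_le_rpow_of_nonpos (by positivity) h1 (by linarith)
      refine h2.trans (le_of_eq ?_)
      rw [Real.mul_rpow hYk.le (by positivity), hq]
      congr 1
      rw [← Real.rpow_natCast, ← Real.rpow_natCast, ← Real.rpow_mul (by positivity),
        ← Real.rpow_mul (by positivity), mul_comm]
    have e3 : ((k:ℝ) + 1) / ((i:ℝ) + 1) ≤ (s:ℝ) + 1 := by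
      rw [div_le_iff₀ (by positivity)]
      have : (k:ℝ) = (i:ℝ) + s := by rw [hs]; push_cast; ring
      rw [this]
      have h1 : (0:ℝ) ≤ i := Nat.cast_nonneg i
      have h2 : (0:ℝ) ≤ s := Nat.cast_nonneg s
      nlinarith
    rw [e1]
    calc ((k:ℝ) + 1) * (4 * B / ((i:ℝ) + 1) * Ysc B i ^ (γ - 1))
        = 4 * B * (((k:ℝ) + 1) / ((i:ℝ) + 1)) * Ysc B i ^ (γ - 1) := by ring
      _ ≤ 4 * B * ((s:ℝ) + 1) * (Ysc B k ^ (γ - 1) * q ^ s) := by
          refine mul_le_mul (mul_le_mul_of_nonneg_left e3 (by positivity)) e2 (by positivity)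
            (by positivity)
      _ = 4 * B * Ysc B k ^ (γ - 1) * (((s:ℝ) + 1) * q ^ s) := by ring
      _ ≤ 4 * B * Ysc B k ^ (γ - 1) * (C * ((1 + q) / 2) ^ s) :=
          mul_le_mul_of_nonneg_left (hCb s) (by positivity)
  rw [Finset.mul_sum]
  refine (Finset.sum_le_sum hterm).trans ?_
  rw [← Finset.mul_sum, ← Finset.mul_sum]
  have hgeo : ∑ i ∈ range k, ((1 + q) / 2) ^ (k - i) ≤ (1 - (1 + q) / 2)⁻¹ := by
    have h1 : ∑ i ∈ range k, ((1 + q) / 2) ^ (k - i) = ∑ i ∈ range k, ((1 + q) / 2) ^ (i + 1) := by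
      rw [← Finset.sum_range_reflect]
      refine Finset.sum_congr rfl fun i hi => ?_
      have hi' : i < k := by simpa using hi
      congr 1; omega
    have h2 : ∑ i ∈ range k, ((1 + q) / 2) ^ (i + 1) ≤ ∑ i ∈ range k, ((1 + q) / 2) ^ i := by
      refine Finset.sum_le_sum fun i _ => ?_
      exact pow_le_pow_of_le_one (by positivity) (by linarith) (by omega)
    rw [h1]
    refine h2.trans ?_
    rw [← tsum_geometric_of_lt_one (by positivity) (by linarith : (1 + q) / 2 < 1)]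
    exact (summable_geometric_of_lt_one (by positivity) (by linarith)).sum_le_tsum _
      (fun i _ => by positivity)
  calc 4 * B * Ysc B k ^ (γ - 1) * (C * ∑ i ∈ range k, ((1 + q) / 2) ^ (k - i))
      ≤ 4 * B * Ysc B k ^ (γ - 1) * (C * (1 - (1 + q) / 2)⁻¹) :=
        mul_le_mul_of_nonneg_left (mul_le_mul_of_nonneg_left hgeo hC.le) (by positivity)
    _ = 4 * (C * (1 - (1 + q) / 2)⁻¹) * B * Ysc B k ^ (γ - 1) := by ring

/-- The accumulated displacement `Δ_k = B^{97/100} + 8 ∑_{i<k} g_{i+1} Y_i^{24/25}`. -/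
def Dlt (B : ℝ) (k : ℕ) : ℝ :=
  B ^ (97 / 100 : ℝ) + 8 * ∑ i ∈ range k, gSeq (i + 1) * Ysc B i ^ (24 / 25 : ℝ)

theorem Dlt_zero (B : ℝ) : Dlt B 0 = B ^ (97 / 100 : ℝ) := by simp [Dlt]

theorem Dlt_succ (B : ℝ) (k : ℕ) :
    Dlt B (k + 1) = Dlt B k + 8 * (gSeq (k + 1) * Ysc B k ^ (24 / 25 : ℝ)) := by
  rw [Dlt, Dlt, Finset.sum_range_succ]; ring

theorem Dlt_nonneg {B : ℝ} (hB : 0 < B) (k : ℕ) : 0 ≤ Dlt B k := by
  rw [Dlt]
  have : 0 ≤ ∑ i ∈ range k, gSeq (i + 1) * Ysc B i ^ (24 / 25 : ℝ) :=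
    Finset.sum_nonneg fun i _ => mul_nonneg (gSeq_pos _).le (Real.rpow_nonneg (Ysc_pos hB i).le _)
  positivity

/-- `(k+1) Δ_k / B ≤ (k+1) B^{-3/100} + C Y_k^{-1/25}`. -/
theorem exists_Dlt_le : ∃ C : ℝ, 0 < C ∧ ∀ B : ℝ, 0 < B → ∀ k : ℕ,
    ((k:ℝ) + 1) * Dlt B k / B ≤ ((k:ℝ) + 1) * B ^ (-(3 / 100) : ℝ) + C * Ysc B k ^ (-(1 / 25) : ℝ) := by
  obtain ⟨C, hC, h⟩ := exists_sum_err (24 / 25) (by norm_num)
  refine ⟨8 * C, by positivity, fun B hB k => ?_⟩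
  have h1 := h B hB k
  rw [show (24 / 25 : ℝ) - 1 = -(1 / 25) by norm_num] at h1
  rw [div_le_iff₀ hB, Dlt]
  have e1 : B ^ (97 / 100 : ℝ) = B ^ (-(3 / 100) : ℝ) * B := by
    nth_rewrite 3 [← Real.rpow_one B]
    rw [← Real.rpow_add hB]; norm_num
  rw [e1]
  calc ((k:ℝ) + 1) * (B ^ (-(3 / 100) : ℝ) * B + 8 * ∑ i ∈ range k, gSeq (i + 1) * Ysc B i ^ (24 / 25 : ℝ))
      = ((k:ℝ) + 1) * B ^ (-(3 / 100) : ℝ) * B
        + 8 * (((k:ℝ) + 1) * ∑ i ∈ range k, gSeq (i + 1) * Ysc B i ^ (24 / 25 : ℝ)) := by ring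
    _ ≤ ((k:ℝ) + 1) * B ^ (-(3 / 100) : ℝ) * B + 8 * (C * B * Ysc B k ^ (-(1 / 25) : ℝ)) := by
        linarith
    _ = (((k:ℝ) + 1) * B ^ (-(3 / 100) : ℝ) + 8 * C * Ysc B k ^ (-(1 / 25) : ℝ)) * B := by ring

end Crest.Agent.R020.ChainScal
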