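import Crest.Agent.R020.CollCore

/-!
Row 20, module E (collisions): the Rankin bound for the cofactor matrices.
-/

set_option autoImplicit false

namespace Crest.Agent.R020.CollM

open Finset

/-- completely multiplicative extension of `g` (on positive integers) -/
noncomputable def GG (g : ℕ → ℝ) (n : ℕ) : ℝ := n.factorization.prod (fun q k => g q ^ k)

theorem GG_one (g : ℕ → ℝ) : GG g 1 = 1 := by simp [GG]

theorem GG_mul (g : ℕ → ℝ) {a b : ℕ} (ha : a ≠ 0) (hb : b ≠ 0) :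
    GG g (a * b) = GG g a * GG g b := by
  unfold GG
  rw [Nat.factorization_mul ha hb]
  exact Finsupp.prod_add_index' (fun _ => pow_zero _) (fun _ _ _ => pow_add _ _ _)

theorem GG_prime (g : ℕ → ℝ) {p : ℕ} (hp : p.Prime) : GG g p = g p := by
  unfold GG
  rw [hp.factorization]
  simp

theorem GG_nonneg {g : ℕ → ℝ} (h0 : ∀ q, 0 ≤ g q) (n : ℕ) : 0 ≤ GG g n := by
  unfold GG
  exact Finset.prod_nonneg (fun q _ => pow_nonneg (h0 q) _)

theorem GG_le_one {g : ℕ → ℝ} (h0 : ∀ q, 0 ≤ g q) (h1 : ∀ q, g q ≤ 1) (n : ℕ) : GG g n ≤ 1 := by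
  unfold GG
  exact Finset.prod_le_one (fun q _ => pow_nonneg (h0 q) _)
    (fun q _ => pow_le_one₀ (h0 q) (h1 q))

theorem GG_anti {g : ℕ → ℝ} (h0 : ∀ q, 0 ≤ g q) (h1 : ∀ q, g q ≤ 1) {a b : ℕ} (hab : a ∣ b)
    (hb : 0 < b) : GG g b ≤ GG g a := by
  obtain ⟨c, rfl⟩ := hab
  have hc : c ≠ 0 := by rintro rfl; simp at hb
  have ha : a ≠ 0 := by rintro rfl; simp at hb
  rw [GG_mul g ha hc]
  exact mul_le_of_le_one_right (GG_nonneg h0 a) (GG_le_one h0 h1 c)

/-- `GG g n / n` as a monoid homomorphism -/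
noncomputable def GGhom (g : ℕ → ℝ) : ℕ →* ℝ where
  toFun n := if n = 0 then 0 else GG g n / n
  map_one' := by simp [GG_one]
  map_mul' a b := by
    by_cases ha : a = 0
    · simp [ha]
    · by_cases hb : b = 0
      · simp [hb]
      · simp only [ha, hb, mul_eq_zero, or_self, if_false]
        rw [GG_mul g ha hb]
        push_cast
        field_simp

theorem inv_one_sub_le_exp {q : ℕ} (hq : 2 ≤ q) {x : ℝ} (h0 : 0 ≤ x) (h1 : x ≤ 1) :
    (1 - x / q)⁻¹ ≤ Real.exp (x / ((q : ℝ) - 1)) := by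
  have hq' : (2:ℝ) ≤ (q : ℝ) := by exact_mod_cast hq
  have hqx : 0 < (q : ℝ) - x := by linarith
  have h2 : (1 - x / q)⁻¹ = x / ((q : ℝ) - x) + 1 := by
    have h3 : (1 - x / q) = ((q : ℝ) - x) / q := by field_simp
    rw [h3, inv_div]
    field_simp
    ring
  rw [h2]
  refine le_trans (Real.add_one_le_exp _) (Real.exp_le_exp.mpr ?_)
  exact div_le_div_of_nonneg_left h0 (by linarith) (by linarith)

/-- Rankin bound for one cell -/
theorem sum_GG_le {g : ℕ → ℝ} (h0 : ∀ q, 0 ≤ g q) (h1 : ∀ q, g q ≤ 1) (P : Finset ℕ)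
    (hP : ∀ q ∈ P, q.Prime) (F : Finset ℕ)
    (hF : ∀ n ∈ F, 0 < n ∧ ∀ q, q.Prime → q ∣ n → q ∈ P) :
    ∑ n ∈ F, GG g n / n ≤ Real.exp (∑ q ∈ P, g q / ((q : ℝ) - 1)) := by
  classical
  have hlt : ∀ {p : ℕ}, p.Prime → ‖GGhom g p‖ < 1 := by
    intro p hp
    have hp2 : (2:ℝ) ≤ (p : ℝ) := by exact_mod_cast hp.two_le
    have : GGhom g p = g p / p := by
      show (if p = 0 then (0:ℝ) else GG g p / p) = _
      rw [if_neg hp.ne_zero, GG_prime g hp]
    rw [this, Real.norm_of_nonneg (div_nonneg (h0 p) (by linarith)), div_lt_one (by linarith)]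
    linarith [h1 p]
  obtain ⟨_, hsum⟩ :=
    EulerProduct.summable_and_hasSum_factoredNumbers_prod_filter_prime_geometric
      (f := GGhom g) hlt P
  have hnn : ∀ n : ℕ, 0 ≤ GGhom g n := by
    intro n
    show 0 ≤ (if n = 0 then (0:ℝ) else GG g n / n)
    split_ifs
    · exact le_rfl
    · exact div_nonneg (GG_nonneg h0 n) (Nat.cast_nonneg _)
  have hFmem : ∀ n ∈ F, n ∈ Nat.factoredNumbers P := by
    intro n hn
    rw [Nat.mem_factoredNumbers']
    intro p hp hpn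
    exact (hF n hn).2 p hp hpn
  let F' : Finset (Nat.factoredNumbers P) := F.attach.image
    (fun n => (⟨n.1, hFmem n.1 n.2⟩ : Nat.factoredNumbers P))
  have h2 : ∑ n ∈ F, GG g n / n = ∑ n ∈ F', GGhom g n := by
    have : ∑ n ∈ F', GGhom g n = ∑ n ∈ F.attach, GGhom g n.1 := by
      rw [Finset.sum_image]
      intro a _ b _ hab
      simp only [Subtype.mk.injEq] at hab
      exact Subtype.ext hab
    rw [this, Finset.sum_attach F (fun n => GGhom g n)]
    apply Finset.sum_congr rfl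
    intro n hn
    show _ = (if n = 0 then (0:ℝ) else GG g n / n)
    rw [if_neg (hF n hn).1.ne']
  rw [h2]
  refine le_trans (sum_le_hasSum F' (fun n _ => hnn n) hsum) ?_
  rw [Finset.filter_true_of_mem hP, Real.exp_sum]
  apply Finset.prod_le_prod
  · intro q hq
    have := hlt (hP q hq)
    rw [Real.norm_of_nonneg (hnn q)] at this
    exact inv_nonneg.mpr (by linarith)
  · intro q hq
    have h3 : GGhom g q = g q / q := by
      show (if q = 0 then (0:ℝ) else GG g q / q) = _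
      rw [if_neg (hP q hq).ne_zero, GG_prime g (hP q hq)]
    rw [h3]
    exact inv_one_sub_le_exp (hP q hq).two_le (h0 q) (h1 q)

variable {s t : ℕ}

/-- Rankin bound for the cofactor matrices -/
theorem rankin_mat {g : ℕ → ℝ} (h0 : ∀ q, 0 ≤ g q) (h1 : ∀ q, g q ≤ 1) {Z : ℝ} (hZ : 0 < Z)
    (Ok : Option (Fin s) → Option (Fin t) → Finset ℕ) (hOk : ∀ i j, ∀ q ∈ Ok i j, q.Prime)
    (D : Finset (Mat s t)) (hpos : ∀ m ∈ D, ∀ i j, 0 < m i j)
    (hD : ∀ m ∈ D, ∀ i j q, q.Prime → q ∣ m i j → q ∈ Ok i j)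
    (hG : ∀ m ∈ D, Z ≤ ∏ i, ∏ j, GG g (m i j)) :
    ∑ m ∈ D, 1 / (vp m : ℝ) ≤ Z⁻¹ *
      ∏ i, ∏ j, Real.exp (∑ q ∈ Ok i j, g q / ((q : ℝ) - 1)) := by
  classical
  let F : Option (Fin s) × Option (Fin t) → Finset ℕ := fun p => D.image (fun m => m p.1 p.2)
  let h : Option (Fin s) × Option (Fin t) → ℕ → ℝ := fun _ n => GG g n / n
  have hh : ∀ p n, 0 ≤ h p n := fun p n => div_nonneg (GG_nonneg h0 n) (Nat.cast_nonneg _)
  have hstep : ∀ m ∈ D, 1 / (vp m : ℝ) ≤ Z⁻¹ * ∏ p, h p (m p.1 p.2) := by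
    intro m hm
    have hv : (0:ℝ) < (vp m : ℝ) := by
      exact_mod_cast Finset.prod_pos (fun i _ => Finset.prod_pos (fun j _ => hpos m hm i j))
    have e1 : ∏ p : Option (Fin s) × Option (Fin t), h p (m p.1 p.2)
        = (∏ i, ∏ j, GG g (m i j)) / (vp m : ℝ) := by
      rw [Fintype.prod_prod_type]
      unfold vp
      push_cast
      rw [← Finset.prod_div_distrib]
      apply Finset.prod_congr rfl
      intro i _
      rw [← Finset.prod_div_distrib]
    rw [e1, ← mul_div_assoc]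
    apply div_le_div_of_nonneg_right _ hv.le
    rw [← div_eq_inv_mul, le_div_iff₀ hZ, one_mul]
    exact hG m hm
  refine le_trans (Finset.sum_le_sum hstep) ?_
  rw [← Finset.mul_sum]
  apply mul_le_mul_of_nonneg_left _ (inv_nonneg.mpr hZ.le)
  have h2 : ∑ m ∈ D, ∏ p : Option (Fin s) × Option (Fin t), h p (m p.1 p.2)
      ≤ ∑ x ∈ Fintype.piFinset F, ∏ p, h p (x p) := by
    have e2 : ∑ m ∈ D, ∏ p : Option (Fin s) × Option (Fin t), h p (m p.1 p.2)
        = ∑ x ∈ D.image (fun m => fun p : Option (Fin s) × Option (Fin t) => m p.1 p.2),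
          ∏ p, h p (x p) := by
      rw [Finset.sum_image]
      intro m _ m1 _ hmm
      funext i j
      exact congrFun hmm (i, j)
    rw [e2]
    apply Finset.sum_le_sum_of_subset_of_nonneg
    · intro x hx
      obtain ⟨m, hm, rfl⟩ := Finset.mem_image.mp hx
      rw [Fintype.mem_piFinset]
      intro p
      exact Finset.mem_image.mpr ⟨m, hm, rfl⟩
    · intro x _ _
      exact Finset.prod_nonneg (fun p _ => hh p (x p))
  refine le_trans h2 ?_
  rw [← Finset.prod_univ_sum]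
  rw [← Fintype.prod_prod_type (fun p : Option (Fin s) × Option (Fin t) =>
    Real.exp (∑ q ∈ Ok p.1 p.2, g q / ((q : ℝ) - 1)))]
  apply Finset.prod_le_prod
  · intro p _
    exact Finset.sum_nonneg (fun n _ => hh p n)
  · intro p _
    apply sum_GG_le h0 h1 (Ok p.1 p.2) (hOk p.1 p.2)
    intro n hn
    obtain ⟨m, hm, rfl⟩ := Finset.mem_image.mp hn
    exact ⟨hpos m hm _ _, fun q hq hqn => hD m hm _ _ q hq hqn⟩

/-- THE ABSTRACT COLLISION THEOREM. -/
theorem coll_bound {X : ℕ} {r : Fin s → ℝ} {r' : Fin t → ℝ} {ρ0 ρt L κ : ℝ}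
    {W : ℕ → ℝ} (hS : Sieve X ρ0 ρt L κ W) (hr : ∀ i, ρ0 ≤ r i) (hr' : ∀ j, ρ0 ≤ r' j)
    (i0 : Fin s) (htop : ρt ≤ r i0) (MM : Finset (Mat s t)) (hMM : ∀ m ∈ MM, Good X r r' m)
    {g : ℕ → ℝ} (h0 : ∀ q, 0 ≤ g q) (h1 : ∀ q, g q ≤ 1) {Z : ℝ} (hZ : 0 < Z)
    (Ok : Option (Fin s) → Option (Fin t) → Finset ℕ) (hOk : ∀ i j, ∀ q ∈ Ok i j, q.Prime)
    (hD : ∀ m ∈ MM, ∀ i j q, q.Prime → q ∣ m i j → q ∈ Ok i j)
    (hG : ∀ m ∈ MM, Z ≤ ∏ i, ∏ j, GG g (m i j)) :
    ∑ m ∈ MM, W (vp m) ≤ (Fintype.card (Str s t) : ℝ) *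
        (κ * L ^ (s + t) * (∏ i, (1 / Real.log (r i))) * ∏ j, (1 / Real.log (r' j))) *
        (Z⁻¹ * ∏ i, ∏ j, Real.exp (∑ q ∈ Ok i j, g q / ((q : ℝ) - 1))) := by
  obtain ⟨D, hD1, hD2⟩ := coll_core hS hr hr' i0 htop MM hMM
  refine le_trans hD2 ?_
  have hlr : ∀ i, 0 < Real.log (r i) := fun i => Real.log_pos (by linarith [hS.one_lt, hr i])
  have hlr' : ∀ j, 0 < Real.log (r' j) := fun j => Real.log_pos (by linarith [hS.one_lt, hr' j])
  apply mul_le_mul_of_nonneg_left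
  · apply rankin_mat h0 h1 hZ Ok hOk D
    · intro m hm i j
      obtain ⟨m1, _, h2⟩ := hD1 m hm
      exact (h2 i j).2
    · intro m hm i j q hq hqm
      obtain ⟨m1, hm1, h2⟩ := hD1 m hm
      exact hD m1 hm1 i j q hq (hqm.trans (h2 i j).1)
    · intro m hm
      obtain ⟨m1, hm1, h2⟩ := hD1 m hm
      refine le_trans (hG m1 hm1) ?_
      apply Finset.prod_le_prod
      · intro i _
        exact Finset.prod_nonneg (fun j _ => GG_nonneg h0 _)
      · intro i _
        apply Finset.prod_le_prod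
        · intro j _
          exact GG_nonneg h0 _
        · intro j _
          exact GG_anti h0 h1 (h2 i j).1 ((hMM m1 hm1).pos i j)
  · have := hS.κ0
    have := hS.L1
    have h5 : 0 ≤ ∏ i, (1 / Real.log (r i)) := Finset.prod_nonneg (fun i _ => by
      have := hlr i; positivity)
    have h6 : 0 ≤ ∏ j, (1 / Real.log (r' j)) := Finset.prod_nonneg (fun i _ => by
      have := hlr' i; positivity)
    positivity

/-- number of structures -/
theorem card_Str (s t : ℕ) : Fintype.card (Str s t) ≤ t ^ s * (s ^ t * (2 ^ s * (s + t).factorial)) := by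
  unfold Str
  rw [Fintype.card_prod, Fintype.card_prod, Fintype.card_prod, Fintype.card_fun, Fintype.card_fun,
    Fintype.card_fun, Fintype.card_fin, Fintype.card_fin, Fintype.card_bool]
  have : Fintype.card (Fin (s + t) ≃ (Fin s ⊕ Fin t)) = (s + t).factorial := by
    rw [Fintype.card_equiv finSumFinEquiv.symm, Fintype.card_fin]
  rw [this]

end Crest.Agent.R020.CollM
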