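import Crest.Agent.R020.CollProf
import Crest.Agent.R020.CollRankin

/-!
Row 20, module (L): assembly (S1 + S2) for a general weight.
-/

set_option autoImplicit false

open Crest.NumberTheoryR.TotientScale

namespace Crest.Agent.R020.Coll

open Crest.Agent.R020.CollM (Mat rowp colp vp gpf Good Sieve)

/-- profile counts -/
def kpl {s : ℕ} (α : Fin s → ℕ) (i : ℕ) : ℕ := (Finset.univ.filter (fun a => i ≤ α a)).card

/-- The statement of the net bound (629's `CollNet`), for one choice of the parameters. -/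
def NetHyp (C L Y : ℝ) (w N J : ℕ) : Prop :=
  ∀ (s t : ℕ), 1 ≤ s → s ≤ N → t ≤ N → ∀ (α : Fin s → ℕ) (β : Fin t → ℕ),
    (∀ a, w ≤ α a ∧ α a < J) → (∀ b, w ≤ β b ∧ β b < J) →
    ∀ (X : ℕ) (r : Fin s → ℝ) (r' : Fin t → ℝ),
      (∀ a, Real.exp (Real.exp (α a) / (40 * Y)) ≤ r a) →
      (∀ b, Real.exp (Real.exp (β b) / (40 * Y)) ≤ r' b) →
    ∀ (W : ℕ → ℝ) (κ ρt : ℝ), Sieve X 2 ρt L κ W → ∀ i0 : Fin s, ρt ≤ r i0 →
    ∀ MM : Finset (Mat s t), (∀ m ∈ MM, Good X r r' m) →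
      (∀ m ∈ MM, ∀ a, cl (rowp m a + 1) = α a) → (∀ m ∈ MM, ∀ b, cl (colp m b + 1) = β b) →
      (∀ m ∈ MM, ∀ j (q : ℕ), q.Prime → q ∣ m none j → yy q ≤ w) →
      (∀ m ∈ MM, ∀ i (q : ℕ), q.Prime → q ∣ m i none → yy q ≤ w) →
    ∀ F : ℝ, (∀ m ∈ MM, st (ell w (kpl β)) (vp m) ≤
        ∑ i ∈ Finset.range J, (kpl α i : ℝ) * ell w (kpl β) i + F) →
      ∑ m ∈ MM, W (vp m) ≤ κ * Real.exp (∑ i ∈ Finset.Ico 1 J, gk (kpl α i) + F + 2 * w +
        C * ((N : ℝ) + 1) * Real.log Y)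

/-! ### the greatest prime factor -/

lemma one_le_Pm (n : ℕ) : 1 ≤ Pm n := by
  unfold Pm
  rcases hd : dl n with _ | ⟨a, t⟩
  · simp
  · simp only [List.headD_cons]
    have : a ∈ dl n := by rw [hd]; simp
    exact (prime_of_mem_dl this).one_le

lemma le_Pm {n l : ℕ} (hn : n ≠ 0) (hl : l.Prime) (h : l ∣ n) : l ≤ Pm n :=
  (Pm_le_iff hn (one_le_Pm n)).1 le_rfl l hl h

lemma le_Pm_pow {n : ℕ} (hn : n ≠ 0) : n ≤ Pm n ^ n.primeFactorsList.length := by
  conv_lhs => rw [← Nat.prod_primeFactorsList hn]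
  apply List.prod_le_pow_card
  intro x hx
  exact le_Pm hn (Nat.prime_of_mem_primeFactorsList hx) (Nat.dvd_of_mem_primeFactorsList hx)

lemma Pm_le_gpf {n : ℕ} (hn : 2 ≤ n) : Pm n = gpf n := by
  have hn0 : n ≠ 0 := by omega
  have hne : dl n ≠ [] := dl_ne_nil_of_one_lt (by omega)
  unfold Pm
  rcases hd : dl n with _ | ⟨a, t⟩
  · exact absurd hd hne
  · simp only [List.headD_cons]
    have ha : a ∈ dl n := by rw [hd]; simp
    have hap := (mem_dl_iff hn0).1 ha
    apply le_antisymm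
    · exact CollM.le_gpf (Nat.mem_primeFactors.2 ⟨hap.1, hap.2, hn0⟩)
    · unfold gpf
      apply Finset.sup_le
      intro q hq
      have h1 := Nat.prime_of_mem_primeFactors hq
      have h2 := Nat.dvd_of_mem_primeFactors hq
      have := le_Pm hn0 h1 h2
      unfold Pm at this
      rw [hd] at this
      simpa using this

/-- lower bound for the greatest prime factor of `p - 1` when `Ω(p-1)` is not too large -/
lemma log_Pm_ge {p : ℕ} (hy : 0 < yy p) {Y : ℝ} (hY : 0 < Y)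
    (hom : ((p - 1).primeFactorsList.length : ℝ) ≤ 20 * Y) :
    Real.exp (yy p) / (40 * Y) ≤ Real.log (Pm (p - 1)) := by
  have hp3 := two_lt_of_yy_pos hy
  have hn : p - 1 ≠ 0 := by omega
  have h1 := le_Pm_pow hn
  have hP1 : (1 : ℝ) ≤ Pm (p - 1) := by exact_mod_cast one_le_Pm (p - 1)
  have h2 : Real.log ((p - 1 : ℕ) : ℝ) ≤
      ((p - 1).primeFactorsList.length : ℝ) * Real.log (Pm (p - 1)) := by
    rw [← Real.log_pow]
    apply Real.log_le_log
    · exact_mod_cast Nat.pos_of_ne_zero hn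
    · exact_mod_cast h1
  have h3 : Real.log (p : ℝ) ≤ 2 * Real.log ((p - 1 : ℕ) : ℝ) := by
    have h4 : (p : ℝ) ≤ ((p - 1 : ℕ) : ℝ) ^ 2 := by
      have : p ≤ (p - 1) ^ 2 := by
        obtain ⟨r, rfl⟩ : ∃ r, p = r + 3 := ⟨p - 3, by omega⟩
        have : r + 3 - 1 = r + 2 := by omega
        rw [this]
        nlinarith
      exact_mod_cast this
    have h5 := Real.log_le_log (by positivity : (0 : ℝ) < p) h4
    rw [Real.log_pow] at h5
    exact_mod_cast h5
  rw [exp_yy hy, div_le_iff₀ (by positivity)]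
  have hl : 0 ≤ Real.log (Pm (p - 1)) := Real.log_nonneg hP1
  have h6 := mul_le_mul_of_nonneg_right hom hl
  nlinarith

lemma length_le_of_dvd {a v : ℕ} (hv : v ≠ 0) (h : a ∣ v) :
    a.primeFactorsList.length ≤ v.primeFactorsList.length := by
  obtain ⟨b, rfl⟩ := h
  have ha : a ≠ 0 := by rintro rfl; simp at hv
  have hb : b ≠ 0 := by rintro rfl; simp at hv
  rw [(Nat.perm_primeFactorsList_mul ha hb).length_eq, List.length_append]
  omega

/-- a prime with large `yy` and few factors in `p - 1` is alive -/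
lemma alive_of {w p : ℕ} {Y : ℝ} (hY : 1 ≤ Y)
    (hom : ((p - 1).primeFactorsList.length : ℝ) ≤ 20 * Y)
    (hy : w + Real.log (40 * Y) < yy p) : Alive w p := by
  unfold Alive
  have hlog : 0 < Real.log (40 * Y) := Real.log_pos (by linarith)
  have hw : (0 : ℝ) ≤ w := Nat.cast_nonneg w
  have hyp : 0 < yy p := by linarith
  have h1 := log_Pm_ge hyp (by linarith) hom
  have h2 : Real.exp w < Real.log (Pm (p - 1)) := by
    refine lt_of_lt_of_le ?_ h1
    rw [lt_div_iff₀ (by positivity), ← Real.exp_log (by positivity : (0 : ℝ) < 40 * Y),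
      ← Real.exp_add, Real.exp_lt_exp]
    exact hy
  have h3 : (w : ℝ) < Real.log (Real.log (Pm (p - 1))) := by
    rw [Real.lt_log_iff_exp_lt (lt_trans (Real.exp_pos _) h2)]
    exact h2
  exact lt_of_lt_of_le h3 (log_log_le_yy _)

/-- threshold for the greatest prime factor in row `a` -/
noncomputable def thr (Y : ℝ) (w α : ℕ) : ℝ :=
  max ((⌊Real.exp (Real.exp (w : ℝ))⌋₊ : ℝ) + 1) (Real.exp (Real.exp (α : ℝ) / (40 * Y)))

lemma Alive.thr_le {w p : ℕ} {Y : ℝ} (hY : 0 < Y) (h : Alive w p)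
    (hom : ((p - 1).primeFactorsList.length : ℝ) ≤ 20 * Y) :
    thr Y w (cl p) ≤ (gpf (p - 1) : ℝ) := by
  have hw : (0 : ℝ) ≤ w := Nat.cast_nonneg w
  have hyp : 0 < yy p := lt_of_le_of_lt hw h.lt_yy
  have hp3 := two_lt_of_yy_pos hyp
  rw [← Pm_le_gpf (by omega : 2 ≤ p - 1)]
  have hyP : 0 < yy (Pm (p - 1)) := lt_of_le_of_lt hw h
  have hPpos : (0 : ℝ) < Pm (p - 1) := by exact_mod_cast one_le_Pm (p - 1)
  have hlP : 0 < Real.log (Pm (p - 1)) := by rw [← exp_yy hyP]; exact Real.exp_pos _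
  unfold thr
  apply max_le
  · have h1 : Real.exp (Real.exp w) < (Pm (p - 1) : ℝ) := by
      rw [← Real.exp_log hPpos, ← exp_yy hyP, Real.exp_lt_exp, Real.exp_lt_exp]
      exact h
    have h2 : ⌊Real.exp (Real.exp (w : ℝ))⌋₊ < Pm (p - 1) := by
      rw [Nat.floor_lt (Real.exp_pos _).le]
      exact h1
    exact_mod_cast h2
  · rw [← Real.exp_log hPpos, Real.exp_le_exp]
    refine le_trans ?_ (log_Pm_ge hyp hY hom)
    apply div_le_div_of_nonneg_right _ (by positivity)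
    exact Real.exp_le_exp.2 (cl_le_yy p)

lemma lt_thr {w α l : ℕ} {Y : ℝ} (h : yy l ≤ w) : (l : ℝ) < thr Y w α := by
  unfold thr
  apply lt_max_of_lt_left
  rcases (yy_nonneg l).lt_or_eq with hl | hl
  · have h1 : (l : ℝ) ≤ Real.exp (Real.exp w) := by
      have h3 := two_lt_of_yy_pos hl
      rw [← Real.exp_log (by positivity : (0 : ℝ) < l), ← exp_yy hl]
      exact Real.exp_le_exp.2 (Real.exp_le_exp.2 h)
    have h2 : l ≤ ⌊Real.exp (Real.exp (w : ℝ))⌋₊ := Nat.le_floor h1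
    have : (l : ℝ) ≤ (⌊Real.exp (Real.exp (w : ℝ))⌋₊ : ℝ) := by exact_mod_cast h2
    linarith
  · -- yy l = 0: l ≤ 2 ≤ floor (e^(e^w))
    have hl3 : l < 3 := by
      by_contra hl3
      push Not at hl3
      have h4 : (1 : ℝ) < Real.log l := by
        rw [Real.lt_log_iff_exp_lt (by positivity)]
        have := Real.exp_one_lt_d9
        have : (3 : ℝ) ≤ l := by exact_mod_cast hl3
        linarith
      have h5 : 0 < Real.log (Real.log l) := Real.log_pos h4
      have := log_log_le_yy l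
      linarith
    have h6 : (2 : ℝ) ≤ Real.exp (Real.exp w) := by
      have h7 : (1 : ℝ) ≤ Real.exp w := Real.one_le_exp (Nat.cast_nonneg w)
      have h8 := Real.add_one_le_exp (Real.exp w)
      linarith
    have h9 : 2 ≤ ⌊Real.exp (Real.exp (w : ℝ))⌋₊ := Nat.le_floor (by exact_mod_cast h6)
    have h10 : (2 : ℝ) ≤ (⌊Real.exp (Real.exp (w : ℝ))⌋₊ : ℝ) := by exact_mod_cast h9
    have h11 : (l : ℝ) ≤ 2 := by exact_mod_cast (by omega : l ≤ 2)
    linarith

/-! ### the matrix of a pair -/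

/-- thresholds of the rows; the row `i0` (of `q`) has in addition the threshold `ρt` -/
noncomputable def rth (Y : ℝ) (w : ℕ) {s : ℕ} (α : Fin s → ℕ) (ρt : ℝ) (i0 : Fin s) (a : Fin s) : ℝ :=
  if a = i0 then max ρt (thr Y w (α a)) else thr Y w (α a)

/-- the pair `p = (q, d)` is represented by a matrix with cancelled part `c` and profile
`(α, β)`; `q` is in the row `i0` -/
def HasMat (Y : ℝ) (w J X : ℕ) (F E ρt : ℝ) (c : Finset ℕ) {s t : ℕ} (α : Fin s → ℕ)
    (β : Fin t → ℕ) (i0 : Fin s) (p : ℕ × ℕ) (m : Mat s t) : Prop :=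
  rowp m i0 = p.1 - 1 ∧ (p.1 - 1) * p.2 = (∏ x ∈ c, (x - 1)) * vp m ∧
    Good X (rth Y w α ρt i0) (fun b => thr Y w (β b)) m ∧
    (∀ a, cl (rowp m a + 1) = α a) ∧ (∀ b, cl (colp m b + 1) = β b) ∧
    (∀ j (q : ℕ), q.Prime → q ∣ m none j → yy q ≤ w) ∧
    (∀ i (q : ℕ), q.Prime → q ∣ m i none → yy q ≤ w) ∧
    st (ell w (kpl β)) (vp m) ≤ ∑ i ∈ Finset.range J, (kpl α i : ℝ) * ell w (kpl β) i + F ∧
    ∑ i ∈ Finset.Ico 1 J, gk (kpl α i) ≤ 1 - E

/-- enumeration of a finset -/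
lemma exists_enum (S : Finset ℕ) : ∃ e : Fin S.card → ℕ, Function.Injective e ∧
    (∀ a, e a ∈ S) ∧ (∀ p ∈ S, ∃ a, e a = p) ∧
    ∀ (f : ℕ → ℕ), ∏ a, f (e a) = ∏ p ∈ S, f p := by
  refine ⟨fun a => (S.equivFin.symm a : ℕ), ?_, fun a => (S.equivFin.symm a).2, ?_, ?_⟩
  · intro a b h
    exact S.equivFin.symm.injective (Subtype.ext h)
  · intro p hp
    exact ⟨S.equivFin ⟨p, hp⟩, by simp⟩
  · intro f
    rw [← Finset.prod_coe_sort S f]
    exact Equiv.prod_comp S.equivFin.symm (fun x : S => f x)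

lemma kpl_enum {S : Finset ℕ} {e : Fin S.card → ℕ} (he : Function.Injective e)
    (hm : ∀ a, e a ∈ S) (hs : ∀ p ∈ S, ∃ a, e a = p) (i : ℕ) :
    kpl (fun a => cl (e a)) i = kap S i := by
  unfold kpl kap
  apply Finset.card_bij (fun a _ => e a)
  · intro a ha
    rw [Finset.mem_filter] at ha ⊢
    exact ⟨hm a, ha.2⟩
  · intro a _ b _ h
    exact he h
  · intro p hp
    rw [Finset.mem_filter] at hp
    obtain ⟨a, rfl⟩ := hs p hp.1
    exact ⟨a, by rw [Finset.mem_filter]; exact ⟨Finset.mem_univ _, hp.2⟩, rfl⟩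

/-- Representation of a pair by a matrix. -/
theorem exists_mat {Y : ℝ} {w N J X : ℕ} {F E ρt : ℝ} (hY : 1 ≤ Y) {q d : ℕ}
    (hnc : NonCan q d) (hyq : yy q ≤ Y) (hqd : FF aa d + E ≤ yy q)
    (hE : w + Real.log (40 * Y) < E) (hJ : Y < J) (hX : ∀ p : ℕ, yy p ≤ Y → p ≤ X)
    (hg : LGood Y w N J F q d) (hρ : ρt ≤ (gpf (q - 1) : ℝ)) :
    ∃ c : Finset ℕ, (∀ p ∈ c, p.Prime ∧ yy p ≤ Y) ∧ c.card ≤ N ∧
      ∃ (s t : ℕ) (α : Fin s → ℕ) (β : Fin t → ℕ) (i0 : Fin s) (m : Mat s t), s ≤ N ∧ t ≤ N ∧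
        (∀ a, w ≤ α a ∧ α a < J) ∧ (∀ b, w ≤ β b ∧ β b < J) ∧
        HasMat Y w J X F E ρt c α β i0 (q, d) m := by
  obtain ⟨hq, hd, hPq, hne⟩ := hnc
  have hY0 : 0 < Y := by linarith
  have hr := rr_pos d
  set n := q * rr d with hn
  set v := (q - 1) * d with hv
  set n' := rr v with hn'
  have hn0 : n ≠ 0 := (Nat.mul_pos hq.pos hr).ne'
  have hn'0 : n' ≠ 0 := (rr_pos v).ne'
  have hP' := (Pm_lt_iff hr.ne' hq.two_le).mp hPq
  have hcop : Nat.Coprime q (rr d) :=
    (Nat.Prime.coprime_iff_not_dvd hq).mpr (fun h => lt_irrefl _ (hP' q hq h))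
  have hvn : Nat.totient n = v := by
    rw [hn, Nat.totient_mul hcop, Nat.totient_prime hq, totient_rr hd]
  have hvT : IsTot v := ⟨n, Nat.pos_of_ne_zero hn0, hvn⟩
  have hvn' : Nat.totient n' = v := totient_rr hvT
  have hv0 : v ≠ 0 := hvT.pos.ne'
  have hPn' : Pm n' < q := (rr_cons_or hd hq hPq).resolve_left hne
  have hPn'' := (Pm_lt_iff hn'0 hq.two_le).mp hPn'
  obtain ⟨hred1, hred2⟩ := (exists_red w n n').eq hg.sqL hg.sqR (by rw [hvn, hvn'])
  set c := alv w n ∩ alv w n' with hc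
  set S := alv w n \ alv w n' with hS
  set T := alv w n' \ alv w n with hT
  -- primes of n are at most q
  have hnq : ∀ p, p.Prime → p ∣ n → p ≤ q := by
    intro p hp hpn
    rcases (Nat.Prime.dvd_mul hp).1 hpn with h | h
    · exact ((Nat.prime_dvd_prime_iff_eq hp hq).1 h).le
    · exact (hP' p hp h).le
  have hSn : ∀ p ∈ S, p ∈ alv w n ∧ p ∉ alv w n' := fun p hp => Finset.mem_sdiff.1 hp
  have hTn : ∀ p ∈ T, p ∈ alv w n' ∧ p ∉ alv w n := fun p hp => Finset.mem_sdiff.1 hp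
  have hSy : ∀ p ∈ alv w n, yy p ≤ Y := by
    intro p hp
    have := (mem_alv.1 hp).1
    exact (yy_mono (hnq p this.1 this.2.1)).trans hyq
  have hTy : ∀ p ∈ alv w n', yy p ≤ Y := by
    intro p hp
    have := (mem_alv.1 hp).1
    exact (yy_mono (hPn'' p this.1 this.2.1).le).trans hyq
  -- lengths
  have hlenS : ∀ p ∈ alv w n, ((p - 1).primeFactorsList.length : ℝ) ≤ 20 * Y := by
    intro p hp
    refine le_trans ?_ hg.om
    have hdv : p - 1 ∣ v := by
      rw [← hvn, totient_decomp_alv hg.sqL]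
      exact Dvd.dvd.mul_right (Finset.dvd_prod_of_mem (fun p => p - 1) hp) _
    exact_mod_cast length_le_of_dvd hv0 hdv
  have hlenT : ∀ p ∈ alv w n', ((p - 1).primeFactorsList.length : ℝ) ≤ 20 * Y := by
    intro p hp
    refine le_trans ?_ hg.om
    have hdv : p - 1 ∣ v := by
      rw [← hvn', totient_decomp_alv hg.sqR]
      exact Dvd.dvd.mul_right (Finset.dvd_prod_of_mem (fun p => p - 1) hp) _
    exact_mod_cast length_le_of_dvd hv0 hdv
  have hlenq : ((q - 1).primeFactorsList.length : ℝ) ≤ 20 * Y := by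
    refine le_trans ?_ hg.om
    exact_mod_cast length_le_of_dvd hv0 (Dvd.intro _ rfl : q - 1 ∣ v)
  have hFF : 0 ≤ FF aa d := FF_nonneg aa_nonneg d
  have hyqE : w + Real.log (40 * Y) < yy q := by linarith
  have hlog : 0 < Real.log (40 * Y) := Real.log_pos (by linarith)
  have hw0 : (0 : ℝ) ≤ w := Nat.cast_nonneg w
  have hyq0 : 0 < yy q := by linarith
  have hqA : q ∈ alv w n :=
    mem_alv.2 ⟨⟨hq, Dvd.intro _ rfl, hn0⟩, alive_of hY hlenq hyqE⟩
  have hqS : q ∈ S := by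
    rw [hS, Finset.mem_sdiff]
    refine ⟨hqA, fun h => ?_⟩
    have := (mem_alv.1 h).1
    exact lt_irrefl _ (hPn'' q this.1 this.2.1)
  -- enumerations
  obtain ⟨e, he1, he2, he3, he4⟩ := exists_enum S
  obtain ⟨e', he1', he2', he3', he4'⟩ := exists_enum T
  obtain ⟨i0, hi0⟩ := he3 q hqS
  -- the dead parts
  set u := Nat.totient (deadPart w n) with hu
  set u' := Nat.totient (deadPart w n') with hu'
  have hu0 : u ≠ 0 := (Nat.totient_pos.2 (Nat.pos_of_ne_zero (deadPart_ne_zero hn0))).ne'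
  have hu'0 : u' ≠ 0 := (Nat.totient_pos.2 (Nat.pos_of_ne_zero (deadPart_ne_zero hn'0))).ne'
  -- the two factorisations
  let A : Option (Fin S.card) → ℕ := fun o => o.elim u (fun a => e a - 1)
  let B : Option (Fin T.card) → ℕ := fun o => o.elim u' (fun b => e' b - 1)
  have hA : ∏ i, A i = redv w n S := by
    rw [Fintype.prod_option]
    change u * ∏ a, (e a - 1) = _
    rw [he4 (fun p => p - 1)]
    unfold redv
    rw [mul_comm]
  have hB : ∏ j, B j = redv w n' T := by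
    rw [Fintype.prod_option]
    change u' * ∏ b, (e' b - 1) = _
    rw [he4' (fun p => p - 1)]
    unfold redv
    rw [mul_comm]
  have hA0 : ∀ i ∈ (Finset.univ : Finset (Option (Fin S.card))), A i ≠ 0 := by
    intro i _
    rcases i with _ | a
    · exact hu0
    · change e a - 1 ≠ 0
      have := ((mem_alv.1 (hSn _ (he2 a)).1).1.1).two_le
      omega
  obtain ⟨m, hm1, hm2⟩ := exists_matrix Finset.univ A B hA0 (by rw [hA, hB, hred2])
  have hrow : ∀ a, rowp m a = e a - 1 := fun a => hm1 (some a) (Finset.mem_univ _)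
  have hcol : ∀ b, colp m b = e' b - 1 := fun b => hm2 (some b)
  have hvp : vp m = redv w n S := by
    rw [← hA]
    unfold vp
    exact Finset.prod_congr rfl fun i hi => hm1 i hi
  have hvp0 : vp m ≠ 0 := by
    rw [hvp, ← hA]
    exact Finset.prod_ne_zero_iff.2 hA0
  have hpos : ∀ i j, 0 < m i j := by
    intro i j
    apply Nat.pos_of_ne_zero
    intro h0
    apply hvp0
    unfold vp
    exact Finset.prod_eq_zero (Finset.mem_univ i) (Finset.prod_eq_zero (Finset.mem_univ j) h0)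
  have hep : ∀ a, (e a).Prime := fun a => (mem_alv.1 (hSn _ (he2 a)).1).1.1
  have hep' : ∀ b, (e' b).Prime := fun b => (mem_alv.1 (hTn _ (he2' b)).1).1.1
  have hrow1 : ∀ a, rowp m a + 1 = e a := fun a => by
    rw [hrow]; have := (hep a).two_le; omega
  have hcol1 : ∀ b, colp m b + 1 = e' b := fun b => by
    rw [hcol]; have := (hep' b).two_le; omega
  -- small primes
  have hsmall1 : ∀ j (l : ℕ), l.Prime → l ∣ m none j → yy l ≤ w := by
    intro j l hl hlm
    apply yy_le_of_dvd_dead hn0 hg.sqL hl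
    have : ∏ j, m none j = u := hm1 none (Finset.mem_univ _)
    rw [← hu, ← this]
    exact hlm.trans (Finset.dvd_prod_of_mem (fun j => m none j) (Finset.mem_univ j))
  have hsmall2 : ∀ i (l : ℕ), l.Prime → l ∣ m i none → yy l ≤ w := by
    intro i l hl hlm
    apply yy_le_of_dvd_dead hn'0 hg.sqR hl
    have : ∏ i, m i none = u' := hm2 none
    rw [← hu', ← this]
    exact hlm.trans (Finset.dvd_prod_of_mem (fun i => m i none) (Finset.mem_univ i))
  have hkS : ∀ i, kpl (fun a => cl (e a)) i = kap S i := fun i => kpl_enum he1 he2 he3 i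
  have hkT : ∀ i, kpl (fun b => cl (e' b)) i = kap T i := fun i => kpl_enum he1' he2' he3' i
  have hcardS : S.card ≤ N := (Finset.card_le_card Finset.sdiff_subset).trans hg.cardL
  have hcardT : T.card ≤ N := (Finset.card_le_card Finset.sdiff_subset).trans hg.cardR
  have hclJ : ∀ p : ℕ, yy p ≤ Y → cl p < J := by
    intro p hp
    have h1 : (cl p : ℝ) < J := lt_of_le_of_lt (cl_le_yy p) (lt_of_le_of_lt hp hJ)
    exact_mod_cast h1
  refine ⟨c, ?_, (Finset.card_le_card Finset.inter_subset_left).trans hg.cardL, S.card, T.card,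
    fun a => cl (e a), fun b => cl (e' b), i0, m, hcardS, hcardT, ?_, ?_, ?_⟩
  · intro p hp
    have := Finset.mem_of_mem_inter_left hp
    exact ⟨(mem_alv.1 this).1.1, hSy p this⟩
  · intro a
    exact ⟨le_cl_of_lt_yy (mem_alv.1 (hSn _ (he2 a)).1).2.lt_yy, hclJ _ (hSy _ (hSn _ (he2 a)).1)⟩
  · intro b
    exact ⟨le_cl_of_lt_yy (mem_alv.1 (hTn _ (he2' b)).1).2.lt_yy, hclJ _ (hTy _ (hTn _ (he2' b)).1)⟩
  refine ⟨?_, ?_, ?_, ?_, ?_, hsmall1, hsmall2, ?_, ?_⟩
  · rw [hrow, hi0]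
  · change v = _
    rw [hvp, ← hred1, hvn]
  · refine ⟨hpos, ?_, ?_, ?_, ?_, ?_, ?_, ?_, ?_, ?_⟩
    · intro a; rw [hrow1]; exact hep a
    · intro a; rw [hrow1]; exact hX _ (hSy _ (hSn _ (he2 a)).1)
    · intro b; rw [hcol1]; exact hep' b
    · intro b; rw [hcol1]; exact hX _ (hTy _ (hTn _ (he2' b)).1)
    · intro a b h
      have h1 : e a = e' b := by rw [← hrow1, ← hcol1, h]
      exact (hSn _ (he2 a)).2 (h1 ▸ (hTn _ (he2' b)).1)
    · intro a
      rw [hrow]
      have h1 := (mem_alv.1 (hSn _ (he2 a)).1).2.thr_le hY0 (hlenS _ (hSn _ (he2 a)).1)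
      unfold rth
      split_ifs with h
      · subst h
        apply max_le
        · rw [hi0]; exact hρ
        · exact h1
      · exact h1
    · intro b
      rw [hcol]
      exact (mem_alv.1 (hTn _ (he2' b)).1).2.thr_le hY0 (hlenT _ (hTn _ (he2' b)).1)
    · intro a l hl hlm
      have h1 : (l : ℝ) < thr Y w (cl (e a)) := lt_thr (hsmall2 _ l hl hlm)
      unfold rth
      split_ifs with h
      · exact lt_max_of_lt_right h1
      · exact h1
    · intro b l hl hlm
      exact lt_thr (hsmall1 _ l hl hlm)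
  · intro a; rw [hrow1]
  · intro b; rw [hcol1]
  · rw [hvp]
    have h1 := hg.stat S Finset.sdiff_subset (kpl (fun b => cl (e' b))) ?_ ?_ ?_
    · refine h1.trans (le_of_eq ?_)
      congr 1
      refine Finset.sum_congr rfl fun i _ => ?_
      rw [hkS]
    · intro i j hij
      rw [hkT, hkT]
      unfold kap
      apply Finset.card_le_card
      intro p hp
      rw [Finset.mem_filter] at hp ⊢
      exact ⟨hp.1, hij.trans hp.2⟩
    · rw [hkT]
      exact (Finset.card_filter_le _ _).trans hcardT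
    · intro i hi
      rw [hkT]
      unfold kap
      rw [Finset.card_eq_zero, Finset.filter_eq_empty_iff]
      intro p hp
      have := hclJ _ (hTy _ (hTn _ hp).1)
      omega
  · have h1 := prof_le (S := S) (q := q) (d := d) (J := J) hqS hyq0 ?_ (hclJ q hyq) ?_
    · calc ∑ i ∈ Finset.Ico 1 J, gk (kpl (fun a => cl (e a)) i)
          = ∑ i ∈ Finset.Ico 1 J, gk (kap S i) := Finset.sum_congr rfl fun i _ => by rw [hkS]
        _ ≤ 1 - yy q + FF aa d := h1
        _ ≤ 1 - E := by linarith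
    · intro p hp
      have := (mem_alv.1 (hSn _ hp).1).1
      exact hnq p this.1 this.2.1
    · intro p hp hpq
      have := (mem_alv.1 (hSn _ hp).1).1
      refine ⟨this.1, ?_⟩
      rcases (Nat.Prime.dvd_mul this.1).1 this.2.1 with h | h
      · exact absurd ((Nat.prime_dvd_prime_iff_eq this.1 hq).1 h) hpq
      · exact h

end Crest.Agent.R020.Coll
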