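import Crest.Agent.R020.CollStr

/-!
Row 20, module E (collisions): extraction of the marks of a matrix.
-/

set_option autoImplicit false

namespace Crest.Agent.R020.CollM

open Finset

/-- greatest prime factor (`0` if there is none) -/
def gpf (N : ℕ) : ℕ := N.primeFactors.sup id

theorem gpf_mem {N : ℕ} (h : 0 < gpf N) : gpf N ∈ N.primeFactors := by
  have hne : N.primeFactors.Nonempty := by
    by_contra hne
    rw [Finset.not_nonempty_iff_eq_empty] at hne
    simp [gpf, hne] at h
  obtain ⟨q, hq, h2⟩ := Finset.exists_mem_eq_sup _ hne id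
  unfold gpf
  rw [h2]
  exact hq

theorem le_gpf {N q : ℕ} (hq : q ∈ N.primeFactors) : q ≤ gpf N :=
  Finset.le_sup (f := id) hq

/-- conditions on the matrices -/
structure Good {s t : ℕ} (X : ℕ) (r : Fin s → ℝ) (r' : Fin t → ℝ) (m : Mat s t) : Prop where
  pos : ∀ i j, 0 < m i j
  rowPrime : ∀ i, (rowp m i + 1).Prime
  rowLe : ∀ i, rowp m i + 1 ≤ X
  colPrime : ∀ j, (colp m j + 1).Prime
  colLe : ∀ j, colp m j + 1 ≤ X
  ne : ∀ i j, rowp m i ≠ colp m j
  rowG : ∀ i, r i ≤ (gpf (rowp m i) : ℝ)
  colG : ∀ j, r' j ≤ (gpf (colp m j) : ℝ)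
  smallRow : ∀ i (q : ℕ), q.Prime → q ∣ m (some i) none → (q : ℝ) < r i
  smallCol : ∀ j (q : ℕ), q.Prime → q ∣ m none (some j) → (q : ℝ) < r' j

variable {s t : ℕ} {X : ℕ} {r : Fin s → ℝ} {r' : Fin t → ℝ} {m : Mat s t}

theorem Good.rowp_pos (h : Good X r r' m) (i : Fin s) : 0 < rowp m i :=
  Finset.prod_pos (fun j _ => h.pos _ _)

theorem Good.colp_pos (h : Good X r r' m) (j : Fin t) : 0 < colp m j :=
  Finset.prod_pos (fun i _ => h.pos _ _)

theorem dvd_rowp (m : Mat s t) (i : Fin s) (j : Option (Fin t)) : m (some i) j ∣ rowp m i :=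
  Finset.dvd_prod_of_mem (fun j => m (some i) j) (Finset.mem_univ j)

theorem dvd_colp (m : Mat s t) (i : Option (Fin s)) (j : Fin t) : m i (some j) ∣ colp m j :=
  Finset.dvd_prod_of_mem (fun i => m i (some j)) (Finset.mem_univ i)

/-- extraction of the marks -/
theorem exists_str (h : Good X r r' m) (hr : ∀ i, 1 < r i) (hr' : ∀ j, 1 < r' j) :
    ∃ σ : Str s t, σ.Valid ∧ ∃ (R : Fin s ⊕ Fin t → ℕ) (m' : Mat s t),
      m = σ.expand m' R ∧ (∀ i j, m' i j ∣ m i j) ∧ (∀ i j, 0 < m' i j) ∧
      (∀ i, R (Sum.inl i) = gpf (rowp m i)) ∧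
      (∀ i, σ.β i = true → R (Sum.inl i) = gpf (colp m (σ.c i))) ∧
      (∀ j, ¬ σ.dummy j → R (Sum.inr j) = gpf (colp m j)) ∧
      (∀ j, σ.dummy j → R (Sum.inr j) = 1) ∧
      (∀ e e', (σ.rk e : ℕ) = 0 → R e' ≤ R e) := by
  classical
  have hgr : ∀ i, gpf (rowp m i) ∈ (rowp m i).primeFactors := by
    intro i
    apply gpf_mem
    have := lt_of_lt_of_le (hr i) (h.rowG i)
    have : (0:ℝ) < (gpf (rowp m i) : ℝ) := by linarith
    exact_mod_cast this
  have hgc : ∀ j, gpf (colp m j) ∈ (colp m j).primeFactors := by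
    intro j
    apply gpf_mem
    have := lt_of_lt_of_le (hr' j) (h.colG j)
    have : (0:ℝ) < (gpf (colp m j) : ℝ) := by linarith
    exact_mod_cast this
  have hpr : ∀ i, (gpf (rowp m i)).Prime := fun i => Nat.prime_of_mem_primeFactors (hgr i)
  have hpc : ∀ j, (gpf (colp m j)).Prime := fun j => Nat.prime_of_mem_primeFactors (hgc j)
  have hex : ∀ j, ∃ i : Fin s, gpf (colp m j) ∣ m (some i) (some j) := by
    intro j
    have h1 : gpf (colp m j) ∣ colp m j := Nat.dvd_of_mem_primeFactors (hgc j)
    unfold colp at h1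
    obtain ⟨i, _, hi⟩ := ((hpc j).prime.dvd_finsetProd_iff _).mp h1
    cases i with
    | none =>
      exfalso
      have := h.smallCol j _ (hpc j) hi
      have h2 := h.colG j
      linarith
    | some i => exact ⟨i, hi⟩
  have hex' : ∀ i, ∃ j : Fin t, gpf (rowp m i) ∣ m (some i) (some j) := by
    intro i
    have h1 : gpf (rowp m i) ∣ rowp m i := Nat.dvd_of_mem_primeFactors (hgr i)
    unfold rowp at h1
    obtain ⟨j, _, hj⟩ := ((hpr i).prime.dvd_finsetProd_iff _).mp h1
    cases j with
    | none =>
      exfalso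
      have := h.smallRow i _ (hpr i) hj
      have h2 := h.rowG i
      linarith
    | some j => exact ⟨j, hj⟩
  choose rr hrr using hex
  choose c0 hc0 using hex'
  have hle1 : ∀ i j, gpf (rowp m i) ∣ m (some i) (some j) → gpf (rowp m i) ≤ gpf (colp m j) := by
    intro i j hd
    apply le_gpf
    rw [Nat.mem_primeFactors]
    exact ⟨hpr i, hd.trans (dvd_colp m _ j), (h.colp_pos j).ne'⟩
  have hle2 : ∀ j, gpf (colp m j) ≤ gpf (rowp m (rr j)) := by
    intro j
    apply le_gpf
    rw [Nat.mem_primeFactors]
    exact ⟨hpc j, (hrr j).trans (dvd_rowp m _ _), (h.rowp_pos _).ne'⟩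
  let paired : Fin s → Prop := fun i => ∃ j, rr j = i ∧ gpf (colp m j) = gpf (rowp m i)
  let c : Fin s → Fin t := fun i => if hp : paired i then Classical.choose hp else c0 i
  let β : Fin s → Bool := fun i => decide (paired i)
  have hβ : ∀ i, β i = true ↔ paired i := fun i => by simp [β]
  have hcp : ∀ i, paired i → rr (c i) = i ∧ gpf (colp m (c i)) = gpf (rowp m i) := by
    intro i hp
    have := Classical.choose_spec hp
    simp only [c, hp, dif_pos]
    exact this
  have hc : ∀ i, gpf (rowp m i) ∣ m (some i) (some (c i)) := by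
    intro i
    by_cases hp : paired i
    · obtain ⟨h1, h2⟩ := hcp i hp
      rw [← h2]
      have := hrr (c i)
      rw [h1] at this
      exact this
    · have : c i = c0 i := by simp only [c, hp, dif_neg, not_false_eq_true]
      rw [this]
      exact hc0 i
  let dmy : Fin t → Prop := fun j => β (rr j) = true ∧ c (rr j) = j
  let R : Fin s ⊕ Fin t → ℕ := fun e => match e with
    | Sum.inl i => gpf (rowp m i)
    | Sum.inr j => if dmy j then 1 else gpf (colp m j)
  let ty : Fin s ⊕ Fin t → ℤ := fun e => match e with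
    | Sum.inl i => if paired i then 0 else 2
    | Sum.inr j => 1
  let key : Fin s ⊕ Fin t → ℤ := fun e => -4 * (R e : ℤ) + ty e
  let f : Fin (s + t) → ℤ := fun a => key (finSumFinEquiv.symm a)
  let ord : Fin (s + t) ≃ (Fin s ⊕ Fin t) := (Tuple.sort f).trans finSumFinEquiv.symm
  let σ : Str s t := (c, rr, β, ord)
  have hmono := Tuple.monotone_sort f
  have hkey : ∀ e, f (Tuple.sort f (σ.rk e)) = key e := by
    intro e
    have : ord (σ.rk e) = e := by
      show ord (ord.symm e) = e
      simp
    show key (finSumFinEquiv.symm (Tuple.sort f (σ.rk e))) = key e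
    have h2 : ord (σ.rk e) = finSumFinEquiv.symm (Tuple.sort f (σ.rk e)) := rfl
    rw [← h2, this]
  have hle : ∀ e e', σ.rk e ≤ σ.rk e' → key e ≤ key e' := by
    intro e e' hh
    have := hmono hh
    simp only [Function.comp] at this
    rw [hkey, hkey] at this
    exact this
  have hlt : ∀ e e', key e < key e' → σ.rk e < σ.rk e' := by
    intro e e' hh
    by_contra hcon
    push Not at hcon
    exact absurd (hle _ _ hcon) (not_le.mpr hh)
  have hty : ∀ e, 0 ≤ ty e ∧ ty e ≤ 2 := by
    intro e
    rcases e with i | j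
    · simp only [ty]
      split_ifs <;> norm_num
    · simp only [ty]; norm_num
  have hdm : ∀ j, σ.dummy j ↔ dmy j := fun j => Iff.rfl
  have hσβ : ∀ i, σ.β i = β i := fun i => rfl
  have hσc : ∀ i, σ.c i = c i := fun i => rfl
  have hσr : ∀ j, σ.r j = rr j := fun i => rfl
  -- key facts
  have hkl1 : ∀ i, paired i → key (Sum.inl i) = -4 * (gpf (rowp m i) : ℤ) := by
    intro i hp
    simp only [key, R, ty, hp, if_true, add_zero]
  have hkl2 : ∀ i, ¬ paired i → key (Sum.inl i) = -4 * (gpf (rowp m i) : ℤ) + 2 := by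
    intro i hp
    simp only [key, R, ty, hp, if_false]
  have hkr1 : ∀ j, dmy j → key (Sum.inr j) = -3 := by
    intro j hp
    simp only [key, R, ty, hp, if_true]
    norm_num
  have hkr2 : ∀ j, ¬ dmy j → key (Sum.inr j) = -4 * (gpf (colp m j) : ℤ) + 1 := by
    intro j hp
    simp only [key, R, ty, hp, if_false]
  have hvalid : σ.Valid := by
    refine ⟨?_, ?_, ?_, ?_, ?_⟩
    · intro i hi
      exact (hcp i ((hβ i).mp hi)).1
    · intro j hj
      apply hlt
      have hj' : ¬ dmy j := hj
      rw [hkr2 j hj', hσr]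
      have h1 := hle2 j
      rcases h1.lt_or_eq with h2 | h2
      · have h3 : key (Sum.inl (rr j)) ≤ -4 * (gpf (rowp m (rr j)) : ℤ) + 2 := by
          have := (hty (Sum.inl (rr j))).2
          show -4 * (gpf (rowp m (rr j)) : ℤ) + ty (Sum.inl (rr j)) ≤ _
          linarith
        have h4 : (gpf (colp m j) : ℤ) + 1 ≤ (gpf (rowp m (rr j)) : ℤ) := by exact_mod_cast h2
        linarith
      · have hp : paired (rr j) := ⟨j, rfl, h2⟩
        rw [hkl1 _ hp, h2]
        linarith
    · intro i hi
      apply hlt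
      have hj' : ¬ dmy (c i) := hi
      rw [hσc, hkr2 _ hj']
      have h1 := hle1 i (c i) (hc i)
      have hnp : ¬ paired i := by
        intro hp
        apply hj'
        have h5 := (hcp i hp).1
        refine ⟨?_, ?_⟩
        · rw [h5]; exact (hβ i).mpr hp
        · rw [h5]
      rw [hkl2 i hnp]
      have h4 : (gpf (rowp m i) : ℤ) ≤ (gpf (colp m (c i)) : ℤ) := by exact_mod_cast h1
      linarith
    · intro i i' hne hi hcc
      apply hlt
      have hp := (hβ i).mp hi
      have hcc' : c i' = c i := hcc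
      have hnp : ¬ paired i' := by
        intro hp'
        apply hne
        rw [← (hcp i hp).1, ← (hcp i' hp').1, hcc']
      rw [hkl1 i hp, hkl2 i' hnp]
      have h1 := hle1 i' (c i') (hc i')
      rw [hcc', (hcp i hp).2] at h1
      have h4 : (gpf (rowp m i') : ℤ) ≤ (gpf (rowp m i) : ℤ) := by exact_mod_cast h1
      linarith
    · intro j hj hd
      have hd' : dmy j := hd
      have h1 : key (Sum.inl (rr j)) < key (Sum.inr j) := by
        rw [hkr1 j hd', hkl1 _ ((hβ _).mp hd'.1)]
        have := (hpr (rr j)).two_le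
        have h2 : (2:ℤ) ≤ (gpf (rowp m (rr j)) : ℤ) := by exact_mod_cast this
        linarith
      have h2 := hlt (Sum.inl (rr j)) (Sum.inr j) h1
      rw [Fin.lt_def, hj] at h2
      omega
  -- the cofactor matrix
  have hmul : ∀ i j, σ.mulc R i j ∣ m (some i) (some j) := by
    intro i j
    unfold Str.mulc
    by_cases h1 : σ.c i = j
    · by_cases h2 : σ.r j = i ∧ ¬ σ.dummy j
      · exfalso
        apply h2.2
        have h1' : c i = j := h1
        have h2' : rr j = i := h2.1
        have h3 := hle1 i (c i) (hc i)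
        rw [h1'] at h3
        have h4 := hle2 j
        rw [h2'] at h4
        have hp : paired i := ⟨j, h2', le_antisymm h4 h3⟩
        refine ⟨?_, ?_⟩
        · show β (rr j) = true
          rw [h2']
          exact (hβ i).mpr hp
        · show c (rr j) = j
          rw [h2', h1']
      · rw [if_pos h1, if_neg h2, mul_one]
        have := hc i
        have h1' : c i = j := h1
        rw [h1'] at this
        exact this
    · rw [if_neg h1, one_mul]
      by_cases h2 : σ.r j = i ∧ ¬ σ.dummy j
      · rw [if_pos h2]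
        have h2' : rr j = i := h2.1
        have h3 : ¬ dmy j := h2.2
        have : R (Sum.inr j) = gpf (colp m j) := by
          simp only [R, h3, if_false]
        rw [this, ← h2']
        exact hrr j
      · rw [if_neg h2]
        exact one_dvd _
  let m' : Mat s t := fun i j => match i, j with
    | some i, some j => m (some i) (some j) / σ.mulc R i j
    | none, j => m none j
    | i, none => m i none
  have hm' : m = σ.expand m' R := by
    funext i j
    cases i with
    | none => rfl
    | some i =>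
      cases j with
      | none => rfl
      | some j =>
        show m (some i) (some j) = m (some i) (some j) / σ.mulc R i j * σ.mulc R i j
        rw [Nat.div_mul_cancel (hmul i j)]
  have hdvd : ∀ i j, m' i j ∣ m i j := by
    intro i j
    cases i with
    | none => exact dvd_refl _
    | some i =>
      cases j with
      | none => exact dvd_refl _
      | some j =>
        show m (some i) (some j) / σ.mulc R i j ∣ _
        exact Nat.div_dvd_of_dvd (hmul i j)
  refine ⟨σ, hvalid, R, m', hm', hdvd, ?_, ?_, ?_, ?_, ?_, ?_⟩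
  · intro i j
    exact Nat.pos_of_dvd_of_pos (hdvd i j) (h.pos i j)
  · intro i; rfl
  · intro i hi
    show gpf (rowp m i) = gpf (colp m (c i))
    exact ((hcp i ((hβ i).mp hi)).2).symm
  · intro j hj
    have h3 : ¬ dmy j := hj
    show (if dmy j then 1 else gpf (colp m j)) = _
    rw [if_neg h3]
  · intro j hj
    have h3 : dmy j := hj
    show (if dmy j then 1 else gpf (colp m j)) = _
    rw [if_pos h3]
  · intro e e' he
    have h1 : σ.rk e ≤ σ.rk e' := by
      rw [Fin.le_def, he]
      exact Nat.zero_le _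
    have h2 := hle e e' h1
    have h3 := hty e
    have h4 := hty e'
    have h5 : -4 * (R e : ℤ) + ty e ≤ -4 * (R e' : ℤ) + ty e' := h2
    have h7 : 4 * (R e' : ℤ) ≤ 4 * (R e : ℤ) + 2 := by linarith [h3.1, h4.2]
    have h6 : (R e' : ℤ) ≤ (R e : ℤ) := by omega
    exact_mod_cast h6

end Crest.Agent.R020.CollM
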