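import Crest.Agent.R020.CollAsm
import Crest.Agent.R020.Cells

/-!
Row 20, module (L): sum over the profiles and the cancelled parts, for a general weight.
-/

set_option autoImplicit false

open Crest.NumberTheoryR.TotientScale

namespace Crest.Agent.R020.Coll

open Crest.Agent.R020.CollM (Mat rowp colp vp gpf Good Sieve)

/-- bound for one cancelled part and one profile -/
theorem inner_bound {C L Y : ℝ} {w N J X : ℕ} {F E ρt κ : ℝ} (hnet : NetHyp C L Y w N J)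
    (Wt : ℕ → ℝ) (W : ℕ → ℕ → ℝ)
    (hWt : ∀ b v, b ≠ 0 → Wt (b * v) ≤ (1 / (b : ℝ)) * W b v)
    (hS : ∀ b, b ≠ 0 → Sieve X 2 ρt L κ (W b)) (hκ : 0 ≤ κ)
    (c : Finset ℕ) (hc : ∀ p ∈ c, p.Prime) {s t : ℕ} (hs : s ≤ N) (ht : t ≤ N)
    (α : Fin s → ℕ) (β : Fin t → ℕ) (hα : ∀ a, w ≤ α a ∧ α a < J)
    (hβ : ∀ b, w ≤ β b ∧ β b < J) (i0 : Fin s) (A : Finset (ℕ × ℕ))
    (hA : ∀ p ∈ A, p.1.Prime ∧ ∃ m : Mat s t, HasMat Y w J X F E ρt c α β i0 p m) :
    ∑ p ∈ A, Wt ((p.1 - 1) * p.2) ≤ (∏ x ∈ c, (1 / ((x : ℝ) - 1))) *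
      (κ * Real.exp (1 - E + F + 2 * w + C * ((N : ℝ) + 1) * Real.log Y)) := by
  classical
  set b := ∏ x ∈ c, (x - 1) with hb
  have hb0 : b ≠ 0 := (prod_sub_one_pos hc).ne'
  have hbR : (1 / (b : ℝ)) = ∏ x ∈ c, (1 / ((x : ℝ) - 1)) := by
    rw [hb]
    push_cast
    rw [one_div, ← Finset.prod_inv_distrib]
    refine Finset.prod_congr rfl fun x hx => ?_
    have := (hc x hx).one_le
    push_cast [Nat.cast_sub this]
    rw [one_div]
  rw [← hbR]
  rcases A.eq_empty_or_nonempty with rfl | hne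
  · simp only [Finset.sum_empty]
    have : (0 : ℝ) ≤ 1 / (b : ℝ) := by positivity
    exact mul_nonneg this (mul_nonneg hκ (Real.exp_pos _).le)
  have hs1 : 1 ≤ s := Nat.one_le_iff_ne_zero.2 (by rintro rfl; exact i0.elim0)
  have hex : ∀ p : ℕ × ℕ, ∃ m : Mat s t, p ∈ A → HasMat Y w J X F E ρt c α β i0 p m := by
    intro p
    by_cases hp : p ∈ A
    · obtain ⟨m, hm⟩ := (hA p hp).2
      exact ⟨m, fun _ => hm⟩
    · exact ⟨fun _ _ => 1, fun h => absurd h hp⟩
  choose mf hmf using hex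
  have hinj : Set.InjOn mf A := by
    intro p hp p' hp' h
    have h1 := hmf p hp
    have h2 := hmf p' hp'
    have hq := (hA p hp).1.two_le
    have hq' := (hA p' hp').1.two_le
    have e1 : p.1 = p'.1 := by
      have := h1.1
      rw [h, h2.1] at this
      omega
    have e2 : p.2 = p'.2 := by
      have h3 := h1.2.1
      rw [h, ← h2.2.1, e1] at h3
      exact Nat.eq_of_mul_eq_mul_left (by omega) h3
    exact Prod.ext e1 e2
  set MM := A.image mf with hMM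
  have hMMm : ∀ m ∈ MM, ∃ p ∈ A, mf p = m := fun m hm => Finset.mem_image.1 hm
  obtain ⟨p0, hp0⟩ := hne
  have hgk : ∑ i ∈ Finset.Ico 1 J, gk (kpl α i) ≤ 1 - E := (hmf p0 hp0).2.2.2.2.2.2.2.2
  have hmain := hnet s t hs1 hs ht α β hα hβ X (rth Y w α ρt i0) (fun b => thr Y w (β b))
    (fun a => by
      unfold rth
      split_ifs
      · exact (le_max_right _ _).trans (le_max_right _ _)
      · exact le_max_right _ _)
    (fun b => le_max_right _ _) (W b) κ ρt (hS b hb0) i0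
    (by unfold rth; rw [if_pos rfl]; exact le_max_left _ _) MM
    (fun m hm => by obtain ⟨p, hp, rfl⟩ := hMMm m hm; exact (hmf p hp).2.2.1)
    (fun m hm => by obtain ⟨p, hp, rfl⟩ := hMMm m hm; exact (hmf p hp).2.2.2.1)
    (fun m hm => by obtain ⟨p, hp, rfl⟩ := hMMm m hm; exact (hmf p hp).2.2.2.2.1)
    (fun m hm => by obtain ⟨p, hp, rfl⟩ := hMMm m hm; exact (hmf p hp).2.2.2.2.2.1)
    (fun m hm => by obtain ⟨p, hp, rfl⟩ := hMMm m hm; exact (hmf p hp).2.2.2.2.2.2.1) F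
    (fun m hm => by obtain ⟨p, hp, rfl⟩ := hMMm m hm; exact (hmf p hp).2.2.2.2.2.2.2.1)
  calc ∑ p ∈ A, Wt ((p.1 - 1) * p.2)
      ≤ ∑ p ∈ A, (1 / (b : ℝ)) * W b (vp (mf p)) := by
        refine Finset.sum_le_sum fun p hp => ?_
        rw [(hmf p hp).2.1]
        exact hWt b _ hb0
    _ = (1 / (b : ℝ)) * ∑ m ∈ MM, W b (vp m) := by
        rw [← Finset.mul_sum, hMM, Finset.sum_image hinj]
    _ ≤ (1 / (b : ℝ)) * (κ * Real.exp (1 - E + F + 2 * w + C * ((N : ℝ) + 1) * Real.log Y)) := by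
        apply mul_le_mul_of_nonneg_left _ (by positivity)
        refine hmain.trans (mul_le_mul_of_nonneg_left ?_ hκ)
        rw [Real.exp_le_exp]
        linarith

/-- the type of profiles -/
abbrev KT (N J : ℕ) := Σ s : Fin (N + 1), Σ t : Fin (N + 1),
  (Fin (s : ℕ) → Fin J) × (Fin (t : ℕ) → Fin J) × Fin (s : ℕ)

lemma card_KT_le (N J : ℕ) (hJ : 1 ≤ J) :
    (Fintype.card (KT N J) : ℝ) ≤ ((N : ℝ) + 1) ^ 3 * (J : ℝ) ^ (2 * N) := by
  have h : Fintype.card (KT N J) ≤ (N + 1) ^ 3 * J ^ (2 * N) := by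
    rw [Fintype.card_sigma]
    calc ∑ s : Fin (N + 1), Fintype.card (Σ t : Fin (N + 1),
          (Fin (s : ℕ) → Fin J) × (Fin (t : ℕ) → Fin J) × Fin (s : ℕ))
        ≤ ∑ s : Fin (N + 1), (N + 1) * (J ^ (2 * N) * (N + 1)) := by
          refine Finset.sum_le_sum fun s _ => ?_
          rw [Fintype.card_sigma]
          calc ∑ t : Fin (N + 1), Fintype.card ((Fin (s : ℕ) → Fin J) ×
                (Fin (t : ℕ) → Fin J) × Fin (s : ℕ))
              ≤ ∑ t : Fin (N + 1), J ^ (2 * N) * (N + 1) := by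
                refine Finset.sum_le_sum fun t _ => ?_
                rw [Fintype.card_prod, Fintype.card_prod, Fintype.card_fun, Fintype.card_fun,
                  Fintype.card_fin, Fintype.card_fin, Fintype.card_fin, ← mul_assoc]
                apply Nat.mul_le_mul _ (by omega)
                rw [← pow_add]
                exact Nat.pow_le_pow_right hJ (by omega)
            _ = _ := by simp
      _ = (N + 1) ^ 3 * J ^ (2 * N) := by
          simp
          ring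
  exact_mod_cast h

/-- sum over the cancelled parts -/
lemma sum_cancel_le {Y : ℝ} (hY : 0 ≤ Y) (N : ℕ) :
    ∑ c ∈ (LS.PU Y).powerset.filter (fun c => c.card ≤ N), ∏ x ∈ c, (1 / ((x : ℝ) - 1)) ≤
      Real.exp 1 * (2 * Y + 25) ^ N := by
  set P := ∑ x ∈ LS.PU Y, (1 / ((x : ℝ) - 1)) with hP
  have hpr : ∀ x ∈ LS.PU Y, (2 : ℝ) ≤ x := fun x hx => by
    exact_mod_cast (LS.prime_of_mem_PU hx).two_le
  have hx0 : ∀ x ∈ LS.PU Y, 0 ≤ 1 / ((x : ℝ) - 1) := fun x hx => by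
    have := hpr x hx
    exact div_nonneg zero_le_one (by linarith)
  have hP0 : 0 ≤ P := Finset.sum_nonneg hx0
  have hPle : P ≤ 2 * (Y + 12) := by
    calc P ≤ ∑ x ∈ LS.PU Y, 2 * (1 / (x : ℝ)) := by
          refine Finset.sum_le_sum fun x hx => ?_
          have := hpr x hx
          rw [mul_one_div, div_le_div_iff₀ (by linarith) (by linarith)]
          linarith
      _ = 2 * ∑ x ∈ LS.PU Y, (1 / (x : ℝ)) := by rw [Finset.mul_sum]
      _ ≤ 2 * (Y + 12) := by linarith [LS.sum_inv_PU hY]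
  set lam := 1 / (P + 1) with hlam
  have hl0 : 0 < lam := by positivity
  have hl1 : lam ≤ 1 := by
    rw [hlam, div_le_one (by positivity)]
    linarith
  calc ∑ c ∈ (LS.PU Y).powerset.filter (fun c => c.card ≤ N), ∏ x ∈ c, (1 / ((x : ℝ) - 1))
      ≤ ∑ c ∈ (LS.PU Y).powerset.filter (fun c => c.card ≤ N),
          (lam⁻¹) ^ N * ∏ x ∈ c, (lam * (1 / ((x : ℝ) - 1))) := by
        refine Finset.sum_le_sum fun c hc => ?_
        rw [Finset.mem_filter, Finset.mem_powerset] at hc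
        rw [Finset.prod_mul_distrib, Finset.prod_const]
        have h1 : 0 ≤ ∏ x ∈ c, (1 / ((x : ℝ) - 1)) :=
          Finset.prod_nonneg fun x hx => hx0 x (hc.1 hx)
        have h2 : 1 ≤ (lam⁻¹) ^ N * lam ^ c.card := by
          rw [inv_pow]
          rw [← div_eq_inv_mul, le_div_iff₀ (pow_pos hl0 N), one_mul]
          exact pow_le_pow_of_le_one hl0.le hl1 hc.2
        nlinarith
    _ ≤ ∑ c ∈ (LS.PU Y).powerset, (lam⁻¹) ^ N * ∏ x ∈ c, (lam * (1 / ((x : ℝ) - 1))) := by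
        apply Finset.sum_le_sum_of_subset_of_nonneg (Finset.filter_subset _ _)
        intro c hc _
        rw [Finset.mem_powerset] at hc
        apply mul_nonneg (by positivity)
        exact Finset.prod_nonneg fun x hx => mul_nonneg hl0.le (hx0 x (hc hx))
    _ = (lam⁻¹) ^ N * ∏ x ∈ LS.PU Y, (lam * (1 / ((x : ℝ) - 1)) + 1) := by
        rw [Finset.prod_add_one, Finset.mul_sum]
    _ ≤ (lam⁻¹) ^ N * Real.exp 1 := by
        apply mul_le_mul_of_nonneg_left _ (by positivity)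
        calc ∏ x ∈ LS.PU Y, (lam * (1 / ((x : ℝ) - 1)) + 1)
            ≤ ∏ x ∈ LS.PU Y, Real.exp (lam * (1 / ((x : ℝ) - 1))) := by
              apply Finset.prod_le_prod
              · intro x hx
                have := mul_nonneg hl0.le (hx0 x hx)
                linarith
              · intro x _
                exact Real.add_one_le_exp _
          _ = Real.exp (lam * P) := by rw [← Real.exp_sum, hP, Finset.mul_sum]
          _ ≤ Real.exp 1 := by
              rw [Real.exp_le_exp, hlam, div_mul_eq_mul_div, one_mul,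
                div_le_one (by positivity)]
              linarith
    _ ≤ Real.exp 1 * (2 * Y + 25) ^ N := by
        rw [mul_comm]
        apply mul_le_mul_of_nonneg_left _ (Real.exp_pos _).le
        apply pow_le_pow_left₀ (by positivity)
        rw [hlam, one_div, inv_inv]
        linarith

/-- **Assembly**: weight of a finite set of good non-canonical pairs. -/
theorem main_bound {C L Y : ℝ} {w N J X : ℕ} {F E ρt κ : ℝ} (hnet : NetHyp C L Y w N J)
    (hY : 1 ≤ Y) (hE : w + Real.log (40 * Y) < E) (hJ : Y < J)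
    (hX : ∀ p : ℕ, yy p ≤ Y → p ≤ X)
    (Wt : ℕ → ℝ) (W : ℕ → ℕ → ℝ) (hWt0 : ∀ v, 0 ≤ Wt v)
    (hWt : ∀ b v, b ≠ 0 → Wt (b * v) ≤ (1 / (b : ℝ)) * W b v)
    (hS : ∀ b, b ≠ 0 → Sieve X 2 ρt L κ (W b)) (hκ : 0 ≤ κ)
    (A : Finset (ℕ × ℕ))
    (hA : ∀ p ∈ A, NonCan p.1 p.2 ∧ yy p.1 ≤ Y ∧ FF aa p.2 + E ≤ yy p.1 ∧
      LGood Y w N J F p.1 p.2 ∧ ρt ≤ (gpf (p.1 - 1) : ℝ)) :
    ∑ p ∈ A, Wt ((p.1 - 1) * p.2) ≤
      κ * Real.exp (1 - E + F + 2 * w + C * ((N : ℝ) + 1) * Real.log Y) *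
        ((((N : ℝ) + 1) ^ 3 * (J : ℝ) ^ (2 * N)) * (Real.exp 1 * (2 * Y + 25) ^ N)) := by
  classical
  have hY0 : 0 ≤ Y := by linarith
  set 𝒞 := (LS.PU Y).powerset.filter (fun c => c.card ≤ N) with h𝒞
  -- the property of a key
  let P : Finset ℕ × KT N J → ℕ × ℕ → Prop := fun k p =>
    (∀ a, w ≤ (k.2.2.2.1 a : ℕ)) ∧ (∀ b, w ≤ (k.2.2.2.2.1 b : ℕ)) ∧ ∃ m : Mat k.2.1 k.2.2.1,
      HasMat Y w J X F E ρt k.1 (fun a => (k.2.2.2.1 a : ℕ)) (fun b => (k.2.2.2.2.1 b : ℕ))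
        k.2.2.2.2.2 p m
  have hcover : ∀ p ∈ A, ∃ k ∈ 𝒞 ×ˢ (Finset.univ : Finset (KT N J)), P k p := by
    intro p hp
    obtain ⟨h1, h2, h3, h4, h5⟩ := hA p hp
    obtain ⟨c, hc, hcN, s, t, α, β, i0, m, hs, ht, hα, hβ, hm⟩ :=
      exists_mat hY h1 h2 h3 hE hJ hX h4 h5
    refine ⟨(c, ⟨⟨s, by omega⟩, ⟨t, by omega⟩, fun a => ⟨α a, (hα a).2⟩,
      fun b => ⟨β b, (hβ b).2⟩, i0⟩), ?_, fun a => (hα a).1, fun b => (hβ b).1, m, hm⟩
    rw [Finset.mem_product]
    refine ⟨?_, Finset.mem_univ _⟩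
    rw [h𝒞, Finset.mem_filter, Finset.mem_powerset]
    exact ⟨fun x hx => (LS.mem_PU hY0).2 (hc x hx), hcN⟩
  have h1 : ∑ p ∈ A, Wt ((p.1 - 1) * p.2) ≤
      ∑ k ∈ 𝒞 ×ˢ (Finset.univ : Finset (KT N J)), ∑ p ∈ A.filter (fun p => P k p),
        Wt ((p.1 - 1) * p.2) := by
    have h2 : ∀ p ∈ A, Wt ((p.1 - 1) * p.2) ≤
        ∑ k ∈ 𝒞 ×ˢ (Finset.univ : Finset (KT N J)), if P k p then Wt ((p.1 - 1) * p.2) else 0 := by
      intro p hp
      obtain ⟨k, hk, hkp⟩ := hcover p hp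
      refine le_trans ?_ (Finset.single_le_sum (f := fun k => if P k p then
        Wt ((p.1 - 1) * p.2) else 0) (fun k _ => ?_) hk)
      · simp only [if_pos hkp]
        exact le_rfl
      · split_ifs
        · exact hWt0 _
        · exact le_rfl
    refine (Finset.sum_le_sum h2).trans (le_of_eq ?_)
    rw [Finset.sum_comm]
    refine Finset.sum_congr rfl fun k _ => ?_
    rw [Finset.sum_filter]
  refine h1.trans ?_
  set Bd := κ * Real.exp (1 - E + F + 2 * w + C * ((N : ℝ) + 1) * Real.log Y) with hBd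
  have hBd0 : 0 ≤ Bd := mul_nonneg hκ (Real.exp_pos _).le
  have h3 : ∀ k ∈ 𝒞 ×ˢ (Finset.univ : Finset (KT N J)), ∑ p ∈ A.filter (fun p => P k p),
        Wt ((p.1 - 1) * p.2) ≤ (∏ x ∈ k.1, (1 / ((x : ℝ) - 1))) * Bd := by
    rintro ⟨c, ⟨s, t, α, β, i0⟩⟩ hk
    rw [Finset.mem_product, h𝒞, Finset.mem_filter, Finset.mem_powerset] at hk
    rcases (A.filter (fun p => P (c, ⟨s, t, α, β, i0⟩) p)).eq_empty_or_nonempty with hem | ⟨p0, hp0⟩
    · rw [hem, Finset.sum_empty]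
      apply mul_nonneg _ hBd0
      apply Finset.prod_nonneg
      intro x hx
      have := (LS.prime_of_mem_PU (hk.1.1 hx)).two_le
      have : (2 : ℝ) ≤ x := by exact_mod_cast this
      exact div_nonneg zero_le_one (by linarith)
    · have hP0 := (Finset.mem_filter.1 hp0).2
      apply inner_bound hnet Wt W hWt hS hκ c (fun x hx => LS.prime_of_mem_PU (hk.1.1 hx))
        (by have := s.2; omega) (by have := t.2; omega) (fun a => (α a : ℕ)) (fun b => (β b : ℕ))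
        (fun a => ⟨hP0.1 a, (α a).2⟩) (fun b => ⟨hP0.2.1 b, (β b).2⟩) i0
      intro p hp
      rw [Finset.mem_filter] at hp
      exact ⟨(hA p hp.1).1.1, hp.2.2.2⟩
  refine (Finset.sum_le_sum h3).trans ?_
  rw [Finset.sum_product]
  simp only [Finset.sum_const, Finset.card_univ, nsmul_eq_mul]
  rw [← Finset.mul_sum, ← Finset.sum_mul]
  have hJ1 : 1 ≤ J := by
    by_contra h
    have : J = 0 := by omega
    subst this
    simp at hJ
    linarith
  have h4 := card_KT_le N J hJ1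
  have h5 := sum_cancel_le hY0 N
  have h6 : 0 ≤ ∑ c ∈ 𝒞, ∏ x ∈ c, (1 / ((x : ℝ) - 1)) := by
    apply Finset.sum_nonneg
    intro c hc
    rw [h𝒞, Finset.mem_filter, Finset.mem_powerset] at hc
    apply Finset.prod_nonneg
    intro x hx
    have := (LS.prime_of_mem_PU (hc.1 hx)).two_le
    have : (2 : ℝ) ≤ x := by exact_mod_cast this
    exact div_nonneg zero_le_one (by linarith)
  calc (Fintype.card (KT N J) : ℝ) * ((∑ c ∈ 𝒞, ∏ x ∈ c, (1 / ((x : ℝ) - 1))) * Bd)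
      = Bd * ((Fintype.card (KT N J) : ℝ) * ∑ c ∈ 𝒞, ∏ x ∈ c, (1 / ((x : ℝ) - 1))) := by ring
    _ ≤ Bd * ((((N : ℝ) + 1) ^ 3 * (J : ℝ) ^ (2 * N)) * (Real.exp 1 * (2 * Y + 25) ^ N)) := by
        apply mul_le_mul_of_nonneg_left _ hBd0
        apply mul_le_mul h4 h5 h6 (by positivity)

end Crest.Agent.R020.Coll
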