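import Mathlib

/-!
Row 20, module E (collisions): iterated sum lemma and the Rankin bound.
-/

set_option autoImplicit false

namespace Crest.Agent.R020.CollM

open Finset

/-- Iterated sum: `f a` depends only on the coordinates `b ≥ a`; sum over coordinate `0` first. -/
theorem iter_sum_fin : ∀ (r : ℕ) (T : Fin r → Finset ℕ) (f : Fin r → (Fin r → ℕ) → ℝ)
    (B : Fin r → ℝ) (_hf0 : ∀ a R, 0 ≤ f a R)
    (_hdep : ∀ a R R', (∀ b, a ≤ b → R b = R' b) → f a R = f a R')
    (_hB : ∀ a R, ∑ x ∈ T a, f a (Function.update R a x) ≤ B a),
    ∑ R ∈ Fintype.piFinset T, ∏ a, f a R ≤ ∏ a, B a := by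
  intro r
  induction r with
  | zero =>
    intro T f B _ _ _
    simp
  | succ r ih =>
    intro T f B hf0 hdep hB
    have hB0 : ∀ a, 0 ≤ B a := fun a =>
      le_trans (Finset.sum_nonneg (fun x _ => hf0 a _)) (hB a (fun _ => 0))
    -- rewrite the sum over Fin (r+1) as a double sum
    have key : ∑ R ∈ Fintype.piFinset T, ∏ a, f a R
        = ∑ R' ∈ Fintype.piFinset (fun a : Fin r => T a.succ), ∑ x ∈ T 0,
            ∏ a, f a (Fin.cons x R' : Fin (r+1) → ℕ) := by
      rw [Finset.sum_sigma']
      refine Finset.sum_bij'
        (i := fun R _ => (⟨fun a : Fin r => R a.succ, R 0⟩ :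
          (_ : Fin r → ℕ) × ℕ))
        (j := fun y _ => (Fin.cons y.2 y.1 : Fin (r+1) → ℕ)) ?_ ?_ ?_ ?_ ?_
      · intro R hR
        rw [Fintype.mem_piFinset] at hR
        rw [Finset.mem_sigma]
        refine ⟨?_, hR 0⟩
        rw [Fintype.mem_piFinset]
        intro a
        exact hR a.succ
      · intro y hy
        rw [Finset.mem_sigma, Fintype.mem_piFinset] at hy
        rw [Fintype.mem_piFinset]
        intro a
        refine Fin.cases ?_ ?_ a
        · simpa using hy.2
        · intro b
          simpa using hy.1 b
      · intro R _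
        funext a
        refine Fin.cases ?_ ?_ a
        · simp
        · intro b; simp
      · intro y _
        simp
      · intro R _
        apply Finset.prod_congr rfl
        intro a _
        congr 1
        funext b
        refine Fin.cases ?_ ?_ b
        · simp
        · intro c; simp
    rw [key]
    have hsplit : ∀ (R' : Fin r → ℕ) (x : ℕ),
        ∏ a, f a (Fin.cons x R' : Fin (r+1) → ℕ)
          = f 0 (Fin.cons x R') * ∏ a : Fin r, f a.succ (Fin.cons 0 R' : Fin (r+1) → ℕ) := by
      intro R' x
      rw [Fin.prod_univ_succ]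
      congr 1
      apply Finset.prod_congr rfl
      intro a _
      apply hdep
      intro b hb
      have hb0 : b ≠ 0 := by
        intro h
        subst h
        exact absurd hb (by simp [Fin.le_def])
      obtain ⟨c, rfl⟩ := Fin.exists_succ_eq.mpr hb0
      simp
    have h1 : ∀ R' : Fin r → ℕ, ∑ x ∈ T 0, ∏ a, f a (Fin.cons x R' : Fin (r+1) → ℕ)
        ≤ B 0 * ∏ a : Fin r, f a.succ (Fin.cons 0 R' : Fin (r+1) → ℕ) := by
      intro R'
      simp_rw [hsplit]
      rw [← Finset.sum_mul]
      apply mul_le_mul_of_nonneg_right _ (Finset.prod_nonneg (fun a _ => hf0 _ _))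
      have := hB 0 (Fin.cons 0 R')
      refine le_trans (le_of_eq ?_) this
      apply Finset.sum_congr rfl
      intro x _
      congr 1
      funext b
      refine Fin.cases ?_ ?_ b
      · simp
      · intro c
        simp [Function.update]
    calc ∑ R' ∈ Fintype.piFinset (fun a : Fin r => T a.succ), ∑ x ∈ T 0,
            ∏ a, f a (Fin.cons x R' : Fin (r+1) → ℕ)
        ≤ ∑ R' ∈ Fintype.piFinset (fun a : Fin r => T a.succ),
            B 0 * ∏ a : Fin r, f a.succ (Fin.cons 0 R' : Fin (r+1) → ℕ) :=
          Finset.sum_le_sum (fun R' _ => h1 R')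
      _ = B 0 * ∑ R' ∈ Fintype.piFinset (fun a : Fin r => T a.succ),
            ∏ a : Fin r, f a.succ (Fin.cons 0 R' : Fin (r+1) → ℕ) := by
          rw [Finset.mul_sum]
      _ ≤ B 0 * ∏ a : Fin r, B a.succ := by
          apply mul_le_mul_of_nonneg_left _ (hB0 0)
          apply ih (fun a => T a.succ)
            (fun a R' => f a.succ (Fin.cons 0 R' : Fin (r+1) → ℕ)) (fun a => B a.succ)
          · intro a R; exact hf0 _ _
          · intro a R R' h
            apply hdep
            intro b hb
            have hb0 : b ≠ 0 := by
              intro h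
              subst h
              exact absurd hb (by simp [Fin.le_def])
            obtain ⟨c, rfl⟩ := Fin.exists_succ_eq.mpr hb0
            simp only [Fin.cons_succ]
            exact h c (Fin.succ_le_succ_iff.mp hb)
          · intro a R
            have := hB a.succ (Fin.cons 0 R)
            refine le_trans (le_of_eq ?_) this
            apply Finset.sum_congr rfl
            intro x _
            congr 1
            funext b
            refine Fin.cases ?_ ?_ b
            · rw [Function.update_of_ne (Fin.succ_ne_zero a).symm]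
              simp
            · intro c
              simp only [Fin.cons_succ, Function.update_apply, Fin.succ_inj]
      _ = ∏ a, B a := by rw [Fin.prod_univ_succ]

/-- Iterated sum over a finite type with an enumeration `e`. -/
theorem iter_sum {E : Type*} [Fintype E] [DecidableEq E] {n : ℕ} (e : Fin n ≃ E)
    (T : E → Finset ℕ) (f : E → (E → ℕ) → ℝ)
    (B : E → ℝ) (hf0 : ∀ a R, 0 ≤ f a R)
    (hdep : ∀ a R R', (∀ b, e.symm a ≤ e.symm b → R b = R' b) → f a R = f a R')
    (hB : ∀ a R, ∑ x ∈ T a, f a (Function.update R a x) ≤ B a) :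
    ∑ R ∈ Fintype.piFinset T, ∏ a, f a R ≤ ∏ a, B a := by
  have h := iter_sum_fin n (fun a => T (e a)) (fun a R => f (e a) (fun b => R (e.symm b)))
    (fun a => B (e a)) (fun a R => hf0 _ _)
    (fun a R R' h => hdep _ _ _ (fun b hb => h _ (by simpa using hb)))
    (fun a R => by
      refine le_trans (le_of_eq ?_) (hB (e a) (fun b => R (e.symm b)))
      apply Finset.sum_congr rfl
      intro x _
      congr 1
      funext b
      by_cases hb : b = e a
      · subst hb; simp
      · rw [Function.update_of_ne hb, Function.update_of_ne]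
        intro h
        apply hb
        rw [← h]; simp)
  rw [Equiv.prod_comp e B] at h
  refine le_trans (le_of_eq ?_) h
  refine Finset.sum_bij' (i := fun R _ => fun a => R (e a)) (j := fun R _ => fun b => R (e.symm b))
    ?_ ?_ ?_ ?_ ?_
  · intro R hR
    rw [Fintype.mem_piFinset] at hR ⊢
    intro a
    exact hR _
  · intro R hR
    rw [Fintype.mem_piFinset] at hR ⊢
    intro b
    simpa using hR (e.symm b)
  · intro R _
    funext a; simp
  · intro R _
    funext b; simp
  · intro R _
    rw [← Equiv.prod_comp e (fun a => f a R)]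
    apply Finset.prod_congr rfl
    intro a _
    congr 1
    funext b
    simp

end Crest.Agent.R020.CollM
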