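import Crest.Agent.R020.CollNet
import Crest.Agent.R020.CollAsm

/-!
Row 20, module (L): `NetHyp` (statement of 638's `CollAsm`) from `net`, and the sieve instances with
`ρ0 = 2`.
-/

set_option autoImplicit false

namespace Crest.Agent.R020.CollM

open Finset

theorem Sieve.four {X : ℕ} {ρt L κ : ℝ} {W : ℕ → ℝ} (h : Sieve X 2 ρt L κ W) :
    Sieve X 4 ρt L κ W :=
  ⟨by norm_num, h.L1, h.κ0, h.W0, fun A ρ hρ => h.S1 A ρ (by linarith),
    fun A B ρ hAB hρ => h.S2 A B ρ hAB (by linarith),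
    fun M A ρ hM hρ hρt => h.top1 M A ρ hM (by linarith) hρt,
    fun M A B ρ hM hAB hρ hρt => h.top2 M A B ρ hM hAB (by linarith) hρt⟩

theorem Sieve.monoL {X : ℕ} {ρ0 ρt L L' κ : ℝ} {W : ℕ → ℝ} (h : Sieve X ρ0 ρt L κ W)
    (hL : L ≤ L') : Sieve X ρ0 ρt L' κ W := by
  have h1 := h.one_lt
  have hlog : ∀ ρ : ℝ, ρ0 ≤ ρ → 0 < Real.log ρ := fun ρ hρ => Real.log_pos (by linarith)
  refine ⟨h.one_lt, h.L1.trans hL, h.κ0, h.W0, fun A ρ hρ => (h.S1 A ρ hρ).trans ?_,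
    fun A B ρ hAB hρ => (h.S2 A B ρ hAB hρ).trans ?_,
    fun M A ρ hM hρ hρt => (h.top1 M A ρ hM hρ hρt).trans ?_,
    fun M A B ρ hM hAB hρ hρt => (h.top2 M A B ρ hM hAB hρ hρt).trans ?_⟩
  · exact div_le_div_of_nonneg_right hL (hlog ρ hρ).le
  · exact div_le_div_of_nonneg_right hL (by positivity)
  · exact mul_le_mul_of_nonneg_left (div_le_div_of_nonneg_right hL (hlog ρ hρ).le) h.κ0
  · exact mul_le_mul_of_nonneg_left (div_le_div_of_nonneg_right hL (by positivity)) h.κ0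

theorem primesIn_two {ρ : ℝ} (h2 : 2 ≤ ρ) (X : ℕ) : primesIn ρ X ⊆ {2, 3} ∪ primesIn 4 X := by
  intro x hx
  unfold primesIn at hx ⊢
  rw [mem_filter] at hx
  rw [mem_union, mem_insert, mem_singleton, mem_filter]
  obtain ⟨h1, h3, h4⟩ := hx
  by_cases h5 : 4 ≤ x
  · right
    exact ⟨h1, h3, by exact_mod_cast h5⟩
  · left
    have := h3.two_le
    omega

theorem sum_small {ρ : ℝ} (h2 : 2 ≤ ρ) (X : ℕ) (P : ℕ → Prop) [DecidablePred P] {b : ℝ}
    (hb : ∑ x ∈ (primesIn 4 X).filter P, (1 / (x : ℝ)) ≤ b) :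
    ∑ x ∈ (primesIn ρ X).filter P, (1 / (x : ℝ)) ≤ 5 / 6 + b := by
  have h1 : (primesIn ρ X).filter P ⊆ {2, 3} ∪ (primesIn 4 X).filter P := by
    intro x hx
    rw [mem_filter] at hx
    have := primesIn_two h2 X hx.1
    rw [mem_union] at this ⊢
    rcases this with h | h
    · left; exact h
    · right; exact mem_filter.mpr ⟨h, hx.2⟩
  refine (sum_le_sum_of_subset_of_nonneg h1 (fun _ _ _ => by positivity)).trans ?_
  have h2 := sum_union_inter (s₁ := ({2, 3} : Finset ℕ)) (s₂ := (primesIn 4 X).filter P)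
    (f := fun x : ℕ => (1 / (x : ℝ)))
  have h3 : 0 ≤ ∑ x ∈ ({2, 3} : Finset ℕ) ∩ (primesIn 4 X).filter P, (1 / (x : ℝ)) :=
    sum_nonneg (fun _ _ => by positivity)
  have h4 : ∑ x ∈ ({2, 3} : Finset ℕ), (1 / (x : ℝ)) = 5 / 6 := by
    rw [sum_pair (by norm_num)]
    norm_num
  linarith

theorem log_four_lt : Real.log 4 < 139 / 100 := by
  have h : Real.log 4 = 2 * Real.log 2 := by
    rw [show (4:ℝ) = 2 ^ 2 by norm_num, Real.log_pow]
    norm_num
  rw [h]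
  have := Real.log_two_lt_d9
  linarith

theorem Sieve.plain_two_S1 {X : ℕ} {ρt L κ : ℝ} {W : ℕ → ℝ} (h : Sieve X 4 ρt L κ W) (A : ℕ)
    (ρ : ℝ) (hρ : 2 ≤ ρ) :
    ∑ x ∈ (primesIn ρ X).filter (fun x => C1 X A x), (1 / (x : ℝ)) ≤ (L + 2) / Real.log ρ := by
  have hlog : 0 < Real.log ρ := Real.log_pos (by linarith)
  rcases le_or_gt 4 ρ with h4 | h4
  · refine (h.S1 A ρ h4).trans ?_
    exact div_le_div_of_nonneg_right (by linarith) hlog.le
  · refine (sum_small hρ X (fun x => C1 X A x) (h.S1 A 4 le_rfl)).trans ?_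
    have h1 : Real.log ρ ≤ Real.log 4 := Real.log_le_log (by linarith) h4.le
    have h2 : 0 < Real.log 4 := Real.log_pos (by norm_num)
    have h3 := log_four_lt
    have hL := h.L1
    have h5 : (L + 2) / Real.log 4 ≤ (L + 2) / Real.log ρ :=
      div_le_div_of_nonneg_left (by linarith) hlog h1
    refine le_trans ?_ h5
    rw [← sub_nonneg]
    have h6 : (L + 2) / Real.log 4 - (5 / 6 + L / Real.log 4) = 2 / Real.log 4 - 5 / 6 := by
      field_simp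
      ring
    rw [h6, sub_nonneg, le_div_iff₀ h2]
    linarith

theorem Sieve.plain_two_S2 {X : ℕ} {ρt L κ : ℝ} {W : ℕ → ℝ} (h : Sieve X 4 ρt L κ W) (A B : ℕ)
    (ρ : ℝ) (hAB : A ≠ B) (hρ : 2 ≤ ρ) :
    ∑ x ∈ (primesIn ρ X).filter (fun x => C1 X A x ∧ C1 X B x), (1 / (x : ℝ))
      ≤ (L + 2) / (Real.log ρ) ^ 2 := by
  have hlog : 0 < Real.log ρ := Real.log_pos (by linarith)
  rcases le_or_gt 4 ρ with h4 | h4
  · refine (h.S2 A B ρ hAB h4).trans ?_
    exact div_le_div_of_nonneg_right (by linarith) (by positivity)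
  · refine (sum_small hρ X (fun x => C1 X A x ∧ C1 X B x) (h.S2 A B 4 hAB le_rfl)).trans ?_
    have h1 : Real.log ρ ≤ Real.log 4 := Real.log_le_log (by linarith) h4.le
    have h2 : 0 < Real.log 4 := Real.log_pos (by norm_num)
    have h3 := log_four_lt
    have hL := h.L1
    have h1' : Real.log ρ ^ 2 ≤ Real.log 4 ^ 2 := pow_le_pow_left₀ hlog.le h1 2
    have h5 : (L + 2) / Real.log 4 ^ 2 ≤ (L + 2) / Real.log ρ ^ 2 :=
      div_le_div_of_nonneg_left (by linarith) (by positivity) h1'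
    refine le_trans ?_ h5
    rw [← sub_nonneg]
    have h6 : (L + 2) / Real.log 4 ^ 2 - (5 / 6 + L / Real.log 4 ^ 2)
        = 2 / Real.log 4 ^ 2 - 5 / 6 := by
      field_simp
      ring
    rw [h6, sub_nonneg, le_div_iff₀ (by positivity)]
    nlinarith

/-- plain instance, `ρ0 = 2` -/
theorem sieve_plain : ∃ Y0 : ℝ, 1 ≤ Y0 ∧ ∀ Y : ℝ, Y0 ≤ Y → ∀ X : ℕ, yy X ≤ Y + 1 → ∀ ρt : ℝ,
    Sieve X 2 ρt (Y ^ 8) 1 (fun v => 1 / (v : ℝ)) := by
  obtain ⟨C, hC, h⟩ := exists_sieve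
  refine ⟨max 10000 C, le_trans (by norm_num) (le_max_left _ _), ?_⟩
  intro Y hY X hX ρt
  have hY1 : 10000 ≤ Y := (le_max_left _ _).trans hY
  have hY2 : C ≤ Y := (le_max_right _ _).trans hY
  have hL := L_le (by linarith : 0 ≤ C) (by linarith : 16 ≤ Y) hY2 hX
  have hS := h X ρt
  have hL8 : C * ll X ^ 3 + 2 ≤ Y ^ 8 := by
    have h1 : (1:ℝ) ≤ Y ^ 7 := one_le_pow₀ (by linarith)
    have h2 : Y ^ 8 = Y * Y ^ 7 := by ring
    nlinarith
  have hone : 1 ≤ Y ^ 8 := one_le_pow₀ (by linarith)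
  have key : Sieve X 2 ρt (C * ll X ^ 3 + 2) 1 (fun v => 1 / (v : ℝ)) := by
    refine ⟨by norm_num, by linarith [hS.L1], by norm_num, fun v => by positivity,
      fun A ρ hρ => hS.plain_two_S1 A ρ hρ, fun A B ρ hAB hρ => hS.plain_two_S2 A B ρ hAB hρ, ?_, ?_⟩
    · intro M A ρ hM hρ _
      rw [one_mul]
      refine le_trans (le_of_eq ?_) (hS.plain_two_S1 A ρ hρ)
      apply sum_congr rfl
      intro x hx
      have hx1 := (mem_filter.mp hx).1
      unfold primesIn at hx1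
      have hx0 : (0:ℝ) < (x : ℝ) := by exact_mod_cast (mem_filter.mp hx1).2.1.pos
      have hM0 : (0:ℝ) < (M : ℝ) := by exact_mod_cast hM
      push_cast
      field_simp
    · intro M A B ρ hM hAB hρ _
      rw [one_mul]
      refine le_trans (le_of_eq ?_) (hS.plain_two_S2 A B ρ hAB hρ)
      apply sum_congr rfl
      intro x hx
      have hx1 := (mem_filter.mp hx).1
      unfold primesIn at hx1
      have hx0 : (0:ℝ) < (x : ℝ) := by exact_mod_cast (mem_filter.mp hx1).2.1.pos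
      have hM0 : (0:ℝ) < (M : ℝ) := by exact_mod_cast hM
      push_cast
      field_simp
  exact key.monoL hL8

/-- counting instance, `ρ0 = 2`, `ρt ≥ 4` -/
theorem sieve_count : ∃ Y0 : ℝ, 1 ≤ Y0 ∧ ∀ Y : ℝ, Y0 ≤ Y → ∀ X : ℕ, yy X ≤ Y + 1 →
    ∀ ρt z : ℝ, 4 ≤ ρt → 0 < z →
    Sieve X 2 ρt (Y ^ 8) (1 / Real.log ρt) (fun v => if (v : ℝ) ≤ z then 1 / z else 0) := by
  obtain ⟨C, hC, h⟩ := exists_sieve_count
  refine ⟨max 10000 C, le_trans (by norm_num) (le_max_left _ _), ?_⟩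
  intro Y hY X hX ρt z hρt hz
  have hY1 : 10000 ≤ Y := (le_max_left _ _).trans hY
  have hY2 : C ≤ Y := (le_max_right _ _).trans hY
  have hL := L_le (by linarith : 0 ≤ C) (by linarith : 16 ≤ Y) hY2 hX
  have hS := h X ρt z hρt hz
  have hL8 : C * ll X ^ 3 + 2 ≤ Y ^ 8 := by
    have h1 : (1:ℝ) ≤ Y ^ 7 := one_le_pow₀ (by linarith)
    have h2 : Y ^ 8 = Y * Y ^ 7 := by ring
    nlinarith
  have hS' := hS.monoL (show C * ll X ^ 3 ≤ C * ll X ^ 3 + 2 by linarith)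
  have key : Sieve X 2 ρt (C * ll X ^ 3 + 2) (1 / Real.log ρt)
      (fun v => if (v : ℝ) ≤ z then 1 / z else 0) := by
    refine ⟨by norm_num, by linarith [hS.L1], hS.κ0, hS.W0,
      fun A ρ hρ => hS.plain_two_S1 A ρ hρ, fun A B ρ hAB hρ => hS.plain_two_S2 A B ρ hAB hρ, ?_, ?_⟩
    · intro M A ρ hM _ hρt'
      exact hS'.top1 M A ρ hM (by linarith) hρt'
    · intro M A B ρ hM hAB _ hρt'
      exact hS'.top2 M A B ρ hM hAB (by linarith) hρt'
  exact key.monoL hL8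

/-- `NetHyp` of `CollAsm`. -/
theorem netHyp (C1 : ℕ) {Y L : ℝ} (hY : 50000 ≤ Y) (hL : L ≤ Y ^ C1) (J : ℕ) :
    Coll.NetHyp (2 * C1 + 130) L Y ⌊Real.sqrt Y⌋₊ ⌈210 * Real.sqrt Y⌉₊ J := by
  intro s t hs hsN htN α β hα hβ X r r' hr hr' W κ ρt hS i0 htop MM hG hrow hcol hsc hsr F hstat
  have hN : ((⌈210 * Real.sqrt Y⌉₊ : ℕ) : ℝ) ≤ Y := by
    have h0 : 0 ≤ 210 * Real.sqrt Y := by positivity
    have h1 := (Nat.ceil_lt_add_one h0).le
    have h2 : Real.sqrt Y ^ 2 = Y := Real.sq_sqrt (by linarith)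
    have h3 : 223 ≤ Real.sqrt Y := by
      rw [Real.le_sqrt' (by norm_num)]
      linarith
    nlinarith
  exact net C1 (by linarith) hN hsN htN hα hβ hS.four hL hr hr' i0 htop MM
    (fun m hm => ⟨hG m hm, fun a => (hrow m hm a).le, fun b => (hcol m hm b).le,
      fun i q hq hqm => hsr m hm i q hq hqm, fun j q hq hqm => hsc m hm j q hq hqm, hstat m hm⟩)

end Crest.Agent.R020.CollM
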