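import Mathlib
import Crest.Agent.Lib.Mertens
import Crest.Agent.R020.Wt
import Crest.Agent.R020.Canon

/-!
Row 20 (helper162): the double logarithm `yy`, its integer cells `kap`, primes up to `exp exp T`,
Mertens estimates and Rankin bounds in this scale.
-/

set_option autoImplicit false

open scoped ENNReal

noncomputable section

namespace Crest.Agent.R020

lemma yy_le_iff {p : ℕ} (hp : 2 ≤ p) {T : ℝ} (hT : 0 ≤ T) :
    yy p ≤ T ↔ (p : ℝ) ≤ Real.exp (Real.exp T) := by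
  have hlp : 0 < Real.log p := Real.log_pos (by exact_mod_cast hp)
  have hp0 : (0 : ℝ) < p := by exact_mod_cast (by omega : 0 < p)
  unfold yy
  rw [max_le_iff]
  constructor
  · rintro ⟨_, h⟩
    rw [Real.log_le_iff_le_exp hlp, Real.log_le_iff_le_exp hp0] at h
    exact h
  · intro h
    refine ⟨hT, ?_⟩
    rw [Real.log_le_iff_le_exp hlp, Real.log_le_iff_le_exp hp0]
    exact h

lemma yy_eq_log_log {p : ℕ} (hp : 0 < yy p) : yy p = Real.log (Real.log p) := by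
  unfold yy at hp ⊢
  rcases max_choice 0 (Real.log (Real.log (p : ℝ))) with h | h
  · rw [h] at hp; exact absurd hp (lt_irrefl 0)
  · exact h

lemma lt_yy_iff {p : ℕ} (hp : 2 ≤ p) {T : ℝ} (hT : 0 ≤ T) :
    T < yy p ↔ Real.exp (Real.exp T) < (p : ℝ) := by
  rw [← not_le, yy_le_iff hp hT, not_le]

/-- primes `p` with `yy p ≤ T` (for `T ≥ 0`) -/
def PT (T : ℝ) : Finset ℕ := (Finset.range (⌊Real.exp (Real.exp T)⌋₊ + 1)).filter Nat.Prime

lemma mem_PT {T : ℝ} (hT : 0 ≤ T) {p : ℕ} : p ∈ PT T ↔ p.Prime ∧ yy p ≤ T := by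
  unfold PT
  rw [Finset.mem_filter, Finset.mem_range]
  constructor
  · rintro ⟨h1, h2⟩
    refine ⟨h2, (yy_le_iff h2.two_le hT).mpr ?_⟩
    exact (Nat.le_floor_iff (Real.exp_pos _).le).mp (by omega)
  · rintro ⟨h1, h2⟩
    refine ⟨?_, h1⟩
    have := (Nat.le_floor_iff (Real.exp_pos _).le).mpr ((yy_le_iff h1.two_le hT).mp h2)
    omega

lemma prime_of_mem_PT {T : ℝ} {p : ℕ} (h : p ∈ PT T) : p.Prime := (Finset.mem_filter.mp h).2

/-- Integer cell of a prime: `kap p - 1 < yy p ≤ kap p`. -/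
def kap (p : ℕ) : ℕ := ⌈yy p⌉₊

lemma yy_le_kap (p : ℕ) : yy p ≤ kap p := Nat.le_ceil _

lemma kap_lt (p : ℕ) : (kap p : ℝ) < yy p + 1 := Nat.ceil_lt_add_one (yy_nonneg p)

lemma kap_mono {p q : ℕ} (h : p ≤ q) : kap p ≤ kap q := Nat.ceil_le_ceil (yy_mono h)

lemma kap_le_iff (p k : ℕ) : kap p ≤ k ↔ yy p ≤ k := Nat.ceil_le

/-- Mertens on one cell. -/
lemma cell_sum_le (k : ℕ) (s : Finset ℕ) (hs : ∀ p ∈ s, p.Prime ∧ kap p = k + 1) :
    ∑ p ∈ s, (1 : ℝ) / p ≤ 1 + 18 * Real.exp (-(k : ℝ)) := by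
  set a : ℝ := Real.exp (Real.exp k) with ha
  set b : ℝ := Real.exp (Real.exp (k + 1)) with hb
  have ha2 : 2 ≤ a := by
    have h1 : (1 : ℝ) ≤ Real.exp k := Real.one_le_exp (Nat.cast_nonneg k)
    have h2 : Real.exp 1 ≤ a := Real.exp_le_exp.mpr h1
    have h3 := Real.add_one_le_exp (1 : ℝ)
    linarith
  have hab : a ≤ b := by
    rw [ha, hb]
    apply Real.exp_le_exp.mpr
    apply Real.exp_le_exp.mpr
    linarith
  have hM := Lib.Mertens.mertens_two a b ha2 hab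
  have hla : Real.log a = Real.exp k := by rw [ha, Real.log_exp]
  have hlb : Real.log b = Real.exp (k + 1) := by rw [hb, Real.log_exp]
  rw [hla, hlb, Real.log_exp, Real.log_exp] at hM
  have hsub : s ⊆ Lib.Mertens.pr a b := by
    intro p hp
    obtain ⟨h1, h2⟩ := hs p hp
    rw [Lib.Mertens.mem_pr (by linarith) (by linarith)]
    have h3 : yy p ≤ (k : ℝ) + 1 := by
      have := yy_le_kap p
      rw [h2] at this
      exact_mod_cast this
    have h4 : (k : ℝ) < yy p := by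
      by_contra h
      push Not at h
      have := (kap_le_iff p k).mpr h
      omega
    refine ⟨⟨?_, ?_⟩, h1⟩
    · exact (lt_yy_iff h1.two_le (Nat.cast_nonneg k)).mp h4
    · exact (yy_le_iff h1.two_le (by positivity)).mp h3
  have h5 : ∑ p ∈ s, (1 : ℝ) / p ≤ ∑ p ∈ Lib.Mertens.pr a b, (1 : ℝ) / p :=
    Finset.sum_le_sum_of_subset_of_nonneg hsub fun p _ _ => by positivity
  have h6 := (abs_le.mp hM).2
  have h7 : 18 / Real.exp (k : ℝ) = 18 * Real.exp (-(k : ℝ)) := by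
    rw [Real.exp_neg]; ring
  rw [h7] at h6
  linarith

/-- Mertens: sum of `1/p` over primes with `yy p ≤ T`. -/
lemma sum_PT_le {T : ℝ} (hT : 0 ≤ T) : ∑ p ∈ PT T, (1 : ℝ) / p ≤ T + 30 := by
  set b : ℝ := Real.exp (Real.exp T) with hb
  have hb2 : 2 ≤ b := by
    have h1 : (1 : ℝ) ≤ Real.exp T := Real.one_le_exp hT
    have h2 : Real.exp 1 ≤ b := Real.exp_le_exp.mpr h1
    have h3 := Real.add_one_le_exp (1 : ℝ)
    linarith
  have hM := Lib.Mertens.mertens_two 2 b le_rfl hb2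
  have hlb : Real.log b = Real.exp T := by rw [hb, Real.log_exp]
  rw [hlb, Real.log_exp] at hM
  have hsub : PT T ⊆ insert 2 (Lib.Mertens.pr 2 b) := by
    intro p hp
    obtain ⟨h1, h2⟩ := (mem_PT hT).mp hp
    rw [Finset.mem_insert]
    rcases eq_or_lt_of_le h1.two_le with h3 | h3
    · left; exact h3.symm
    · right
      rw [Lib.Mertens.mem_pr (by norm_num) (by linarith)]
      exact ⟨⟨by exact_mod_cast h3, (yy_le_iff h1.two_le hT).mp h2⟩, h1⟩
  have h5 : ∑ p ∈ PT T, (1 : ℝ) / p ≤ ∑ p ∈ insert 2 (Lib.Mertens.pr 2 b), (1 : ℝ) / p :=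
    Finset.sum_le_sum_of_subset_of_nonneg hsub fun p _ _ => by positivity
  have h6 : 2 ∉ Lib.Mertens.pr 2 b := by
    rw [Lib.Mertens.mem_pr (by norm_num) (by linarith)]
    rintro ⟨⟨h, _⟩, _⟩
    norm_num at h
  rw [Finset.sum_insert h6] at h5
  have h7 := (abs_le.mp hM).2
  have hl2 : (0.69 : ℝ) < Real.log 2 := by
    have := Real.log_two_gt_d9
    linarith
  have h8 : 18 / Real.log 2 ≤ 26.1 := by
    rw [div_le_iff₀ (by linarith)]
    linarith
  have h9 : -Real.log (Real.log 2) ≤ 1 := by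
    have : Real.log (Real.log 2) ≥ Real.log (Real.exp (-1)) := by
      apply Real.log_le_log (Real.exp_pos _)
      have h10 : Real.exp (-1) < 0.37 := by
        have := Real.exp_neg_one_lt_d9
        linarith
      linarith
    rw [Real.log_exp] at this
    linarith
  push_cast at h5
  linarith

/-- sum of `1/p^2` over a finite set of primes -/
lemma sum_inv_sq_le (s : Finset ℕ) (hs : ∀ p ∈ s, p.Prime) : ∑ p ∈ s, ((1 : ℝ) / p) ^ 2 ≤ 1 := by
  -- telescoping: 1/p^2 ≤ 1/(p-1) - 1/p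
  have h1 : ∀ N : ℕ, ∑ p ∈ Finset.Icc 2 (N + 1), ((1 : ℝ) / p) ^ 2 ≤ 1 - 1 / (N + 1) := by
    intro N
    induction N with
    | zero => simp
    | succ N ih =>
      rw [show N + 1 + 1 = (N + 1) + 1 from rfl, Finset.sum_Icc_succ_top (by omega)]
      have h2 : ((1 : ℝ) / ((N + 1 + 1 : ℕ) : ℝ)) ^ 2 ≤ 1 / ((N : ℝ) + 1) - 1 / (((N + 1 : ℕ) : ℝ) + 1) := by
        push_cast
        rw [div_pow, one_pow, div_sub_div _ _ (by positivity) (by positivity),
          div_le_div_iff₀ (by positivity) (by positivity)]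
        nlinarith [Nat.cast_nonneg (α := ℝ) N]
      linarith
  set N := s.sup id with hN
  have hsub : s ⊆ Finset.Icc 2 (N + 1) := by
    intro p hp
    rw [Finset.mem_Icc]
    refine ⟨(hs p hp).two_le, ?_⟩
    have : p ≤ s.sup id := Finset.le_sup (f := id) hp
    omega
  calc ∑ p ∈ s, ((1 : ℝ) / p) ^ 2 ≤ ∑ p ∈ Finset.Icc 2 (N + 1), ((1 : ℝ) / p) ^ 2 :=
        Finset.sum_le_sum_of_subset_of_nonneg hsub fun p _ _ => by positivity
    _ ≤ 1 - 1 / (N + 1) := h1 N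
    _ ≤ 1 := by
        have : (0 : ℝ) ≤ 1 / ((N : ℝ) + 1) := by positivity
        linarith

lemma one_sub_inv_le {x : ℝ} (hx0 : 0 ≤ x) (hx : x ≤ 3 / 4) :
    (1 - ENNReal.ofReal x)⁻¹ ≤ ENNReal.ofReal (Real.exp (x + 2 * x ^ 2)) := by
  have h1 : (1 : ℝ≥0∞) - ENNReal.ofReal x = ENNReal.ofReal (1 - x) := by
    rw [ENNReal.ofReal_sub 1 hx0, ENNReal.ofReal_one]
  rw [h1, ← ENNReal.ofReal_inv_of_pos (by linarith)]
  apply ENNReal.ofReal_le_ofReal
  -- (1 - x)⁻¹ ≤ exp (x + 2 x^2)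
  rw [inv_le_comm₀ (by linarith) (Real.exp_pos _), ← Real.exp_neg]
  -- exp (-(x + 2x^2)) ≤ 1 - x
  set t := x + 2 * x ^ 2 with ht
  have ht0 : 0 ≤ t := by positivity
  have h2 : Real.exp (-t) ≤ 1 / (1 + t + t ^ 2 / 2) := by
    rw [Real.exp_neg, ← one_div]
    apply one_div_le_one_div_of_le (by positivity)
    exact Real.quadratic_le_exp_of_nonneg ht0
  refine h2.trans ?_
  rw [div_le_iff₀ (by positivity)]
  -- 1 ≤ (1 - x) (1 + t + t^2/2)
  have hx1 : 0 ≤ 3 / 4 - x := by linarith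
  rw [ht]
  nlinarith [mul_nonneg hx0 hx1, mul_nonneg (mul_nonneg hx0 hx0) hx1,
    mul_nonneg (mul_nonneg (mul_nonneg hx0 hx0) hx0) hx1, pow_nonneg hx0 3, pow_nonneg hx0 4,
    pow_nonneg hx0 5, mul_nonneg (pow_nonneg hx0 4) hx1]

/-- Rankin bound, real weights: `0 ≤ z p ≤ 3p/4`. -/
lemma rankin (z : ℕ → ℝ) (s : Finset ℕ) (hs : ∀ p ∈ s, p.Prime)
    (hz : ∀ p ∈ s, 0 ≤ z p ∧ z p / p ≤ 3 / 4) :
    ws (cm fun p => ENNReal.ofReal (z p / p)) (Sm s) ≤
      ENNReal.ofReal (Real.exp (∑ p ∈ s, (z p / p + 2 * (z p / p) ^ 2))) := by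
  refine (smooth_sum_cm _ s hs).trans ?_
  rw [Real.exp_sum, ENNReal.ofReal_prod_of_nonneg fun p _ => (Real.exp_pos _).le]
  apply Finset.prod_le_prod'
  intro p hp
  exact one_sub_inv_le (div_nonneg (hz p hp).1 (Nat.cast_nonneg p)) (hz p hp).2

end Crest.Agent.R020
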