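import Mathlib
import Crest.Agent.R020.Yy
import Crest.Agent.R020.Renewal

/-!
Row 20 (helper162): the functional `Gl` (availability defect) on ascending lists, and
its expression through cell counts.
-/

set_option autoImplicit false

open Crest.NumberTheoryR.TotientScale

noncomputable section

namespace Crest.Agent.R020

/-- For an ascending list: `∑ aCoef (number of entries to the right) * entry`. Since
`aCoef 0 = -1` this is `∑_{j ≥ 1} a_j y_j - y_0`. -/
def Gl : List ℝ → ℝ
  | [] => 0
  | x :: l => Gl l + aCoef l.length * x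

@[simp] lemma Gl_nil : Gl [] = 0 := rfl
@[simp] lemma Gl_cons (x : ℝ) (l : List ℝ) : Gl (x :: l) = Gl l + aCoef l.length * x := rfl

lemma aCoef_zero : aCoef 0 = -1 := by
  unfold aCoef
  simp

lemma aCoef_le_log' (j : ℕ) : aCoef j ≤ Real.log (j + 1) := by
  rcases Nat.eq_zero_or_pos j with rfl | hj
  · rw [aCoef_zero]
    simp
  · exact aCoef_le_log j hj

/-- `k log k - k` -/
def gk (k : ℕ) : ℝ := k * Real.log k - k

lemma gk_zero : gk 0 = 0 := by simp [gk]

lemma gk_succ_sub (k : ℕ) : gk (k + 1) - gk k = aCoef k := by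
  unfold gk aCoef
  push_cast
  ring

lemma Gl_append_le (Ls Lb : List ℝ) (hs : ∀ x ∈ Ls, 0 ≤ x) (M : ℕ)
    (hM : Ls.length + Lb.length ≤ M) :
    Gl (Ls ++ Lb) ≤ Gl Lb + Real.log M * Ls.sum := by
  induction Ls with
  | nil => simp
  | cons x Ls ih =>
    have h1 := ih (fun y hy => hs y (by simp [hy])) (by simp only [List.length_cons] at hM; omega)
    have hx : 0 ≤ x := hs x (by simp)
    simp only [List.cons_append, Gl_cons, List.sum_cons, List.length_append]
    have h2 : aCoef (Ls.length + Lb.length) ≤ Real.log M := by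
      refine (aCoef_le_log' _).trans ?_
      apply Real.log_le_log (by positivity)
      simp only [List.length_cons] at hM
      have : Ls.length + Lb.length + 1 ≤ M := by omega
      exact_mod_cast this
    have h3 : aCoef (Ls.length + Lb.length) * x ≤ Real.log M * x :=
      mul_le_mul_of_nonneg_right h2 hx
    linarith

/-- number of entries of `l` above `κ` -/
def cnt (l : List ℕ) (κ : ℕ) : ℕ := l.countP (fun x => decide (κ < x))

lemma cnt_nil (κ : ℕ) : cnt [] κ = 0 := rfl

lemma cnt_cons (x : ℕ) (l : List ℕ) (κ : ℕ) : cnt (x :: l) κ = cnt l κ + if κ < x then 1 else 0 := by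
  unfold cnt
  rw [List.countP_cons]
  simp

lemma cnt_le_length (l : List ℕ) (κ : ℕ) : cnt l κ ≤ l.length := List.countP_le_length

lemma cnt_eq_length {l : List ℕ} {κ : ℕ} (h : ∀ x ∈ l, κ < x) : cnt l κ = l.length := by
  unfold cnt
  rw [List.countP_eq_length]
  intro x hx
  simpa using h x hx

/-- the cell sum formula -/
lemma sum_gk_cnt (c0 M : ℕ) (l : List ℕ) (hs : l.Pairwise (· ≤ ·))
    (hl : ∀ x ∈ l, c0 < x ∧ x ≤ M + 1) :
    ∑ κ ∈ Finset.Ioc c0 M, gk (cnt l κ) = Gl (l.map fun κ : ℕ => (κ : ℝ) - 1 - c0) := by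
  induction l with
  | nil => simp [cnt_nil, gk_zero]
  | cons x l ih =>
    rw [List.pairwise_cons] at hs
    have h1 := ih hs.2 (fun y hy => hl y (by simp [hy]))
    simp only [List.map_cons, Gl_cons, List.length_map]
    rw [← h1]
    have hx := hl x (by simp)
    have h2 : ∀ κ ∈ Finset.Ioc c0 M, gk (cnt (x :: l) κ) =
        gk (cnt l κ) + if κ < x then aCoef l.length else 0 := by
      intro κ _
      rw [cnt_cons]
      split_ifs with h
      · have h3 : cnt l κ = l.length := cnt_eq_length fun y hy => lt_of_lt_of_le h (hs.1 y hy)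
        rw [h3]
        have := gk_succ_sub l.length
        linarith
      · simp
    rw [Finset.sum_congr rfl h2, Finset.sum_add_distrib, ← Finset.sum_filter, Finset.sum_const]
    have h3 : ((Finset.Ioc c0 M).filter (fun κ => κ < x)).card = x - 1 - c0 := by
      have : (Finset.Ioc c0 M).filter (fun κ => κ < x) = Finset.Ioc c0 (x - 1) := by
        ext κ
        simp only [Finset.mem_filter, Finset.mem_Ioc]
        omega
      rw [this, Nat.card_Ioc]
    rw [h3, nsmul_eq_mul]
    have h4 : ((x - 1 - c0 : ℕ) : ℝ) = (x : ℝ) - 1 - c0 := by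
      rw [Nat.cast_sub (by omega), Nat.cast_sub (by omega)]
      push_cast
      ring
    rw [h4]
    ring

/-- comparison between real heights and their cells -/
lemma Gl_le_cells (c0 : ℕ) (l : List ℕ) (y : ℕ → ℝ) (κ : ℕ → ℕ) (M : ℕ) (hM : l.length ≤ M)
    (h : ∀ q ∈ l, (κ q : ℝ) - 1 ≤ y q ∧ y q ≤ κ q) :
    Gl (l.map y) ≤ Gl (l.map fun q : ℕ => (κ q : ℝ) - 1 - c0) +
      ((c0 : ℝ) + 1) * (l.length * Real.log M) := by
  induction l with
  | nil => simp
  | cons q l ih =>
    simp only [List.length_cons] at hM
    have h1 := ih (by omega) (fun x hx => h x (by simp [hx]))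
    obtain ⟨h2, h3⟩ := h q (by simp)
    simp only [List.map_cons, Gl_cons, List.length_map, List.length_cons]
    have hlog : 0 ≤ Real.log M := by
      apply Real.log_nonneg
      have : 1 ≤ M := by omega
      exact_mod_cast this
    have h4 : aCoef l.length * y q ≤ aCoef l.length * ((κ q : ℝ) - 1 - c0) +
        ((c0 : ℝ) + 1) * Real.log M := by
      rcases Nat.eq_zero_or_pos l.length with h0 | h0
      · rw [h0, aCoef_zero]
        have : 0 ≤ ((c0 : ℝ) + 1) * Real.log M := by positivity
        have : (0 : ℝ) ≤ c0 := Nat.cast_nonneg c0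
        linarith
      · have ha : 0 < aCoef l.length := aCoef_pos _ h0
        have hb : aCoef l.length ≤ Real.log M := by
          refine (aCoef_le_log' _).trans ?_
          apply Real.log_le_log (by positivity)
          exact_mod_cast hM
        have h5 : aCoef l.length * y q ≤ aCoef l.length * κ q := by gcongr
        have h6 : aCoef l.length * ((c0 : ℝ) + 1) ≤ Real.log M * ((c0 : ℝ) + 1) := by
          gcongr
        linarith
    push_cast
    linarith

end Crest.Agent.R020
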