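import Mathlib
import Crest.Agent.R020.Yy
import Crest.Agent.R020.Gl

/-!
Row 20 (helper162): structure of preimages, crude exceptional sets.
-/

set_option autoImplicit false

open scoped ENNReal
open Crest.NumberTheoryR.TotientScale

noncomputable section

namespace Crest.Agent.R020

/-! ### factorisations -/

lemma prime_dvd_totient {n p : ℕ} (hn : n ≠ 0) (hp : p.Prime) (h : p ∣ n.totient) :
    ∃ q ∈ n.primeFactors, p ≤ q := by
  rw [Nat.totient_eq_prod_factorization hn, Finsupp.prod] at h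
  obtain ⟨q, hq, hdvd⟩ := (Prime.dvd_finsetProd_iff hp.prime _).mp h
  rw [Nat.support_factorization] at hq
  refine ⟨q, hq, ?_⟩
  have hqp : q.Prime := Nat.prime_of_mem_primeFactors hq
  rcases (Nat.Prime.dvd_mul hp).mp hdvd with h1 | h1
  · exact Nat.le_of_dvd hqp.pos (hp.dvd_of_dvd_pow h1)
  · have : p ≤ q - 1 := Nat.le_of_dvd (by have := hqp.two_le; omega) h1
    omega

lemma totient_mem_Sm {n : ℕ} (hn : n ≠ 0) {T : ℝ} (hT : 0 ≤ T)
    (h : ∀ q ∈ n.primeFactors, yy q ≤ T) : n.totient ∈ Sm (PT T) := by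
  refine ⟨(Nat.totient_pos.mpr (Nat.pos_of_ne_zero hn)).ne', fun p hp => ?_⟩
  have hpp := Nat.prime_of_mem_primeFactors hp
  obtain ⟨q, hq, hpq⟩ := prime_dvd_totient hn hpp (Nat.dvd_of_mem_primeFactors hp)
  exact (mem_PT hT).mpr ⟨hpp, (yy_mono hpq).trans (h q hq)⟩

lemma mem_Sm_PT {n : ℕ} {T : ℝ} (hT : 0 ≤ T) :
    n ∈ Sm (PT T) ↔ n ≠ 0 ∧ ∀ q ∈ n.primeFactors, yy q ≤ T := by
  constructor
  · rintro ⟨h0, h⟩
    exact ⟨h0, fun q hq => ((mem_PT hT).mp (h q hq)).2⟩
  · rintro ⟨h0, h⟩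
    exact ⟨h0, fun q hq => (mem_PT hT).mpr ⟨Nat.prime_of_mem_primeFactors hq, h q hq⟩⟩

/-- `Ω` -/
abbrev Om (n : ℕ) : ℕ := n.primeFactorsList.length

lemma Om_mul {a b : ℕ} (ha : a ≠ 0) (hb : b ≠ 0) : Om (a * b) = Om a + Om b := by
  unfold Om
  rw [(Nat.perm_primeFactorsList_mul ha hb).length_eq, List.length_append]

lemma Om_prime_pow {p : ℕ} (hp : p.Prime) (k : ℕ) : Om (p ^ k) = k := by
  unfold Om
  rw [hp.primeFactorsList_pow, List.length_replicate]

lemma Om_pos {n : ℕ} (hn : 2 ≤ n) : 1 ≤ Om n := by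
  unfold Om
  rw [Nat.one_le_iff_ne_zero, Ne, List.length_eq_zero_iff, Nat.primeFactorsList_eq_nil]
  omega

lemma Om_totient_prime_pow {p : ℕ} (hp : p.Prime) {k : ℕ} (hk : 0 < k) :
    Om (Nat.totient (p ^ k)) = (k - 1) + Om (p - 1) := by
  rw [Nat.totient_prime_pow hp hk, Om_mul (pow_ne_zero _ hp.ne_zero)
    (by have := hp.two_le; omega), Om_prime_pow hp]

lemma Om_le_Om_totient {n : ℕ} (hn : n ≠ 0) : Om n ≤ Om n.totient + 1 := by
  have key : ∀ m : ℕ, 0 < m → ¬ 2 ∣ m → Om m ≤ Om m.totient := by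
    intro m
    induction m using Nat.recOnPosPrimePosCoprime with
    | prime_pow p k hp hk =>
      intro _ h2
      rw [Om_totient_prime_pow hp hk, Om_prime_pow hp]
      have hp3 : 3 ≤ p := by
        have := hp.two_le
        rcases this.lt_or_eq with h | h
        · exact h
        · exfalso
          apply h2
          rw [← h]
          exact dvd_pow_self 2 hk.ne'
      have := Om_pos (show 2 ≤ p - 1 by omega)
      omega
    | zero => intro h; omega
    | one => intro _ _; simp [Om]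
    | coprime a b ha hb hab iha ihb =>
      intro _ h2
      have h2a : ¬ 2 ∣ a := fun h => h2 (dvd_mul_of_dvd_left h _)
      have h2b : ¬ 2 ∣ b := fun h => h2 (dvd_mul_of_dvd_right h _)
      have ha0 : a.totient ≠ 0 := (Nat.totient_pos.mpr (by omega)).ne'
      have hb0 : b.totient ≠ 0 := (Nat.totient_pos.mpr (by omega)).ne'
      rw [Nat.totient_mul hab, Om_mul (by omega) (by omega), Om_mul ha0 hb0]
      have := iha (by omega) h2a
      have := ihb (by omega) h2b
      omega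
  obtain ⟨k, m, hm, rfl⟩ : ∃ k m : ℕ, ¬ 2 ∣ m ∧ n = 2 ^ k * m :=
    Nat.exists_eq_pow_mul_and_not_dvd hn 2 (by norm_num)
  have hm0 : 0 < m := Nat.pos_of_ne_zero (by rintro rfl; simp at hm)
  have h1 := key m hm0 hm
  have hc : Nat.Coprime (2 ^ k) m := by
    apply Nat.Coprime.pow_left
    exact (Nat.Prime.coprime_iff_not_dvd Nat.prime_two).mpr hm
  have ht0 : m.totient ≠ 0 := (Nat.totient_pos.mpr hm0).ne'
  rw [Nat.totient_mul hc, Om_mul (pow_ne_zero _ (by norm_num)) hm0.ne',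
    Om_mul (Nat.totient_pos.mpr (by positivity)).ne' ht0, Om_prime_pow Nat.prime_two]
  rcases Nat.eq_zero_or_pos k with rfl | hk
  · omega
  · rw [Om_totient_prime_pow Nat.prime_two hk]
    omega

/-- sum of the double logarithms of the prime factors, with multiplicity -/
def Sy (n : ℕ) : ℝ := (n.primeFactorsList.map yy).sum

lemma Sy_mul {a b : ℕ} (ha : a ≠ 0) (hb : b ≠ 0) : Sy (a * b) = Sy a + Sy b := by
  unfold Sy
  rw [((Nat.perm_primeFactorsList_mul ha hb).map yy).sum_eq, List.map_append, List.sum_append]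

lemma Sy_prime_pow {p : ℕ} (hp : p.Prime) (k : ℕ) : Sy (p ^ k) = k * yy p := by
  unfold Sy
  rw [hp.primeFactorsList_pow, List.map_replicate, List.sum_replicate, nsmul_eq_mul]

/-! ### Crude exceptional sets -/

lemma cm_const {c : ℝ} (hc : 0 < c) {v : ℕ} (hv : v ≠ 0) :
    cm (fun p => ENNReal.ofReal (c / p)) v = ENNReal.ofReal (c ^ Om v) * (v : ℝ≥0∞)⁻¹ := by
  have h1 : ∀ p : ℕ, p.Prime → ENNReal.ofReal (c / p) = ENNReal.ofReal c * (p : ℝ≥0∞)⁻¹ := by
    intro p hp
    have hp0 : (0 : ℝ) < p := by exact_mod_cast hp.pos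
    rw [div_eq_mul_inv, ENNReal.ofReal_mul hc.le, ENNReal.ofReal_inv_of_pos hp0,
      ENNReal.ofReal_natCast]
  have h2 : cm (fun p => ENNReal.ofReal (c / p)) v
      = cm (fun p => ENNReal.ofReal c * (p : ℝ≥0∞)⁻¹) v :=
    le_antisymm (cm_mono (fun p hp => (h1 p hp).le) v) (cm_mono (fun p hp => (h1 p hp).ge) v)
  rw [h2, cm_mul_fun (fun _ => ENNReal.ofReal c) (fun p => (p : ℝ≥0∞)⁻¹), cm_inv hv]
  congr 1
  unfold cm Om
  rw [List.map_const', List.prod_replicate, ENNReal.ofReal_pow hc.le]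

/-- All smooth integers. -/
lemma wt_Sm_le {T : ℝ} (hT : 0 ≤ T) : wt (Sm (PT T)) ≤ ENNReal.ofReal (Real.exp (T + 32)) := by
  have h1 : wt (Sm (PT T)) ≤ ws (cm fun p => ENNReal.ofReal ((1 : ℝ) / p)) (Sm (PT T)) := by
    apply ws_mono_fun
    intro v hv
    rw [cm_const one_pos hv.1]
    simp
  refine h1.trans ((rankin (fun _ => 1) (PT T) (fun p hp => prime_of_mem_PT hp) ?_).trans ?_)
  · intro p hp
    have := (prime_of_mem_PT hp).two_le
    refine ⟨zero_le_one, ?_⟩
    have : (2 : ℝ) ≤ p := by exact_mod_cast this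
    rw [div_le_iff₀ (by linarith)]
    linarith
  · apply ENNReal.ofReal_le_ofReal
    apply Real.exp_le_exp.mpr
    rw [Finset.sum_add_distrib, ← Finset.mul_sum]
    have h2 := sum_PT_le hT
    have h3 := sum_inv_sq_le (PT T) (fun p hp => prime_of_mem_PT hp)
    linarith

/-- (a): integers with many prime factors. -/
lemma wt_Om_large_le {T : ℝ} (hT : 0 ≤ T) (X : ℝ) :
    wt {v | v ∈ Sm (PT T) ∧ X ≤ Om v} ≤
      ENNReal.ofReal (Real.exp (-(2 / 5 * X) + (3 / 2 * T + 50))) := by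
  have h1 : wt {v | v ∈ Sm (PT T) ∧ X ≤ Om v} ≤
      ENNReal.ofReal (Real.exp (-(2 / 5 * X))) *
        ws (cm fun p => ENNReal.ofReal ((3 / 2 : ℝ) / p)) (Sm (PT T)) := by
    unfold wt ws
    rw [← ENNReal.tsum_mul_left]
    apply ENNReal.tsum_le_tsum
    intro v
    by_cases hv : v ∈ {v | v ∈ Sm (PT T) ∧ X ≤ Om v}
    · rw [Set.indicator_of_mem hv, Set.indicator_of_mem hv.1,
        cm_const (by norm_num : (0 : ℝ) < 3 / 2) hv.1.1, ← mul_assoc]
      apply le_mul_of_one_le_left (zero_le)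
      rw [← ENNReal.ofReal_mul (Real.exp_pos _).le, ENNReal.one_le_ofReal]
      have h2 : Real.exp (2 / 5 * (Om v : ℝ)) ≤ (3 / 2 : ℝ) ^ Om v := by
        have h3 : Real.exp (2 / 5) ≤ 3 / 2 := by
          have h4 : (2 / 5 : ℝ) ≤ Real.log (3 / 2) := by
            have h5 := Real.one_sub_inv_le_log_of_pos (x := (3 / 2 : ℝ)) (by norm_num)
            -- need sharper: log (3/2) > 0.4
            rw [Real.le_log_iff_exp_le (by norm_num)]
            have h6 := Real.exp_bound' (x := 2 / 5) (by norm_num) (by norm_num) (n := 4) (by norm_num)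
            refine h6.trans ?_
            norm_num [Finset.sum_range_succ, Nat.factorial]
          calc Real.exp (2 / 5) ≤ Real.exp (Real.log (3 / 2)) := Real.exp_le_exp.mpr h4
            _ = 3 / 2 := Real.exp_log (by norm_num)
        calc Real.exp (2 / 5 * (Om v : ℝ)) = Real.exp (2 / 5) ^ Om v := by
              rw [mul_comm, Real.exp_nat_mul]
          _ ≤ (3 / 2 : ℝ) ^ Om v := by gcongr
      have h5 : Real.exp (-(2 / 5 * X)) * Real.exp (2 / 5 * (Om v : ℝ)) ≥ 1 := by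
        rw [← Real.exp_add, ge_iff_le, Real.one_le_exp_iff]
        have := hv.2
        linarith
      calc (1 : ℝ) ≤ Real.exp (-(2 / 5 * X)) * Real.exp (2 / 5 * (Om v : ℝ)) := h5
        _ ≤ _ := by gcongr
    · rw [Set.indicator_of_notMem hv]; exact zero_le
  refine h1.trans ?_
  rw [Real.exp_add, ENNReal.ofReal_mul (Real.exp_pos _).le]
  apply mul_le_mul' le_rfl
  refine (rankin (fun _ => 3 / 2) (PT T) (fun p hp => prime_of_mem_PT hp) ?_).trans ?_
  · intro p hp
    have := (prime_of_mem_PT hp).two_le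
    refine ⟨by norm_num, ?_⟩
    have : (2 : ℝ) ≤ p := by exact_mod_cast this
    rw [div_le_iff₀ (by linarith)]
    linarith
  · apply ENNReal.ofReal_le_ofReal
    apply Real.exp_le_exp.mpr
    have e1 : ∀ p ∈ PT T, (3 / 2 : ℝ) / p + 2 * ((3 / 2 : ℝ) / p) ^ 2 =
        (3 / 2) * (1 / p) + (9 / 2) * (1 / (p : ℝ)) ^ 2 := by
      intro p _
      ring
    rw [Finset.sum_congr rfl e1, Finset.sum_add_distrib, ← Finset.mul_sum, ← Finset.mul_sum]
    have h2 := sum_PT_le hT
    have h3 := sum_inv_sq_le (PT T) (fun p hp => prime_of_mem_PT hp)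
    linarith

end Crest.Agent.R020
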