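import Mathlib
import Crest.Agent.R020.Abn5
import Crest.Agent.R020.PreU
import Crest.Agent.R020.Stmt

/-!
Row 20: crude removals (S0a)-(S0d) for (L), as sums over pairs `(q, d)`.
-/

set_option autoImplicit false

open scoped ENNReal
open Finset

noncomputable section

namespace Crest.Agent.R020.LCrude

/-- Pairs `(q, d)`: `q` prime, `d` a totient, `q > P⁺(r_d)`, `yy q ≤ Y`. -/
def Pr (Y : ℝ) : Set (ℕ × ℕ) := {p | p.1.Prime ∧ IsTot p.2 ∧ Pm (rr p.2) < p.1 ∧ yy p.1 ≤ Y}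

section basic

variable {q d : ℕ}

theorem pair_totient (hq : q.Prime) (hd : IsTot d) (hP : Pm (rr d) < q) :
    Nat.totient (q * rr d) = (q - 1) * d := by
  have hr := rr_pos d
  have hP' := (Pm_lt_iff hr.ne' hq.two_le).mp hP
  have hcop : Nat.Coprime q (rr d) :=
    (Nat.Prime.coprime_iff_not_dvd hq).mpr (fun hd => lt_irrefl _ (hP' q hq hd))
  rw [Nat.totient_mul hcop, Nat.totient_prime hq, totient_rr hd]

theorem pair_dl (hq : q.Prime) (hP : Pm (rr d) < q) : dl (q * rr d) = q :: dl (rr d) := by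
  have hP' := (Pm_lt_iff (rr_pos d).ne' hq.two_le).mp hP
  exact dl_mul hq (rr_pos d).ne' (fun p hp hpm => (hP' p hp hpm).le)

theorem pair_pos (hq : q.Prime) (hd : IsTot d) : (q - 1) * d ≠ 0 := by
  have := hq.two_le
  have := hd.pos
  exact Nat.mul_ne_zero (by omega) (by omega)

theorem pair_n_pos (hq : q.Prime) : q * rr d ≠ 0 := Nat.mul_ne_zero hq.ne_zero (rr_pos d).ne'

theorem pair_n_mem (hq : q.Prime) (hP : Pm (rr d) < q) {Y : ℝ} (hY : 0 ≤ Y) (hy : yy q ≤ Y) :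
    q * rr d ∈ Sm (PT Y) := by
  rw [mem_Sm_PT hY]
  refine ⟨pair_n_pos hq, fun p hp => ?_⟩
  have hpp := Nat.prime_of_mem_primeFactors hp
  have hpd := Nat.dvd_of_mem_primeFactors hp
  have hP' := (Pm_lt_iff (rr_pos d).ne' hq.two_le).mp hP
  refine (yy_mono ?_).trans hy
  rcases (Nat.Prime.dvd_mul hpp).1 hpd with h | h
  · exact Nat.le_of_dvd hq.pos h
  · exact (hP' p hpp h).le

theorem pair_d_mem (hq : q.Prime) (hd : IsTot d) (hP : Pm (rr d) < q) {Y : ℝ} (hY : 0 ≤ Y)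
    (hy : yy q ≤ Y) : d ∈ Sm (PT Y) := by
  rw [← totient_rr hd]
  have h := pair_n_mem hq hP hY hy
  rw [mem_Sm_PT hY] at h
  refine totient_mem_Sm (rr_pos d).ne' hY fun p hp => h.2 p ?_
  rw [Nat.mem_primeFactors] at hp ⊢
  exact ⟨hp.1, hp.2.1.mul_left _, pair_n_pos hq⟩

theorem pred_mem {q : ℕ} (hq : q.Prime) {Y : ℝ} (hY : 0 ≤ Y) (hy : yy q ≤ Y) : q - 1 ∈ Sm (PT Y) := by
  have h1 : q - 1 = Nat.totient q := (Nat.totient_prime hq).symm
  rw [h1]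
  refine totient_mem_Sm hq.ne_zero hY fun p hp => ?_
  rw [hq.primeFactors, Finset.mem_singleton] at hp
  rw [hp]; exact hy

theorem pair_v_mem (hq : q.Prime) (hd : IsTot d) (hP : Pm (rr d) < q) {Y : ℝ} (hY : 0 ≤ Y)
    (hy : yy q ≤ Y) : (q - 1) * d ∈ Sm (PT Y) := by
  rw [← pair_totient hq hd hP]
  exact totient_mem_Sm (pair_n_pos hq) hY ((mem_Sm_PT hY).1 (pair_n_mem hq hP hY hy)).2

theorem pair_isTot (hq : q.Prime) (hd : IsTot d) (hP : Pm (rr d) < q) : IsTot ((q - 1) * d) :=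
  ⟨q * rr d, Nat.pos_of_ne_zero (pair_n_pos hq), pair_totient hq hd hP⟩

theorem pair_rr_mem (hq : q.Prime) (hd : IsTot d) (hP : Pm (rr d) < q) {Y : ℝ} (hY : 0 ≤ Y)
    (hy : yy q ≤ Y) : rr ((q - 1) * d) ∈ Sm (PT Y) := by
  rcases rr_cons_or hd hq hP with h | h
  · rw [h]; exact pair_n_mem hq hP hY hy
  · rw [mem_Sm_PT hY]
    refine ⟨(rr_pos _).ne', fun p hp => ?_⟩
    have h1 := (Pm_lt_iff (rr_pos _).ne' hq.two_le).mp h p (Nat.prime_of_mem_primeFactors hp)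
      (Nat.dvd_of_mem_primeFactors hp)
    exact (yy_mono h1.le).trans hy

/-- the pair is determined by `n = q r_d`. -/
theorem pair_injOn : Set.InjOn (fun p : ℕ × ℕ => p.1 * rr p.2)
    {p | p.1.Prime ∧ IsTot p.2 ∧ Pm (rr p.2) < p.1} := by
  rintro ⟨q, d⟩ ⟨hq, hd, hP⟩ ⟨q', d'⟩ ⟨hq', hd', hP'⟩ h
  simp only at hq hd hP hq' hd' hP' h
  have h1 := pair_dl hq hP
  have h2 := pair_dl hq' hP'
  rw [h, h2] at h1
  injection h1 with h3 h4
  have h5 : rr d = rr d' := (dl_injective (rr_pos _).ne' (rr_pos _).ne' h4).symm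
  have h6 : d = d' := by rw [← totient_rr hd, ← totient_rr hd', h5]
  rw [h3, h6]

end basic

/-! ### (S0a) -/

theorem exp_Om_le (v : ℕ) : Real.exp (2 / 5 * (Om v : ℝ)) ≤ (3 / 2 : ℝ) ^ Om v := by
  have h3 : Real.exp (2 / 5) ≤ 3 / 2 := by
    have h6 := Real.exp_bound' (x := 2 / 5) (by norm_num) (by norm_num) (n := 4) (by norm_num)
    refine h6.trans ?_
    norm_num [Finset.sum_range_succ, Nat.factorial]
  calc Real.exp (2 / 5 * (Om v : ℝ)) = Real.exp (2 / 5) ^ Om v := by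
        rw [mul_comm, Real.exp_nat_mul]
    _ ≤ (3 / 2 : ℝ) ^ Om v := by gcongr

/-- the weight `(3/2)^{Ω(v)} / v`. -/
def wOm (v : ℕ) : ℝ≥0∞ := ENNReal.ofReal ((3 / 2 : ℝ) ^ Om v) * (v : ℝ≥0∞)⁻¹

theorem ws_wOm_le {T : ℝ} (hT : 0 ≤ T) :
    ws wOm (Sm (PT T)) ≤ ENNReal.ofReal (Real.exp (3 / 2 * T + 50)) := by
  have h1 : ws wOm (Sm (PT T)) ≤ ws (cm fun p => ENNReal.ofReal ((3 / 2 : ℝ) / p)) (Sm (PT T)) := by
    apply ws_mono_fun
    intro v hv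
    rw [cm_const (by norm_num : (0 : ℝ) < 3 / 2) hv.1]
    exact le_rfl
  refine h1.trans ?_
  refine (rankin (fun _ => 3 / 2) (PT T) (fun p hp => prime_of_mem_PT hp) ?_).trans ?_
  · intro p hp
    have := (prime_of_mem_PT hp).two_le
    refine ⟨by norm_num, ?_⟩
    have : (2 : ℝ) ≤ p := by exact_mod_cast this
    rw [div_le_iff₀ (by linarith)]
    linarith
  · apply ENNReal.ofReal_le_ofReal
    apply Real.exp_le_exp.mpr
    have e1 : ∀ p ∈ PT T, (3 / 2 : ℝ) / p + 2 * ((3 / 2 : ℝ) / p) ^ 2 =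
        (3 / 2) * (1 / p) + (9 / 2) * (1 / (p : ℝ)) ^ 2 := by
      intro p _
      ring
    rw [Finset.sum_congr rfl e1, Finset.sum_add_distrib, ← Finset.mul_sum, ← Finset.mul_sum]
    have h2 := sum_PT_le hT
    have h3 := sum_inv_sq_le (PT T) (fun p hp => prime_of_mem_PT hp)
    linarith

/-- a sum over `q` of a function of `q - 1`, `q ≥ 1`, is at most the full sum. -/
theorem tsum_pred_le (h : ℕ → ℝ≥0∞) (A : Set ℕ) (hA : ∀ q ∈ A, 1 ≤ q) :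
    ∑' q : ℕ, A.indicator (fun q => h (q - 1)) q ≤ ∑' m : ℕ, h m := by
  have h1 : ∑' q : ℕ, A.indicator (fun q => h (q - 1)) q = ∑' q : A, h ((q : ℕ) - 1) :=
    (tsum_subtype A (fun q => h (q - 1))).symm
  rw [h1]
  refine ENNReal.tsum_comp_le_tsum_of_injective (f := fun q : A => (q : ℕ) - 1) ?_ h
  rintro ⟨a, ha⟩ ⟨b, hb⟩ hab
  have h1 := hA a ha
  have h2 := hA b hb
  simp only at hab
  ext
  show a = b
  omega

theorem wt2_le_mul (A : Set (ℕ × ℕ)) (h : ℕ → ℝ≥0∞) (S : Set ℕ) (c : ℝ≥0∞)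
    (hA : ∀ p ∈ A, 1 ≤ p.1 ∧ p.1 - 1 ∈ S ∧ p.2 ∈ S ∧
      (((p.1 - 1) * p.2 : ℕ) : ℝ≥0∞)⁻¹ ≤ c * (h (p.1 - 1) * h p.2)) :
    wt2 A ≤ c * (ws h S * ws h S) := by
  classical
  have h1 : wt2 A ≤ ∑' p : ℕ × ℕ, c * (({q : ℕ | 1 ≤ q}.indicator
      (fun q => S.indicator h (q - 1)) p.1) * S.indicator h p.2) := by
    unfold wt2
    refine ENNReal.tsum_le_tsum fun p => ?_
    by_cases hp : p ∈ A
    · obtain ⟨h1, h2, h3, h4⟩ := hA p hp
      rw [Set.indicator_of_mem hp, Set.indicator_of_mem (show p.1 ∈ {q : ℕ | 1 ≤ q} from h1),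
        Set.indicator_of_mem h2, Set.indicator_of_mem h3]
      exact h4
    · rw [Set.indicator_of_notMem hp]; exact zero_le
  refine h1.trans ?_
  rw [ENNReal.tsum_mul_left, ENNReal.tsum_prod (f := fun a b => ({q : ℕ | 1 ≤ q}.indicator
      (fun q => S.indicator h (q - 1)) a) * S.indicator h b)]
  simp_rw [ENNReal.tsum_mul_left]
  rw [ENNReal.tsum_mul_right]
  refine mul_le_mul' le_rfl (mul_le_mul' ?_ le_rfl)
  exact tsum_pred_le _ _ (fun q hq => hq)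

theorem wt2_Om_large {Y : ℝ} (hY : 0 ≤ Y) (X : ℝ) :
    wt2 {p | p ∈ Pr Y ∧ X ≤ Om ((p.1 - 1) * p.2)} ≤
      ENNReal.ofReal (Real.exp (-(2 / 5 * X) + (3 * Y + 100))) := by
  have h1 := wt2_le_mul {p | p ∈ Pr Y ∧ X ≤ Om ((p.1 - 1) * p.2)} wOm (Sm (PT Y))
    (ENNReal.ofReal (Real.exp (-(2 / 5 * X)))) (by
      rintro ⟨q, d⟩ ⟨⟨hq, hd, hP, hy⟩, hX⟩
      simp only at hq hd hP hy hX ⊢
      have hq1 : q - 1 ≠ 0 := by have := hq.two_le; omega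
      have hd0 : d ≠ 0 := hd.pos.ne'
      refine ⟨hq.one_le, pred_mem hq hY hy, pair_d_mem hq hd hP hY hy, ?_⟩
      rw [Om_mul hq1 hd0] at hX
      have e1 : wOm (q - 1) * wOm d = ENNReal.ofReal ((3 / 2 : ℝ) ^ (Om (q - 1) + Om d)) *
          (((q - 1) * d : ℕ) : ℝ≥0∞)⁻¹ := by
        rw [wOm, wOm, inv_mul_nat, pow_add, ENNReal.ofReal_mul (by positivity)]
        ring
      rw [e1, ← mul_assoc]
      refine le_mul_of_one_le_left zero_le ?_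
      rw [← ENNReal.ofReal_mul (Real.exp_pos _).le, ENNReal.one_le_ofReal]
      have h2 : Real.exp (2 / 5 * ((Om (q - 1) + Om d : ℕ) : ℝ)) ≤ (3 / 2 : ℝ) ^ (Om (q - 1) + Om d) := by
        have h3 := exp_Om_le (q - 1)
        have h4 := exp_Om_le d
        push_cast
        rw [mul_add, Real.exp_add, pow_add]
        exact mul_le_mul h3 h4 (Real.exp_pos _).le (by positivity)
      calc (1 : ℝ) ≤ Real.exp (-(2 / 5 * X)) * Real.exp (2 / 5 * ((Om (q - 1) + Om d : ℕ) : ℝ)) := by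
            rw [← Real.exp_add, Real.one_le_exp_iff]
            linarith
        _ ≤ _ := by gcongr)
  refine h1.trans ?_
  have h2 := ws_wOm_le hY
  calc ENNReal.ofReal (Real.exp (-(2 / 5 * X))) * (ws wOm (Sm (PT Y)) * ws wOm (Sm (PT Y)))
      ≤ ENNReal.ofReal (Real.exp (-(2 / 5 * X))) * (ENNReal.ofReal (Real.exp (3 / 2 * Y + 50)) *
          ENNReal.ofReal (Real.exp (3 / 2 * Y + 50))) := by gcongr
    _ = _ := by
        rw [← ENNReal.ofReal_mul (Real.exp_pos _).le, ← ENNReal.ofReal_mul (Real.exp_pos _).le,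
          ← Real.exp_add, ← Real.exp_add]
        congr 2
        ring

/-! ### (S0b): sums over `n` of `1/φ(n)` -/

theorem Sy_one : Sy 1 = 0 := by simp [Sy]

theorem Om_one : Om 1 = 0 := by simp [Om]

/-- `e^{0.3 Σ yy - Ω(φ n)} / φ(n)`. -/
def fSy (n : ℕ) : ℝ≥0∞ :=
  ENNReal.ofReal (Real.exp (3 / 10 * Sy n - Om n.totient)) * (n.totient : ℝ≥0∞)⁻¹

theorem fSy_one : fSy 1 = 1 := by simp [fSy, Sy_one, Om_one]

theorem fSy_mul {m n : ℕ} (hm : m ≠ 0) (hn : n ≠ 0) (h : Nat.Coprime m n) :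
    fSy (m * n) = fSy m * fSy n := by
  have h1 : m.totient ≠ 0 := (Nat.totient_pos.2 (Nat.pos_of_ne_zero hm)).ne'
  have h2 : n.totient ≠ 0 := (Nat.totient_pos.2 (Nat.pos_of_ne_zero hn)).ne'
  rw [fSy, fSy, fSy, Nat.totient_mul h, Om_mul h1 h2, Sy_mul hm hn, inv_mul_nat]
  have e : Real.exp (3 / 10 * (Sy m + Sy n) - ((Om m.totient + Om n.totient : ℕ) : ℝ)) =
      Real.exp (3 / 10 * Sy m - Om m.totient) * Real.exp (3 / 10 * Sy n - Om n.totient) := by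
    rw [← Real.exp_add]; congr 1; push_cast; ring
  rw [e, ENNReal.ofReal_mul (Real.exp_pos _).le]
  ring

/-- `e^{0.3 yy p - Ω(p-1)} / (p-1)`. -/
def aSy (p : ℕ) : ℝ≥0∞ :=
  ENNReal.ofReal (Real.exp (3 / 10 * yy p - Om (p - 1))) * ((p - 1 : ℕ) : ℝ≥0∞)⁻¹

theorem exp_yy_le {p : ℕ} (hp : 1 ≤ p) : Real.exp (3 / 10 * yy p) ≤ p := by
  have hp1 : (1:ℝ) ≤ p := by exact_mod_cast hp
  have hy := yy_nonneg p
  have h1 : Real.exp (3 / 10 * yy p) ≤ Real.exp (yy p) := Real.exp_le_exp.2 (by linarith)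
  refine h1.trans ?_
  unfold yy
  rcases max_choice 0 (Real.log (Real.log (p : ℝ))) with h | h
  · rw [h, Real.exp_zero]; exact hp1
  · rw [h]
    rcases le_or_gt (Real.log (p:ℝ)) 0 with h0 | h0
    · have h2 : 0 ≤ Real.log (p:ℝ) := Real.log_nonneg hp1
      have h3 : Real.log (p:ℝ) = 0 := le_antisymm h0 h2
      rw [h3, Real.log_zero, Real.exp_zero]; exact hp1
    · rw [Real.exp_log h0]
      have := Real.log_le_sub_one_of_pos (show (0:ℝ) < p by linarith)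
      linarith

theorem fSy_prime_pow {p : ℕ} (hp : p.Prime) (k : ℕ) :
    fSy (p ^ (k + 1)) ≤ aSy p * (2 : ℝ≥0∞)⁻¹ ^ k := by
  have hp1 : p - 1 ≠ 0 := by have := hp.two_le; omega
  have hp2 : (2:ℝ) ≤ p := by exact_mod_cast hp.two_le
  have h1 : Nat.totient (p ^ (k + 1)) = p ^ k * (p - 1) := by
    rw [Nat.totient_prime_pow hp (by omega)]; simp
  rw [fSy, h1, Om_mul (pow_ne_zero _ hp.ne_zero) hp1, Om_prime_pow hp, Sy_prime_pow hp, inv_mul_nat, aSy]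
  have e : Real.exp (3 / 10 * (((k + 1 : ℕ) : ℝ) * yy p) - ((k + Om (p - 1) : ℕ) : ℝ)) =
      Real.exp (3 / 10 * yy p - Om (p - 1)) * Real.exp (3 / 10 * yy p - 1) ^ k := by
    rw [← Real.exp_nat_mul, ← Real.exp_add]; congr 1; push_cast; ring
  have e2 : ((p ^ k : ℕ) : ℝ≥0∞)⁻¹ = ENNReal.ofReal ((1 / (p:ℝ)) ^ k) := by
    rw [one_div, inv_pow, ENNReal.ofReal_inv_of_pos (by positivity), ENNReal.ofReal_pow (by positivity),
      ENNReal.ofReal_natCast, Nat.cast_pow]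
  have e3 : (2 : ℝ≥0∞)⁻¹ ^ k = ENNReal.ofReal ((1 / 2 : ℝ) ^ k) := by
    rw [one_div, ENNReal.ofReal_pow (by norm_num), ENNReal.ofReal_inv_of_pos (by norm_num)]
    norm_num
  rw [e, e2, e3, ENNReal.ofReal_mul (Real.exp_pos _).le]
  have e4 : ENNReal.ofReal (Real.exp (3 / 10 * yy p - 1) ^ k) * ENNReal.ofReal ((1 / (p:ℝ)) ^ k) ≤
      ENNReal.ofReal ((1 / 2 : ℝ) ^ k) := by
    rw [← ENNReal.ofReal_mul (by positivity), ← mul_pow]
    refine ENNReal.ofReal_le_ofReal (pow_le_pow_left₀ (by positivity) ?_ k)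
    have h2 := exp_yy_le hp.one_le
    have h3 : Real.exp (-1) ≤ 1 / 2 := by
      have := Real.exp_neg_one_lt_d9; linarith
    rw [show 3 / 10 * yy p - 1 = 3 / 10 * yy p + (-1) by ring, Real.exp_add]
    calc Real.exp (3 / 10 * yy p) * Real.exp (-1) * (1 / (p:ℝ))
        ≤ p * (1 / 2) * (1 / (p:ℝ)) := by gcongr
      _ = 1 / 2 := by field_simp
  calc ENNReal.ofReal (Real.exp (3 / 10 * yy p - ↑(Om (p - 1)))) *
        ENNReal.ofReal (Real.exp (3 / 10 * yy p - 1) ^ k) *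
      (ENNReal.ofReal ((1 / (p:ℝ)) ^ k) * ((p - 1 : ℕ) : ℝ≥0∞)⁻¹)
      = ENNReal.ofReal (Real.exp (3 / 10 * yy p - ↑(Om (p - 1)))) * ((p - 1 : ℕ) : ℝ≥0∞)⁻¹ *
        (ENNReal.ofReal (Real.exp (3 / 10 * yy p - 1) ^ k) * ENNReal.ofReal ((1 / (p:ℝ)) ^ k)) := by ring
    _ ≤ _ := by gcongr

theorem tsum_fSy_pow {p : ℕ} (hp : p.Prime) : ∑' k, fSy (p ^ k) ≤ 1 + 2 * aSy p := by
  rw [tsum_eq_zero_add' ENNReal.summable, pow_zero, fSy_one]
  refine add_le_add le_rfl ?_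
  refine (ENNReal.tsum_le_tsum fun k => fSy_prime_pow hp k).trans ?_
  rw [ENNReal.tsum_mul_left, ENNReal.tsum_geometric, ENNReal.one_sub_inv_two, inv_inv, mul_comm]

theorem ws_fSy_le (s : Finset ℕ) (hs : ∀ p ∈ s, p.Prime) :
    ws fSy (Sm s) ≤ ∏ p ∈ s, (1 + 2 * aSy p) := by
  refine (smooth_sum fSy (fun p k => fSy (p ^ k)) (by rw [fSy_one]) ?_ s hs).trans ?_
  · intro p k u hp hu hpu
    rw [fSy_mul (pow_ne_zero _ hp.ne_zero) hu
      (Nat.Coprime.pow_left k ((Nat.Prime.coprime_iff_not_dvd hp).2 hpu))]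
  · exact Finset.prod_le_prod' fun p hp => tsum_fSy_pow (hs p hp)

/-- the sum of `aSy` over all primes is bounded. -/
theorem tsum_aSy_le : ∃ C : ℝ, 0 ≤ C ∧
    ∑' q : ℕ, {q : ℕ | q.Prime}.indicator aSy q ≤ ENNReal.ofReal C := by
  classical
  obtain ⟨C, hC, hTS⟩ := twisted_cm_le
  have hsum : Summable fun u : ℕ => C * Real.exp 12 * (((u:ℝ) + 1) ^ 2 * Real.exp (-(3 / 10 * u))) := by
    refine Summable.mul_left _ ?_
    have h1 : Summable fun u : ℕ => ((u:ℝ)) ^ 2 * Real.exp (-(3 / 10)) ^ u :=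
      summable_pow_mul_geometric_of_norm_lt_one 2 (by
        rw [Real.norm_eq_abs, abs_of_pos (Real.exp_pos _)]
        rw [← Real.exp_zero]
        exact Real.exp_lt_exp.2 (by norm_num))
    have h2 := (summable_nat_add_iff (f := fun u : ℕ => ((u:ℝ)) ^ 2 * Real.exp (-(3 / 10)) ^ u) 1).2 h1
    refine (h2.mul_left (Real.exp (3 / 10))).congr fun u => ?_
    rw [← Real.exp_nat_mul]
    push_cast
    rw [mul_left_comm, ← Real.exp_add]
    congr 2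
    ring
  refine ⟨∑' u : ℕ, C * Real.exp 12 * (((u:ℝ) + 1) ^ 2 * Real.exp (-(3 / 10 * u))),
    tsum_nonneg fun u => by positivity, ?_⟩
  have h1 : ∑' q : ℕ, {q : ℕ | q.Prime}.indicator aSy q ≤
      ∑' q : ℕ, ∑' u : ℕ, {q : ℕ | q.Prime ∧ (u:ℝ) ≤ yy q ∧ yy q ≤ (u:ℝ) + 1}.indicator aSy q := by
    refine ENNReal.tsum_le_tsum fun q => ?_
    by_cases hq : q.Prime
    · rw [Set.indicator_of_mem (show q ∈ {q : ℕ | q.Prime} from hq)]
      refine le_trans (le_of_eq ?_) (ENNReal.le_tsum ⌊yy q⌋₊)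
      rw [Set.indicator_of_mem]
      exact ⟨hq, Nat.floor_le (yy_nonneg q), (Nat.lt_floor_add_one _).le⟩
    · rw [Set.indicator_of_notMem (show q ∉ {q : ℕ | q.Prime} from hq)]; exact zero_le
  refine h1.trans ?_
  rw [ENNReal.tsum_comm, ENNReal.ofReal_tsum_of_nonneg (fun u => by positivity) hsum]
  refine ENNReal.tsum_le_tsum fun u => ?_
  have hu0 : (0:ℝ) ≤ u := Nat.cast_nonneg u
  have h2 := hTS (fun _ => ENNReal.ofReal (Real.exp (-1))) (fun p _ => ENNReal.ofReal_le_ofReal (by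
    have := Real.exp_neg_one_lt_d9; linarith)) (u:ℝ) hu0
  have h3 : ∑' q : ℕ, {q : ℕ | q.Prime ∧ (u:ℝ) ≤ yy q ∧ yy q ≤ (u:ℝ) + 1}.indicator aSy q ≤
      ENNReal.ofReal (Real.exp (3 / 10 * (u + 1))) *
      ∑' q : ℕ, {q : ℕ | q.Prime ∧ (u:ℝ) ≤ yy q ∧ yy q ≤ (u:ℝ) + 1}.indicator
        (fun q => cm (fun _ => ENNReal.ofReal (Real.exp (-1))) (q - 1) * ((q - 1 : ℕ) : ℝ≥0∞)⁻¹) q := by
    rw [← ENNReal.tsum_mul_left]
    refine ENNReal.tsum_le_tsum fun q => ?_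
    by_cases hq : q ∈ {q : ℕ | q.Prime ∧ (u:ℝ) ≤ yy q ∧ yy q ≤ (u:ℝ) + 1}
    · rw [Set.indicator_of_mem hq, Set.indicator_of_mem hq, aSy, ← mul_assoc]
      refine mul_le_mul' ?_ le_rfl
      have e1 : cm (fun _ => ENNReal.ofReal (Real.exp (-1))) (q - 1)
          = ENNReal.ofReal (Real.exp (-(Om (q - 1) : ℝ))) := by
        unfold cm Om
        rw [List.map_const', List.prod_replicate, ← ENNReal.ofReal_pow (Real.exp_pos _).le,
          ← Real.exp_nat_mul]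
        congr 2; ring
      rw [e1, ← ENNReal.ofReal_mul (Real.exp_pos _).le, ← Real.exp_add]
      refine ENNReal.ofReal_le_ofReal (Real.exp_le_exp.2 ?_)
      have := hq.2.2
      linarith
    · rw [Set.indicator_of_notMem hq]; exact zero_le
  refine h3.trans ((mul_le_mul' le_rfl h2).trans ?_)
  rw [← ENNReal.ofReal_mul (Real.exp_pos _).le]
  refine ENNReal.ofReal_le_ofReal ?_
  have h4 : ∑ p ∈ PL (u:ℝ), (ENNReal.ofReal (Real.exp (-1))).toReal / (p:ℝ) ≤ 37 / 100 * (u + 30) := by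
    rw [ENNReal.toReal_ofReal (Real.exp_pos _).le]
    have h5 : ∑ p ∈ PL (u:ℝ), Real.exp (-1) / (p:ℝ) = Real.exp (-1) * ∑ p ∈ PT (u:ℝ), 1 / (p:ℝ) := by
      rw [Finset.mul_sum]
      refine Finset.sum_congr rfl fun p _ => ?_
      rw [mul_one_div]
    rw [h5]
    have h6 := sum_PT_le hu0
    have h7 : Real.exp (-1) ≤ 37 / 100 := by
      have := Real.exp_neg_one_lt_d9; linarith
    exact mul_le_mul h7 h6 (Finset.sum_nonneg fun p _ => by positivity) (by norm_num)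
  have h5 := Real.exp_le_exp.2 h4
  calc Real.exp (3 / 10 * (u + 1)) * (C * (1 + (u:ℝ)) ^ 2 * Real.exp (-(u:ℝ)) *
        Real.exp (∑ p ∈ PL (u:ℝ), (ENNReal.ofReal (Real.exp (-1))).toReal / (p:ℝ)))
      ≤ Real.exp (3 / 10 * (u + 1)) * (C * (1 + (u:ℝ)) ^ 2 * Real.exp (-(u:ℝ)) *
        Real.exp (37 / 100 * (u + 30))) := by gcongr
    _ = C * (((u:ℝ) + 1) ^ 2 * (Real.exp (3 / 10 * (u + 1)) * Real.exp (-(u:ℝ)) *
        Real.exp (37 / 100 * (u + 30)))) := by ring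
    _ ≤ C * (((u:ℝ) + 1) ^ 2 * (Real.exp 12 * Real.exp (-(3 / 10 * u)))) := by
        refine mul_le_mul_of_nonneg_left (mul_le_mul_of_nonneg_left ?_ (by positivity)) hC.le
        rw [← Real.exp_add, ← Real.exp_add, ← Real.exp_add]
        refine Real.exp_le_exp.2 ?_
        nlinarith
    _ = C * Real.exp 12 * (((u:ℝ) + 1) ^ 2 * Real.exp (-(3 / 10 * u))) := by ring

/-- the full sum of `fSy` over smooth numbers is bounded. -/
theorem exists_ws_fSy_le : ∃ C : ℝ, 0 ≤ C ∧ ∀ s : Finset ℕ, (∀ p ∈ s, p.Prime) →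
    ws fSy (Sm s) ≤ ENNReal.ofReal (Real.exp C) := by
  obtain ⟨C, hC, h⟩ := tsum_aSy_le
  refine ⟨2 * C, by positivity, fun s hs => (ws_fSy_le s hs).trans ?_⟩
  have hfin : ∀ p ∈ s, aSy p ≠ ⊤ := fun p hp => by
    rw [aSy]
    refine ENNReal.mul_ne_top ENNReal.ofReal_ne_top ?_
    rw [Ne, ENNReal.inv_eq_top]
    have := (hs p hp).two_le
    exact_mod_cast (show p - 1 ≠ 0 by omega)
  have h1 : ∑ p ∈ s, aSy p ≤ ENNReal.ofReal C := by
    refine le_trans ?_ h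
    refine le_trans (le_of_eq ?_) (ENNReal.sum_le_tsum s)
    refine Finset.sum_congr rfl fun p hp => ?_
    rw [Set.indicator_of_mem (show p ∈ {q : ℕ | q.Prime} from hs p hp)]
  have h2 : ∑ p ∈ s, (aSy p).toReal ≤ C := by
    rw [← ENNReal.toReal_sum hfin]
    have := ENNReal.toReal_mono ENNReal.ofReal_ne_top h1
    rwa [ENNReal.toReal_ofReal hC] at this
  have h3 : ∀ p ∈ s, 1 + 2 * aSy p ≤ ENNReal.ofReal (Real.exp (2 * (aSy p).toReal)) := fun p hp => by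
    have h4 : 1 + 2 * aSy p = ENNReal.ofReal (1 + 2 * (aSy p).toReal) := by
      rw [ENNReal.ofReal_add (by norm_num) (by positivity), ENNReal.ofReal_mul (by norm_num),
        ENNReal.ofReal_toReal (hfin p hp)]
      norm_num
    rw [h4]
    refine ENNReal.ofReal_le_ofReal ?_
    have := Real.add_one_le_exp (2 * (aSy p).toReal)
    linarith
  refine (Finset.prod_le_prod' h3).trans ?_
  rw [← ENNReal.ofReal_prod_of_nonneg fun p _ => (Real.exp_pos _).le, ← Real.exp_sum]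
  refine ENNReal.ofReal_le_ofReal (Real.exp_le_exp.2 ?_)
  rw [← Finset.mul_sum]
  linarith

/-- the set of `n` with `Ω(φ n) ≤ X` and large `Sy n`. -/
def bigSy (T X S : ℝ) : Set ℕ := {n | n ∈ Sm (PT T) ∧ (Om n.totient : ℝ) ≤ X ∧ S ≤ Sy n}

/-- (S0b) in the sum-over-`n` form. -/
theorem exists_bigSy_le : ∃ C : ℝ, 0 ≤ C ∧ ∀ T X S : ℝ,
    ws (fun n => (n.totient : ℝ≥0∞)⁻¹) (bigSy T X S) ≤
      ENNReal.ofReal (Real.exp (X - 3 / 10 * S + C)) := by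
  obtain ⟨C, hC, h⟩ := exists_ws_fSy_le
  refine ⟨C, hC, fun T X S => ?_⟩
  have h1 : ws (fun n => (n.totient : ℝ≥0∞)⁻¹) (bigSy T X S) ≤
      ENNReal.ofReal (Real.exp (X - 3 / 10 * S)) * ws fSy (Sm (PT T)) := by
    unfold ws
    rw [← ENNReal.tsum_mul_left]
    refine ENNReal.tsum_le_tsum fun n => ?_
    by_cases hn : n ∈ bigSy T X S
    · rw [Set.indicator_of_mem hn, Set.indicator_of_mem hn.1, fSy, ← mul_assoc]
      refine le_mul_of_one_le_left zero_le ?_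
      rw [← ENNReal.ofReal_mul (Real.exp_pos _).le, ENNReal.one_le_ofReal, ← Real.exp_add,
        Real.one_le_exp_iff]
      have h2 := hn.2.1
      have h3 := hn.2.2
      linarith
    · rw [Set.indicator_of_notMem hn]; exact zero_le
  refine h1.trans ((mul_le_mul' le_rfl (h (PT T) fun p hp => prime_of_mem_PT hp)).trans (le_of_eq ?_))
  rw [← ENNReal.ofReal_mul (Real.exp_pos _).le, ← Real.exp_add]

/-- transfer from pairs to `n = q r_d`. -/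
theorem wt2_le_ws_n (A : Set (ℕ × ℕ)) (hA : ∀ p ∈ A, p.1.Prime ∧ IsTot p.2 ∧ Pm (rr p.2) < p.1)
    (N : Set ℕ) (hN : ∀ p ∈ A, p.1 * rr p.2 ∈ N) :
    wt2 A ≤ ws (fun n => (n.totient : ℝ≥0∞)⁻¹) N := by
  have h1 : wt2 A = ∑' p : A, (((p.1.1 - 1) * p.1.2 : ℕ) : ℝ≥0∞)⁻¹ :=
    (tsum_subtype A (fun p : ℕ × ℕ => (((p.1 - 1) * p.2 : ℕ) : ℝ≥0∞)⁻¹)).symm
  have h2 : ∀ p : A, (((p.1.1 - 1) * p.1.2 : ℕ) : ℝ≥0∞)⁻¹ =
      N.indicator (fun n => (n.totient : ℝ≥0∞)⁻¹) (p.1.1 * rr p.1.2) := fun p => by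
    obtain ⟨hq, hd, hP⟩ := hA p.1 p.2
    rw [Set.indicator_of_mem (hN p.1 p.2), pair_totient hq hd hP]
  rw [h1, tsum_congr h2]
  refine ENNReal.tsum_comp_le_tsum_of_injective
    (f := fun p : A => p.1.1 * rr p.1.2) ?_ (N.indicator (fun n => (n.totient : ℝ≥0∞)⁻¹))
  rintro ⟨p, hp⟩ ⟨p', hp'⟩ h
  exact Subtype.ext (pair_injOn (hA p hp) (hA p' hp') h)

/-- (S0b) for pairs. -/
theorem exists_wt2_Sy_left : ∃ C : ℝ, 0 ≤ C ∧ ∀ Y X S : ℝ, 0 ≤ Y →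
    wt2 {p | p ∈ Pr Y ∧ (Om ((p.1 - 1) * p.2) : ℝ) ≤ X ∧ S ≤ Sy (p.1 * rr p.2)} ≤
      ENNReal.ofReal (Real.exp (X - 3 / 10 * S + C)) := by
  obtain ⟨C, hC, h⟩ := exists_bigSy_le
  refine ⟨C, hC, fun Y X S hY => le_trans ?_ (h Y X S)⟩
  refine wt2_le_ws_n _ (fun p hp => ⟨hp.1.1, hp.1.2.1, hp.1.2.2.1⟩) _ fun p hp => ?_
  obtain ⟨⟨hq, hd, hP, hy⟩, hX, hS⟩ := hp
  exact ⟨pair_n_mem hq hP hY hy, by rw [pair_totient hq hd hP]; exact hX, hS⟩

/-! ### multiplicity of the map `(q, d) ↦ (q-1) d` -/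

theorem card_divisors_le_two_pow {n : ℕ} (hn : n ≠ 0) : n.divisors.card ≤ 2 ^ Om n := by
  induction n using Nat.recOnPosPrimePosCoprime with
  | prime_pow p k hp hk =>
    rw [Nat.divisors_prime_pow hp, Finset.card_map, Finset.card_range, Om_prime_pow hp]
    exact Nat.lt_two_pow_self
  | zero => exact absurd rfl hn
  | one => simp [Om_one]
  | coprime a b ha hb hab iha ihb =>
    rw [Nat.Coprime.card_divisors_mul hab, Om_mul (by omega) (by omega), pow_add]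
    exact Nat.mul_le_mul (iha (by omega)) (ihb (by omega))

theorem wt2_le_mult (A : Set (ℕ × ℕ)) (V : Set ℕ) (X : ℝ)
    (hA : ∀ p ∈ A, 2 ≤ p.1 ∧ p.2 ≠ 0 ∧ (p.1 - 1) * p.2 ∈ V ∧ (Om ((p.1 - 1) * p.2) : ℝ) ≤ X) :
    wt2 A ≤ ENNReal.ofReal (Real.exp (7 / 10 * X)) * wt V := by
  classical
  have h1 : wt2 A ≤ ∑' v : ℕ, ∑' p : ℕ × ℕ,
      (if p ∈ A ∧ (p.1 - 1) * p.2 = v then ((v : ℕ) : ℝ≥0∞)⁻¹ else 0) := by
    rw [ENNReal.tsum_comm]
    unfold wt2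
    refine ENNReal.tsum_le_tsum fun p => ?_
    by_cases hp : p ∈ A
    · rw [Set.indicator_of_mem hp]
      refine le_trans (le_of_eq ?_) (ENNReal.le_tsum ((p.1 - 1) * p.2))
      rw [if_pos ⟨hp, rfl⟩]
    · rw [Set.indicator_of_notMem hp]; exact zero_le
  refine h1.trans ?_
  unfold wt ws
  rw [← ENNReal.tsum_mul_left]
  refine ENNReal.tsum_le_tsum fun v => ?_
  by_cases hv : ∃ p ∈ A, (p.1 - 1) * p.2 = v
  · obtain ⟨p0, hp0, hpv⟩ := hv
    obtain ⟨hp01, hp02, hp03, hp04⟩ := hA p0 hp0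
    rw [hpv] at hp03 hp04
    have hv0 : v ≠ 0 := by
      rw [← hpv]; exact Nat.mul_ne_zero (by omega) hp02
    rw [Set.indicator_of_mem hp03]
    -- the pairs are indexed by divisors
    set D : Finset (ℕ × ℕ) := v.divisors.image (fun a => (a + 1, v / a)) with hD
    have h2 : ∑' p : ℕ × ℕ, (if p ∈ A ∧ (p.1 - 1) * p.2 = v then ((v : ℕ) : ℝ≥0∞)⁻¹ else 0) ≤
        ∑ p ∈ D, ((v : ℕ) : ℝ≥0∞)⁻¹ := by
      rw [tsum_eq_sum (s := D)]
      · refine Finset.sum_le_sum fun p _ => ?_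
        split_ifs
        · exact le_rfl
        · exact zero_le
      · intro p hp
        rw [if_neg]
        rintro ⟨hpA, hpv'⟩
        apply hp
        obtain ⟨h3, h4, -, -⟩ := hA p hpA
        rw [hD, Finset.mem_image]
        refine ⟨p.1 - 1, ?_, ?_⟩
        · rw [Nat.mem_divisors]
          exact ⟨⟨p.2, hpv'.symm⟩, hv0⟩
        · ext
          · simp only; omega
          · simp only
            rw [← hpv', Nat.mul_div_cancel_left _ (by omega)]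
    refine h2.trans ?_
    rw [Finset.sum_const, nsmul_eq_mul]
    refine mul_le_mul' ?_ le_rfl
    have h3 : D.card ≤ 2 ^ Om v := Finset.card_image_le.trans (card_divisors_le_two_pow hv0)
    have h4 : ((D.card : ℕ) : ℝ) ≤ Real.exp (7 / 10 * X) := by
      calc ((D.card : ℕ) : ℝ) ≤ ((2 ^ Om v : ℕ) : ℝ) := by exact_mod_cast h3
        _ = Real.exp (Real.log 2 * Om v) := by
            push_cast
            rw [mul_comm, Real.exp_nat_mul, Real.exp_log (by norm_num)]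
        _ ≤ Real.exp (7 / 10 * X) := by
            refine Real.exp_le_exp.2 ?_
            have h5 := Real.log_two_lt_d9
            have h6 : (0:ℝ) ≤ Om v := Nat.cast_nonneg _
            nlinarith
    rw [← ENNReal.ofReal_natCast]
    exact ENNReal.ofReal_le_ofReal h4
  · have h2 : ∑' p : ℕ × ℕ, (if p ∈ A ∧ (p.1 - 1) * p.2 = v then ((v : ℕ) : ℝ≥0∞)⁻¹ else 0) = 0 := by
      rw [ENNReal.tsum_eq_zero]
      intro p
      rw [if_neg]
      rintro ⟨hpA, hpv⟩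
      exact hv ⟨p, hpA, hpv⟩
    rw [h2]; exact zero_le

/-! ### (S0c) -/

/-- totients `v` with `r_v` smooth, `Ω(v) ≤ X`, and `Sy r_v` large have small weight. -/
theorem exists_wt_Sy_rr : ∃ C : ℝ, 0 ≤ C ∧ ∀ T X S : ℝ,
    wt {v | IsTot v ∧ rr v ∈ Sm (PT T) ∧ (Om v : ℝ) ≤ X ∧ S ≤ Sy (rr v)} ≤
      ENNReal.ofReal (Real.exp (X - 3 / 10 * S + C)) := by
  obtain ⟨C, hC, h⟩ := exists_bigSy_le
  refine ⟨C, hC, fun T X S => le_trans ?_ (h T X S)⟩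
  set V : Set ℕ := {v | IsTot v ∧ rr v ∈ Sm (PT T) ∧ (Om v : ℝ) ≤ X ∧ S ≤ Sy (rr v)} with hV
  have h1 : wt V = ∑' v : V, ((v : ℕ) : ℝ≥0∞)⁻¹ :=
    (tsum_subtype V (fun v : ℕ => (v : ℝ≥0∞)⁻¹)).symm
  have h2 : ∀ v : V, ((v : ℕ) : ℝ≥0∞)⁻¹ =
      (bigSy T X S).indicator (fun n => (n.totient : ℝ≥0∞)⁻¹) (rr v) := fun v => by
    obtain ⟨h3, h4, h5, h6⟩ := v.2
    rw [Set.indicator_of_mem, totient_rr h3]
    exact ⟨h4, by rw [totient_rr h3]; exact h5, h6⟩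
  rw [h1, tsum_congr h2]
  refine ENNReal.tsum_comp_le_tsum_of_injective
    (f := fun v : V => rr v) ?_ ((bigSy T X S).indicator (fun n => (n.totient : ℝ≥0∞)⁻¹))
  rintro ⟨v, hv⟩ ⟨v', hv'⟩ h
  simp only at h
  refine Subtype.ext ?_
  show v = v'
  rw [← totient_rr hv.1, ← totient_rr hv'.1, h]

theorem exists_wt2_Sy_right : ∃ C : ℝ, 0 ≤ C ∧ ∀ Y X S : ℝ, 0 ≤ Y →
    wt2 {p | p ∈ Pr Y ∧ (Om ((p.1 - 1) * p.2) : ℝ) ≤ X ∧ S ≤ Sy (rr ((p.1 - 1) * p.2))} ≤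
      ENNReal.ofReal (Real.exp (17 / 10 * X - 3 / 10 * S + C)) := by
  obtain ⟨C, hC, h⟩ := exists_wt_Sy_rr
  refine ⟨C, hC, fun Y X S hY => ?_⟩
  refine (wt2_le_mult _ {v | IsTot v ∧ rr v ∈ Sm (PT Y) ∧ (Om v : ℝ) ≤ X ∧ S ≤ Sy (rr v)} X ?_).trans ?_
  · rintro ⟨q, d⟩ ⟨⟨hq, hd, hP, hy⟩, hX, hS⟩
    simp only at hq hd hP hy hX hS ⊢
    exact ⟨hq.two_le, hd.pos.ne', ⟨pair_isTot hq hd hP, pair_rr_mem hq hd hP hY hy, hX, hS⟩, hX⟩
  · refine (mul_le_mul' le_rfl (h Y X S)).trans (le_of_eq ?_)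
    rw [← ENNReal.ofReal_mul (Real.exp_pos _).le, ← Real.exp_add]
    congr 2; ring

/-! ### (S0d) -/

theorem sum_inv_mul_pred_le (N M : ℕ) (hN : 1 ≤ N) :
    ∑ k ∈ Finset.Ioc N (N + M), (1:ℝ) / ((k:ℝ) * ((k:ℝ) - 1)) ≤ 1 / N - 1 / ((N + M : ℕ):ℝ) := by
  induction M with
  | zero => simp
  | succ M ih =>
    rw [← Nat.add_assoc, Finset.sum_Ioc_succ_top (by omega)]
    have hNM : (1:ℝ) ≤ ((N + M : ℕ):ℝ) := by exact_mod_cast (show 1 ≤ N + M by omega)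
    have e : (1:ℝ) / (((N + M + 1 : ℕ):ℝ) * (((N + M + 1 : ℕ):ℝ) - 1))
        = 1 / ((N + M : ℕ):ℝ) - 1 / ((N + M + 1 : ℕ):ℝ) := by
      push_cast at hNM ⊢
      have h1 : (N:ℝ) + M ≠ 0 := by linarith
      have h2 : (N:ℝ) + M + 1 ≠ 0 := by linarith
      have h3 : (N:ℝ) + M + 1 - 1 ≠ 0 := by
        rw [add_sub_cancel_right]; exact h1
      field_simp
      ring
    linarith

/-- `∑_{p > x} 1/(p(p-1)) ≤ 2/x`. -/
theorem tsum_inv_mul_pred_le {x : ℝ} (hx : 2 ≤ x) :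
    ∑' p : ℕ, {p : ℕ | x < (p:ℝ)}.indicator (fun p => ((p * (p - 1) : ℕ) : ℝ≥0∞)⁻¹) p ≤
      ENNReal.ofReal (2 / x) := by
  classical
  set N := ⌊x⌋₊ with hN
  have hN1 : 1 ≤ N := Nat.le_floor (by push_cast; linarith)
  have hNx : x / 2 ≤ N := by
    have h1 := Nat.lt_floor_add_one x
    have h2 : (1:ℝ) ≤ N := by exact_mod_cast hN1
    rw [← hN] at h1
    linarith
  rw [ENNReal.tsum_eq_iSup_sum]
  refine iSup_le fun s => ?_
  set M := s.sup id with hM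
  have hsM : ∀ p ∈ s, p ≤ M := fun p hp => Finset.le_sup (f := id) hp
  have h1 : ∑ p ∈ s, {p : ℕ | x < (p:ℝ)}.indicator (fun p => ((p * (p - 1) : ℕ) : ℝ≥0∞)⁻¹) p ≤
      ∑ p ∈ Finset.Ioc N (N + M), ENNReal.ofReal ((1:ℝ) / ((p:ℝ) * ((p:ℝ) - 1))) := by
    have h2 : ∀ p ∈ s, {p : ℕ | x < (p:ℝ)}.indicator (fun p => ((p * (p - 1) : ℕ) : ℝ≥0∞)⁻¹) p =
        if p ∈ Finset.Ioc N (N + M) then ENNReal.ofReal ((1:ℝ) / ((p:ℝ) * ((p:ℝ) - 1))) else 0 := by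
      intro p hp
      by_cases hpx : x < (p:ℝ)
      · have hNp : N < p := by
          have : (N:ℝ) ≤ x := Nat.floor_le (by linarith)
          exact_mod_cast lt_of_le_of_lt this hpx
        rw [Set.indicator_of_mem (show p ∈ {p : ℕ | x < (p:ℝ)} from hpx), if_pos]
        · have hp1 : (1:ℝ) < p := by linarith
          rw [one_div, ENNReal.ofReal_inv_of_pos (mul_pos (by linarith) (by linarith))]
          congr 1
          rw [show (p:ℝ) * ((p:ℝ) - 1) = ((p * (p - 1) : ℕ) : ℝ) by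
            rw [Nat.cast_mul, Nat.cast_sub (by omega)]; simp]
          rw [ENNReal.ofReal_natCast]
        · rw [Finset.mem_Ioc]
          exact ⟨hNp, by have := hsM p hp; omega⟩
      · rw [Set.indicator_of_notMem (show p ∉ {p : ℕ | x < (p:ℝ)} from hpx), if_neg]
        rw [Finset.mem_Ioc]
        rintro ⟨h3, -⟩
        apply hpx
        exact (Nat.floor_lt (by linarith)).1 h3
    rw [Finset.sum_congr rfl h2, ← Finset.sum_filter]
    refine Finset.sum_le_sum_of_subset ?_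
    intro p hp
    exact (Finset.mem_filter.1 hp).2
  refine h1.trans ?_
  rw [← ENNReal.ofReal_sum_of_nonneg]
  · refine ENNReal.ofReal_le_ofReal ((sum_inv_mul_pred_le N M hN1).trans ?_)
    have h3 : (0:ℝ) ≤ 1 / ((N + M : ℕ):ℝ) := by positivity
    have h4 : (1:ℝ) / N ≤ 2 / x := by
      have hN0 : (0:ℝ) < N := by exact_mod_cast hN1
      rw [div_le_div_iff₀ hN0 (by linarith)]
      linarith
    linarith
  · intro p hp
    rw [Finset.mem_Ioc] at hp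
    have : (1:ℝ) ≤ p := by exact_mod_cast (show 1 ≤ p by omega)
    exact div_nonneg one_pos.le (mul_nonneg (by linarith) (by linarith))

theorem wt_sq_le {T w : ℝ} (hT : 0 ≤ T) (hw : 0 ≤ w) :
    wt {v | v ∈ Sm (PT T) ∧ ∃ p : ℕ, p.Prime ∧ w < yy p ∧ p * (p - 1) ∣ v} ≤
      ENNReal.ofReal (Real.exp (T + 33 - Real.exp w)) := by
  classical
  set V : Set ℕ := {v | v ∈ Sm (PT T) ∧ ∃ p : ℕ, p.Prime ∧ w < yy p ∧ p * (p - 1) ∣ v} with hV
  set P : Set ℕ := {p | p.Prime ∧ w < yy p} with hP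
  have h1 : wt V ≤ ∑' i : ℕ × ℕ, ({i : ℕ × ℕ | i.1 ∈ P ∧ i.2 ∈ Sm (PT T)}).indicator
      (fun i => ((i.1 * (i.1 - 1) * i.2 : ℕ) : ℝ≥0∞)⁻¹) i := by
    refine ws_le_tsum_image (fun v => (v : ℝ≥0∞)⁻¹) V (fun i : ℕ × ℕ => i.1 * (i.1 - 1) * i.2)
      {i : ℕ × ℕ | i.1 ∈ P ∧ i.2 ∈ Sm (PT T)} ?_
    rintro v ⟨hv, p, hp, hwp, m, hm⟩
    refine ⟨(p, m), ⟨⟨hp, hwp⟩, ?_⟩, hm.symm⟩
    show m ∈ Sm (PT T)
    have hm0 : m ≠ 0 := by
      rintro rfl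
      exact hv.1 (by rw [hm, mul_zero])
    refine ⟨hm0, fun r hr => hv.2 r ?_⟩
    rw [Nat.mem_primeFactors] at hr ⊢
    exact ⟨hr.1, by rw [hm]; exact hr.2.1.mul_left _, hv.1⟩
  refine h1.trans ?_
  have h2 : ∀ i : ℕ × ℕ, ({i : ℕ × ℕ | i.1 ∈ P ∧ i.2 ∈ Sm (PT T)}).indicator
      (fun i => ((i.1 * (i.1 - 1) * i.2 : ℕ) : ℝ≥0∞)⁻¹) i ≤
      ({p : ℕ | Real.exp (Real.exp w) < (p:ℝ)}.indicator (fun p => ((p * (p - 1) : ℕ) : ℝ≥0∞)⁻¹) i.1) *
        (Sm (PT T)).indicator (fun v => (v : ℝ≥0∞)⁻¹) i.2 := by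
    intro i
    by_cases hi : i ∈ {i : ℕ × ℕ | i.1 ∈ P ∧ i.2 ∈ Sm (PT T)}
    · rw [Set.indicator_of_mem hi, Set.indicator_of_mem hi.2, Set.indicator_of_mem, inv_mul_nat]
      exact (lt_yy_iff hi.1.1.two_le hw).1 hi.1.2
    · rw [Set.indicator_of_notMem hi]; exact zero_le
  refine (ENNReal.tsum_le_tsum h2).trans ?_
  rw [ENNReal.tsum_prod (f := fun a b => ({p : ℕ | Real.exp (Real.exp w) < (p:ℝ)}.indicator
    (fun p => ((p * (p - 1) : ℕ) : ℝ≥0∞)⁻¹) a) * (Sm (PT T)).indicator (fun v => (v : ℝ≥0∞)⁻¹) b)]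
  simp_rw [ENNReal.tsum_mul_left]
  rw [ENNReal.tsum_mul_right]
  have h3 : (2:ℝ) ≤ Real.exp (Real.exp w) := by
    have h4 : (1 : ℝ) ≤ Real.exp w := Real.one_le_exp hw
    have h5 : Real.exp 1 ≤ Real.exp (Real.exp w) := Real.exp_le_exp.mpr h4
    have h6 := Real.add_one_le_exp (1 : ℝ)
    linarith
  refine (mul_le_mul' (tsum_inv_mul_pred_le h3) (wt_Sm_le hT)).trans ?_
  rw [← ENNReal.ofReal_mul (by positivity)]
  refine ENNReal.ofReal_le_ofReal ?_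
  have h4 : (2:ℝ) ≤ Real.exp 1 := by have := Real.add_one_le_exp (1 : ℝ); linarith
  calc 2 / Real.exp (Real.exp w) * Real.exp (T + 32)
      ≤ Real.exp 1 / Real.exp (Real.exp w) * Real.exp (T + 32) := by gcongr
    _ = Real.exp (T + 33 - Real.exp w) := by
        rw [← Real.exp_sub, ← Real.exp_add]; congr 1; ring

theorem wt2_sq_le {Y w : ℝ} (hY : 0 ≤ Y) (hw : 0 ≤ w) (X : ℝ) :
    wt2 {p | p ∈ Pr Y ∧ (Om ((p.1 - 1) * p.2) : ℝ) ≤ X ∧
      ∃ r : ℕ, r.Prime ∧ w < yy r ∧ r * (r - 1) ∣ (p.1 - 1) * p.2} ≤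
      ENNReal.ofReal (Real.exp (7 / 10 * X + Y + 33 - Real.exp w)) := by
  refine (wt2_le_mult _ {v | v ∈ Sm (PT Y) ∧ ∃ p : ℕ, p.Prime ∧ w < yy p ∧ p * (p - 1) ∣ v} X ?_).trans ?_
  · rintro ⟨q, d⟩ ⟨⟨hq, hd, hP, hy⟩, hX, hS⟩
    simp only at hq hd hP hy hX hS ⊢
    exact ⟨hq.two_le, hd.pos.ne', ⟨pair_v_mem hq hd hP hY hy, hS⟩, hX⟩
  · refine (mul_le_mul' le_rfl (wt_sq_le hY hw)).trans (le_of_eq ?_)
    rw [← ENNReal.ofReal_mul (Real.exp_pos _).le, ← Real.exp_add]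
    congr 2; ring

end Crest.Agent.R020.LCrude
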