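import Mathlib
import Crest.Agent.R020.LCrude
import Crest.Agent.R020.CollDefs

/-!
Row 20: crude removals for (L) and (Lc), final form: the fields `om, cardL, cardR, sqL, sqR` of
`Coll.LGood`.
-/

set_option autoImplicit false

open scoped ENNReal
open Finset

noncomputable section

namespace Crest.Agent.R020.LCrude

open Crest.Agent.R020.Coll (alv Alive)

/-- The first five fields of `Coll.LGood`. -/
structure SGood (Y : ℝ) (w N : ℕ) (q d : ℕ) : Prop where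
  om : (((q - 1) * d).primeFactorsList.length : ℝ) ≤ 20 * Y
  cardL : (alv w (q * rr d)).card ≤ N
  cardR : (alv w (rr ((q - 1) * d))).card ≤ N
  sqL : ∀ p : ℕ, p.Prime → (w : ℝ) < yy p → ¬ p ^ 2 ∣ q * rr d
  sqR : ∀ p : ℕ, p.Prime → (w : ℝ) < yy p → ¬ p ^ 2 ∣ rr ((q - 1) * d)

theorem Pm_le_self {n : ℕ} (hn : n ≠ 0) : Pm n ≤ n := by
  rw [Pm_le_iff hn (Nat.pos_of_ne_zero hn)]
  intro p _ hpn
  exact Nat.le_of_dvd (Nat.pos_of_ne_zero hn) hpn

theorem lt_yy_of_alive {w q : ℕ} (hq : q.Prime) (h : Alive w q) : (w:ℝ) < yy q := by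
  unfold Coll.Alive at h
  refine h.trans_le (yy_mono ?_)
  have := hq.two_le
  exact (Pm_le_self (show q - 1 ≠ 0 by omega)).trans (by omega)

/-- sum over distinct primes is at most the sum with multiplicity. -/
theorem sum_primeFactors_le_Sy (n : ℕ) : ∑ p ∈ n.primeFactors, yy p ≤ Sy n := by
  unfold Sy
  have h1 : ∑ p ∈ n.primeFactors, yy p = ((n.primeFactorsList.dedup).map yy).sum := by
    unfold Nat.primeFactors
    rw [List.sum_toFinset _ (List.nodup_dedup _) |>.symm]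
    congr 1
    ext x
    simp
  rw [h1]
  exact List.Sublist.sum_le_sum ((List.dedup_sublist _).map yy) (fun a ha => by
    obtain ⟨p, -, rfl⟩ := List.mem_map.1 ha
    exact yy_nonneg p)

theorem card_alv_mul_le (w n : ℕ) : ((alv w n).card : ℝ) * w ≤ Sy n := by
  classical
  refine le_trans ?_ (sum_primeFactors_le_Sy n)
  have h1 : ∑ p ∈ alv w n, yy p ≤ ∑ p ∈ n.primeFactors, yy p := by
    refine Finset.sum_le_sum_of_subset_of_nonneg ?_ fun p _ _ => yy_nonneg p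
    unfold Coll.alv
    exact Finset.filter_subset _ _
  refine le_trans ?_ h1
  rw [← nsmul_eq_mul]
  refine Finset.card_nsmul_le_sum _ _ _ fun p hp => ?_
  unfold Coll.alv at hp
  rw [Finset.mem_filter] at hp
  exact (lt_yy_of_alive (Nat.prime_of_mem_primeFactors hp.1) hp.2).le

theorem card_alv_le {Y : ℝ} (hY : 1000 ≤ Y) {n : ℕ} (h : Sy n ≤ 200 * Y) :
    (alv ⌊√Y⌋₊ n).card ≤ ⌈210 * √Y⌉₊ := by
  have h1 := card_alv_mul_le ⌊√Y⌋₊ n
  set s := √Y with hs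
  have hs0 : 0 ≤ s := Real.sqrt_nonneg Y
  have hss : s * s = Y := Real.mul_self_sqrt (by linarith)
  have hs30 : 30 ≤ s := by
    by_contra hlt
    push Not at hlt
    nlinarith
  have hfl : s - 1 ≤ (⌊s⌋₊ : ℝ) := by
    have := Nat.lt_floor_add_one s
    linarith
  by_contra hcon
  push Not at hcon
  have h2 : 210 * s < ((alv ⌊s⌋₊ n).card : ℝ) := by
    have h3 : (⌈210 * s⌉₊ : ℝ) < ((alv ⌊s⌋₊ n).card : ℝ) := by exact_mod_cast hcon
    exact lt_of_le_of_lt (Nat.le_ceil _) h3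
  have h4 : 210 * s * (s - 1) ≤ ((alv ⌊s⌋₊ n).card : ℝ) * (⌊s⌋₊ : ℝ) :=
    mul_le_mul h2.le hfl (by linarith) (by positivity)
  nlinarith

theorem not_sq_dvd {n v w : ℕ} (hn : n.totient = v)
    (h : ¬ ∃ r : ℕ, r.Prime ∧ (w:ℝ) < yy r ∧ r * (r - 1) ∣ v) (p : ℕ) (hp : p.Prime)
    (hw : (w : ℝ) < yy p) : ¬ p ^ 2 ∣ n := by
  intro hd
  refine h ⟨p, hp, hw, ?_⟩
  have h1 := Nat.totient_dvd_of_dvd hd
  rw [Nat.totient_prime_pow hp (by norm_num), hn] at h1
  simpa using h1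

/-- **S0**, plain version. -/
theorem exists_crude : ∃ Y0 : ℝ, ∀ Y : ℝ, Y0 ≤ Y →
    wt2 {p | p ∈ Pr Y ∧ ¬ SGood Y ⌊√Y⌋₊ ⌈210 * √Y⌉₊ p.1 p.2} ≤
      ENNReal.ofReal (Real.exp (-(4 * Y))) := by
  obtain ⟨C1, hC1, hS1⟩ := exists_wt2_Sy_left
  obtain ⟨C2, hC2, hS2⟩ := exists_wt2_Sy_right
  refine ⟨max 1000 (max C1 C2), fun Y hY => ?_⟩
  have hY1 : 1000 ≤ Y := (le_max_left _ _).trans hY
  have hYC1 : C1 ≤ Y := ((le_max_left _ _).trans (le_max_right _ _)).trans hY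
  have hYC2 : C2 ≤ Y := ((le_max_right _ _).trans (le_max_right _ _)).trans hY
  have hY0 : 0 ≤ Y := by linarith
  set w : ℕ := ⌊√Y⌋₊ with hw
  set A1 : Set (ℕ × ℕ) := {p | p ∈ Pr Y ∧ 20 * Y ≤ Om ((p.1 - 1) * p.2)} with hA1
  set A2 : Set (ℕ × ℕ) := {p | p ∈ Pr Y ∧ (Om ((p.1 - 1) * p.2) : ℝ) ≤ 20 * Y ∧
    100 * Y ≤ Sy (p.1 * rr p.2)} with hA2
  set A3 : Set (ℕ × ℕ) := {p | p ∈ Pr Y ∧ (Om ((p.1 - 1) * p.2) : ℝ) ≤ 20 * Y ∧
    200 * Y ≤ Sy (rr ((p.1 - 1) * p.2))} with hA3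
  set A4 : Set (ℕ × ℕ) := {p | p ∈ Pr Y ∧ (Om ((p.1 - 1) * p.2) : ℝ) ≤ 20 * Y ∧
      ∃ r : ℕ, r.Prime ∧ (w:ℝ) < yy r ∧ r * (r - 1) ∣ (p.1 - 1) * p.2} with hA4
  have hcov : wt2 {p | p ∈ Pr Y ∧ ¬ SGood Y w ⌈210 * √Y⌉₊ p.1 p.2} ≤
      wt2 A1 + wt2 A2 + wt2 A3 + wt2 A4 := by
    unfold wt2
    rw [← ENNReal.tsum_add, ← ENNReal.tsum_add, ← ENNReal.tsum_add]
    refine ENNReal.tsum_le_tsum fun p => ?_
    by_cases hp : p ∈ {p | p ∈ Pr Y ∧ ¬ SGood Y w ⌈210 * √Y⌉₊ p.1 p.2}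
    · rw [Set.indicator_of_mem hp]
      by_cases h1 : p ∈ A1
      · rw [Set.indicator_of_mem h1]
        exact le_trans (le_trans le_self_add le_self_add) le_self_add
      by_cases h2 : p ∈ A2
      · rw [Set.indicator_of_mem h2]
        exact le_trans (le_trans le_add_self le_self_add) le_self_add
      by_cases h3 : p ∈ A3
      · rw [Set.indicator_of_mem h3]
        exact le_trans le_add_self le_self_add
      by_cases h4 : p ∈ A4
      · rw [Set.indicator_of_mem h4]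
        exact le_add_self
      exfalso
      apply hp.2
      have hPr := hp.1
      obtain ⟨hq, hd, hP, hy⟩ := hPr
      have hom : (Om ((p.1 - 1) * p.2) : ℝ) ≤ 20 * Y := by
        by_contra hcon
        push Not at hcon
        exact h1 ⟨hp.1, hcon.le⟩
      have hSL : Sy (p.1 * rr p.2) ≤ 200 * Y := by
        by_contra hcon
        push Not at hcon
        exact h2 ⟨hp.1, hom, by linarith⟩
      have hSR : Sy (rr ((p.1 - 1) * p.2)) ≤ 200 * Y := by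
        by_contra hcon
        push Not at hcon
        exact h3 ⟨hp.1, hom, hcon.le⟩
      have hsq : ¬ ∃ r : ℕ, r.Prime ∧ (w:ℝ) < yy r ∧ r * (r - 1) ∣ (p.1 - 1) * p.2 :=
        fun h => h4 ⟨hp.1, hom, h⟩
      exact ⟨hom, card_alv_le hY1 hSL, card_alv_le hY1 hSR,
        not_sq_dvd (pair_totient hq hd hP) hsq,
        not_sq_dvd (totient_rr (pair_isTot hq hd hP)) hsq⟩
    · rw [Set.indicator_of_notMem hp]; exact zero_le
  refine hcov.trans ?_
  have b1 : wt2 A1 ≤ ENNReal.ofReal (Real.exp (-(4 * Y) - 2)) := by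
    refine (wt2_Om_large hY0 (20 * Y)).trans ?_
    refine ENNReal.ofReal_le_ofReal (Real.exp_le_exp.2 ?_)
    linarith
  have b2 : wt2 A2 ≤ ENNReal.ofReal (Real.exp (-(4 * Y) - 2)) := by
    refine (hS1 Y (20 * Y) (100 * Y) hY0).trans ?_
    refine ENNReal.ofReal_le_ofReal (Real.exp_le_exp.2 ?_)
    linarith
  have b3 : wt2 A3 ≤ ENNReal.ofReal (Real.exp (-(4 * Y) - 2)) := by
    refine (hS2 Y (20 * Y) (200 * Y) hY0).trans ?_
    refine ENNReal.ofReal_le_ofReal (Real.exp_le_exp.2 ?_)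
    linarith
  have b4 : wt2 A4 ≤ ENNReal.ofReal (Real.exp (-(4 * Y) - 2)) := by
    refine (wt2_sq_le hY0 (Nat.cast_nonneg w) (20 * Y)).trans ?_
    refine ENNReal.ofReal_le_ofReal (Real.exp_le_exp.2 ?_)
    set s := √Y with hs
    have hs0 : 0 ≤ s := Real.sqrt_nonneg Y
    have hss : s * s = Y := Real.mul_self_sqrt (by linarith)
    have hs30 : 30 ≤ s := by
      by_contra hlt
      push Not at hlt
      nlinarith
    have hfl : s - 1 ≤ (w : ℝ) := by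
      have := Nat.lt_floor_add_one s
      linarith
    have h5 : Real.exp (s - 1) ≤ Real.exp w := Real.exp_le_exp.2 hfl
    -- exp (s - 1) ≥ (s-1)^4/24 ≥ 20 s^2
    have h6 : (s - 1) ^ 4 / 24 ≤ Real.exp (s - 1) := by
      have := Real.pow_div_factorial_le_exp (s - 1) (by linarith) 4
      have h24 : ((Nat.factorial 4 : ℕ) : ℝ) = 24 := by norm_num [Nat.factorial]
      rw [h24] at this
      exact this
    have h7 : (s - 1) ^ 2 ≥ 9 / 10 * s ^ 2 := by nlinarith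
    have h8 : (s - 1) ^ 4 ≥ (9 / 10 * s ^ 2) ^ 2 := by
      have h9 : (s - 1) ^ 4 = ((s - 1) ^ 2) ^ 2 := by ring
      rw [h9]
      exact pow_le_pow_left₀ (by positivity) h7 2
    have h10 : (900:ℝ) ≤ s ^ 2 := by nlinarith
    have h11 : (9 / 10 * s ^ 2) ^ 2 ≥ 24 * (20 * s ^ 2) := by nlinarith
    have h12 : 20 * Y ≤ Real.exp w := by
      have : s ^ 2 = Y := by rw [← hss]; ring
      rw [this] at h8 h11
      linarith
    linarith
  calc wt2 A1 + wt2 A2 + wt2 A3 + wt2 A4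
      ≤ ENNReal.ofReal (Real.exp (-(4 * Y) - 2)) + ENNReal.ofReal (Real.exp (-(4 * Y) - 2)) +
        ENNReal.ofReal (Real.exp (-(4 * Y) - 2)) + ENNReal.ofReal (Real.exp (-(4 * Y) - 2)) := by
        gcongr
    _ = ENNReal.ofReal (4 * Real.exp (-(4 * Y) - 2)) := by
        rw [← ENNReal.ofReal_add (by positivity) (by positivity),
          ← ENNReal.ofReal_add (by positivity) (by positivity),
          ← ENNReal.ofReal_add (by positivity) (by positivity)]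
        congr 1; ring
    _ ≤ ENNReal.ofReal (Real.exp (-(4 * Y))) := by
        refine ENNReal.ofReal_le_ofReal ?_
        have h4 : (4:ℝ) ≤ Real.exp 2 := by
          have h5 := Real.exp_one_gt_d9
          have h6 : Real.exp 2 = Real.exp 1 * Real.exp 1 := by rw [← Real.exp_add]; norm_num
          rw [h6]; nlinarith
        calc 4 * Real.exp (-(4 * Y) - 2) ≤ Real.exp 2 * Real.exp (-(4 * Y) - 2) := by gcongr
          _ = Real.exp (-(4 * Y)) := by rw [← Real.exp_add]; congr 1; ring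

/-- `#A ≤ x · wt2 A` if all `(q-1) d ≤ x`. -/
theorem count_le_wt2 (A : Set (ℕ × ℕ)) {x : ℝ}
    (hA : ∀ p ∈ A, (p.1 - 1) * p.2 ≠ 0 ∧ (((p.1 - 1) * p.2 : ℕ) : ℝ) ≤ x) :
    ∑' p : ℕ × ℕ, A.indicator (fun _ => (1 : ℝ≥0∞)) p ≤ ENNReal.ofReal x * wt2 A := by
  unfold wt2
  rw [← ENNReal.tsum_mul_left]
  refine ENNReal.tsum_le_tsum fun p => ?_
  by_cases hp : p ∈ A
  · rw [Set.indicator_of_mem hp, Set.indicator_of_mem hp]
    obtain ⟨h0, hx⟩ := hA p hp
    have h1 : (((p.1 - 1) * p.2 : ℕ) : ℝ≥0∞) ≤ ENNReal.ofReal x := by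
      rw [← ENNReal.ofReal_natCast]
      exact ENNReal.ofReal_le_ofReal hx
    calc (1 : ℝ≥0∞) = (((p.1 - 1) * p.2 : ℕ) : ℝ≥0∞) * (((p.1 - 1) * p.2 : ℕ) : ℝ≥0∞)⁻¹ := by
          rw [ENNReal.mul_inv_cancel]
          · exact_mod_cast h0
          · exact ENNReal.natCast_ne_top _
      _ ≤ ENNReal.ofReal x * (((p.1 - 1) * p.2 : ℕ) : ℝ≥0∞)⁻¹ := by gcongr
  · rw [Set.indicator_of_notMem hp, Set.indicator_of_notMem hp, mul_zero]

theorem yy_le_of_le {x : ℝ} (hx : 3 ≤ x) {q d : ℕ} (hq : q.Prime) (hd : 0 < d)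
    (hv : (((q - 1) * d : ℕ) : ℝ) ≤ x) (hB : 0 ≤ Real.log (Real.log x)) :
    yy q ≤ Real.log (Real.log x) + 1 := by
  have hq2 := hq.two_le
  have h1 : ((q - 1 : ℕ) : ℝ) ≤ x := by
    refine le_trans ?_ hv
    exact_mod_cast Nat.le_mul_of_pos_right (q - 1) hd
  have h2 : (q:ℝ) ≤ x + 1 := by
    rw [Nat.cast_sub (by omega)] at h1
    push_cast at h1
    linarith
  have hlx : 1 ≤ Real.log x := by
    rw [Real.le_log_iff_exp_le (by linarith)]
    have := Real.exp_one_lt_d9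
    linarith
  unfold yy
  refine max_le (by linarith) ?_
  have hq2' : (2:ℝ) ≤ q := by exact_mod_cast hq2
  have hlq : 0 < Real.log q := Real.log_pos (by linarith)
  have h3 : Real.log q ≤ Real.exp 1 * Real.log x := by
    have h4 : Real.log q ≤ Real.log (x + 1) := Real.log_le_log (by linarith) h2
    have h5 : Real.log (x + 1) ≤ Real.log (x ^ 2) := Real.log_le_log (by linarith) (by nlinarith)
    rw [Real.log_pow] at h5
    push_cast at h5
    have h6 : (2:ℝ) ≤ Real.exp 1 := by have := Real.add_one_le_exp (1 : ℝ); linarith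
    nlinarith
  calc Real.log (Real.log q) ≤ Real.log (Real.exp 1 * Real.log x) := Real.log_le_log hlq h3
    _ = Real.log (Real.log x) + 1 := by
        rw [Real.log_mul (Real.exp_pos _).ne' (by linarith), Real.log_exp]; ring

/-- **S0**, counting version, `Y = log log x + 1`. -/
theorem exists_crude_count : ∃ B0 : ℝ, ∀ x : ℝ, 3 ≤ x → B0 ≤ Real.log (Real.log x) →
    ∀ Y : ℝ, Y = Real.log (Real.log x) + 1 →
    ∑' p : ℕ × ℕ, ({p : ℕ × ℕ | p.1.Prime ∧ IsTot p.2 ∧ Pm (rr p.2) < p.1 ∧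
        (((p.1 - 1) * p.2 : ℕ) : ℝ) ≤ x ∧
        ¬ SGood Y ⌊√Y⌋₊ ⌈210 * √Y⌉₊ p.1 p.2}).indicator (fun _ => (1 : ℝ≥0∞)) p ≤
      ENNReal.ofReal (x / Real.log x * Real.exp (-Real.log (Real.log x))) := by
  obtain ⟨Y0, h⟩ := exists_crude
  refine ⟨max 0 Y0, fun x hx hB Y hY => ?_⟩
  have hB0 : 0 ≤ Real.log (Real.log x) := (le_max_left _ _).trans hB
  have hBY : Y0 ≤ Real.log (Real.log x) := (le_max_right _ _).trans hB
  set A : Set (ℕ × ℕ) := {p : ℕ × ℕ | p.1.Prime ∧ IsTot p.2 ∧ Pm (rr p.2) < p.1 ∧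
        (((p.1 - 1) * p.2 : ℕ) : ℝ) ≤ x ∧ ¬ SGood Y ⌊√Y⌋₊ ⌈210 * √Y⌉₊ p.1 p.2} with hA
  have h1 := count_le_wt2 A (x := x) (fun p hp => ⟨pair_pos hp.1 hp.2.1, hp.2.2.2.1⟩)
  refine h1.trans ?_
  have h2 : wt2 A ≤ ENNReal.ofReal (Real.exp (-(4 * Y))) := by
    refine le_trans ?_ (h Y (by rw [hY]; linarith))
    unfold wt2
    refine ENNReal.tsum_le_tsum fun p => ?_
    refine Set.indicator_le_indicator_of_subset ?_ (fun _ => zero_le) p
    rintro p ⟨hq, hd, hP, hv, hs⟩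
    exact ⟨⟨hq, hd, hP, by rw [hY]; exact yy_le_of_le hx hq hd.pos hv hB0⟩, hs⟩
  refine (mul_le_mul' le_rfl h2).trans ?_
  rw [← ENNReal.ofReal_mul (by linarith)]
  refine ENNReal.ofReal_le_ofReal ?_
  have hlx : 0 < Real.log x := Real.log_pos (by linarith)
  have h3 : Real.exp (-Real.log (Real.log x)) = (Real.log x)⁻¹ := by
    rw [Real.exp_neg, Real.exp_log hlx]
  have h4 : Real.exp (-(4 * Y)) ≤ Real.exp (-Real.log (Real.log x)) * Real.exp (-Real.log (Real.log x)) := by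
    rw [← Real.exp_add]
    refine Real.exp_le_exp.2 ?_
    rw [hY]; linarith
  calc x * Real.exp (-(4 * Y)) ≤ x * (Real.exp (-Real.log (Real.log x)) * Real.exp (-Real.log (Real.log x))) := by
        gcongr
    _ = x / Real.log x * Real.exp (-Real.log (Real.log x)) := by
        nth_rewrite 1 [h3]; rw [div_eq_mul_inv]; ring

end Crest.Agent.R020.LCrude
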