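import Crest.Agent.R020.LStatF
import Crest.Agent.R020.LCrude2

/-!
Row 20 (helper661): the field `stat` of `LGood` in the shape used by the final assembly of (L), (Lc).

* `alive_of_om`: `q` is alive;
* `statPlain`, `statCount`.
-/

set_option autoImplicit false

open scoped ENNReal
open Filter Topology

noncomputable section

namespace Crest.Agent.R020.LS

open Coll (alv deadPart redv kap ell Alive)

lemma le_pow_of_primeFactorsList {n P : ℕ} (hn : n ≠ 0) (h : ∀ p ∈ n.primeFactorsList, p ≤ P) :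
    n ≤ P ^ n.primeFactorsList.length := by
  conv_lhs => rw [← Nat.prod_primeFactorsList hn]
  exact List.prod_le_pow_card _ _ h

/-- `q` is alive if `(q-1)d` has few prime factors. -/
lemma alive_of_om : ∃ Y0 : ℝ, 1 ≤ Y0 ∧ ∀ Y : ℝ, Y0 ≤ Y → ∀ q d : ℕ, q.Prime → d ≠ 0 →
    (((q - 1) * d).primeFactorsList.length : ℝ) ≤ 20 * Y → Y ^ (19 / 20 : ℝ) ≤ yy q →
    Alive ⌊Real.sqrt Y⌋₊ q := by
  have hev : ∀ᶠ Y : ℝ in atTop, (2 : ℝ) < Y ^ (45 / 100 : ℝ) :=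
    (tendsto_rpow_atTop (by norm_num : (0 : ℝ) < 45 / 100)).eventually_gt_atTop _
  have hev2 : ∀ᶠ Y : ℝ in atTop, (8 : ℝ) ≤ Y ^ (1 / 4 : ℝ) :=
    (tendsto_rpow_atTop (by norm_num : (0 : ℝ) < 1 / 4)).eventually_ge_atTop _
  obtain ⟨Y0, hY0⟩ := (hev.and hev2).exists_forall_of_atTop
  refine ⟨max 1 Y0, le_max_left _ _, ?_⟩
  intro Y hY q d hq hd hom hyq
  have hY1 : 1 ≤ Y := (le_max_left _ _).trans hY
  have hYpos : 0 < Y := by linarith
  obtain ⟨h45, h14⟩ := hY0 Y ((le_max_right _ _).trans hY)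
  have hq2 := hq.two_le
  have hq1 : q - 1 ≠ 0 := by omega
  -- `Y^(19/20) > 2 √Y`
  have hsq : Real.sqrt Y = Y ^ (1 / 2 : ℝ) := Real.sqrt_eq_rpow Y
  have h1 : 2 * Real.sqrt Y < Y ^ (19 / 20 : ℝ) := by
    have h2 : Y ^ (19 / 20 : ℝ) = Y ^ (45 / 100 : ℝ) * Y ^ (1 / 2 : ℝ) := by
      rw [← Real.rpow_add hYpos]; norm_num
    rw [h2, hsq]
    exact mul_lt_mul_of_pos_right h45 (Real.rpow_pos_of_pos hYpos _)
  -- `log (40 Y) ≤ √Y`
  have h2 : Real.log (40 * Y) ≤ Real.sqrt Y := by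
    rw [Real.log_mul (by norm_num) hYpos.ne']
    have h3 : Real.log 40 ≤ 4 := by
      have h4 : (40 : ℝ) ≤ Real.exp 4 := by
        have h5 : Real.exp 4 = Real.exp 1 ^ 4 := by
          rw [← Real.exp_nat_mul]; norm_num
        rw [h5]
        have h6 := Real.exp_one_gt_d9
        have h7 : (2.7 : ℝ) ^ 4 ≤ Real.exp 1 ^ 4 := pow_le_pow_left₀ (by norm_num) (by linarith) 4
        norm_num at h7
        linarith
      rw [Real.log_le_iff_le_exp (by norm_num)]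
      exact h4
    have h4 := Real.log_le_rpow_div hYpos.le (show (0 : ℝ) < 1 / 4 by norm_num)
    have h5 : Real.sqrt Y = Y ^ (1 / 4 : ℝ) * Y ^ (1 / 4 : ℝ) := by
      rw [hsq, ← Real.rpow_add hYpos]; norm_num
    rw [h5]
    nlinarith
  -- `yy q > 0`
  have hyq0 : 0 < yy q := by
    have : 0 ≤ Real.sqrt Y := Real.sqrt_nonneg Y
    linarith
  have hlq := Coll.exp_yy hyq0
  have hlq0 : 0 < Real.log q := by rw [← hlq]; exact Real.exp_pos _
  have hyq' : yy q = Real.log (Real.log q) := Coll.yy_eq hyq0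
  have hsY : 1 ≤ Real.sqrt Y := Real.one_le_sqrt.mpr hY1
  have hq3 : 3 ≤ q := Coll.two_lt_of_yy_pos hyq0
  have hq3r : (3 : ℝ) ≤ q := by exact_mod_cast hq3
  -- `log (q-1) ≥ log q / 2`
  have h6 : Real.log q / 2 ≤ Real.log ((q - 1 : ℕ) : ℝ) := by
    rw [Nat.cast_sub hq.one_le, Nat.cast_one]
    have h7 : (q : ℝ) ≤ ((q : ℝ) - 1) ^ 2 := by nlinarith
    have h8 := Real.log_le_log (by linarith) h7
    rw [Real.log_pow] at h8
    push_cast at h8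
    linarith
  -- `log (q-1) ≤ 20 Y log P`
  set P := Pm (q - 1) with hP
  have hPp : ∀ p ∈ (q - 1).primeFactorsList, p ≤ P := by
    intro p hp
    rw [Nat.mem_primeFactorsList hq1] at hp
    have h9 : 1 ≤ P := by
      rw [hP]
      unfold Pm
      rcases hd' : dl (q - 1) with _ | ⟨a, t⟩
      · simp
      · simp only [List.headD_cons]
        have : a ∈ dl (q - 1) := by rw [hd']; simp
        exact (prime_of_mem_dl this).one_le
    exact (Pm_le_iff hq1 h9).mp le_rfl p hp.1 hp.2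
  have h10 := le_pow_of_primeFactorsList hq1 hPp
  have hq1pos : (0 : ℝ) < ((q - 1 : ℕ) : ℝ) := by exact_mod_cast Nat.pos_of_ne_zero hq1
  have h11 : Real.log ((q - 1 : ℕ) : ℝ) ≤ (q - 1).primeFactorsList.length * Real.log P := by
    have h12 : ((q - 1 : ℕ) : ℝ) ≤ (P : ℝ) ^ (q - 1).primeFactorsList.length := by
      exact_mod_cast h10
    have h13 := Real.log_le_log hq1pos h12
    rwa [Real.log_pow] at h13
  have hlP0 : 0 ≤ Real.log (P : ℝ) := Real.log_natCast_nonneg P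
  have h12 : ((q - 1).primeFactorsList.length : ℝ) ≤ 20 * Y := by
    refine le_trans ?_ hom
    have h13 := (Nat.perm_primeFactorsList_mul hq1 hd).length_eq
    rw [List.length_append] at h13
    exact_mod_cast (by omega : (q - 1).primeFactorsList.length ≤
      ((q - 1) * d).primeFactorsList.length)
  have h13 : Real.log q / 2 ≤ 20 * Y * Real.log P :=
    h6.trans (h11.trans (mul_le_mul_of_nonneg_right h12 hlP0))
  have h14' : Real.log q / (40 * Y) ≤ Real.log P := by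
    rw [div_le_iff₀ (by positivity)]
    linarith
  have h15 : yy q - Real.log (40 * Y) ≤ yy P := by
    rw [hyq', ← Real.log_div hlq0.ne' (by positivity)]
    refine le_trans (Real.log_le_log (by positivity) h14') (log_log_le_yy P)
  unfold Coll.Alive
  have h16 : (⌊Real.sqrt Y⌋₊ : ℝ) ≤ Real.sqrt Y := Nat.floor_le (Real.sqrt_nonneg _)
  linarith

lemma params {Y : ℝ} (hY : 4 ≤ Y) : Real.sqrt Y / 2 ≤ (⌊Real.sqrt Y⌋₊ : ℝ) ∧
    (⌊Real.sqrt Y⌋₊ : ℝ) ≤ Real.sqrt Y ∧ (⌈210 * Real.sqrt Y⌉₊ : ℝ) ≤ 211 * Real.sqrt Y ∧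
    Y ≤ ((⌈Y⌉₊ + 1 : ℕ) : ℝ) ∧ ((⌈Y⌉₊ + 1 : ℕ) : ℝ) ≤ 3 * Y ∧
    Y ^ (9 / 10 : ℝ) ≤ Y ^ (91 / 100 : ℝ) := by
  have hs : 2 ≤ Real.sqrt Y := by
    apply Real.le_sqrt_of_sq_le
    linarith
  refine ⟨?_, Nat.floor_le (Real.sqrt_nonneg _), ?_, ?_, ?_, ?_⟩
  · have := Nat.lt_floor_add_one (Real.sqrt Y)
    linarith
  · have := Nat.ceil_lt_add_one (show 0 ≤ 210 * Real.sqrt Y by positivity)
    linarith
  · have := Nat.le_ceil Y
    push_cast
    linarith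
  · have := Nat.ceil_lt_add_one (show 0 ≤ Y by linarith)
    push_cast
    linarith
  · exact Real.rpow_le_rpow_of_exponent_le (by linarith) (by norm_num)

/-- **S4 for (L)**. -/
theorem statPlain : ∃ Y0 : ℝ, ∀ Y : ℝ, Y0 ≤ Y →
    wt2 {p | p ∈ LCrude.Pr Y ∧ FF aa p.2 + Y ^ (19 / 20 : ℝ) ≤ yy p.1 ∧
      LCrude.SGood Y ⌊Real.sqrt Y⌋₊ ⌈210 * Real.sqrt Y⌉₊ p.1 p.2 ∧
      ¬ Coll.LGood Y ⌊Real.sqrt Y⌋₊ ⌈210 * Real.sqrt Y⌉₊ (⌈Y⌉₊ + 1) (Y ^ (91 / 100 : ℝ)) p.1 p.2} ≤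
      ENNReal.ofReal (Real.exp (-Y ^ (7 / 10 : ℝ))) := by
  obtain ⟨Y1, hY1, h1⟩ := stat_bad 211 (by norm_num)
  obtain ⟨Y2, hY2, h2⟩ := alive_of_om
  refine ⟨max 4 (max Y1 Y2), ?_⟩
  intro Y hY
  have hY4 : 4 ≤ Y := (le_max_left _ _).trans hY
  have hYY1 : Y1 ≤ Y := (le_max_left _ _).trans ((le_max_right _ _).trans hY)
  have hYY2 : Y2 ≤ Y := (le_max_right _ _).trans ((le_max_right _ _).trans hY)
  obtain ⟨hw1, hw2, hN, hJ1, hJ2, hF⟩ := params hY4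
  have h3 := h1 Y hYY1 ⌊Real.sqrt Y⌋₊ ⌈210 * Real.sqrt Y⌉₊ (⌈Y⌉₊ + 1) (Y ^ (91 / 100 : ℝ))
    hw1 hw2 hN hJ1 hJ2 hF
  refine le_trans ?_ (h3.trans (ENNReal.ofReal_le_ofReal (Real.exp_le_exp.mpr (neg_le_neg
    (Real.rpow_le_rpow_of_exponent_le (by linarith) (by norm_num))))))
  unfold wt2
  refine ENNReal.tsum_le_tsum fun p => ?_
  refine Set.indicator_le_indicator_of_subset ?_ (fun _ => zero_le) p
  rintro ⟨q, d⟩ ⟨⟨hq, hd, hP, hy⟩, hFF, hS, hL⟩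
  simp only at hq hd hP hy hFF hS hL
  have hF0 : 0 ≤ FF aa d := FF_nonneg (fun i => by linarith [third_le_aa i]) d
  have hpow : 0 ≤ Y ^ (19 / 20 : ℝ) := by positivity
  refine ⟨hq, hd, hP, h2 Y hYY2 q d hq hd.pos.ne' hS.om (by linarith), hy, ?_, ?_, ?_⟩
  · simp only
    linarith
  · intro p hp hwp hdvd
    exact hS.sqL p hp hwp (hdvd.mul_left q)
  · intro hst
    exact hL (lgood_iff.mpr ⟨⟨hS.om, hS.cardL, hS.cardR, hS.sqL, hS.sqR⟩, hst⟩)

/-- **S4 for (Lc)**. -/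
theorem statCount : ∃ B0 : ℝ, ∀ x : ℝ, 3 ≤ x → B0 ≤ Real.log (Real.log x) →
    ∀ Y : ℝ, Y = Real.log (Real.log x) + 1 →
    ∑' p : ℕ × ℕ, ({p : ℕ × ℕ | p.1.Prime ∧ IsTot p.2 ∧ Pm (rr p.2) < p.1 ∧
      Real.sqrt x < p.1 ∧ (((p.1 - 1) * p.2 : ℕ) : ℝ) ≤ x ∧
      FF aa p.2 + Real.log (Real.log x) ^ (19 / 20 : ℝ) ≤ Real.log (Real.log x) ∧
      LCrude.SGood Y ⌊Real.sqrt Y⌋₊ ⌈210 * Real.sqrt Y⌉₊ p.1 p.2 ∧
      ¬ Coll.LGood Y ⌊Real.sqrt Y⌋₊ ⌈210 * Real.sqrt Y⌉₊ (⌈Y⌉₊ + 1) (Y ^ (91 / 100 : ℝ)) p.1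
        p.2}).indicator (fun _ => (1 : ℝ≥0∞)) p ≤
      ENNReal.ofReal (x / Real.log x * Real.exp (-Real.log (Real.log x) ^ (7 / 10 : ℝ))) := by
  obtain ⟨Y1, hY1, h1⟩ := stat_bad_count 211 (by norm_num)
  obtain ⟨Y2, hY2, h2⟩ := alive_of_om
  have hev : ∀ᶠ Y : ℝ in atTop, (2 : ℝ) ≤ Y ^ (1 / 20 : ℝ) :=
    (tendsto_rpow_atTop (by norm_num : (0 : ℝ) < 1 / 20)).eventually_ge_atTop _
  obtain ⟨Y3, hY3⟩ := hev.exists_forall_of_atTop
  refine ⟨max 4 (max Y1 (max Y2 Y3)), ?_⟩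
  intro x hx3 hB Y hY
  set B := Real.log (Real.log x) with hBdef
  have hB4 : 4 ≤ B := (le_max_left _ _).trans hB
  have hBY1 : Y1 ≤ B := (le_max_left _ _).trans ((le_max_right _ _).trans hB)
  have hBY2 : Y2 ≤ B := (le_max_left _ _).trans ((le_max_right _ _).trans
    ((le_max_right _ _).trans hB))
  have hBY3 : Y3 ≤ B := (le_max_right _ _).trans ((le_max_right _ _).trans
    ((le_max_right _ _).trans hB))
  have hY4 : 4 ≤ Y := by linarith
  have hYpos : 0 < Y := by linarith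
  have hx0 : 0 < x := by linarith
  have hlx : 0 < Real.log x := Real.log_pos (by linarith)
  obtain ⟨hw1, hw2, hN, hJ1, hJ2, hF⟩ := params hY4
  have h3 := h1 x Y hx3 (by linarith) (by linarith) (by linarith) ⌊Real.sqrt Y⌋₊
    ⌈210 * Real.sqrt Y⌉₊ (⌈Y⌉₊ + 1) (Y ^ (91 / 100 : ℝ)) hw1 hw2 hN hJ1 hJ2 hF
  refine le_trans ?_ (h3.trans (ENNReal.ofReal_le_ofReal ?_))
  · refine ENNReal.tsum_le_tsum fun p => ?_
    refine Set.indicator_le_indicator_of_subset ?_ (fun _ => zero_le) p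
    rintro ⟨q, d⟩ ⟨hq, hd, hP, hqx, hv, hFF, hS, hL⟩
    simp only at hq hd hP hqx hv hFF hS hL
    have hF0 : 0 ≤ FF aa d := FF_nonneg (fun i => by linarith [third_le_aa i]) d
    have hpow : 0 ≤ B ^ (19 / 20 : ℝ) := by positivity
    -- `yy q ≥ B - log 2`
    have hyq : B - Real.log 2 ≤ yy q := by
      have h4 : Real.log x / 2 ≤ Real.log q := by
        have h5 : Real.log (Real.sqrt x) ≤ Real.log q :=
          Real.log_le_log (Real.sqrt_pos.mpr hx0) hqx.le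
        rwa [Real.log_sqrt hx0.le] at h5
      have h6 : Real.log (Real.log x / 2) ≤ Real.log (Real.log q) :=
        Real.log_le_log (by positivity) h4
      rw [Real.log_div hlx.ne' (by norm_num)] at h6
      exact h6.trans (log_log_le_yy q)
    have hyq2 : Y ^ (19 / 20 : ℝ) ≤ yy q := by
      have h4 : 2 ≤ Y ^ (1 / 20 : ℝ) := hY3 Y (by linarith)
      have h5 : Y = Y ^ (1 / 20 : ℝ) * Y ^ (19 / 20 : ℝ) := by
        rw [← Real.rpow_add hYpos]; norm_num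
      have h6 : 2 * Y ^ (19 / 20 : ℝ) ≤ Y := by
        have h7 : 0 ≤ Y ^ (19 / 20 : ℝ) := by positivity
        have h8 := mul_le_mul_of_nonneg_right h4 h7
        rw [← h5] at h8
        exact h8
      have := Real.log_two_lt_d9
      linarith
    refine ⟨⟨hq, hd, hP, h2 Y (by linarith) q d hq hd.pos.ne' hS.om hyq2, ?_, ?_, ?_, ?_⟩, hqx, hv⟩
    · rw [hY]
      exact LCrude.yy_le_of_le hx3 hq hd.pos hv (by linarith)
    · simp only
      linarith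
    · intro p hp hwp hdvd
      exact hS.sqL p hp hwp (hdvd.mul_left q)
    · intro hst
      exact hL (lgood_iff.mpr ⟨⟨hS.om, hS.cardL, hS.cardR, hS.sqL, hS.sqR⟩, hst⟩)
  · apply mul_le_mul_of_nonneg_left _ (by positivity)
    apply Real.exp_le_exp.mpr
    apply neg_le_neg
    have h4 : B ^ (7 / 10 : ℝ) ≤ Y ^ (7 / 10 : ℝ) :=
      Real.rpow_le_rpow (by linarith) (by linarith) (by norm_num)
    exact h4.trans (Real.rpow_le_rpow_of_exponent_le (by linarith) (by norm_num))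

end Crest.Agent.R020.LS
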