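import Crest.Agent.R020.CollL
import Crest.Agent.R020.LStatG

/-!
Row 20: `StmtL` and `StmtLc`.
-/

set_option autoImplicit false

open scoped ENNReal

namespace Crest.Agent.R020

namespace Coll

theorem stmtStat : StmtStat := by
  obtain ⟨Y0, h⟩ := LS.statPlain
  refine ⟨Y0, fun Y hY => le_trans ?_ (h Y hY)⟩
  unfold wt2
  refine ENNReal.tsum_le_tsum fun p => ?_
  refine Set.indicator_le_indicator_of_subset ?_ (fun _ => zero_le) p
  rintro q ⟨⟨h1, h2⟩, h3, h4⟩
  exact ⟨h1, h2, h3, h4⟩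

theorem stmtStatC : StmtStatC := by
  obtain ⟨B0, h⟩ := LS.statCount
  refine ⟨B0, fun x hx hB Y hY => le_trans ?_ (h x hx hB Y hY)⟩
  refine ENNReal.tsum_le_tsum fun p => ?_
  refine Set.indicator_le_indicator_of_subset ?_ (fun _ => zero_le) p
  rintro q ⟨h1, h2, h3, h4, _, h6, h7, h8, h9⟩
  exact ⟨h1, h2, h3, h4, h6, h7, h8, h9⟩

end Coll

theorem stmtL : StmtL := Coll.stmtL_of Coll.stmtStat

theorem stmtLc : StmtLc := Coll.stmtLc_of Coll.stmtStatC

end Crest.Agent.R020
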