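import Crest.Agent.R020.CollSum
import Crest.Agent.Lib.LinSieve.Cor2

/-!
Row 20, module E (collisions): instances of the sieve hypotheses.
-/

set_option autoImplicit false

namespace Crest.Agent.R020.CollM

open Finset

/-- `log log (X + 10)` -/
noncomputable def ll (X : ℕ) : ℝ := Real.log (Real.log ((X : ℝ) + 10))

theorem ll_ge (X : ℕ) : 4 / 5 ≤ ll X := by
  unfold ll
  have h1 : (2.302 : ℝ) ≤ Real.log ((X : ℝ) + 10) := by
    have h2 : Real.log 10 ≤ Real.log ((X : ℝ) + 10) :=
      Real.log_le_log (by norm_num) (by linarith [Nat.cast_nonneg (α := ℝ) X])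
    have h3 : Real.log 10 = Real.log 2 + Real.log 5 := by
      rw [← Real.log_mul (by norm_num) (by norm_num)]; norm_num
    have h4 := Real.log_two_gt_d9
    have h5 : (1.609 : ℝ) ≤ Real.log 5 := by
      rw [Real.le_log_iff_exp_le (by norm_num)]
      have h6 : Real.exp 1.609 = Real.exp 1 * Real.exp 0.609 := by
        rw [← Real.exp_add]; norm_num
      have h7 := Real.exp_one_lt_d9
      have h8 : Real.exp 0.609 ≤ 1.8387 := by
        have := Real.exp_bound' (x := (0.609 : ℝ)) (by norm_num) (by norm_num) (n := 8) (by norm_num)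
        refine le_trans this ?_
        simp only [Finset.sum_range_succ, Finset.sum_range_zero, Nat.factorial]
        norm_num
      rw [h6]
      have h9 := Real.exp_pos (0.609 : ℝ)
      nlinarith
    linarith
  rw [Real.le_log_iff_exp_le (by linarith)]
  refine le_trans ?_ h1
  have h6 : Real.exp (4/5) ≤ 2.26 := by
    have := Real.exp_bound' (x := (4/5 : ℝ)) (by norm_num) (by norm_num) (n := 8) (by norm_num)
    refine le_trans this ?_
    simp only [Finset.sum_range_succ, Finset.sum_range_zero, Nat.factorial]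
    norm_num
  linarith

theorem ll_mono {A X : ℕ} (h : A ≤ X) : ll A ≤ ll X := by
  unfold ll
  have h0 : (0:ℝ) ≤ (A : ℝ) := Nat.cast_nonneg _
  have h1 : (A : ℝ) ≤ (X : ℝ) := by exact_mod_cast h
  apply Real.log_le_log (Real.log_pos (by linarith))
  exact Real.log_le_log (by linarith) (by linarith)

theorem log_half {ρ : ℝ} (hρ : 4 ≤ ρ) : Real.log ρ ≤ 2 * Real.log (ρ / 2) := by
  have h1 : ρ ≤ (ρ / 2) ^ 2 := by nlinarith
  have h2 := Real.log_le_log (by linarith) h1
  rw [Real.log_pow] at h2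
  push_cast at h2
  linarith

theorem log4_pos {ρ : ℝ} (hρ : 4 ≤ ρ) : 1 ≤ Real.log ρ := by
  rw [Real.le_log_iff_exp_le (by linarith)]
  linarith [Real.exp_one_lt_d9]

/-- plain sums -/
theorem plain_sums : ∃ C : ℝ, 2 ≤ C ∧ ∀ X : ℕ,
    (∀ (A : ℕ) (ρ : ℝ), 4 ≤ ρ →
      ∑ x ∈ (primesIn ρ X).filter (fun x => C1 X A x), (1 / (x : ℝ))
        ≤ C * ll X ^ 3 / Real.log ρ) ∧
    (∀ (A B : ℕ) (ρ : ℝ), A ≠ B → 4 ≤ ρ →
      ∑ x ∈ (primesIn ρ X).filter (fun x => C1 X A x ∧ C1 X B x), (1 / (x : ℝ))
        ≤ C * ll X ^ 3 / (Real.log ρ) ^ 2) := by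
  obtain ⟨C1', hC1, h1⟩ := Crest.Agent.Lib.LinSieve.sieve_two_finset
  obtain ⟨C2', hC2, h2⟩ := Crest.Agent.Lib.LinSieve.sieve_three_finset
  refine ⟨3 * C1' + 32 * C2' + 2, by linarith, fun X => ⟨?_, ?_⟩⟩
  · intro A ρ hρ
    have hlog := log4_pos hρ
    have hll := ll_ge X
    rcases ((primesIn ρ X).filter (fun x => C1 X A x)).eq_empty_or_nonempty with hE | ⟨x0, hx0⟩
    · rw [hE, Finset.sum_empty]
      positivity
    · rw [Finset.mem_filter] at hx0
      unfold primesIn C1 at hx0
      rw [Finset.mem_filter] at hx0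
      obtain ⟨⟨_, hxp, hxρ⟩, hp, hX⟩ := hx0
      have hx1 : 1 ≤ x0 := hxp.one_lt.le
      have hA1 : 1 ≤ A := by
        rcases Nat.eq_zero_or_pos A with h | h
        · subst h
          simp at hp
          exact absurd hp Nat.not_prime_one
        · exact h
      have hAX : A ≤ X := by nlinarith
      have h3 := h1 A hA1 (ρ / 2) (by linarith)
        ((primesIn ρ X).filter (fun x => C1 X A x)) (by
          intro R hR
          rw [Finset.mem_filter] at hR
          unfold primesIn C1 at hR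
          rw [Finset.mem_filter] at hR
          refine ⟨by linarith [hR.1.2.2], hR.1.2.1, ?_⟩
          rw [mul_comm A R]
          exact hR.2.1)
      refine le_trans h3 ?_
      have h4 : Real.log (Real.log ((A : ℝ) + 10)) ≤ ll X := ll_mono hAX
      have h4' : 4 / 5 ≤ Real.log (Real.log ((A : ℝ) + 10)) := ll_ge A
      have h5 := log_half hρ
      rw [div_le_div_iff₀ (by linarith) (by linarith)]
      have h6 : Real.log (Real.log ((A : ℝ) + 10)) ^ 2 ≤ ll X ^ 2 := by
        apply pow_le_pow_left₀ (by linarith) h4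
      have h7 : ll X ^ 2 * (4/5) ≤ ll X ^ 3 := by
        have : 0 ≤ ll X ^ 2 := by positivity
        nlinarith
      calc C1' * Real.log (Real.log ((A : ℝ) + 10)) ^ 2 * Real.log ρ
          ≤ C1' * ll X ^ 2 * (2 * Real.log (ρ / 2)) := by
            apply mul_le_mul _ h5 (by linarith) (by positivity)
            exact mul_le_mul_of_nonneg_left h6 hC1.le
        _ ≤ (3 * C1' + 32 * C2' + 2) * ll X ^ 3 * Real.log (ρ / 2) := by
            have h8 : C1' * ll X ^ 2 * 2 ≤ (3 * C1' + 32 * C2' + 2) * ll X ^ 3 := by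
              have : 0 ≤ ll X ^ 3 := by positivity
              nlinarith
            have h9 : 0 ≤ Real.log (ρ / 2) := by linarith
            nlinarith
  · intro A B ρ hAB hρ
    have hlog := log4_pos hρ
    have hll := ll_ge X
    rcases ((primesIn ρ X).filter (fun x => C1 X A x ∧ C1 X B x)).eq_empty_or_nonempty
      with hE | ⟨x0, hx0⟩
    · rw [hE, Finset.sum_empty]
      positivity
    · rw [Finset.mem_filter] at hx0
      unfold primesIn C1 at hx0
      rw [Finset.mem_filter] at hx0
      obtain ⟨⟨_, hxp, hxρ⟩, ⟨hp, hX⟩, ⟨hp', hX'⟩⟩ := hx0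
      have hx1 : 2 ≤ x0 := hxp.two_le
      have hA1 : 1 ≤ A := by
        rcases Nat.eq_zero_or_pos A with h | h
        · subst h
          simp at hp
          exact absurd hp Nat.not_prime_one
        · exact h
      have hB1 : 1 ≤ B := by
        rcases Nat.eq_zero_or_pos B with h | h
        · subst h
          simp at hp'
          exact absurd hp' Nat.not_prime_one
        · exact h
      have hAX : A + B ≤ X := by nlinarith
      have h3 := h2 A B hA1 hB1 hAB (ρ / 2) (by linarith)
        ((primesIn ρ X).filter (fun x => C1 X A x ∧ C1 X B x)) (by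
          intro R hR
          rw [Finset.mem_filter] at hR
          unfold primesIn C1 at hR
          rw [Finset.mem_filter] at hR
          refine ⟨by linarith [hR.1.2.2], hR.1.2.1, ?_, ?_⟩
          · rw [mul_comm A R]
            exact hR.2.1.1
          · rw [mul_comm B R]
            exact hR.2.2.1)
      refine le_trans h3 ?_
      have h4 : Real.log (Real.log ((A : ℝ) + B + 10)) ≤ ll X := by
        have := ll_mono hAX
        unfold ll at this ⊢
        push_cast at this
        exact this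
      have h4' : 4 / 5 ≤ Real.log (Real.log ((A : ℝ) + B + 10)) := by
        have := ll_ge (A + B)
        unfold ll at this
        push_cast at this
        exact this
      have h5 := log_half hρ
      have hlh : 0 < Real.log (ρ / 2) := by linarith
      rw [div_le_div_iff₀ (by positivity) (by positivity)]
      have h6 : Real.log (Real.log ((A : ℝ) + B + 10)) ^ 3 ≤ ll X ^ 3 := by
        apply pow_le_pow_left₀ (by linarith) h4
      have h7 : Real.log ρ ^ 2 ≤ 4 * Real.log (ρ / 2) ^ 2 := by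
        have := pow_le_pow_left₀ (by linarith) h5 2
        nlinarith
      calc C2' * Real.log (Real.log ((A : ℝ) + B + 10)) ^ 3 * Real.log ρ ^ 2
          ≤ C2' * ll X ^ 3 * (4 * Real.log (ρ / 2) ^ 2) := by
            apply mul_le_mul _ h7 (by positivity) (by positivity)
            exact mul_le_mul_of_nonneg_left h6 hC2.le
        _ ≤ (3 * C1' + 32 * C2' + 2) * ll X ^ 3 * Real.log (ρ / 2) ^ 2 := by
            have h8 : C2' * ll X ^ 3 * 4 ≤ (3 * C1' + 32 * C2' + 2) * ll X ^ 3 := by
              have : 0 ≤ ll X ^ 3 := by positivity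
              nlinarith
            have h9 : 0 ≤ Real.log (ρ / 2) ^ 2 := by positivity
            nlinarith

/-- counting versions -/
theorem count_sums : ∃ C : ℝ, 2 ≤ C ∧ ∀ X : ℕ, ∀ z : ℝ, 0 < z →
    (∀ (M A : ℕ) (ρ : ℝ), 0 < M → 4 ≤ ρ →
      ∑ x ∈ (primesIn ρ X).filter (fun x => C1 X A x),
        (M : ℝ) * (if ((M * x : ℕ) : ℝ) ≤ z then 1 / z else 0)
        ≤ C * ll X ^ 3 / (Real.log ρ) ^ 2) ∧
    (∀ (M A B : ℕ) (ρ : ℝ), 0 < M → A ≠ B → 4 ≤ ρ →
      ∑ x ∈ (primesIn ρ X).filter (fun x => C1 X A x ∧ C1 X B x),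
        (M : ℝ) * (if ((M * x : ℕ) : ℝ) ≤ z then 1 / z else 0)
        ≤ C * ll X ^ 3 / (Real.log ρ) ^ 3) := by
  obtain ⟨C2', hC2, h2⟩ := Crest.Agent.Lib.LinSieve.sieve_two
  obtain ⟨C3', hC3, h3⟩ := Crest.Agent.Lib.LinSieve.sieve_three
  obtain ⟨D, hD, hr⟩ := Crest.Agent.Lib.LinSieve.ratio_le_loglog
  -- reduction to a count
  have key : ∀ (X M : ℕ) (ρ z : ℝ) (P : ℕ → Prop) [DecidablePred P] (b : ℝ) (k : ℕ), 0 < M →
      0 < z → 4 ≤ ρ → 0 ≤ b → (∀ n : ℕ, 2 ≤ n → (∃ x0 ∈ (primesIn ρ X).filter P, x0 ≤ n) →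
        (((Finset.Ioc 0 n).filter (fun R => R.Prime ∧ P R)).card : ℝ)
          ≤ b * (n / Real.log n ^ k)) →
      ∑ x ∈ (primesIn ρ X).filter P, (M : ℝ) * (if ((M * x : ℕ) : ℝ) ≤ z then 1 / z else 0)
        ≤ b / Real.log ρ ^ k := by
    intro X M ρ z P _ b k hM hz hρ hb hcount
    have hM' : (0:ℝ) < (M : ℝ) := by exact_mod_cast hM
    have hlog := log4_pos hρ
    set S := ((primesIn ρ X).filter P).filter (fun x => ((M * x : ℕ) : ℝ) ≤ z) with hS
    have e1 : ∑ x ∈ (primesIn ρ X).filter P, (M : ℝ) * (if ((M * x : ℕ) : ℝ) ≤ z then 1 / z else 0)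
        = (S.card : ℝ) * ((M : ℝ) * (1 / z)) := by
      have : ∀ x : ℕ, (M : ℝ) * (if ((M * x : ℕ) : ℝ) ≤ z then 1 / z else 0)
          = if ((M * x : ℕ) : ℝ) ≤ z then (M : ℝ) * (1 / z) else 0 := by
        intro x; split_ifs <;> simp
      simp_rw [this]
      rw [← Finset.sum_filter, Finset.sum_const, nsmul_eq_mul]
    rw [e1]
    rcases S.eq_empty_or_nonempty with hE | ⟨x0, hx0⟩
    · rw [hE, Finset.card_empty, Nat.cast_zero, zero_mul]
      positivity
    · have hx0' := hx0
      rw [hS, Finset.mem_filter] at hx0'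
      obtain ⟨hx01, hx02⟩ := hx0'
      have hx0p : x0.Prime ∧ ρ ≤ (x0 : ℝ) := by
        unfold primesIn at hx01
        rw [Finset.mem_filter, Finset.mem_filter] at hx01
        exact hx01.1.2
      set n : ℕ := ⌊z / M⌋₊ with hn
      have hle : ∀ x : ℕ, ((M * x : ℕ) : ℝ) ≤ z → x ≤ n := by
        intro x hx
        rw [hn]
        apply Nat.le_floor
        rw [le_div_iff₀ hM']
        push_cast at hx
        linarith
      have hnx : x0 ≤ n := hle x0 hx02
      have hn2 : 2 ≤ n := le_trans hx0p.1.two_le hnx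
      have hnρ : ρ ≤ (n : ℝ) := le_trans hx0p.2 (by exact_mod_cast hnx)
      have hnz : (n : ℝ) ≤ z / M := Nat.floor_le (by positivity)
      have hcard : (S.card : ℝ) ≤ b * (n / Real.log n ^ k) := by
        refine le_trans ?_ (hcount n hn2 ⟨x0, hx01, hnx⟩)
        have : S ⊆ (Finset.Ioc 0 n).filter (fun R => R.Prime ∧ P R) := by
          intro x hx
          rw [hS, Finset.mem_filter] at hx
          obtain ⟨hx1, hx2⟩ := hx
          unfold primesIn at hx1
          rw [Finset.mem_filter, Finset.mem_filter] at hx1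
          rw [Finset.mem_filter, Finset.mem_Ioc]
          exact ⟨⟨hx1.1.2.1.pos, hle x hx2⟩, hx1.1.2.1, hx1.2⟩
        exact_mod_cast Finset.card_le_card this
      have hlogn : Real.log ρ ≤ Real.log n := Real.log_le_log (by linarith) hnρ
      have h7 : (n : ℝ) / Real.log n ^ k ≤ (z / M) / Real.log ρ ^ k := by
        apply div_le_div₀ (by positivity) hnz (by positivity)
        exact pow_le_pow_left₀ (by linarith) hlogn k
      calc (S.card : ℝ) * ((M : ℝ) * (1 / z))
          ≤ (b * ((z / M) / Real.log ρ ^ k)) * ((M : ℝ) * (1 / z)) := by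
            apply mul_le_mul_of_nonneg_right _ (by positivity)
            exact le_trans hcard (mul_le_mul_of_nonneg_left h7 hb)
        _ = b / Real.log ρ ^ k := by
            field_simp
  refine ⟨2 * C2' * D ^ 2 + 27 * C3' * D ^ 3 + 2, ?_, fun X z hz => ⟨?_, ?_⟩⟩
  · have : 0 ≤ C2' * D ^ 2 := by positivity
    have : 0 ≤ C3' * D ^ 3 := by positivity
    linarith
  · intro M A ρ hM hρ
    have hlog := log4_pos hρ
    have hll := ll_ge X
    have hA0 : 0 ≤ C2' * D ^ 2 := by positivity
    have hA1 : 0 ≤ C3' * D ^ 3 := by positivity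
    refine key X M ρ z (fun x => C1 X A x) _ 2 hM hz hρ (by positivity) ?_
    intro n hn ⟨x0, hx0, _⟩
    rw [Finset.mem_filter] at hx0
    unfold primesIn C1 at hx0
    rw [Finset.mem_filter] at hx0
    obtain ⟨⟨_, hxp, hxρ⟩, hp, hX⟩ := hx0
    have hx1 : 1 ≤ x0 := hxp.one_lt.le
    have hA1' : 1 ≤ A := by
      rcases Nat.eq_zero_or_pos A with h | h
      · subst h
        simp at hp
        exact absurd hp Nat.not_prime_one
      · exact h
    have hAX : A ≤ X := by nlinarith
    have h4 := h2 A hA1' n hn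
    have h5 : (((Finset.Ioc 0 n).filter (fun R => R.Prime ∧ C1 X A R)).card : ℝ)
        ≤ (((Finset.Ioc 0 n).filter (fun R => R.Prime ∧ (A * R + 1).Prime)).card : ℝ) := by
      have : (Finset.Ioc 0 n).filter (fun R => R.Prime ∧ C1 X A R)
          ⊆ (Finset.Ioc 0 n).filter (fun R => R.Prime ∧ (A * R + 1).Prime) := by
        intro R hR
        rw [Finset.mem_filter] at hR ⊢
        refine ⟨hR.1, hR.2.1, ?_⟩
        rw [mul_comm A R]
        exact hR.2.2.1
      exact_mod_cast Finset.card_le_card this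
    refine le_trans h5 (le_trans h4 ?_)
    apply mul_le_mul_of_nonneg_right _ (by positivity)
    have h6 := hr A (by omega)
    have h7 : Real.log (Real.log ((A : ℝ) + 10)) ≤ ll X := ll_mono hAX
    have h8 : (A : ℝ) / Nat.totient A ≤ D * ll X :=
      le_trans h6 (mul_le_mul_of_nonneg_left h7 hD.le)
    have h9 : ((A : ℝ) / Nat.totient A) ^ 2 ≤ (D * ll X) ^ 2 :=
      pow_le_pow_left₀ (by positivity) h8 2
    have h10 : ll X ^ 2 * (4/5) ≤ ll X ^ 3 := by
      have : 0 ≤ ll X ^ 2 := by positivity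
      nlinarith
    have h11 : C2' * ((A : ℝ) / Nat.totient A) ^ 2 ≤ C2' * D ^ 2 * ll X ^ 2 := by
      calc C2' * ((A : ℝ) / Nat.totient A) ^ 2 ≤ C2' * (D * ll X) ^ 2 :=
            mul_le_mul_of_nonneg_left h9 hC2.le
        _ = _ := by ring
    have h12 : 0 ≤ ll X ^ 3 := by positivity
    have h13 : 0 ≤ ll X ^ 2 := by positivity
    nlinarith
  · intro M A B ρ hM hAB hρ
    have hlog := log4_pos hρ
    have hll := ll_ge X
    have hA0 : 0 ≤ C2' * D ^ 2 := by positivity
    have hA1 : 0 ≤ C3' * D ^ 3 := by positivity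
    refine key X M ρ z (fun x => C1 X A x ∧ C1 X B x) _ 3 hM hz hρ (by positivity) ?_
    intro n hn ⟨x0, hx0, _⟩
    rw [Finset.mem_filter] at hx0
    unfold primesIn C1 at hx0
    rw [Finset.mem_filter] at hx0
    obtain ⟨⟨_, hxp, hxρ⟩, ⟨hp, hX⟩, ⟨hp', hX'⟩⟩ := hx0
    have hx1 : 1 ≤ x0 := hxp.one_lt.le
    have hA1' : 1 ≤ A := by
      rcases Nat.eq_zero_or_pos A with h | h
      · subst h
        simp at hp
        exact absurd hp Nat.not_prime_one
      · exact h
    have hB1' : 1 ≤ B := by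
      rcases Nat.eq_zero_or_pos B with h | h
      · subst h
        simp at hp'
        exact absurd hp' Nat.not_prime_one
      · exact h
    have hAX : A ≤ X := by nlinarith
    have hBX : B ≤ X := by nlinarith
    have h4 := h3 A B hA1' hB1' hAB n hn
    have h5 : (((Finset.Ioc 0 n).filter (fun R => R.Prime ∧ (C1 X A R ∧ C1 X B R))).card : ℝ)
        ≤ (((Finset.Ioc 0 n).filter
          (fun R => R.Prime ∧ (A * R + 1).Prime ∧ (B * R + 1).Prime)).card : ℝ) := by
      have : (Finset.Ioc 0 n).filter (fun R => R.Prime ∧ (C1 X A R ∧ C1 X B R))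
          ⊆ (Finset.Ioc 0 n).filter
            (fun R => R.Prime ∧ (A * R + 1).Prime ∧ (B * R + 1).Prime) := by
        intro R hR
        rw [Finset.mem_filter] at hR ⊢
        refine ⟨hR.1, hR.2.1, ?_, ?_⟩
        · rw [mul_comm A R]
          exact hR.2.2.1.1
        · rw [mul_comm B R]
          exact hR.2.2.2.1
      exact_mod_cast Finset.card_le_card this
    refine le_trans h5 (le_trans h4 ?_)
    apply mul_le_mul_of_nonneg_right _ (by positivity)
    set E : ℕ := A * B * ((A : ℤ) - B).natAbs with hE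
    have hne : ((A : ℤ) - B).natAbs ≠ 0 := by
      rw [Ne, Int.natAbs_eq_zero]
      omega
    have hE0 : E ≠ 0 := Nat.mul_ne_zero (Nat.mul_ne_zero (by omega) (by omega)) hne
    have hEX : E ≤ X ^ 3 := by
      have h6 : ((A : ℤ) - B).natAbs ≤ X := by omega
      calc E ≤ X * X * X := Nat.mul_le_mul (Nat.mul_le_mul hAX hBX) h6
        _ = X ^ 3 := by ring
    have h6 := hr E hE0
    have h7 : Real.log (Real.log ((E : ℝ) + 10)) ≤ 3 * ll X := by
      have hX0 : (0:ℝ) ≤ (X : ℝ) := Nat.cast_nonneg _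
      have h8 : (E : ℝ) + 10 ≤ ((X : ℝ) + 10) ^ 3 := by
        have : (E : ℝ) ≤ (X : ℝ) ^ 3 := by exact_mod_cast hEX
        nlinarith [pow_nonneg hX0 2, pow_nonneg hX0 3]
      have h9 : Real.log ((E : ℝ) + 10) ≤ 3 * Real.log ((X : ℝ) + 10) := by
        have := Real.log_le_log (by positivity) h8
        rw [Real.log_pow] at this
        push_cast at this
        exact this
      have h10 : 0 < Real.log ((E : ℝ) + 10) :=
        Real.log_pos (by linarith [Nat.cast_nonneg (α := ℝ) E])
      have h11 : 0 < Real.log ((X : ℝ) + 10) := Real.log_pos (by linarith)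
      have h12 := Real.log_le_log h10 h9
      rw [Real.log_mul (by norm_num) h11.ne'] at h12
      have h13 : Real.log 3 ≤ 1.1 := by
        rw [Real.log_le_iff_le_exp (by norm_num)]
        have h14 : Real.exp 1.1 = Real.exp 1 * Real.exp 0.1 := by
          rw [← Real.exp_add]; norm_num
        have h15 := Real.exp_one_gt_d9
        have h16 : (1.1051 : ℝ) ≤ Real.exp 0.1 := by
          have := Real.sum_le_exp_of_nonneg (x := (0.1 : ℝ)) (by norm_num) 4
          refine le_trans ?_ this
          simp only [Finset.sum_range_succ, Finset.sum_range_zero, Nat.factorial]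
          norm_num
        rw [h14]
        nlinarith
      have h17 : Real.log (Real.log ((X : ℝ) + 10)) = ll X := rfl
      rw [h17] at h12
      linarith
    have h8 : (E : ℝ) / Nat.totient E ≤ D * (3 * ll X) :=
      le_trans h6 (mul_le_mul_of_nonneg_left h7 hD.le)
    have h9 : ((E : ℝ) / Nat.totient E) ^ 3 ≤ (D * (3 * ll X)) ^ 3 :=
      pow_le_pow_left₀ (by positivity) h8 3
    calc C3' * ((E : ℝ) / Nat.totient E) ^ 3 ≤ C3' * (D * (3 * ll X)) ^ 3 :=
          mul_le_mul_of_nonneg_left h9 hC3.le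
      _ = (27 * C3' * D ^ 3) * ll X ^ 3 := by ring
      _ ≤ _ := by
          apply mul_le_mul_of_nonneg_right _ (by positivity)
          linarith

/-- plain instance: `W v = 1/v`, `κ = 1` -/
theorem exists_sieve : ∃ C : ℝ, 2 ≤ C ∧ ∀ (X : ℕ) (ρt : ℝ),
    Sieve X 4 ρt (C * ll X ^ 3) 1 (fun v => 1 / (v : ℝ)) := by
  obtain ⟨C, hC, h⟩ := plain_sums
  refine ⟨C, hC, fun X ρt => ?_⟩
  have hll := ll_ge X
  have h3 : (64/125 : ℝ) ≤ ll X ^ 3 := by
    have := pow_le_pow_left₀ (by norm_num) hll 3
    norm_num at this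
    linarith
  refine ⟨by norm_num, by nlinarith, by norm_num, fun v => by positivity, (h X).1, (h X).2, ?_, ?_⟩
  · intro M A ρ hM hρ _
    rw [one_mul]
    refine le_trans (le_of_eq ?_) ((h X).1 A ρ hρ)
    apply Finset.sum_congr rfl
    intro x hx
    have hx0 : 0 < x := by
      unfold primesIn at hx
      rw [Finset.mem_filter, Finset.mem_filter] at hx
      exact hx.1.2.1.pos
    have hM' : (0:ℝ) < (M : ℝ) := by exact_mod_cast hM
    have hx' : (0:ℝ) < (x : ℝ) := by exact_mod_cast hx0
    push_cast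
    field_simp
  · intro M A B ρ hM hAB hρ _
    rw [one_mul]
    refine le_trans (le_of_eq ?_) ((h X).2 A B ρ hAB hρ)
    apply Finset.sum_congr rfl
    intro x hx
    have hx0 : 0 < x := by
      unfold primesIn at hx
      rw [Finset.mem_filter, Finset.mem_filter] at hx
      exact hx.1.2.1.pos
    have hM' : (0:ℝ) < (M : ℝ) := by exact_mod_cast hM
    have hx' : (0:ℝ) < (x : ℝ) := by exact_mod_cast hx0
    push_cast
    field_simp

/-- counting instance: `W v = [v ≤ z]/z`, `κ = 1/log ρt` -/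
theorem exists_sieve_count : ∃ C : ℝ, 2 ≤ C ∧ ∀ (X : ℕ) (ρt z : ℝ), 4 ≤ ρt → 0 < z →
    Sieve X 4 ρt (C * ll X ^ 3) (1 / Real.log ρt)
      (fun v => if (v : ℝ) ≤ z then 1 / z else 0) := by
  obtain ⟨C, hC, h⟩ := plain_sums
  obtain ⟨C', hC', h'⟩ := count_sums
  refine ⟨C + C', by linarith, fun X ρt z hρt hz => ?_⟩
  have hll := ll_ge X
  have h3 : (64/125 : ℝ) ≤ ll X ^ 3 := by
    have := pow_le_pow_left₀ (by norm_num) hll 3
    norm_num at this
    linarith
  have hlogt := log4_pos hρt
  refine ⟨by norm_num, by nlinarith, by positivity, fun v => by positivity, ?_, ?_, ?_, ?_⟩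
  · intro A ρ hρ
    have := log4_pos hρ
    refine le_trans ((h X).1 A ρ hρ) ?_
    apply div_le_div_of_nonneg_right _ (by linarith)
    nlinarith
  · intro A B ρ hAB hρ
    have := log4_pos hρ
    refine le_trans ((h X).2 A B ρ hAB hρ) ?_
    apply div_le_div_of_nonneg_right _ (by positivity)
    nlinarith
  · intro M A ρ hM hρ hρ'
    have h4 := log4_pos hρ
    refine le_trans ((h' X z hz).1 M A ρ hM hρ) ?_
    have h5 : Real.log ρt ≤ Real.log ρ := Real.log_le_log (by linarith) hρ'
    rw [div_mul_div_comm, one_mul]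
    apply div_le_div₀ (by positivity)
    · nlinarith
    · positivity
    · nlinarith
  · intro M A B ρ hM hAB hρ hρ'
    have h4 := log4_pos hρ
    refine le_trans ((h' X z hz).2 M A B ρ hM hAB hρ) ?_
    have h5 : Real.log ρt ≤ Real.log ρ := Real.log_le_log (by linarith) hρ'
    rw [div_mul_div_comm, one_mul]
    apply div_le_div₀ (by positivity)
    · nlinarith
    · positivity
    · have : 0 ≤ Real.log ρ ^ 2 := by positivity
      nlinarith

end Crest.Agent.R020.CollM
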