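import Crest.Agent.R020.CollRankin
import Crest.Agent.R020.CollSieveInst
import Crest.Agent.R020.CollDefs
import Crest.Agent.R020.Cells

/-!
Row 20, module (L), step S5: the matrix sum for a fixed profile (net exponent cell by cell).
-/

set_option autoImplicit false

namespace Crest.Agent.R020.CollM

open Finset

/-- `#{a : i ≤ α a}` -/
def kp {s : ℕ} (α : Fin s → ℕ) (i : ℕ) : ℕ := (univ.filter (fun a => i ≤ α a)).card

theorem kp_le {s : ℕ} (α : Fin s → ℕ) (i : ℕ) : kp α i ≤ s := by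
  unfold kp
  refine (card_filter_le _ _).trans ?_
  rw [card_univ, Fintype.card_fin]

theorem kp_eq_of_le {s : ℕ} {α : Fin s → ℕ} {i : ℕ} (h : ∀ a, i ≤ α a) : kp α i = s := by
  unfold kp
  rw [filter_true_of_mem (fun a _ => h a), card_univ, Fintype.card_fin]

theorem kp_zero {s : ℕ} (α : Fin s → ℕ) : kp α 0 = s := kp_eq_of_le (fun _ => Nat.zero_le _)

theorem kp_anti {s : ℕ} (α : Fin s → ℕ) : Antitone (kp α) := by
  intro i j hij
  unfold kp
  apply card_le_card
  intro a ha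
  rw [mem_filter] at ha ⊢
  exact ⟨ha.1, hij.trans ha.2⟩

theorem kp_eq_zero {s : ℕ} {α : Fin s → ℕ} {J : ℕ} (h : ∀ a, α a < J) {i : ℕ} (hi : J ≤ i) :
    kp α i = 0 := by
  unfold kp
  rw [card_eq_zero, filter_eq_empty_iff]
  intro a _
  have := h a
  omega

theorem kp_sum {s : ℕ} (α : Fin s → ℕ) (i : ℕ) :
    (kp α i : ℝ) = ∑ a, (if i ≤ α a then (1:ℝ) else 0) := by
  unfold kp
  rw [card_filter]
  push_cast
  rfl

theorem sum_eq_kp {s : ℕ} (α : Fin s → ℕ) {J : ℕ} (h : ∀ a, α a < J) :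
    ∑ a, (α a : ℝ) = ∑ i ∈ Ico 1 J, (kp α i : ℝ) := by
  have h1 : ∑ i ∈ Ico 1 J, (kp α i : ℝ) = ∑ i ∈ Ico 1 J, ∑ a, (if i ≤ α a then (1:ℝ) else 0) :=
    sum_congr rfl (fun i _ => kp_sum α i)
  rw [h1, sum_comm]
  apply sum_congr rfl
  intro a _
  rw [← sum_filter, sum_const, nsmul_eq_mul, mul_one]
  have : (Ico 1 J).filter (fun i => i ≤ α a) = Ico 1 (α a + 1) := by
    ext i
    rw [mem_filter, mem_Ico, mem_Ico]
    have := h a
    omega
  rw [this, Nat.card_Ico]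
  norm_num

/-! ### The weights -/

theorem st_mul (l : ℕ → ℝ) {a b : ℕ} (ha : a ≠ 0) (hb : b ≠ 0) :
    Coll.st l (a * b) = Coll.st l a + Coll.st l b := by
  unfold Coll.st
  rw [((Nat.perm_primeFactorsList_mul ha hb).map _).sum_eq, List.map_append, List.sum_append]

theorem st_one (l : ℕ → ℝ) : Coll.st l 1 = 0 := by simp [Coll.st]

theorem st_prime (l : ℕ → ℝ) {p : ℕ} (hp : p.Prime) : Coll.st l p = l (Coll.cl p) := by
  simp [Coll.st, Nat.primeFactorsList_prime hp]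

theorem GG_eq_exp (l : ℕ → ℝ) (n : ℕ) (hn : n ≠ 0) :
    GG (fun q => Real.exp (-(l (Coll.cl q)))) n = Real.exp (-(Coll.st l n)) := by
  induction n using Nat.recOnMul with
  | zero => exact absurd rfl hn
  | one => rw [GG_one, st_one, neg_zero, Real.exp_zero]
  | prime p hp => rw [GG_prime _ hp, st_prime l hp]
  | mul a b iha ihb =>
    have ha : a ≠ 0 := left_ne_zero_of_mul hn
    have hb : b ≠ 0 := right_ne_zero_of_mul hn
    rw [GG_mul _ ha hb, iha ha, ihb hb, st_mul l ha hb, ← Real.exp_add]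
    congr 1
    ring

theorem GG_prod {ι : Type*} (g : ℕ → ℝ) (S : Finset ι) (h : ι → ℕ) (hh : ∀ i ∈ S, h i ≠ 0) :
    GG g (∏ i ∈ S, h i) = ∏ i ∈ S, GG g (h i) := by
  classical
  induction S using Finset.induction_on with
  | empty => simp [GG_one]
  | insert a S ha ih =>
    rw [prod_insert ha, prod_insert ha, GG_mul, ih (fun i hi => hh i (mem_insert_of_mem hi))]
    · exact hh a (mem_insert_self _ _)
    · exact prod_ne_zero_iff.mpr (fun i hi => hh i (mem_insert_of_mem hi))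

theorem GG_vp {s t : ℕ} (g : ℕ → ℝ) (m : Mat s t) (hm : ∀ i j, 0 < m i j) :
    ∏ i, ∏ j, GG g (m i j) = GG g (vp m) := by
  unfold vp
  rw [GG_prod g univ _ (fun i _ => prod_ne_zero_iff.mpr (fun j _ => (hm i j).ne'))]
  apply prod_congr rfl
  intro i _
  rw [GG_prod g univ _ (fun j _ => (hm i j).ne')]

theorem ell_nonneg (w : ℕ) (k : ℕ → ℕ) (i : ℕ) : 0 ≤ Coll.ell w k i := by
  unfold Coll.ell
  split_ifs
  · apply Real.log_nonneg
    have : (0:ℝ) ≤ (k 0 : ℝ) := Nat.cast_nonneg _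
    linarith
  · exact Real.log_nonneg (le_max_left _ _)

/-! ### The cell sums -/

/-- `∑_{q in cell i} 1/(q-1)` -/
noncomputable def cc1 (i : ℕ) : ℝ := ∑ q ∈ LS.CL i, 1 / ((q : ℝ) - 1)

theorem cc1_nonneg (i : ℕ) : 0 ≤ cc1 i := by
  unfold cc1
  apply sum_nonneg
  intro q hq
  have h := (LS.mem_CL.mp hq).1.two_le
  have h' : (2:ℝ) ≤ (q : ℝ) := by exact_mod_cast h
  have : 0 < (q : ℝ) - 1 := by linarith
  positivity

theorem cc1_le (i : ℕ) : cc1 i ≤ 1 + 56 * Real.exp (-(i : ℝ)) := by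
  have h1 := LS.sum_inv_CL i
  have he0 : 0 < Real.exp (-(i : ℝ)) := Real.exp_pos _
  have he1 : Real.exp (-(i : ℝ)) ≤ 1 := by
    rw [Real.exp_le_one_iff]
    have : (0:ℝ) ≤ (i : ℝ) := Nat.cast_nonneg _
    linarith
  have h2 : cc1 i ≤ ∑ q ∈ LS.CL i, ((1 + 2 * Real.exp (-(i : ℝ))) * ((1 : ℝ) / q)) := by
    unfold cc1
    apply sum_le_sum
    intro q hq
    obtain ⟨hqp, hqc⟩ := LS.mem_CL.mp hq
    have h' : (2:ℝ) ≤ (q : ℝ) := by exact_mod_cast hqp.two_le
    have hq1 : 0 < (q : ℝ) - 1 := by linarith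
    have hqe : Real.exp (i : ℝ) ≤ (q : ℝ) := by
      rcases Nat.eq_zero_or_pos i with h | h
      · rw [h]; simp; exact hqp.one_lt.le
      · have h3 : (i : ℝ) < yy q := by
          have := LS.cl_lt_yy (p := q) (by omega)
          rwa [hqc] at this
        have h4 := (LS.lt_yy_iff (p := q) (U := (i:ℝ)) (Nat.cast_nonneg _)).mp h3
        have h5 : (i : ℝ) ≤ Real.exp (i : ℝ) := by
          have := Real.add_one_le_exp (i : ℝ)
          linarith
        exact (Real.exp_le_exp.mpr h5).trans h4.le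
    have h6 : 1 / (q : ℝ) ≤ Real.exp (-(i : ℝ)) := by
      rw [Real.exp_neg, one_div]
      exact inv_anti₀ (Real.exp_pos _) hqe
    have h7 : 1 / ((q : ℝ) - 1) = 1 / q + (1 / ((q : ℝ) - 1)) * (1 / q) := by
      field_simp
      ring
    have h8 : 1 / ((q : ℝ) - 1) ≤ 2 * (1 / q) := by
      rw [mul_one_div, div_le_div_iff₀ hq1 (by linarith)]
      linarith
    have h9 : 0 ≤ 1 / (q : ℝ) := by positivity
    rw [h7]
    nlinarith
  rw [← mul_sum] at h2
  have h3 : (1 + 2 * Real.exp (-(i : ℝ))) * ∑ q ∈ LS.CL i, ((1 : ℝ) / q)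
      ≤ (1 + 2 * Real.exp (-(i : ℝ))) * (1 + 18 * Real.exp (-(i : ℝ))) :=
    mul_le_mul_of_nonneg_left h1 (by positivity)
  nlinarith

/-! ### Elementary inequalities -/

theorem log_le_aux {K x : ℝ} (hK : 0 < K) (hx : 0 < x) :
    K * Real.log x - x ≤ K * Real.log K - K := by
  have h1 : Real.log (x / K) ≤ x / K - 1 := Real.log_le_sub_one_of_pos (by positivity)
  rw [Real.log_div hx.ne' hK.ne'] at h1
  have h2 : K * (Real.log x - Real.log K) ≤ K * (x / K - 1) := mul_le_mul_of_nonneg_left h1 hK.le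
  have h3 : K * (x / K - 1) = x - K := by field_simp
  nlinarith

theorem net_low {K T : ℕ} :
    (K : ℝ) * Real.log ((T : ℝ) + 1) - K - T + (K + 1) ≤ K * Real.log K - K + 2 := by
  rcases Nat.eq_zero_or_pos K with h | h
  · subst h
    have : (0:ℝ) ≤ (T:ℝ) := Nat.cast_nonneg _
    simp
    linarith
  · have hK : (0:ℝ) < (K : ℝ) := by exact_mod_cast h
    have := log_le_aux hK (x := (T : ℝ) + 1) (by positivity)
    linarith

theorem net_high {K T : ℕ} :
    (K : ℝ) * Real.log (max 1 (T : ℝ)) - K - T + (if T = 0 then 0 else (K : ℝ))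
      ≤ K * Real.log K - K := by
  have hKn : 0 ≤ (K : ℝ) * Real.log K := by
    rcases Nat.eq_zero_or_pos K with h | h
    · subst h; simp
    · have : (1:ℝ) ≤ (K : ℝ) := by exact_mod_cast h
      exact mul_nonneg (by linarith) (Real.log_nonneg this)
  rcases Nat.eq_zero_or_pos T with h | h
  · subst h
    simp
    exact hKn
  · have hT : (1:ℝ) ≤ (T : ℝ) := by exact_mod_cast h
    rw [if_neg h.ne', max_eq_right hT]
    rcases Nat.eq_zero_or_pos K with h' | h'
    · subst h'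
      simp
    · have hK : (0:ℝ) < (K : ℝ) := by exact_mod_cast h'
      have := log_le_aux hK (x := (T : ℝ)) (by linarith)
      linarith


/-! ### The allowed primes -/

/-- exclusive upper bound for the cells of the primes dividing the entry `(i,j)` -/
def lim {s t : ℕ} (w : ℕ) (α : Fin s → ℕ) (β : Fin t → ℕ) :
    Option (Fin s) → Option (Fin t) → ℕ
  | some a, some b => min (α a) (β b) + 1
  | _, _ => w

/-- primes of cell `< k` -/
noncomputable def PC (k : ℕ) : Finset ℕ := (range k).biUnion LS.CL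

theorem mem_PC {k q : ℕ} : q ∈ PC k ↔ q.Prime ∧ Coll.cl q < k := by
  unfold PC
  rw [mem_biUnion]
  constructor
  · rintro ⟨i, hi, hq⟩
    obtain ⟨h1, h2⟩ := LS.mem_CL.mp hq
    refine ⟨h1, ?_⟩
    have : Coll.cl q = i := h2
    rw [this]
    exact mem_range.mp hi
  · rintro ⟨h1, h2⟩
    exact ⟨Coll.cl q, mem_range.mpr h2, LS.mem_CL.mpr ⟨h1, rfl⟩⟩

theorem sum_PC (f : ℕ → ℝ) (k : ℕ) :
    ∑ q ∈ PC k, f (Coll.cl q) / ((q : ℝ) - 1) = ∑ i ∈ range k, f i * cc1 i := by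
  unfold PC
  rw [sum_biUnion]
  · apply sum_congr rfl
    intro i _
    unfold cc1
    rw [mul_sum]
    apply sum_congr rfl
    intro q hq
    have : Coll.cl q = i := (LS.mem_CL.mp hq).2
    rw [this]
    ring
  · intro i _ j _ hij
    rw [Function.onFun, Finset.disjoint_left]
    intro q hq hq'
    exact hij ((LS.mem_CL.mp hq).2.symm.trans (LS.mem_CL.mp hq').2)

theorem sum_lim_high {s t w : ℕ} (α : Fin s → ℕ) (β : Fin t → ℕ) {k : ℕ} (hk : w ≤ k) :
    ∑ i, ∑ j, (if k < lim w α β i j then (1:ℝ) else 0) = (kp α k : ℝ) * kp β k := by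
  have h1 : ¬ k < w := by omega
  rw [Fintype.sum_option]
  have h2 : ∀ j : Option (Fin t), (if k < lim w α β none j then (1:ℝ) else 0) = 0 := by
    intro j
    exact if_neg h1
  rw [sum_congr rfl (fun j _ => h2 j), sum_const_zero, zero_add]
  have h3 : ∀ a : Fin s, ∑ j, (if k < lim w α β (some a) j then (1:ℝ) else 0)
      = ∑ b : Fin t, (if k ≤ α a then (1:ℝ) else 0) * (if k ≤ β b then (1:ℝ) else 0) := by
    intro a
    rw [Fintype.sum_option]
    have h4 : (if k < lim w α β (some a) none then (1:ℝ) else 0) = 0 := if_neg h1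
    rw [h4, zero_add]
    apply sum_congr rfl
    intro b _
    have h5 : lim w α β (some a) (some b) = min (α a) (β b) + 1 := rfl
    rw [h5]
    by_cases ha : k ≤ α a <;> by_cases hb : k ≤ β b
    · rw [if_pos (by omega), if_pos ha, if_pos hb, mul_one]
    · rw [if_neg (by omega), if_neg hb, mul_zero]
    · rw [if_neg (by omega), if_neg ha, zero_mul]
    · rw [if_neg (by omega), if_neg ha, zero_mul]
  rw [sum_congr rfl (fun a _ => h3 a), kp_sum, kp_sum, sum_mul_sum]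

theorem sum_lim_low {s t w : ℕ} (α : Fin s → ℕ) (β : Fin t → ℕ) (k : ℕ) :
    ∑ i, ∑ j, (if k < lim w α β i j then (1:ℝ) else 0) ≤ ((s : ℝ) + 1) * (t + 1) := by
  have h1 : ∑ i, ∑ j, (if k < lim w α β i j then (1:ℝ) else 0)
      ≤ ∑ _i : Option (Fin s), ∑ _j : Option (Fin t), (1:ℝ) := by
    apply sum_le_sum
    intro i _
    apply sum_le_sum
    intro j _
    split_ifs <;> norm_num
  refine h1.trans (le_of_eq ?_)
  simp [Fintype.card_option]
  ring

/-- the exponent of the Euler products -/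
theorem sum_cells_le {s t w J : ℕ} (hs : 0 < s) (α : Fin s → ℕ) (β : Fin t → ℕ)
    (hα : ∀ a, w ≤ α a ∧ α a < J) :
    ∑ i, ∑ j, ∑ q ∈ PC (lim w α β i j), Real.exp (-(Coll.ell w (kp β) (Coll.cl q))) / ((q:ℝ) - 1)
      ≤ ∑ k ∈ range J, (if k < w then ((s : ℝ) + 1) else if kp β k = 0 then 0 else (kp α k : ℝ))
        + 112 * ((s : ℝ) + 1) := by
  have hwJ : w < J := by
    have := hα ⟨0, hs⟩
    omega
  have hlimJ : ∀ i j, lim w α β i j ≤ J := by
    intro i j
    rcases i with _ | a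
    · exact hwJ.le
    · rcases j with _ | b
      · exact hwJ.le
      · show min (α a) (β b) + 1 ≤ J
        have := hα a
        omega
  set f : ℕ → ℝ := fun i => Real.exp (-(Coll.ell w (kp β) i)) with hf
  have hf0 : ∀ i, 0 ≤ f i := fun i => (Real.exp_pos _).le
  have h1 : ∑ i, ∑ j, ∑ q ∈ PC (lim w α β i j), f (Coll.cl q) / ((q:ℝ) - 1)
      = ∑ k ∈ range J, (f k * cc1 k) * ∑ i, ∑ j, (if k < lim w α β i j then (1:ℝ) else 0) := by
    have h2 : ∀ i j, ∑ q ∈ PC (lim w α β i j), f (Coll.cl q) / ((q:ℝ) - 1)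
        = ∑ k ∈ range J, (f k * cc1 k) * (if k < lim w α β i j then (1:ℝ) else 0) := by
      intro i j
      rw [sum_PC]
      rw [← sum_filter_add_sum_filter_not (range J) (fun k => k < lim w α β i j)]
      have e1 : (range J).filter (fun k => k < lim w α β i j) = range (lim w α β i j) := by
        ext k
        rw [mem_filter, mem_range, mem_range]
        have := hlimJ i j
        omega
      have e2 : ∑ x ∈ (range J).filter (fun k => ¬ k < lim w α β i j),
          (f x * cc1 x) * (if x < lim w α β i j then (1:ℝ) else 0) = 0 := by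
        apply sum_eq_zero
        intro x hx
        rw [if_neg (mem_filter.mp hx).2, mul_zero]
      rw [e2, add_zero, e1]
      apply sum_congr rfl
      intro x hx
      rw [if_pos (mem_range.mp hx), mul_one]
    rw [sum_congr rfl (fun i _ => sum_congr rfl (fun j _ => h2 i j))]
    have h3 : ∀ i, ∑ j, ∑ k ∈ range J, (f k * cc1 k) * (if k < lim w α β i j then (1:ℝ) else 0)
        = ∑ k ∈ range J, ∑ j, (f k * cc1 k) * (if k < lim w α β i j then (1:ℝ) else 0) :=
      fun i => sum_comm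
    rw [sum_congr rfl (fun i _ => h3 i), sum_comm]
    apply sum_congr rfl
    intro k _
    rw [mul_sum]
    apply sum_congr rfl
    intro i _
    rw [mul_sum]
  rw [h1]
  have hbase : ∀ k ∈ range J, (f k * cc1 k) * ∑ i, ∑ j, (if k < lim w α β i j then (1:ℝ) else 0)
      ≤ (if k < w then ((s : ℝ) + 1) else if kp β k = 0 then 0 else (kp α k : ℝ))
        + (56 * ((s : ℝ) + 1)) * Real.exp (-(k : ℝ)) := by
    intro k _
    have hc0 := cc1_nonneg k
    have hc1 := cc1_le k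
    have he0 := Real.exp_pos (-(k : ℝ))
    have hs0 : (0:ℝ) ≤ (s : ℝ) := Nat.cast_nonneg _
    by_cases hkw : k < w
    · rw [if_pos hkw]
      have hfk : f k = 1 / ((t : ℝ) + 1) := by
        rw [hf]
        simp only
        unfold Coll.ell
        rw [if_pos hkw, kp_zero, Real.exp_neg, Real.exp_log (by positivity), one_div]
      have h4 := sum_lim_low (w := w) α β k
      have h5 : (f k * cc1 k) * ∑ i, ∑ j, (if k < lim w α β i j then (1:ℝ) else 0)
          ≤ (f k * cc1 k) * (((s : ℝ) + 1) * (t + 1)) :=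
        mul_le_mul_of_nonneg_left h4 (mul_nonneg (hf0 k) hc0)
      have h6 : (f k * cc1 k) * (((s : ℝ) + 1) * (t + 1)) = ((s : ℝ) + 1) * cc1 k := by
        rw [hfk]
        field_simp
      rw [h6] at h5
      have h7 : ((s : ℝ) + 1) * cc1 k ≤ ((s : ℝ) + 1) * (1 + 56 * Real.exp (-(k : ℝ))) :=
        mul_le_mul_of_nonneg_left hc1 (by positivity)
      linarith
    · rw [if_neg hkw, sum_lim_high α β (not_lt.mp hkw)]
      have hKs : (kp α k : ℝ) ≤ s := by exact_mod_cast kp_le α k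
      have hK0 : (0:ℝ) ≤ (kp α k : ℝ) := Nat.cast_nonneg _
      by_cases h0 : kp β k = 0
      · rw [if_pos h0, h0]
        simp only [Nat.cast_zero, mul_zero, zero_add]
        positivity
      · rw [if_neg h0]
        have hT : (1:ℝ) ≤ (kp β k : ℝ) := by exact_mod_cast Nat.one_le_iff_ne_zero.mpr h0
        have hfk : f k = 1 / (kp β k : ℝ) := by
          rw [hf]
          simp only
          unfold Coll.ell
          rw [if_neg hkw, max_eq_right hT, Real.exp_neg, Real.exp_log (by linarith), one_div]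
        have h6 : (f k * cc1 k) * ((kp α k : ℝ) * kp β k) = (kp α k : ℝ) * cc1 k := by
          rw [hfk]
          field_simp
        rw [h6]
        have h7 : (kp α k : ℝ) * cc1 k ≤ (kp α k : ℝ) * (1 + 56 * Real.exp (-(k : ℝ))) :=
          mul_le_mul_of_nonneg_left hc1 hK0
        nlinarith
  refine (sum_le_sum hbase).trans ?_
  rw [sum_add_distrib, ← mul_sum]
  have h8 := LS.sum_exp_neg_le J
  have h9 : (56 * ((s : ℝ) + 1)) * ∑ i ∈ range J, Real.exp (-(i : ℝ)) ≤ (56 * ((s : ℝ) + 1)) * 2 :=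
    mul_le_mul_of_nonneg_left h8 (by positivity)
  linarith

/-- the net exponent -/
theorem net_exponent {s t w J : ℕ} (hs : 0 < s) (α : Fin s → ℕ) (β : Fin t → ℕ)
    (hα : ∀ a, w ≤ α a ∧ α a < J) (hβ : ∀ b, w ≤ β b ∧ β b < J) :
    ∑ i ∈ range J, (kp α i : ℝ) * Coll.ell w (kp β) i
      - ∑ a, (α a : ℝ) - ∑ b, (β b : ℝ)
      + ∑ k ∈ range J, (if k < w then ((s : ℝ) + 1) else if kp β k = 0 then 0 else (kp α k : ℝ))
      ≤ ∑ i ∈ Ico 1 J, ((kp α i : ℝ) * Real.log (kp α i) - kp α i) + 2 * w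
        + (s * Real.log ((t : ℝ) + 1) + s + 1) := by
  have hwJ : w < J := by
    have := hα ⟨0, hs⟩
    omega
  have hJ : 0 < J := by omega
  rw [sum_eq_kp α (fun a => (hα a).2), sum_eq_kp β (fun b => (hβ b).2)]
  have hr : ∀ F : ℕ → ℝ, ∑ i ∈ range J, F i = F 0 + ∑ i ∈ Ico 1 J, F i := by
    intro F
    rw [range_eq_Ico, sum_eq_sum_Ico_succ_bot hJ]
  rw [hr, hr]
  have h0 : (kp α 0 : ℝ) * Coll.ell w (kp β) 0
      + (if 0 < w then ((s : ℝ) + 1) else if kp β 0 = 0 then 0 else (kp α 0 : ℝ))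
      ≤ s * Real.log ((t : ℝ) + 1) + s + 1 := by
    rw [kp_zero, kp_zero]
    have hs0 : (0:ℝ) ≤ (s : ℝ) := Nat.cast_nonneg _
    have ht0 : (0:ℝ) ≤ (t : ℝ) := Nat.cast_nonneg _
    unfold Coll.ell
    rw [kp_zero]
    by_cases hw : 0 < w
    · rw [if_pos hw, if_pos hw]
      linarith
    · rw [if_neg hw, if_neg hw]
      have h1 : Real.log (max 1 (t : ℝ)) ≤ Real.log ((t : ℝ) + 1) := by
        apply Real.log_le_log (by positivity)
        exact max_le (by linarith) (by linarith)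
      have h2 := mul_le_mul_of_nonneg_left h1 hs0
      split_ifs <;> linarith
  have h1 : ∑ i ∈ Ico 1 J, ((kp α i : ℝ) * Coll.ell w (kp β) i - kp α i - kp β i
      + (if i < w then ((s : ℝ) + 1) else if kp β i = 0 then 0 else (kp α i : ℝ)))
      ≤ ∑ i ∈ Ico 1 J, (((kp α i : ℝ) * Real.log (kp α i) - kp α i) + (if i < w then 2 else 0)) := by
    apply sum_le_sum
    intro i _
    by_cases hiw : i < w
    · have e1 : kp α i = s := kp_eq_of_le (fun a => hiw.le.trans (hα a).1)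
      have e2 : kp β i = t := kp_eq_of_le (fun b => hiw.le.trans (hβ b).1)
      unfold Coll.ell
      rw [if_pos hiw, if_pos hiw, if_pos hiw, e1, e2, kp_zero]
      have := net_low (K := s) (T := t)
      linarith
    · unfold Coll.ell
      rw [if_neg hiw, if_neg hiw, if_neg hiw, add_zero]
      exact net_high
  rw [sum_add_distrib, sum_sub_distrib, sum_sub_distrib, sum_add_distrib] at h1
  have h2 : ∑ i ∈ Ico 1 J, (if i < w then (2:ℝ) else 0) ≤ 2 * w := by
    rw [← sum_filter, sum_const, nsmul_eq_mul]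
    have h3 : ((Ico 1 J).filter (fun i => i < w)).card ≤ w := by
      have : (Ico 1 J).filter (fun i => i < w) ⊆ range w := by
        intro i hi
        rw [mem_filter] at hi
        exact mem_range.mpr hi.2
      have := card_le_card this
      rwa [card_range] at this
    have h3' : (((Ico 1 J).filter (fun i => i < w)).card : ℝ) ≤ w := by exact_mod_cast h3
    linarith
  linarith


/-! ### Crude factors -/

theorem card_le {s t N : ℕ} {Y : ℝ} (hN : (N : ℝ) ≤ Y) (hs : s ≤ N) (ht : t ≤ N) (hY : 2 ≤ Y) :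
    (Fintype.card (Str s t) : ℝ) ≤ Real.exp (7 * N * Real.log Y) := by
  have hY0 : 0 < Y := by linarith
  have h0 : Real.exp (7 * N * Real.log Y) = Y ^ (7 * N) := by
    rw [← Real.rpow_natCast, Real.rpow_def_of_pos hY0]
    congr 1
    push_cast
    ring
  rw [h0]
  have hc : (Fintype.card (Str s t) : ℝ) ≤ (t : ℝ) ^ s * ((s : ℝ) ^ t * (2 ^ s * ((s + t).factorial : ℝ))) := by
    exact_mod_cast card_Str s t
  refine hc.trans ?_
  have hsY : (s : ℝ) ≤ Y := le_trans (by exact_mod_cast hs) hN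
  have htY : (t : ℝ) ≤ Y := le_trans (by exact_mod_cast ht) hN
  have h1 : (t : ℝ) ^ s ≤ Y ^ N :=
    (pow_le_pow_left₀ (Nat.cast_nonneg _) htY s).trans (pow_le_pow_right₀ (by linarith) hs)
  have h2 : (s : ℝ) ^ t ≤ Y ^ N :=
    (pow_le_pow_left₀ (Nat.cast_nonneg _) hsY t).trans (pow_le_pow_right₀ (by linarith) ht)
  have h3 : (2 : ℝ) ^ s ≤ Y ^ N :=
    (pow_le_pow_left₀ (by norm_num) hY s).trans (pow_le_pow_right₀ (by linarith) hs)
  have h4 : ((s + t).factorial : ℝ) ≤ Y ^ (4 * N) := by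
    have e1 : ((s + t).factorial : ℝ) ≤ ((s + t : ℕ) : ℝ) ^ (s + t) := by
      exact_mod_cast Nat.factorial_le_pow (s + t)
    have e2 : ((s + t : ℕ) : ℝ) ≤ Y ^ 2 := by
      push_cast
      nlinarith
    calc ((s + t).factorial : ℝ) ≤ ((s + t : ℕ) : ℝ) ^ (s + t) := e1
      _ ≤ (Y ^ 2) ^ (s + t) := pow_le_pow_left₀ (Nat.cast_nonneg _) e2 _
      _ = Y ^ (2 * (s + t)) := by rw [← pow_mul]
      _ ≤ Y ^ (4 * N) := pow_le_pow_right₀ (by linarith) (by omega)
  have e7 : Y ^ (7 * N) = Y ^ N * (Y ^ N * (Y ^ N * Y ^ (4 * N))) := by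
    rw [← pow_add, ← pow_add, ← pow_add]
    congr 1
    ring
  rw [e7]
  have p0 : 0 ≤ Y ^ N := by positivity
  apply mul_le_mul h1 _ (by positivity) p0
  apply mul_le_mul h2 _ (by positivity) p0
  exact mul_le_mul h3 h4 (by positivity) p0

theorem exp_sqrt_large {Y : ℝ} (hY : 10000 ≤ Y) : 80 * Y ≤ Real.exp (⌊Real.sqrt Y⌋₊ : ℝ) := by
  set u := Real.sqrt Y with hu
  have hY0 : 0 ≤ Y := by linarith
  have hu2 : u ^ 2 = Y := Real.sq_sqrt hY0
  have hu100 : 100 ≤ u := by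
    rw [hu, Real.le_sqrt' (by norm_num)]
    linarith
  have hfl : u - 1 ≤ (⌊u⌋₊ : ℝ) := by
    have := Nat.lt_floor_add_one u
    linarith
  have h1 : Real.exp (u - 1) ≤ Real.exp (⌊u⌋₊ : ℝ) := Real.exp_le_exp.mpr hfl
  refine le_trans ?_ h1
  have h2 := Real.pow_div_factorial_le_exp (u - 1) (by linarith) 4
  refine le_trans ?_ h2
  have h3 : ((Nat.factorial 4 : ℕ) : ℝ) = 24 := by norm_num [Nat.factorial]
  rw [h3, ← hu2, le_div_iff₀ (by norm_num)]
  have h4 : 44 * u ≤ (u - 1) ^ 2 := by nlinarith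
  have h5 : (44 * u) ^ 2 ≤ ((u - 1) ^ 2) ^ 2 := pow_le_pow_left₀ (by linarith) h4 2
  nlinarith

theorem prod_log_le {s N : ℕ} {Y : ℝ} (hY : 10000 ≤ Y) (hs : s ≤ N) {α : Fin s → ℕ}
    {r : Fin s → ℝ} (hr : ∀ a, Real.exp (Real.exp (α a) / (40 * Y)) ≤ r a) :
    ∏ a, (1 / Real.log (r a)) ≤ Real.exp (2 * N * Real.log Y - ∑ a, (α a : ℝ)) := by
  have hY0 : 0 < Y := by linarith
  have hlY : 0 ≤ Real.log Y := Real.log_nonneg (by linarith)
  have h1 : ∀ a, 1 / Real.log (r a) ≤ Real.exp (2 * Real.log Y - α a) := by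
    intro a
    have h2 : Real.exp (α a) / (40 * Y) ≤ Real.log (r a) := by
      rw [Real.le_log_iff_exp_le (lt_of_lt_of_le (Real.exp_pos _) (hr a))]
      exact hr a
    have h3 : 0 < Real.exp (α a) / (40 * Y) := by positivity
    refine (one_div_le_one_div_of_le h3 h2).trans ?_
    rw [one_div, inv_div, Real.exp_sub]
    apply div_le_div_of_nonneg_right _ (Real.exp_pos _).le
    have h4 : Real.exp (2 * Real.log Y) = Y ^ 2 := by
      rw [← Real.rpow_natCast, Real.rpow_def_of_pos hY0]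
      congr 1
      push_cast
      ring
    rw [h4]
    nlinarith
  have h0 : ∀ a, 0 ≤ 1 / Real.log (r a) := by
    intro a
    have h2 : Real.exp (α a) / (40 * Y) ≤ Real.log (r a) := by
      rw [Real.le_log_iff_exp_le (lt_of_lt_of_le (Real.exp_pos _) (hr a))]
      exact hr a
    have h3 : 0 < Real.exp (α a) / (40 * Y) := by positivity
    have : 0 < Real.log (r a) := lt_of_lt_of_le h3 h2
    positivity
  refine (prod_le_prod (fun a _ => h0 a) (fun a _ => h1 a)).trans ?_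
  rw [← Real.exp_sum, sum_sub_distrib, sum_const, card_univ, Fintype.card_fin, nsmul_eq_mul]
  apply Real.exp_le_exp.mpr
  have h5 : (s : ℝ) ≤ N := by exact_mod_cast hs
  have : (s : ℝ) * (2 * Real.log Y) ≤ N * (2 * Real.log Y) :=
    mul_le_mul_of_nonneg_right h5 (by linarith)
  linarith

theorem four_le_exp_two : (4:ℝ) ≤ Real.exp 2 := by
  have h := Real.exp_one_gt_d9
  have h2 : Real.exp 2 = Real.exp 1 * Real.exp 1 := by rw [← Real.exp_add]; norm_num
  rw [h2]
  nlinarith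

/-- conditions on a factor matrix for the profile `(α, β)` -/
structure MOk {s t : ℕ} (w X J : ℕ) (r : Fin s → ℝ) (r' : Fin t → ℝ) (α : Fin s → ℕ)
    (β : Fin t → ℕ) (F : ℝ) (m : Mat s t) : Prop where
  good : Good X r r' m
  rowC : ∀ a, Coll.cl (rowp m a + 1) ≤ α a
  colC : ∀ b, Coll.cl (colp m b + 1) ≤ β b
  smallR : ∀ i (q : ℕ), q.Prime → q ∣ m i none → yy q ≤ w
  smallC : ∀ j (q : ℕ), q.Prime → q ∣ m none j → yy q ≤ w
  stat : Coll.st (Coll.ell w (kp β)) (vp m)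
    ≤ ∑ i ∈ range J, (kp α i : ℝ) * Coll.ell w (kp β) i + F

/-- S5, general weight `W`, fixed profile. -/
theorem net (C1 : ℕ) {Y : ℝ} (hY : 10000 ≤ Y) {N J s t X : ℕ} {α : Fin s → ℕ} {β : Fin t → ℕ}
    (hN : (N : ℝ) ≤ Y) (hsN : s ≤ N) (htN : t ≤ N)
    (hα : ∀ a, ⌊Real.sqrt Y⌋₊ ≤ α a ∧ α a < J) (hβ : ∀ b, ⌊Real.sqrt Y⌋₊ ≤ β b ∧ β b < J)
    {r : Fin s → ℝ} {r' : Fin t → ℝ} {ρt L κ : ℝ} {W : ℕ → ℝ}
    (hS : Sieve X 4 ρt L κ W) (hL : L ≤ Y ^ C1)
    (hr : ∀ a, Real.exp (Real.exp (α a) / (40 * Y)) ≤ r a)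
    (hr' : ∀ b, Real.exp (Real.exp (β b) / (40 * Y)) ≤ r' b)
    (i0 : Fin s) (htop : ρt ≤ r i0) {F : ℝ} (MM : Finset (Mat s t))
    (hMM : ∀ m ∈ MM, MOk ⌊Real.sqrt Y⌋₊ X J r r' α β F m) :
    ∑ m ∈ MM, W (vp m) ≤ κ * Real.exp (∑ i ∈ Ico 1 J, ((kp α i : ℝ) * Real.log (kp α i) - kp α i)
      + F + 2 * ⌊Real.sqrt Y⌋₊ + (2 * C1 + 130) * ((N : ℝ) + 1) * Real.log Y) := by
  set w := ⌊Real.sqrt Y⌋₊ with hw
  have hY0 : 0 < Y := by linarith
  have hs0 : 0 < s := i0.pos
  have hlog1 : 1 ≤ Real.log Y := by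
    rw [Real.le_log_iff_exp_le hY0]
    have := Real.exp_one_lt_d9
    linarith
  have hw1 : 1 ≤ w := by
    rw [hw, Nat.one_le_floor_iff, Real.one_le_sqrt]
    linarith
  have hexpw : 80 * Y ≤ Real.exp (w : ℝ) := exp_sqrt_large hY
  have h4 : ∀ k : ℕ, w ≤ k → 4 ≤ Real.exp (Real.exp (k : ℝ) / (40 * Y)) := by
    intro k hk
    refine four_le_exp_two.trans (Real.exp_le_exp.mpr ?_)
    rw [le_div_iff₀ (by positivity)]
    have h5 : Real.exp (w : ℝ) ≤ Real.exp (k : ℝ) := Real.exp_le_exp.mpr (by exact_mod_cast hk)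
    linarith
  have hr4 : ∀ a, 4 ≤ r a := fun a => (h4 _ (hα a).1).trans (hr a)
  have hr4' : ∀ b, 4 ≤ r' b := fun b => (h4 _ (hβ b).1).trans (hr' b)
  set l := Coll.ell w (kp β) with hl
  set g : ℕ → ℝ := fun q => Real.exp (-(l (Coll.cl q))) with hg
  have hg0 : ∀ q, 0 ≤ g q := fun q => (Real.exp_pos _).le
  have hg1 : ∀ q, g q ≤ 1 := by
    intro q
    rw [hg]
    simp only
    rw [Real.exp_le_one_iff]
    have := ell_nonneg w (kp β) (Coll.cl q)
    linarith
  set S := ∑ i ∈ range J, (kp α i : ℝ) * l i with hSdef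
  have hmain := coll_bound hS hr4 hr4' i0 htop MM (fun m hm => (hMM m hm).good) hg0 hg1
    (Z := Real.exp (-(S + F))) (Real.exp_pos _) (fun i j => PC (lim w α β i j))
    (fun i j q hq => (mem_PC.mp hq).1)
    (by
      intro m hm i j q hq hqm
      rw [mem_PC]
      refine ⟨hq, ?_⟩
      have hO := hMM m hm
      have hsmall : yy q ≤ w → Coll.cl q < w := by
        intro h
        unfold Coll.cl
        have := Nat.ceil_le.mpr h
        omega
      rcases i with _ | a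
      · exact hsmall (hO.smallC j q hq hqm)
      · rcases j with _ | b
        · exact hsmall (hO.smallR (some a) q hq hqm)
        · show Coll.cl q < min (α a) (β b) + 1
          have h6 : Coll.cl q ≤ α a := by
            refine le_trans ?_ (hO.rowC a)
            apply LS.cl_mono
            have := Nat.le_of_dvd (hO.good.rowp_pos a) (hqm.trans (dvd_rowp m a (some b)))
            omega
          have h7 : Coll.cl q ≤ β b := by
            refine le_trans ?_ (hO.colC b)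
            apply LS.cl_mono
            have := Nat.le_of_dvd (hO.good.colp_pos b) (hqm.trans (dvd_colp m (some a) b))
            omega
          omega)
    (by
      intro m hm
      have hO := hMM m hm
      rw [GG_vp g m hO.good.pos]
      have hv : vp m ≠ 0 := by
        unfold vp
        exact prod_ne_zero_iff.mpr (fun i _ => prod_ne_zero_iff.mpr (fun j _ => (hO.good.pos i j).ne'))
      rw [hg, GG_eq_exp l _ hv]
      apply Real.exp_le_exp.mpr
      have := hO.stat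
      linarith)
  refine hmain.trans ?_
  have hκ := hS.κ0
  have hL1 := hS.L1
  have hA := card_le hN hsN htN (by linarith : (2:ℝ) ≤ Y)
  have hB : L ^ (s + t) ≤ Real.exp (2 * N * C1 * Real.log Y) := by
    have h5 : Real.exp (2 * N * C1 * Real.log Y) = (Y ^ C1) ^ (2 * N) := by
      rw [← pow_mul, ← Real.rpow_natCast, Real.rpow_def_of_pos hY0]
      congr 1
      push_cast
      ring
    rw [h5]
    calc L ^ (s + t) ≤ (Y ^ C1) ^ (s + t) := pow_le_pow_left₀ (by linarith) hL _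
      _ ≤ (Y ^ C1) ^ (2 * N) := pow_le_pow_right₀ (one_le_pow₀ (by linarith)) (by omega)
  have hC := prod_log_le hY hsN hr
  have hD := prod_log_le hY htN hr'
  have hE : ∏ i, ∏ j, Real.exp (∑ q ∈ PC (lim w α β i j), g q / ((q : ℝ) - 1))
      ≤ Real.exp (∑ k ∈ range J, (if k < w then ((s : ℝ) + 1) else if kp β k = 0 then 0
        else (kp α k : ℝ)) + 112 * ((s : ℝ) + 1)) := by
    have h5 : ∏ i, ∏ j, Real.exp (∑ q ∈ PC (lim w α β i j), g q / ((q : ℝ) - 1))
        = Real.exp (∑ i, ∑ j, ∑ q ∈ PC (lim w α β i j), g q / ((q : ℝ) - 1)) := by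
      rw [Real.exp_sum]
      apply prod_congr rfl
      intro i _
      rw [Real.exp_sum]
    rw [h5]
    exact Real.exp_le_exp.mpr (sum_cells_le hs0 α β hα)
  have hr0 : 0 ≤ ∏ a, (1 / Real.log (r a)) := prod_nonneg (fun a _ => by
    have : 0 < Real.log (r a) := Real.log_pos (by linarith [hr4 a])
    positivity)
  have hr0' : 0 ≤ ∏ b, (1 / Real.log (r' b)) := prod_nonneg (fun b _ => by
    have : 0 < Real.log (r' b) := Real.log_pos (by linarith [hr4' b])
    positivity)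
  have hnet := net_exponent hs0 α β hα hβ
  have hZ : (Real.exp (-(S + F)))⁻¹ = Real.exp (S + F) := by
    rw [← Real.exp_neg, neg_neg]
  rw [hZ]
  have hfin : (Fintype.card (Str s t) : ℝ) *
        (κ * L ^ (s + t) * (∏ i, (1 / Real.log (r i))) * ∏ j, (1 / Real.log (r' j))) *
        (Real.exp (S + F) * ∏ i, ∏ j, Real.exp (∑ q ∈ PC (lim w α β i j), g q / ((q : ℝ) - 1)))
      ≤ Real.exp (7 * N * Real.log Y) *
        (κ * Real.exp (2 * N * C1 * Real.log Y) * Real.exp (2 * N * Real.log Y - ∑ a, (α a : ℝ))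
          * Real.exp (2 * N * Real.log Y - ∑ b, (β b : ℝ))) *
        (Real.exp (S + F) * Real.exp (∑ k ∈ range J, (if k < w then ((s : ℝ) + 1)
          else if kp β k = 0 then 0 else (kp α k : ℝ)) + 112 * ((s : ℝ) + 1))) := by
    have hL0 : 0 ≤ L ^ (s + t) := by positivity
    apply mul_le_mul
    · apply mul_le_mul hA _ (by positivity) (Real.exp_pos _).le
      apply mul_le_mul _ hD hr0' (by positivity)
      apply mul_le_mul _ hC hr0 (by positivity)
      exact mul_le_mul_of_nonneg_left hB hκ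
    · exact mul_le_mul_of_nonneg_left hE (Real.exp_pos _).le
    · apply mul_nonneg (Real.exp_pos _).le
      exact prod_nonneg (fun i _ => prod_nonneg (fun j _ => (Real.exp_pos _).le))
    · positivity
  refine hfin.trans ?_
  have hcomb : Real.exp (7 * N * Real.log Y) *
        (κ * Real.exp (2 * N * C1 * Real.log Y) * Real.exp (2 * N * Real.log Y - ∑ a, (α a : ℝ))
          * Real.exp (2 * N * Real.log Y - ∑ b, (β b : ℝ))) *
        (Real.exp (S + F) * Real.exp (∑ k ∈ range J, (if k < w then ((s : ℝ) + 1)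
          else if kp β k = 0 then 0 else (kp α k : ℝ)) + 112 * ((s : ℝ) + 1)))
      = κ * Real.exp (7 * N * Real.log Y + 2 * N * C1 * Real.log Y
          + (2 * N * Real.log Y - ∑ a, (α a : ℝ)) + (2 * N * Real.log Y - ∑ b, (β b : ℝ))
          + (S + F) + (∑ k ∈ range J, (if k < w then ((s : ℝ) + 1)
          else if kp β k = 0 then 0 else (kp α k : ℝ)) + 112 * ((s : ℝ) + 1))) := by
    simp only [Real.exp_add]
    ring
  rw [hcomb]
  apply mul_le_mul_of_nonneg_left _ hκ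
  apply Real.exp_le_exp.mpr
  have hsN' : (s : ℝ) ≤ N := by exact_mod_cast hsN
  have htN' : (t : ℝ) ≤ N := by exact_mod_cast htN
  have hlt : Real.log ((t : ℝ) + 1) ≤ 2 * Real.log Y := by
    have h5 : (2:ℝ) * Real.log Y = Real.log (Y ^ 2) := by rw [Real.log_pow]; norm_num
    rw [h5]
    apply Real.log_le_log (by positivity)
    nlinarith
  have hlt0 : 0 ≤ Real.log ((t : ℝ) + 1) := by
    apply Real.log_nonneg
    have : (0:ℝ) ≤ (t : ℝ) := Nat.cast_nonneg _
    linarith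
  have h5 : (s : ℝ) * Real.log ((t : ℝ) + 1) ≤ N * (2 * Real.log Y) :=
    mul_le_mul hsN' hlt hlt0 (Nat.cast_nonneg _)
  have h6 : 113 * ((N : ℝ) + 1) ≤ 113 * ((N : ℝ) + 1) * Real.log Y := by
    have h7 : 0 ≤ 113 * ((N : ℝ) + 1) := by positivity
    nlinarith
  have h8 : 0 ≤ Real.log Y := by linarith
  have h9 : (0:ℝ) ≤ N := Nat.cast_nonneg _
  have h10 : 0 ≤ (C1 : ℝ) * Real.log Y := by positivity
  nlinarith


/-! ### The two instances -/

theorem ll_le {X : ℕ} {Y : ℝ} (hY : 1 ≤ Y) (hX : yy X ≤ Y + 1) : ll X ≤ Y + 4 := by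
  unfold ll
  have h1 : (X : ℝ) ≤ Real.exp (Real.exp (Y + 1)) := (LS.yy_le_iff (by linarith)).mp hX
  have he : Real.exp 1 ≤ Real.exp (Real.exp (Y + 1)) :=
    Real.exp_le_exp.mpr (Real.one_le_exp (by linarith))
  have he1 := Real.exp_one_gt_d9
  have h2 : (X : ℝ) + 10 ≤ 6 * Real.exp (Real.exp (Y + 1)) := by linarith
  have h6 : (6:ℝ) ≤ Real.exp 2 := by
    have h2 : Real.exp 2 = Real.exp 1 * Real.exp 1 := by rw [← Real.exp_add]; norm_num
    rw [h2]
    nlinarith
  have h3 : (X : ℝ) + 10 ≤ Real.exp (Real.exp (Y + 1) + 2) := by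
    rw [Real.exp_add]
    have := Real.exp_pos (Real.exp (Y + 1))
    nlinarith
  have hX0 : (0:ℝ) ≤ (X : ℝ) := Nat.cast_nonneg _
  have h4 : Real.log ((X : ℝ) + 10) ≤ Real.exp (Y + 1) + 2 := by
    rw [Real.log_le_iff_le_exp (by linarith)]
    exact h3
  have h5 : Real.exp (Y + 1) + 2 ≤ Real.exp (Y + 4) := by
    have e1 : Real.exp (Y + 4) = Real.exp (Y + 1) * Real.exp 3 := by rw [← Real.exp_add]; ring_nf
    have e2 : (3:ℝ) + 1 ≤ Real.exp 3 := Real.add_one_le_exp 3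
    have e3 : 1 ≤ Real.exp (Y + 1) := Real.one_le_exp (by linarith)
    rw [e1]
    nlinarith
  have h7 : 0 < Real.log ((X : ℝ) + 10) := Real.log_pos (by linarith)
  rw [Real.log_le_iff_le_exp h7]
  exact h4.trans h5

theorem L_le {C Y : ℝ} (hC : 0 ≤ C) (hY : 16 ≤ Y) (hCY : C ≤ Y) {X : ℕ} (hX : yy X ≤ Y + 1) :
    C * ll X ^ 3 ≤ Y ^ 7 := by
  have h1 := ll_le (by linarith) hX
  have h0 := ll_ge X
  have h2 : ll X ≤ Y ^ 2 := by nlinarith
  have h3 : ll X ^ 3 ≤ (Y ^ 2) ^ 3 := pow_le_pow_left₀ (by linarith) h2 3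
  calc C * ll X ^ 3 ≤ Y * (Y ^ 2) ^ 3 := mul_le_mul hCY h3 (by positivity) (by linarith)
    _ = Y ^ 7 := by ring

/-- S5, plain weights. -/
theorem net_plain : ∃ Y0 : ℝ, 1 ≤ Y0 ∧ ∀ {Y : ℝ}, Y0 ≤ Y → ∀ {N J s t X : ℕ} {α : Fin s → ℕ}
    {β : Fin t → ℕ}, (N : ℝ) ≤ Y → 0 < s → s ≤ N → t ≤ N →
    (∀ a, ⌊Real.sqrt Y⌋₊ ≤ α a ∧ α a < J) → (∀ b, ⌊Real.sqrt Y⌋₊ ≤ β b ∧ β b < J) →
    yy X ≤ Y + 1 → ∀ {r : Fin s → ℝ} {r' : Fin t → ℝ},
    (∀ a, Real.exp (Real.exp (α a) / (40 * Y)) ≤ r a) →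
    (∀ b, Real.exp (Real.exp (β b) / (40 * Y)) ≤ r' b) →
    ∀ {F : ℝ} (MM : Finset (Mat s t)),
    (∀ m ∈ MM, MOk ⌊Real.sqrt Y⌋₊ X J r r' α β F m) →
    ∑ m ∈ MM, 1 / (vp m : ℝ) ≤
      Real.exp (∑ i ∈ Ico 1 J, ((kp α i : ℝ) * Real.log (kp α i) - kp α i)
      + F + 2 * ⌊Real.sqrt Y⌋₊ + 144 * ((N : ℝ) + 1) * Real.log Y) := by
  obtain ⟨C, hC, h⟩ := exists_sieve
  refine ⟨max 10000 C, le_trans (by norm_num) (le_max_left _ _), ?_⟩
  intro Y hY N J s t X α β hN hs hsN htN hα hβ hX r r' hr hr' F MM hMM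
  have hY1 : 10000 ≤ Y := (le_max_left _ _).trans hY
  have hY2 : C ≤ Y := (le_max_right _ _).trans hY
  have hL := L_le (by linarith : 0 ≤ C) (by linarith : 16 ≤ Y) hY2 hX
  have := net 7 hY1 hN hsN htN hα hβ (h X (r ⟨0, hs⟩)) hL hr hr' ⟨0, hs⟩ le_rfl MM hMM
  rw [one_mul] at this
  refine this.trans (le_of_eq ?_)
  norm_num

/-- S5, counting weights. -/
theorem net_count : ∃ Y0 : ℝ, 1 ≤ Y0 ∧ ∀ {Y : ℝ}, Y0 ≤ Y → ∀ {N J s t X : ℕ} {α : Fin s → ℕ}
    {β : Fin t → ℕ}, (N : ℝ) ≤ Y → s ≤ N → t ≤ N →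
    (∀ a, ⌊Real.sqrt Y⌋₊ ≤ α a ∧ α a < J) → (∀ b, ⌊Real.sqrt Y⌋₊ ≤ β b ∧ β b < J) →
    yy X ≤ Y + 1 → ∀ {r : Fin s → ℝ} {r' : Fin t → ℝ},
    (∀ a, Real.exp (Real.exp (α a) / (40 * Y)) ≤ r a) →
    (∀ b, Real.exp (Real.exp (β b) / (40 * Y)) ≤ r' b) →
    ∀ {ρt z : ℝ} (i0 : Fin s), 4 ≤ ρt → ρt ≤ r i0 → 0 < z →
    ∀ {F : ℝ} (MM : Finset (Mat s t)),
    (∀ m ∈ MM, MOk ⌊Real.sqrt Y⌋₊ X J r r' α β F m) →
    ∑ m ∈ MM, (if (vp m : ℝ) ≤ z then 1 / z else 0) ≤ (1 / Real.log ρt) *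
      Real.exp (∑ i ∈ Ico 1 J, ((kp α i : ℝ) * Real.log (kp α i) - kp α i)
      + F + 2 * ⌊Real.sqrt Y⌋₊ + 144 * ((N : ℝ) + 1) * Real.log Y) := by
  obtain ⟨C, hC, h⟩ := exists_sieve_count
  refine ⟨max 10000 C, le_trans (by norm_num) (le_max_left _ _), ?_⟩
  intro Y hY N J s t X α β hN hsN htN hα hβ hX r r' hr hr' ρt z i0 hρ hρr hz F MM hMM
  have hY1 : 10000 ≤ Y := (le_max_left _ _).trans hY
  have hY2 : C ≤ Y := (le_max_right _ _).trans hY
  have hL := L_le (by linarith : 0 ≤ C) (by linarith : 16 ≤ Y) hY2 hX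
  have := net 7 hY1 hN hsN htN hα hβ (h X ρt z hρ hz) hL hr hr' i0 hρr MM hMM
  refine this.trans (le_of_eq ?_)
  norm_num

end Crest.Agent.R020.CollM
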