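import Crest.Agent.R020.CollDefs
import Crest.Agent.R020.Stmt

/-!
Row 20, module (L), steps S1 and S2: alive/dead parts of a preimage, cancellation of the common
alive primes, factor matrices.
-/

set_option autoImplicit false

open Crest.NumberTheoryR.TotientScale

namespace Crest.Agent.R020.Coll

/-! ### `yy` and cells -/

lemma cl_lt_yy {p : ℕ} (h : 0 < yy p) : (cl p : ℝ) < yy p := by
  unfold cl
  have h1 : 0 < ⌈yy p⌉₊ := Nat.ceil_pos.mpr h
  have h2 : ⌈yy p⌉₊ - 1 < ⌈yy p⌉₊ := by omega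
  exact Nat.lt_ceil.mp h2

lemma cl_le_yy (p : ℕ) : (cl p : ℝ) ≤ yy p := by
  rcases (yy_nonneg p).lt_or_eq with h | h
  · exact (cl_lt_yy h).le
  · unfold cl; rw [← h]; simp

lemma yy_le_cl (p : ℕ) : yy p ≤ cl p + 1 := by
  have h := Nat.le_ceil (yy p)
  refine h.trans ?_
  have : ⌈yy p⌉₊ ≤ cl p + 1 := by unfold cl; omega
  exact_mod_cast this

lemma cl_mono {p q : ℕ} (h : p ≤ q) : cl p ≤ cl q := by
  unfold cl
  have := Nat.ceil_le_ceil (yy_mono h)
  omega

lemma le_cl_of_lt_yy {p w : ℕ} (h : (w : ℝ) < yy p) : w ≤ cl p := by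
  unfold cl
  have := Nat.lt_ceil.mpr h
  omega

lemma cl_lt_of_yy_le {p w : ℕ} (hw : 1 ≤ w) (h : yy p ≤ w) : cl p < w := by
  unfold cl
  have := Nat.ceil_le.mpr h
  omega

/-- a positive `yy` is the iterated logarithm -/
lemma yy_eq {p : ℕ} (h : 0 < yy p) : yy p = Real.log (Real.log p) := by
  unfold yy at h ⊢
  rcases le_total (Real.log (Real.log (p : ℝ))) 0 with h0 | h0
  · rw [max_eq_left h0] at h; exact absurd h (lt_irrefl _)
  · exact max_eq_right h0

lemma exp_yy {p : ℕ} (h : 0 < yy p) : Real.exp (yy p) = Real.log p := by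
  rw [yy_eq h, Real.exp_log]
  by_contra hle
  push Not at hle
  -- log p ≤ 0 for a natural number means p ≤ 1
  have hp : p ≤ 1 := by
    by_contra hp
    push Not at hp
    have : 0 < Real.log (p : ℝ) := Real.log_pos (by exact_mod_cast hp)
    linarith
  have : yy p = 0 := by
    interval_cases p
    · simp [yy]
    · exact yy_one
  linarith

lemma two_lt_of_yy_pos {p : ℕ} (h : 0 < yy p) : 3 ≤ p := by
  by_contra hp
  push Not at hp
  interval_cases p
  · simp [yy] at h
  · rw [yy_one] at h; exact lt_irrefl _ h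
  · rw [yy_two] at h; exact lt_irrefl _ h

/-! ### products of distinct primes -/

lemma prod_dvd_of_primes {S : Finset ℕ} {n : ℕ} (hS : ∀ p ∈ S, p.Prime ∧ p ∣ n) :
    (∏ p ∈ S, p) ∣ n := by
  apply Finset.prod_primes_dvd
  · intro p hp; exact (hS p hp).1.prime
  · intro p hp; exact (hS p hp).2

lemma totient_prod_primes {S : Finset ℕ} (hS : ∀ p ∈ S, p.Prime) :
    Nat.totient (∏ p ∈ S, p) = ∏ p ∈ S, (p - 1) := by
  induction S using Finset.induction_on with
  | empty => simp
  | insert a S ha ih =>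
    rw [Finset.prod_insert ha, Finset.prod_insert ha, Nat.totient_mul, Nat.totient_prime (hS a (by simp)),
      ih (fun p hp => hS p (by simp [hp]))]
    apply Nat.Coprime.prod_right
    intro p hp
    rw [Nat.coprime_primes (hS a (by simp)) (hS p (by simp [hp]))]
    rintro rfl
    exact ha hp

/-- a prime dividing `φ(D)` divides `p - 1` for a prime `p ∣ D`, or its square divides `D` -/
lemma prime_dvd_totient {D l : ℕ} (hD : D ≠ 0) (hl : l.Prime) (h : l ∣ Nat.totient D) :
    (∃ p, p.Prime ∧ p ∣ D ∧ l ∣ p - 1) ∨ l ^ 2 ∣ D := by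
  rw [Nat.totient_eq_prod_factorization hD, Finsupp.prod, Prime.dvd_finsetProd_iff hl.prime] at h
  obtain ⟨p, hp, hdvd⟩ := h
  have hpp : p.Prime := Nat.prime_of_mem_primeFactors (by simpa using hp)
  have hpD : p ∣ D := Nat.dvd_of_mem_primeFactors (by simpa using hp)
  rcases (Nat.Prime.dvd_mul hl).1 hdvd with h1 | h1
  · right
    have h2 := hl.dvd_of_dvd_pow h1
    have h3 : l = p := (Nat.prime_dvd_prime_iff_eq hl hpp).1 h2
    subst h3
    have hk : D.factorization l - 1 ≠ 0 := by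
      intro h0
      rw [h0, pow_zero] at h1
      exact hl.one_lt.ne' (Nat.dvd_one.1 h1)
    have h4 : 2 ≤ D.factorization l := by omega
    exact (hl.pow_dvd_iff_le_factorization hD).2 h4
  · left
    exact ⟨p, hpp, hpD, h1⟩

lemma mem_alv {w n p : ℕ} : p ∈ alv w n ↔ (p.Prime ∧ p ∣ n ∧ n ≠ 0) ∧ Alive w p := by
  unfold alv
  simp only [Finset.mem_filter, Nat.mem_primeFactors]

lemma Alive.lt_yy {w p : ℕ} (h : Alive w p) : (w : ℝ) < yy p := by
  unfold Alive at h
  refine lt_of_lt_of_le h (yy_mono ?_)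
  rcases Nat.eq_zero_or_pos (p - 1) with h0 | h0
  · rw [h0]
    rcases Nat.eq_zero_or_pos p with h1 | h1
    · exfalso
      rw [h0] at h
      unfold Pm at h
      simp only [dl_zero, List.headD_nil, yy_one] at h
      exact absurd h (not_lt.2 (Nat.cast_nonneg w))
    · unfold Pm
      simp only [dl_zero, List.headD_nil]
      exact h1
  · have h1 : Pm (p - 1) ≤ p - 1 := by
      rw [Pm_le_iff h0.ne' h0]
      intro l hl hd
      exact Nat.le_of_dvd h0 hd
    omega

section decomp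

variable {w n : ℕ}

lemma alv_sq (hsq : ∀ p : ℕ, p.Prime → (w : ℝ) < yy p → ¬ p ^ 2 ∣ n) {p : ℕ} (hp : p ∈ alv w n) :
    ¬ p ^ 2 ∣ n := hsq p (mem_alv.1 hp).1.1 (mem_alv.1 hp).2.lt_yy

lemma prod_alv_dvd (w n : ℕ) : (∏ p ∈ alv w n, p) ∣ n :=
  prod_dvd_of_primes fun _ hp => ⟨(mem_alv.1 hp).1.1, (mem_alv.1 hp).1.2.1⟩

lemma deadPart_mul (w n : ℕ) : (∏ p ∈ alv w n, p) * deadPart w n = n :=
  Nat.mul_div_cancel' (prod_alv_dvd w n)

lemma deadPart_ne_zero (hn : n ≠ 0) : deadPart w n ≠ 0 := by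
  intro h
  have := deadPart_mul w n
  rw [h, mul_zero] at this
  exact hn this.symm

lemma not_dvd_deadPart (hsq : ∀ p : ℕ, p.Prime → (w : ℝ) < yy p → ¬ p ^ 2 ∣ n) {p : ℕ}
    (hp : p ∈ alv w n) : ¬ p ∣ deadPart w n := by
  intro h
  apply alv_sq hsq hp
  rw [← deadPart_mul w n, pow_two]
  exact mul_dvd_mul (Finset.dvd_prod_of_mem (fun p => p) hp) h

lemma coprime_deadPart (hsq : ∀ p : ℕ, p.Prime → (w : ℝ) < yy p → ¬ p ^ 2 ∣ n) :
    Nat.Coprime (∏ p ∈ alv w n, p) (deadPart w n) := by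
  apply Nat.Coprime.prod_left
  intro p hp
  exact (Nat.Prime.coprime_iff_not_dvd (mem_alv.1 hp).1.1).2 (not_dvd_deadPart hsq hp)

/-- decomposition of the totient into the alive part and the dead part -/
lemma totient_decomp_alv (hsq : ∀ p : ℕ, p.Prime → (w : ℝ) < yy p → ¬ p ^ 2 ∣ n) :
    Nat.totient n = (∏ p ∈ alv w n, (p - 1)) * Nat.totient (deadPart w n) := by
  conv_lhs => rw [← deadPart_mul w n]
  rw [Nat.totient_mul (coprime_deadPart hsq), totient_prod_primes fun p hp => (mem_alv.1 hp).1.1]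

/-- all primes dividing the totient of the dead part are small -/
lemma yy_le_of_dvd_dead (hn : n ≠ 0)
    (hsq : ∀ p : ℕ, p.Prime → (w : ℝ) < yy p → ¬ p ^ 2 ∣ n) {l : ℕ} (hl : l.Prime)
    (h : l ∣ Nat.totient (deadPart w n)) : yy l ≤ w := by
  have hD := deadPart_ne_zero (w := w) hn
  have hDn : deadPart w n ∣ n := ⟨_, by rw [mul_comm]; exact (deadPart_mul w n).symm⟩
  rcases prime_dvd_totient hD hl h with ⟨p, hp, hpD, hlp⟩ | h2
  · have hnot : p ∉ alv w n := fun hmem => not_dvd_deadPart hsq hmem hpD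
    have hna : ¬ Alive w p := by
      intro ha
      exact hnot (mem_alv.2 ⟨⟨hp, hpD.trans hDn, hn⟩, ha⟩)
    unfold Alive at hna
    push Not at hna
    refine le_trans (yy_mono ?_) hna
    have hp1 : p - 1 ≠ 0 := by have := hp.two_le; omega
    have := (Pm_le_iff (n := p - 1) (q := Pm (p - 1)) hp1 ?_).1 le_rfl l hl hlp
    · exact this
    · -- `1 ≤ Pm`
      unfold Pm
      rcases hd : dl (p - 1) with _ | ⟨a, t⟩
      · simp
      · simp only [List.headD_cons]
        have : a ∈ dl (p - 1) := by rw [hd]; simp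
        exact (prime_of_mem_dl this).one_le
  · by_contra hlt
    push Not at hlt
    exact hsq l hl hlt (h2.trans hDn)

end decomp

/-! ### cancellation of the common alive primes -/

/-- Reduced data for a pair `(q, v)`: the two factorisations after cancellation. -/
structure Red (w : ℕ) (n n' : ℕ) (c S T : Finset ℕ) : Prop where
  un : c ∪ S = alv w n
  un' : c ∪ T = alv w n'
  dcS : Disjoint c S
  dcT : Disjoint c T
  dST : Disjoint S T

open Classical in
lemma exists_red (w n n' : ℕ) :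
    Red w n n' (alv w n ∩ alv w n') (alv w n \ alv w n') (alv w n' \ alv w n) where
  un := by
    ext p; simp only [Finset.mem_union, Finset.mem_inter, Finset.mem_sdiff]; tauto
  un' := by
    ext p; simp only [Finset.mem_union, Finset.mem_inter, Finset.mem_sdiff]; tauto
  dcS := by
    rw [Finset.disjoint_left]; intro p; simp only [Finset.mem_inter, Finset.mem_sdiff]; tauto
  dcT := by
    rw [Finset.disjoint_left]; intro p; simp only [Finset.mem_inter, Finset.mem_sdiff]; tauto
  dST := by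
    rw [Finset.disjoint_left]; intro p; simp only [Finset.mem_sdiff]; tauto

lemma prod_sub_one_pos {S : Finset ℕ} (hS : ∀ p ∈ S, p.Prime) : 0 < ∏ p ∈ S, (p - 1) := by
  apply Finset.prod_pos
  intro p hp
  have := (hS p hp).two_le
  omega

/-- The two reduced values agree. -/
lemma Red.eq {w n n' : ℕ} {c S T : Finset ℕ} (h : Red w n n' c S T)
    (hsq : ∀ p : ℕ, p.Prime → (w : ℝ) < yy p → ¬ p ^ 2 ∣ n)
    (hsq' : ∀ p : ℕ, p.Prime → (w : ℝ) < yy p → ¬ p ^ 2 ∣ n')
    (hv : Nat.totient n = Nat.totient n') :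
    Nat.totient n = (∏ p ∈ c, (p - 1)) * redv w n S ∧ redv w n S = redv w n' T := by
  have h1 := totient_decomp_alv hsq
  have h2 := totient_decomp_alv hsq'
  rw [← h.un, Finset.prod_union h.dcS, mul_assoc] at h1
  rw [← h.un', Finset.prod_union h.dcT, mul_assoc] at h2
  have hc : 0 < ∏ p ∈ c, (p - 1) := prod_sub_one_pos fun p hp => by
    have : p ∈ alv w n := by rw [← h.un]; exact Finset.mem_union_left _ hp
    exact (mem_alv.1 this).1.1
  refine ⟨h1, ?_⟩
  unfold redv
  apply Nat.eq_of_mul_eq_mul_left hc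
  rw [← h1, ← h2, hv]

end Crest.Agent.R020.Coll
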