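import Crest.Agent.R020.CollPair
import Crest.Agent.R020.Gl

/-!
Row 20, module (L), step S5 (profile part): `∑_{1 ≤ i < J} (κ_i log κ_i - κ_i) ≤ 1 - yy q + F_a(d)`.
-/

set_option autoImplicit false

open Crest.NumberTheoryR.TotientScale

namespace Crest.Agent.R020.Coll

/-- the functional `∑ j, c j * cl (l j)` -/
noncomputable def FC : (ℕ → ℝ) → List ℕ → ℝ
  | _, [] => 0
  | c, (p :: l) => c 0 * cl p + FC (fun i => c (i + 1)) l

lemma FC_cons (c : ℕ → ℝ) (p : ℕ) (l : List ℕ) :
    FC c (p :: l) = c 0 * cl p + FC (fun i => c (i + 1)) l := rfl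

/-- number of entries in cells `≥ i` -/
noncomputable def kl (l : List ℕ) (i : ℕ) : ℕ := l.countP (fun p => decide (i ≤ cl p))

lemma kl_cons (p : ℕ) (l : List ℕ) (i : ℕ) :
    kl (p :: l) i = kl l i + (if i ≤ cl p then 1 else 0) := by
  unfold kl
  rw [List.countP_cons]
  by_cases h : i ≤ cl p <;> simp [h]

lemma kl_eq_zero {l : List ℕ} {i : ℕ} (h : ∀ p ∈ l, cl p < i) : kl l i = 0 := by
  unfold kl
  rw [List.countP_eq_zero]
  intro p hp
  have := h p hp
  simp only [decide_eq_true_eq, not_le]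
  exact this

lemma sum_gk_offset (J : ℕ) (l : List ℕ) (hs : l.Pairwise (· ≥ ·)) (hJ : ∀ p ∈ l, cl p < J)
    (k0 : ℕ) : ∑ i ∈ Finset.Ico 1 J, (gk (k0 + kl l i) - gk k0) =
      FC (fun j => aCoef (k0 + j)) l := by
  induction l generalizing k0 with
  | nil => simp [FC, kl]
  | cons p l ih =>
    rw [List.pairwise_cons] at hs
    have hpJ : cl p < J := hJ p (by simp)
    have key : ∀ i ∈ Finset.Ico 1 J, gk (k0 + kl (p :: l) i) - gk k0 =
        (gk ((k0 + 1) + kl l i) - gk (k0 + 1)) + (if i ≤ cl p then aCoef k0 else 0) := by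
      intro i _
      rw [kl_cons]
      by_cases h : i ≤ cl p
      · rw [if_pos h, if_pos h]
        have e : k0 + (kl l i + 1) = (k0 + 1) + kl l i := by ring
        rw [e]
        have := gk_succ_sub k0
        linarith
      · rw [if_neg h, if_neg h]
        have h0 : kl l i = 0 := kl_eq_zero fun x hx => by
          have := cl_mono (hs.1 x hx)
          omega
        rw [h0]
        simp
    rw [Finset.sum_congr rfl key, Finset.sum_add_distrib, ih hs.2 (fun x hx => hJ x (by simp [hx])),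
      FC_cons]
    have e1 : ∑ i ∈ Finset.Ico 1 J, (if i ≤ cl p then aCoef k0 else 0) = cl p * aCoef k0 := by
      rw [← Finset.sum_filter, Finset.sum_const, nsmul_eq_mul]
      congr 2
      have : (Finset.Ico 1 J).filter (fun i => i ≤ cl p) = Finset.Ico 1 (cl p + 1) := by
        ext i
        simp only [Finset.mem_filter, Finset.mem_Ico]
        omega
      rw [this, Nat.card_Ico]
      omega
    rw [e1]
    simp only [add_zero]
    have e2 : (fun j => aCoef (k0 + 1 + j)) = (fun i => aCoef (k0 + (i + 1))) := by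
      funext j
      congr 1
      ring
    rw [e2]
    ring

lemma FC_le_FL {c : ℕ → ℝ} (hc : ∀ i, 0 ≤ c i) (l : List ℕ) : FC c l ≤ FL c l := by
  induction l generalizing c with
  | nil => simp [FC]
  | cons p l ih =>
    rw [FC_cons, FL_cons]
    have := ih (c := fun i => c (i + 1)) (fun i => hc _)
    have := mul_le_mul_of_nonneg_left (cl_le_yy p) (hc 0)
    linarith

lemma FL_sublist {c : ℕ → ℝ} (hc : ∀ i, 0 ≤ c i) (hm : Monotone c) {l' l : List ℕ}
    (h : l'.Sublist l) : FL c l' ≤ FL c l := by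
  induction h generalizing c with
  | slnil => exact le_rfl
  | @cons l' l a h ih =>
    rw [FL_cons]
    have h1 := ih hc hm
    have h2 : FL c l ≤ FL (fun i => c (i + 1)) l := FL_mono (fun i => hm (Nat.le_succ i)) l
    have h3 := mul_nonneg (hc 0) (yy_nonneg a)
    linarith
  | @cons_cons l' l a h ih =>
    rw [FL_cons, FL_cons]
    have := ih (c := fun i => c (i + 1)) (fun i => hc _) (fun i j hij => hm (by omega))
    linarith

lemma aa_nonneg (i : ℕ) : 0 ≤ aa i := (aCoef_pos (i + 1) (by omega)).le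

lemma aa_mono : Monotone aa := fun i j hij => aCoef_mono (by omega) (by omega)

lemma kap_eq_kl {S : Finset ℕ} {q : ℕ} (hq : q ∈ S) (i : ℕ) :
    kap S i = kl (q :: (S.erase q).sort (· ≥ ·)) i := by
  unfold kap kl
  have h1 : ((q :: (S.erase q).sort (· ≥ ·) : List ℕ) : Multiset ℕ) = S.val := by
    rw [← Multiset.cons_coe, Finset.sort_eq, Finset.erase_val]
    exact Multiset.cons_erase hq
  rw [← Multiset.coe_countP, h1, Multiset.countP_eq_card_filter]
  rfl

/-- The profile inequality. -/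
theorem prof_le {S : Finset ℕ} {q d J : ℕ} (hq : q ∈ S) (hyq : 0 < yy q)
    (hle : ∀ p ∈ S, p ≤ q) (hJ : cl q < J) (hsub : ∀ p ∈ S, p ≠ q → p.Prime ∧ p ∣ rr d) :
    ∑ i ∈ Finset.Ico 1 J, gk (kap S i) ≤ 1 - yy q + FF aa d := by
  set l' := (S.erase q).sort (· ≥ ·) with hl'
  have hmem : ∀ p, p ∈ l' ↔ p ∈ S.erase q := fun p => Finset.mem_sort _
  have hpw : l'.Pairwise (· ≥ ·) := Finset.pairwise_sort _ _
  have hs : (q :: l').Pairwise (· ≥ ·) := by
    rw [List.pairwise_cons]
    refine ⟨fun p hp => hle p (Finset.mem_of_mem_erase ((hmem p).1 hp)), hpw⟩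
  have hJ' : ∀ p ∈ q :: l', cl p < J := by
    intro p hp
    rcases List.mem_cons.1 hp with rfl | hp
    · exact hJ
    · exact lt_of_le_of_lt (cl_mono (hle p (Finset.mem_of_mem_erase ((hmem p).1 hp)))) hJ
  have h1 := sum_gk_offset J (q :: l') hs hJ' 0
  have h2 : ∑ i ∈ Finset.Ico 1 J, gk (kap S i) = FC aCoef (q :: l') := by
    rw [← show (fun j => aCoef (0 + j)) = aCoef by funext j; simp, ← h1]
    refine Finset.sum_congr rfl fun i _ => ?_
    rw [kap_eq_kl hq, gk_zero, sub_zero, zero_add]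
  rw [h2, FC_cons, aCoef_zero]
  have h3 : FC (fun i => aCoef (i + 1)) l' ≤ FL aa l' := FC_le_FL aa_nonneg l'
  have hnd : l'.Nodup := Finset.sort_nodup _ _
  have h4 : FL aa l' ≤ FL aa (dl (rr d)) := by
    apply FL_sublist aa_nonneg aa_mono
    apply List.sublist_of_subperm_of_pairwise _ hpw (dl_sorted _)
    apply List.subperm_of_subset hnd
    intro p hp
    have h5 := (hmem p).1 hp
    obtain ⟨h6, h7⟩ := hsub p (Finset.mem_of_mem_erase h5) (Finset.ne_of_mem_erase h5)
    exact (mem_dl_iff (rr_pos d).ne').2 ⟨h6, h7⟩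
  have h5 := yy_le_cl q
  unfold FF
  linarith

end Crest.Agent.R020.Coll
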