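import Mathlib

/-!
Row 20, module E (collisions): refinement of two factorisations.
-/

set_option autoImplicit false

namespace Crest.Agent.R020.CollM

open Finset

theorem exists_refine_one {κ : Type*} [DecidableEq κ] (S : Finset κ) (b : κ → ℕ) :
    ∀ (x : ℕ), x ∣ ∏ j ∈ S, b j → ∃ d : κ → ℕ, (∀ j ∈ S, d j ∣ b j) ∧ ∏ j ∈ S, d j = x := by
  induction S using Finset.induction_on with
  | empty =>
    intro x hx
    refine ⟨fun _ => 1, by simp, ?_⟩
    simpa using (Nat.dvd_one.mp (by simpa using hx)).symm
  | insert j0 S hj ih =>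
    intro x hx
    rw [Finset.prod_insert hj] at hx
    obtain ⟨y, z, hy, hz, hxyz⟩ := exists_dvd_and_dvd_of_dvd_mul hx
    obtain ⟨d, hd, hdz⟩ := ih z hz
    refine ⟨Function.update d j0 y, ?_, ?_⟩
    · intro j hj'
      rcases Finset.mem_insert.mp hj' with rfl | hj2
      · simpa using hy
      · have : j ≠ j0 := by rintro rfl; exact hj hj2
        rw [Function.update_of_ne this]
        exact hd j hj2
    · rw [Finset.prod_insert hj, Function.update_self, hxyz, ← hdz]
      congr 1
      apply Finset.prod_congr rfl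
      intro j hj'
      have : j ≠ j0 := by rintro rfl; exact hj hj'
      rw [Function.update_of_ne this]

theorem exists_refine_set {ι κ : Type*} [DecidableEq ι] [Fintype κ] [DecidableEq κ]
    (S : Finset ι) (a : ι → ℕ) (ha : ∀ i ∈ S, 0 < a i) :
    ∀ (b : κ → ℕ), (∀ j, 0 < b j) → ∏ i ∈ S, a i = ∏ j, b j →
      ∃ m : ι → κ → ℕ, (∀ i ∈ S, ∏ j, m i j = a i) ∧ (∀ j, ∏ i ∈ S, m i j = b j) := by
  induction S using Finset.induction_on with
  | empty =>
    intro b hb hab
    refine ⟨fun _ _ => 1, by simp, ?_⟩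
    intro j
    rw [Finset.prod_empty] at hab ⊢
    have := (Finset.prod_eq_one_iff_of_one_le' (s := univ) (f := b) (fun j _ => hb j)).mp hab.symm
    exact (this j (mem_univ j)).symm
  | insert i0 S hi ih =>
    intro b hb hab
    rw [Finset.prod_insert hi] at hab
    have hdv : a i0 ∣ ∏ j, b j := by rw [← hab]; exact Dvd.intro _ rfl
    obtain ⟨d, hd, hda⟩ := exists_refine_one univ b (a i0) hdv
    have hdpos : ∀ j, 0 < d j := fun j => Nat.pos_of_dvd_of_pos (hd j (mem_univ j)) (hb j)
    have hb' : ∀ j, 0 < b j / d j := fun j =>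
      Nat.div_pos (Nat.le_of_dvd (hb j) (hd j (mem_univ j))) (hdpos j)
    have hbd : ∀ j, d j * (b j / d j) = b j := fun j => Nat.mul_div_cancel' (hd j (mem_univ j))
    have hprod : ∏ i ∈ S, a i = ∏ j, (b j / d j) := by
      have h1 : a i0 * ∏ i ∈ S, a i = a i0 * ∏ j, (b j / d j) := by
        rw [hab]
        conv_rhs => rw [← hda]
        rw [← Finset.prod_mul_distrib]
        exact Finset.prod_congr rfl (fun j _ => (hbd j).symm)
      exact Nat.eq_of_mul_eq_mul_left (ha i0 (mem_insert_self _ _)) h1
    obtain ⟨m, hm1, hm2⟩ := ih (fun i hi => ha i (mem_insert_of_mem hi)) _ hb' hprod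
    refine ⟨Function.update m i0 d, ?_, ?_⟩
    · intro i hi'
      rcases Finset.mem_insert.mp hi' with rfl | hi2
      · rw [Function.update_self]; exact hda
      · have : i ≠ i0 := by rintro rfl; exact hi hi2
        rw [Function.update_of_ne this]
        exact hm1 i hi2
    · intro j
      rw [Finset.prod_insert hi, Function.update_self]
      have : ∏ i ∈ S, Function.update m i0 d i j = ∏ i ∈ S, m i j := by
        apply Finset.prod_congr rfl
        intro i hi'
        have : i ≠ i0 := by rintro rfl; exact hi hi'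
        rw [Function.update_of_ne this]
      rw [this, hm2 j, hbd j]

/-- two factorisations of the same positive integer have a common refinement -/
theorem exists_refine {ι κ : Type*} [Fintype ι] [DecidableEq ι] [Fintype κ] [DecidableEq κ]
    (a : ι → ℕ) (ha : ∀ i, 0 < a i) (b : κ → ℕ) (hb : ∀ j, 0 < b j)
    (hab : ∏ i, a i = ∏ j, b j) :
    ∃ m : ι → κ → ℕ, (∀ i, ∏ j, m i j = a i) ∧ (∀ j, ∏ i, m i j = b j) ∧
      (∀ i j, 0 < m i j) := by
  obtain ⟨m, h1, h2⟩ := exists_refine_set univ a (fun i _ => ha i) b hb hab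
  refine ⟨m, fun i => h1 i (mem_univ i), h2, ?_⟩
  intro i j
  by_contra hc
  have h0 : m i j = 0 := by omega
  have := h1 i (mem_univ i)
  rw [Finset.prod_eq_zero (mem_univ j) h0] at this
  have := ha i
  omega

end Crest.Agent.R020.CollM
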