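import Mathlib

/-!
Row 20, module E (collisions), part 1: the iterated sieve over a factor matrix.

`Z f RN CN R C` is the sum over all matrices `m : ι → κ → ℕ` of `∏ f i j (m i j)`, restricted to
those for which the row products (for active rows `i ∈ R`) satisfy `RN i`, the column products (for
active columns `j ∈ C`) satisfy `CN j`, and active row products differ from active column products.
-/

set_option autoImplicit false

open scoped ENNReal
open Finset

namespace Crest.Agent.R020.Coll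

variable {ι κ : Type*} [Fintype ι] [Fintype κ] [DecidableEq ι] [DecidableEq κ]

/-- conditions of the active rows and columns -/
def Cond (RN : ι → ℕ → Prop) (CN : κ → ℕ → Prop) (R : Finset ι) (C : Finset κ)
    (m : ι → κ → ℕ) : Prop :=
  (∀ i ∈ R, RN i (∏ j, m i j)) ∧ (∀ j ∈ C, CN j (∏ i, m i j)) ∧
    (∀ i ∈ R, ∀ j ∈ C, ∏ j', m i j' ≠ ∏ i', m i' j)

open Classical in
/-- the sum over matrices -/
noncomputable def Z (f : ι → κ → ℕ → ℝ≥0∞) (RN : ι → ℕ → Prop) (CN : κ → ℕ → Prop)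
    (R : Finset ι) (C : Finset κ) : ℝ≥0∞ :=
  ∑' m : ι → κ → ℕ, if Cond RN CN R C m then ∏ i, ∏ j, f i j (m i j) else 0

/-- replace the cell `(i,j)` by `r` -/
def upd (m : ι → κ → ℕ) (i : ι) (j : κ) (r : ℕ) : ι → κ → ℕ :=
  Function.update m i (Function.update (m i) j r)

omit [Fintype ι] [Fintype κ] in
lemma upd_same (m : ι → κ → ℕ) (i : ι) (j : κ) (r : ℕ) : upd m i j r i j = r := by
  simp [upd]

omit [Fintype ι] [Fintype κ] in
lemma upd_row (m : ι → κ → ℕ) (i : ι) (j : κ) (r : ℕ) (i' : ι) (h : i' ≠ i) :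
    upd m i j r i' = m i' := by
  simp [upd, h]

omit [Fintype ι] [Fintype κ] in
lemma upd_col (m : ι → κ → ℕ) (i : ι) (j : κ) (r : ℕ) (i' : ι) (j' : κ) (h : j' ≠ j) :
    upd m i j r i' j' = m i' j' := by
  unfold upd
  by_cases hi : i' = i
  · subst hi; simp [h]
  · simp [hi]

omit [Fintype ι] [Fintype κ] in
lemma upd_upd (m : ι → κ → ℕ) (i : ι) (j : κ) (r s : ℕ) :
    upd (upd m i j r) i j s = upd m i j s := by
  simp [upd]

omit [Fintype ι] [Fintype κ] in
lemma upd_self (m : ι → κ → ℕ) (i : ι) (j : κ) : upd m i j (m i j) = m := by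
  simp [upd]

/-- row product after an update, cell of the row -/
lemma row_upd (m : ι → κ → ℕ) (i : ι) (j : κ) (q : ℕ) :
    ∏ j', upd m i j (q * m i j) i j' = q * ∏ j', m i j' := by
  rw [← Finset.mul_prod_erase Finset.univ _ (Finset.mem_univ j),
    ← Finset.mul_prod_erase Finset.univ (fun j' => m i j') (Finset.mem_univ j), upd_same, mul_assoc]
  congr 2
  refine Finset.prod_congr rfl fun j' hj' => ?_
  rw [upd_col _ _ _ _ _ _ (Finset.ne_of_mem_erase hj')]

lemma col_upd (m : ι → κ → ℕ) (i : ι) (j : κ) (q : ℕ) :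
    ∏ i', upd m i j (q * m i j) i' j = q * ∏ i', m i' j := by
  rw [← Finset.mul_prod_erase Finset.univ _ (Finset.mem_univ i),
    ← Finset.mul_prod_erase Finset.univ (fun i' => m i' j) (Finset.mem_univ i), upd_same, mul_assoc]
  congr 2
  refine Finset.prod_congr rfl fun i' hi' => ?_
  rw [upd_row _ _ _ _ _ (Finset.ne_of_mem_erase hi')]

lemma row_upd_ne (m : ι → κ → ℕ) (i : ι) (j : κ) (r : ℕ) (i' : ι) (h : i' ≠ i) :
    ∏ j', upd m i j r i' j' = ∏ j', m i' j' := by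
  rw [upd_row _ _ _ _ _ h]

lemma col_upd_ne (m : ι → κ → ℕ) (i : ι) (j : κ) (r : ℕ) (j' : κ) (h : j' ≠ j) :
    ∏ i', upd m i j r i' j' = ∏ i', m i' j' :=
  Finset.prod_congr rfl fun i' _ => upd_col _ _ _ _ _ _ h

/-- the weight after an update -/
lemma wt_upd (f : ι → κ → ℕ → ℝ≥0∞)
    (hf : ∀ i j q r, q.Prime → f i j (q * r) ≤ (q : ℝ≥0∞)⁻¹ * f i j r)
    (m : ι → κ → ℕ) (i : ι) (j : κ) (q : ℕ) (hq : q.Prime) :
    ∏ i', ∏ j', f i' j' (upd m i j (q * m i j) i' j') ≤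
      (q : ℝ≥0∞)⁻¹ * ∏ i', ∏ j', f i' j' (m i' j') := by
  rw [← Finset.mul_prod_erase Finset.univ _ (Finset.mem_univ i),
    ← Finset.mul_prod_erase Finset.univ (fun i' => ∏ j', f i' j' (m i' j')) (Finset.mem_univ i),
    ← mul_assoc]
  refine mul_le_mul' ?_ (le_of_eq ?_)
  · rw [← Finset.mul_prod_erase Finset.univ _ (Finset.mem_univ j),
      ← Finset.mul_prod_erase Finset.univ (fun j' => f i j' (m i j')) (Finset.mem_univ j),
      ← mul_assoc, upd_same]
    refine mul_le_mul' (hf i j q _ hq) (le_of_eq ?_)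
    refine Finset.prod_congr rfl fun j' hj' => ?_
    rw [upd_col _ _ _ _ _ _ (Finset.ne_of_mem_erase hj')]
  · refine Finset.prod_congr rfl fun i' hi' => ?_
    rw [upd_row _ _ _ _ _ (Finset.ne_of_mem_erase hi')]

/-- existence of the top prime and its cell -/
lemma exists_top (RN : ι → ℕ → Prop) (CN : κ → ℕ → Prop) (Qr : ι → ℝ) (Qc : κ → ℝ)
    (hRN : ∀ i n, RN i n → n ≠ 0 ∧ ∃ q : ℕ, q.Prime ∧ q ∣ n ∧ Qr i < q)
    (hCN : ∀ j n, CN j n → n ≠ 0 ∧ ∃ q : ℕ, q.Prime ∧ q ∣ n ∧ Qc j < q)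
    (R : Finset ι) (C : Finset κ) (hRC : R.Nonempty ∨ C.Nonempty) (m : ι → κ → ℕ)
    (hm : Cond RN CN R C m) :
    ∃ (i : ι) (j : κ) (q : ℕ), (i ∈ R ∨ j ∈ C) ∧ q.Prime ∧ q ∣ m i j ∧ (i ∈ R → Qr i < q) ∧
      (j ∈ C → Qc j < q) := by
  classical
  set T : Finset ℕ := (R.biUnion fun i => (∏ j, m i j).primeFactors) ∪
    (C.biUnion fun j => (∏ i, m i j).primeFactors) with hT
  obtain ⟨h1, h2, -⟩ := hm
  have hTne : T.Nonempty := by
    rcases hRC with ⟨i, hi⟩ | ⟨j, hj⟩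
    · obtain ⟨hn, q, hq, hqd, -⟩ := hRN i _ (h1 i hi)
      exact ⟨q, by
        rw [hT, Finset.mem_union, Finset.mem_biUnion]
        exact Or.inl ⟨i, hi, Nat.mem_primeFactors.2 ⟨hq, hqd, hn⟩⟩⟩
    · obtain ⟨hn, q, hq, hqd, -⟩ := hCN j _ (h2 j hj)
      exact ⟨q, by
        rw [hT, Finset.mem_union, Finset.mem_biUnion, Finset.mem_biUnion]
        exact Or.inr ⟨j, hj, Nat.mem_primeFactors.2 ⟨hq, hqd, hn⟩⟩⟩
  set Q := T.max' hTne with hQ
  have hQT : Q ∈ T := Finset.max'_mem _ _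
  have hrow : ∀ i ∈ R, Qr i < Q := by
    intro i hi
    obtain ⟨hn, q, hq, hqd, hlt⟩ := hRN i _ (h1 i hi)
    have hqT : q ∈ T := by
      rw [hT, Finset.mem_union, Finset.mem_biUnion]
      exact Or.inl ⟨i, hi, Nat.mem_primeFactors.2 ⟨hq, hqd, hn⟩⟩
    have : q ≤ Q := Finset.le_max' _ _ hqT
    exact lt_of_lt_of_le hlt (by exact_mod_cast this)
  have hcol : ∀ j ∈ C, Qc j < Q := by
    intro j hj
    obtain ⟨hn, q, hq, hqd, hlt⟩ := hCN j _ (h2 j hj)
    have hqT : q ∈ T := by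
      rw [hT, Finset.mem_union, Finset.mem_biUnion, Finset.mem_biUnion]
      exact Or.inr ⟨j, hj, Nat.mem_primeFactors.2 ⟨hq, hqd, hn⟩⟩
    have : q ≤ Q := Finset.le_max' _ _ hqT
    exact lt_of_lt_of_le hlt (by exact_mod_cast this)
  rw [hT, Finset.mem_union, Finset.mem_biUnion, Finset.mem_biUnion] at hQT
  rcases hQT with ⟨i, hi, hqi⟩ | ⟨j, hj, hqj⟩
  · obtain ⟨hp, hd, -⟩ := Nat.mem_primeFactors.1 hqi
    obtain ⟨j, -, hj⟩ := (Prime.dvd_finset_prod_iff hp.prime _).1 hd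
    exact ⟨i, j, Q, Or.inl hi, hp, hj, hrow i, hcol j⟩
  · obtain ⟨hp, hd, -⟩ := Nat.mem_primeFactors.1 hqj
    obtain ⟨i, -, hi⟩ := (Prime.dvd_finset_prod_iff hp.prime _).1 hd
    exact ⟨i, j, Q, Or.inr hj, hp, hi, hrow i, hcol j⟩

open Classical in
/-- the inner sum over the top prime -/
noncomputable def G (f : ι → κ → ℕ → ℝ≥0∞) (RN : ι → ℕ → Prop) (CN : κ → ℕ → Prop)
    (Qr : ι → ℝ) (Qc : κ → ℝ) (R : Finset ι) (C : Finset κ) (i : ι) (j : κ)
    (q : ℕ) (m : ι → κ → ℕ) : ℝ≥0∞ :=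
  if (i ∈ R ∨ j ∈ C) ∧ q.Prime ∧ (i ∈ R → Qr i < q) ∧ (j ∈ C → Qc j < q) ∧
      Cond RN CN R C (upd m i j (q * m i j))
    then (q : ℝ≥0∞)⁻¹ * ∏ i', ∏ j', f i' j' (m i' j') else 0

open Classical in
lemma Z_le_sum_G (f : ι → κ → ℕ → ℝ≥0∞)
    (hf : ∀ i j q r, q.Prime → f i j (q * r) ≤ (q : ℝ≥0∞)⁻¹ * f i j r)
    (RN : ι → ℕ → Prop) (CN : κ → ℕ → Prop) (Qr : ι → ℝ) (Qc : κ → ℝ)
    (hRN : ∀ i n, RN i n → n ≠ 0 ∧ ∃ q : ℕ, q.Prime ∧ q ∣ n ∧ Qr i < q)
    (hCN : ∀ j n, CN j n → n ≠ 0 ∧ ∃ q : ℕ, q.Prime ∧ q ∣ n ∧ Qc j < q)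
    (R : Finset ι) (C : Finset κ) (hRC : R.Nonempty ∨ C.Nonempty) :
    Z f RN CN R C ≤ ∑ i, ∑ j, ∑' q : ℕ, ∑' m : ι → κ → ℕ, G f RN CN Qr Qc R C i j q m := by
  have key : ∀ m : ι → κ → ℕ, (if Cond RN CN R C m then ∏ i, ∏ j, f i j (m i j) else 0) ≤
      ∑ i, ∑ j, ∑' q : ℕ, ∑' m' : ι → κ → ℕ,
        if m = upd m' i j (q * m' i j) then G f RN CN Qr Qc R C i j q m' else 0 := by
    intro m
    split_ifs with hm
    · obtain ⟨i, j, q, hij, hq, hqd, hr, hc⟩ := exists_top RN CN Qr Qc hRN hCN R C hRC m hm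
      obtain ⟨r, hr'⟩ := hqd
      set m' := upd m i j r with hm'
      have hmm : upd m' i j (q * m' i j) = m := by
        rw [hm', upd_same, upd_upd, ← hr', upd_self]
      refine le_trans ?_ (Finset.single_le_sum (f := fun i => ∑ j, ∑' q : ℕ, ∑' m' : ι → κ → ℕ,
        if m = upd m' i j (q * m' i j) then G f RN CN Qr Qc R C i j q m' else 0)
        (fun _ _ => zero_le) (Finset.mem_univ i))
      refine le_trans ?_ (Finset.single_le_sum (f := fun j => ∑' q : ℕ, ∑' m' : ι → κ → ℕ,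
        if m = upd m' i j (q * m' i j) then G f RN CN Qr Qc R C i j q m' else 0)
        (fun _ _ => zero_le) (Finset.mem_univ j))
      refine le_trans ?_ (ENNReal.le_tsum q)
      refine le_trans ?_ (ENNReal.le_tsum m')
      rw [if_pos hmm.symm]
      unfold G
      rw [if_pos ⟨hij, hq, hr, hc, by rw [hmm]; exact hm⟩]
      calc ∏ i', ∏ j', f i' j' (m i' j')
          = ∏ i', ∏ j', f i' j' (upd m' i j (q * m' i j) i' j') := by rw [hmm]
        _ ≤ _ := wt_upd f hf m' i j q hq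
    · exact zero_le
  unfold Z
  refine (ENNReal.tsum_le_tsum key).trans (le_of_eq ?_)
  rw [Summable.tsum_finsetSum (fun _ _ => ENNReal.summable)]
  refine Finset.sum_congr rfl fun i _ => ?_
  rw [Summable.tsum_finsetSum (fun _ _ => ENNReal.summable)]
  refine Finset.sum_congr rfl fun j _ => ?_
  rw [ENNReal.tsum_comm]
  refine tsum_congr fun q => ?_
  rw [ENNReal.tsum_comm]
  refine tsum_congr fun m' => ?_
  rw [tsum_ite_eq]

open Classical in
/-- one step -/
lemma sum_G_le (f : ι → κ → ℕ → ℝ≥0∞)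
    (RN : ι → ℕ → Prop) (CN : κ → ℕ → Prop) (Qr : ι → ℝ) (Qc : κ → ℝ)
    (α : ι → ℝ≥0∞) (β : κ → ℝ≥0∞)
    (h2r : ∀ i A, (∑' q : ℕ, if q.Prime ∧ Qr i < q ∧ RN i (q * A) then (q : ℝ≥0∞)⁻¹ else 0) ≤ α i)
    (h2c : ∀ j A, (∑' q : ℕ, if q.Prime ∧ Qc j < q ∧ CN j (q * A) then (q : ℝ≥0∞)⁻¹ else 0) ≤ β j)
    (h3 : ∀ i j A A', A ≠ A' → (∑' q : ℕ, if q.Prime ∧ Qr i < q ∧ Qc j < q ∧ RN i (q * A) ∧
      CN j (q * A') then (q : ℝ≥0∞)⁻¹ else 0) ≤ α i * β j)
    (R : Finset ι) (C : Finset κ) (i : ι) (j : κ) :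
    ∑' q : ℕ, ∑' m : ι → κ → ℕ, G f RN CN Qr Qc R C i j q m ≤
      (if i ∈ R then α i else 1) * (if j ∈ C then β j else 1) *
        (if i ∈ R ∨ j ∈ C then Z f RN CN (R.erase i) (C.erase j) else 0) := by
  by_cases hij : i ∈ R ∨ j ∈ C
  swap
  · have : ∀ q m, G f RN CN Qr Qc R C i j q m = 0 := by
      intro q m
      unfold G
      rw [if_neg]
      rintro ⟨h, -⟩
      exact hij h
    simp only [this, tsum_zero]
    exact zero_le
  rw [if_pos hij, ENNReal.tsum_comm]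
  unfold Z
  rw [← ENNReal.tsum_mul_left]
  refine ENNReal.tsum_le_tsum fun m => ?_
  -- the conditions for the erased sets
  set W := ∏ i', ∏ j', f i' j' (m i' j') with hW
  have hcond : ∀ q, Cond RN CN R C (upd m i j (q * m i j)) →
      Cond RN CN (R.erase i) (C.erase j) m := by
    rintro q ⟨h1, h2, h3'⟩
    refine ⟨fun i' hi' => ?_, fun j' hj' => ?_, fun i' hi' j' hj' => ?_⟩
    · have := h1 i' (Finset.mem_of_mem_erase hi')
      rwa [row_upd_ne _ _ _ _ _ (Finset.ne_of_mem_erase hi')] at this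
    · have := h2 j' (Finset.mem_of_mem_erase hj')
      rwa [col_upd_ne _ _ _ _ _ (Finset.ne_of_mem_erase hj')] at this
    · have := h3' i' (Finset.mem_of_mem_erase hi') j' (Finset.mem_of_mem_erase hj')
      rwa [row_upd_ne _ _ _ _ _ (Finset.ne_of_mem_erase hi'),
        col_upd_ne _ _ _ _ _ (Finset.ne_of_mem_erase hj')] at this
  by_cases hc : Cond RN CN (R.erase i) (C.erase j) m
  swap
  · have : ∀ q, G f RN CN Qr Qc R C i j q m = 0 := by
      intro q
      unfold G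
      rw [if_neg]
      rintro ⟨-, -, -, -, h⟩
      exact hc (hcond q h)
    simp only [this, tsum_zero]
    exact zero_le
  rw [if_pos hc]
  -- bound the sum over q
  have hG : ∀ q, G f RN CN Qr Qc R C i j q m ≤
      (if q.Prime ∧ (i ∈ R → Qr i < q) ∧ (j ∈ C → Qc j < q) ∧
        (i ∈ R → RN i (q * ∏ j', m i j')) ∧ (j ∈ C → CN j (q * ∏ i', m i' j)) ∧
        (i ∈ R → j ∈ C → ∏ j', m i j' ≠ ∏ i', m i' j) then (q : ℝ≥0∞)⁻¹ else 0) * W := by
    intro q
    unfold G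
    split_ifs with ha hb
    · exact le_rfl
    · exfalso
      apply hb
      obtain ⟨-, h1, h2, h3', h4, h5, h6⟩ := ha
      refine ⟨h1, h2, h3', fun hi => ?_, fun hj => ?_, fun hi hj => ?_⟩
      · have := h4 i hi
        rwa [row_upd] at this
      · have := h5 j hj
        rwa [col_upd] at this
      · have := h6 i hi j hj
        rw [row_upd, col_upd] at this
        intro h
        exact this (by rw [h])
    · exact zero_le
    · exact zero_le
  refine (ENNReal.tsum_le_tsum hG).trans ?_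
  rw [ENNReal.tsum_mul_right]
  refine mul_le_mul' ?_ le_rfl
  by_cases hi : i ∈ R
  · by_cases hj : j ∈ C
    · rw [if_pos hi, if_pos hj]
      by_cases hne : ∏ j', m i j' ≠ ∏ i', m i' j
      · refine le_trans (ENNReal.tsum_le_tsum fun q => ?_) (h3 i j _ _ hne)
        split_ifs with h1 h2
        · exact le_rfl
        · exfalso
          apply h2
          exact ⟨h1.1, h1.2.1 hi, h1.2.2.1 hj, h1.2.2.2.1 hi, h1.2.2.2.2.1 hj⟩
        · exact zero_le
        · exact zero_le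
      · have : ∀ q : ℕ, (if q.Prime ∧ (i ∈ R → Qr i < q) ∧ (j ∈ C → Qc j < q) ∧
          (i ∈ R → RN i (q * ∏ j', m i j')) ∧ (j ∈ C → CN j (q * ∏ i', m i' j)) ∧
          (i ∈ R → j ∈ C → ∏ j', m i j' ≠ ∏ i', m i' j) then (q : ℝ≥0∞)⁻¹ else 0) = 0 := by
          intro q
          rw [if_neg]
          rintro ⟨-, -, -, -, -, h⟩
          exact hne (h hi hj)
        simp only [this, tsum_zero]
        exact zero_le
    · rw [if_pos hi, if_neg hj, mul_one]
      refine le_trans (ENNReal.tsum_le_tsum fun q => ?_) (h2r i (∏ j', m i j'))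
      split_ifs with h1 h2
      · exact le_rfl
      · exfalso
        apply h2
        exact ⟨h1.1, h1.2.1 hi, h1.2.2.2.1 hi⟩
      · exact zero_le
      · exact zero_le
  · have hj : j ∈ C := hij.resolve_left hi
    rw [if_neg hi, if_pos hj, one_mul]
    refine le_trans (ENNReal.tsum_le_tsum fun q => ?_) (h2c j (∏ i', m i' j))
    split_ifs with h1 h2
    · exact le_rfl
    · exfalso
      apply h2
      exact ⟨h1.1, h1.2.2.1 hj, h1.2.2.2.2.1 hj⟩
    · exact zero_le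
    · exact zero_le

/-- **The iterated sieve.** -/
theorem Z_le (f : ι → κ → ℕ → ℝ≥0∞)
    (hf : ∀ i j q r, q.Prime → f i j (q * r) ≤ (q : ℝ≥0∞)⁻¹ * f i j r)
    (RN : ι → ℕ → Prop) (CN : κ → ℕ → Prop) (Qr : ι → ℝ) (Qc : κ → ℝ)
    (hRN : ∀ i n, RN i n → n ≠ 0 ∧ ∃ q : ℕ, q.Prime ∧ q ∣ n ∧ Qr i < q)
    (hCN : ∀ j n, CN j n → n ≠ 0 ∧ ∃ q : ℕ, q.Prime ∧ q ∣ n ∧ Qc j < q)
    (α : ι → ℝ≥0∞) (β : κ → ℝ≥0∞)
    (h2r : ∀ i A, (∑' q : ℕ, open Classical in if q.Prime ∧ Qr i < q ∧ RN i (q * A)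
      then (q : ℝ≥0∞)⁻¹ else 0) ≤ α i)
    (h2c : ∀ j A, (∑' q : ℕ, open Classical in if q.Prime ∧ Qc j < q ∧ CN j (q * A)
      then (q : ℝ≥0∞)⁻¹ else 0) ≤ β j)
    (h3 : ∀ i j A A', A ≠ A' → (∑' q : ℕ, open Classical in if q.Prime ∧ Qr i < q ∧ Qc j < q ∧
      RN i (q * A) ∧ CN j (q * A') then (q : ℝ≥0∞)⁻¹ else 0) ≤ α i * β j)
    (R : Finset ι) (C : Finset κ) :
    Z f RN CN R C ≤ (∏ i ∈ R, α i) * (∏ j ∈ C, β j) *
      ((Fintype.card ι * Fintype.card κ : ℕ) : ℝ≥0∞) ^ (R.card + C.card) * Z f RN CN ∅ ∅ := by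
  classical
  generalize hn : R.card + C.card = n
  induction n using Nat.strong_induction_on generalizing R C with
  | _ n ih =>
    by_cases hRC : R.Nonempty ∨ C.Nonempty
    swap
    · push Not at hRC
      obtain ⟨rfl, rfl⟩ := hRC
      simp at hn
      subst hn
      simp
    set M : ℝ≥0∞ := ((Fintype.card ι * Fintype.card κ : ℕ) : ℝ≥0∞) with hM
    have hn1 : 1 ≤ n := by
      rcases hRC with h | h
      · have := Finset.card_pos.2 h
        omega
      · have := Finset.card_pos.2 h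
        omega
    refine (Z_le_sum_G f hf RN CN Qr Qc hRN hCN R C hRC).trans ?_
    have hterm : ∀ i j, ∑' q : ℕ, ∑' m : ι → κ → ℕ, G f RN CN Qr Qc R C i j q m ≤
        (∏ i ∈ R, α i) * (∏ j ∈ C, β j) * M ^ (n - 1) * Z f RN CN ∅ ∅ := by
      intro i j
      refine (sum_G_le f RN CN Qr Qc α β h2r h2c h3 R C i j).trans ?_
      by_cases hij : i ∈ R ∨ j ∈ C
      swap
      · rw [if_neg hij, mul_zero]
        exact zero_le
      rw [if_pos hij]
      have hι : 1 ≤ Fintype.card ι := Fintype.card_pos_iff.2 ⟨i⟩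
      have hκ : 1 ≤ Fintype.card κ := Fintype.card_pos_iff.2 ⟨j⟩
      have hM1 : 1 ≤ M := by
        rw [hM]
        exact_mod_cast Nat.one_le_iff_ne_zero.2 (by positivity)
      have hlt : (R.erase i).card + (C.erase j).card < n := by
        rcases hij with h | h
        · have h1 := Finset.card_erase_lt_of_mem h
          have h2 := Finset.card_erase_le (s := C) (a := j)
          omega
        · have h1 := Finset.card_erase_lt_of_mem h
          have h2 := Finset.card_erase_le (s := R) (a := i)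
          omega
      have hIH := ih _ hlt (R.erase i) (C.erase j) rfl
      have hα : (if i ∈ R then α i else 1) * ∏ i' ∈ R.erase i, α i' = ∏ i ∈ R, α i := by
        split_ifs with h
        · exact Finset.mul_prod_erase R α h
        · rw [one_mul, Finset.erase_eq_of_notMem h]
      have hβ : (if j ∈ C then β j else 1) * ∏ j' ∈ C.erase j, β j' = ∏ j ∈ C, β j := by
        split_ifs with h
        · exact Finset.mul_prod_erase C β h
        · rw [one_mul, Finset.erase_eq_of_notMem h]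
      calc (if i ∈ R then α i else 1) * (if j ∈ C then β j else 1) *
            Z f RN CN (R.erase i) (C.erase j)
          ≤ (if i ∈ R then α i else 1) * (if j ∈ C then β j else 1) *
            ((∏ i ∈ R.erase i, α i) * (∏ j ∈ C.erase j, β j) *
              M ^ ((R.erase i).card + (C.erase j).card) * Z f RN CN ∅ ∅) :=
            mul_le_mul' le_rfl hIH
        _ = ((if i ∈ R then α i else 1) * ∏ i' ∈ R.erase i, α i') *
            ((if j ∈ C then β j else 1) * ∏ j' ∈ C.erase j, β j') *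
              M ^ ((R.erase i).card + (C.erase j).card) * Z f RN CN ∅ ∅ := by ring
        _ ≤ _ := by
            rw [hα, hβ]
            refine mul_le_mul' (mul_le_mul' le_rfl ?_) le_rfl
            exact pow_le_pow_right₀ hM1 (by omega)
    calc ∑ i, ∑ j, ∑' q : ℕ, ∑' m : ι → κ → ℕ, G f RN CN Qr Qc R C i j q m
        ≤ ∑ i : ι, ∑ j : κ, (∏ i ∈ R, α i) * (∏ j ∈ C, β j) * M ^ (n - 1) * Z f RN CN ∅ ∅ :=
          Finset.sum_le_sum fun i _ => Finset.sum_le_sum fun j _ => hterm i j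
      _ = M * ((∏ i ∈ R, α i) * (∏ j ∈ C, β j) * M ^ (n - 1) * Z f RN CN ∅ ∅) := by
          rw [Finset.sum_const, Finset.sum_const, Finset.card_univ, Finset.card_univ]
          rw [smul_smul, nsmul_eq_mul, hM]
      _ = (∏ i ∈ R, α i) * (∏ j ∈ C, β j) * M ^ n * Z f RN CN ∅ ∅ := by
          obtain ⟨k, rfl⟩ : ∃ k, n = k + 1 := ⟨n - 1, by omega⟩
          rw [Nat.add_sub_cancel, pow_succ]
          ring

end Crest.Agent.R020.Coll
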