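import Mathlib
import Crest.Agent.R020.CollSieve

/-!
Row 20, module E (collisions): the iterated sieve with a weight `V (∏ m)` (for the counting version
`V v = v * [v ≤ x]`); only the first step (the largest prime) sees `V`.
-/

set_option autoImplicit false

open scoped ENNReal
open Finset

namespace Crest.Agent.R020.Coll

variable {ι κ : Type*} [Fintype ι] [Fintype κ] [DecidableEq ι] [DecidableEq κ]

/-- the product of all entries -/
def tot (m : ι → κ → ℕ) : ℕ := ∏ i, ∏ j, m i j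

omit [DecidableEq ι] [DecidableEq κ] in
lemma tot_eq_prod (m : ι → κ → ℕ) : tot m = ∏ i, ∏ j, m i j := rfl

lemma tot_upd (m : ι → κ → ℕ) (i : ι) (j : κ) (q : ℕ) :
    tot (upd m i j (q * m i j)) = q * tot m := by
  unfold tot
  rw [← Finset.mul_prod_erase Finset.univ _ (Finset.mem_univ i),
    ← Finset.mul_prod_erase Finset.univ (fun i' => ∏ j', m i' j') (Finset.mem_univ i), row_upd,
    mul_assoc]
  congr 2
  refine Finset.prod_congr rfl fun i' hi' => ?_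
  rw [row_upd_ne _ _ _ _ _ (Finset.ne_of_mem_erase hi')]

open Classical in
/-- the sum over matrices with the weight `V` -/
noncomputable def ZV (V : ℕ → ℝ≥0∞) (f : ι → κ → ℕ → ℝ≥0∞) (RN : ι → ℕ → Prop)
    (CN : κ → ℕ → Prop) (R : Finset ι) (C : Finset κ) : ℝ≥0∞ :=
  ∑' m : ι → κ → ℕ, if Cond RN CN R C m then V (tot m) * ∏ i, ∏ j, f i j (m i j) else 0

/-- existence of the top prime and its cell, stronger form -/
lemma exists_top' (RN : ι → ℕ → Prop) (CN : κ → ℕ → Prop) (Qr : ι → ℝ) (Qc : κ → ℝ)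
    (hRN : ∀ i n, RN i n → n ≠ 0 ∧ ∃ q : ℕ, q.Prime ∧ q ∣ n ∧ Qr i < q)
    (hCN : ∀ j n, CN j n → n ≠ 0 ∧ ∃ q : ℕ, q.Prime ∧ q ∣ n ∧ Qc j < q)
    (R : Finset ι) (C : Finset κ) (hRC : R.Nonempty ∨ C.Nonempty) (m : ι → κ → ℕ)
    (hm : Cond RN CN R C m) :
    ∃ (i : ι) (j : κ) (q : ℕ), (i ∈ R ∨ j ∈ C) ∧ q.Prime ∧ q ∣ m i j ∧ (∀ i' ∈ R, Qr i' < q) ∧
      (∀ j' ∈ C, Qc j' < q) := by
  classical
  set T : Finset ℕ := (R.biUnion fun i => (∏ j, m i j).primeFactors) ∪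
    (C.biUnion fun j => (∏ i, m i j).primeFactors) with hT
  obtain ⟨h1, h2, -⟩ := hm
  have hTne : T.Nonempty := by
    rcases hRC with ⟨i, hi⟩ | ⟨j, hj⟩
    · obtain ⟨hn, q, hq, hqd, -⟩ := hRN i _ (h1 i hi)
      exact ⟨q, by
        rw [hT, Finset.mem_union, Finset.mem_biUnion]
        exact Or.inl ⟨i, hi, Nat.mem_primeFactors.2 ⟨hq, hqd, hn⟩⟩⟩
    · obtain ⟨hn, q, hq, hqd, -⟩ := hCN j _ (h2 j hj)
      exact ⟨q, by
        rw [hT, Finset.mem_union, Finset.mem_biUnion, Finset.mem_biUnion]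
        exact Or.inr ⟨j, hj, Nat.mem_primeFactors.2 ⟨hq, hqd, hn⟩⟩⟩
  set Q := T.max' hTne with hQ
  have hQT : Q ∈ T := Finset.max'_mem _ _
  have hrow : ∀ i ∈ R, Qr i < Q := by
    intro i hi
    obtain ⟨hn, q, hq, hqd, hlt⟩ := hRN i _ (h1 i hi)
    have hqT : q ∈ T := by
      rw [hT, Finset.mem_union, Finset.mem_biUnion]
      exact Or.inl ⟨i, hi, Nat.mem_primeFactors.2 ⟨hq, hqd, hn⟩⟩
    have : q ≤ Q := Finset.le_max' _ _ hqT
    exact lt_of_lt_of_le hlt (by exact_mod_cast this)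
  have hcol : ∀ j ∈ C, Qc j < Q := by
    intro j hj
    obtain ⟨hn, q, hq, hqd, hlt⟩ := hCN j _ (h2 j hj)
    have hqT : q ∈ T := by
      rw [hT, Finset.mem_union, Finset.mem_biUnion, Finset.mem_biUnion]
      exact Or.inr ⟨j, hj, Nat.mem_primeFactors.2 ⟨hq, hqd, hn⟩⟩
    have : q ≤ Q := Finset.le_max' _ _ hqT
    exact lt_of_lt_of_le hlt (by exact_mod_cast this)
  rw [hT, Finset.mem_union, Finset.mem_biUnion, Finset.mem_biUnion] at hQT
  rcases hQT with ⟨i, hi, hqi⟩ | ⟨j, hj, hqj⟩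
  · obtain ⟨hp, hd, -⟩ := Nat.mem_primeFactors.1 hqi
    obtain ⟨j, -, hj⟩ := (Prime.dvd_finsetProd_iff hp.prime _).1 hd
    exact ⟨i, j, Q, Or.inl hi, hp, hj, hrow, hcol⟩
  · obtain ⟨hp, hd, -⟩ := Nat.mem_primeFactors.1 hqj
    obtain ⟨i, -, hi⟩ := (Prime.dvd_finsetProd_iff hp.prime _).1 hd
    exact ⟨i, j, Q, Or.inr hj, hp, hi, hrow, hcol⟩

open Classical in
/-- the inner sum over the top prime -/
noncomputable def GV (V : ℕ → ℝ≥0∞) (f : ι → κ → ℕ → ℝ≥0∞) (RN : ι → ℕ → Prop)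
    (CN : κ → ℕ → Prop) (Qr : ι → ℝ) (Qc : κ → ℝ) (R : Finset ι) (C : Finset κ) (i : ι) (j : κ)
    (q : ℕ) (m : ι → κ → ℕ) : ℝ≥0∞ :=
  if (i ∈ R ∨ j ∈ C) ∧ q.Prime ∧ (∀ i' ∈ R, Qr i' < q) ∧ (∀ j' ∈ C, Qc j' < q) ∧
      Cond RN CN R C (upd m i j (q * m i j))
    then (q : ℝ≥0∞)⁻¹ * V (q * tot m) * ∏ i', ∏ j', f i' j' (m i' j') else 0

open Classical in
lemma ZV_le_sum_GV (V : ℕ → ℝ≥0∞) (f : ι → κ → ℕ → ℝ≥0∞)
    (hf : ∀ i j q r, q.Prime → f i j (q * r) ≤ (q : ℝ≥0∞)⁻¹ * f i j r)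
    (RN : ι → ℕ → Prop) (CN : κ → ℕ → Prop) (Qr : ι → ℝ) (Qc : κ → ℝ)
    (hRN : ∀ i n, RN i n → n ≠ 0 ∧ ∃ q : ℕ, q.Prime ∧ q ∣ n ∧ Qr i < q)
    (hCN : ∀ j n, CN j n → n ≠ 0 ∧ ∃ q : ℕ, q.Prime ∧ q ∣ n ∧ Qc j < q)
    (R : Finset ι) (C : Finset κ) (hRC : R.Nonempty ∨ C.Nonempty) :
    ZV V f RN CN R C ≤
      ∑ i, ∑ j, ∑' q : ℕ, ∑' m : ι → κ → ℕ, GV V f RN CN Qr Qc R C i j q m := by
  have key : ∀ m : ι → κ → ℕ,
      (if Cond RN CN R C m then V (tot m) * ∏ i, ∏ j, f i j (m i j) else 0) ≤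
      ∑ i, ∑ j, ∑' q : ℕ, ∑' m' : ι → κ → ℕ,
        if m = upd m' i j (q * m' i j) then GV V f RN CN Qr Qc R C i j q m' else 0 := by
    intro m
    split_ifs with hm
    · obtain ⟨i, j, q, hij, hq, hqd, hr, hc⟩ := exists_top' RN CN Qr Qc hRN hCN R C hRC m hm
      obtain ⟨r, hr'⟩ := hqd
      set m' := upd m i j r with hm'
      have hmm : upd m' i j (q * m' i j) = m := by
        rw [hm', upd_same, upd_upd, ← hr', upd_self]
      refine le_trans ?_ (Finset.single_le_sum (f := fun i => ∑ j, ∑' q : ℕ, ∑' m' : ι → κ → ℕ,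
        if m = upd m' i j (q * m' i j) then GV V f RN CN Qr Qc R C i j q m' else 0)
        (fun _ _ => zero_le) (Finset.mem_univ i))
      refine le_trans ?_ (Finset.single_le_sum (f := fun j => ∑' q : ℕ, ∑' m' : ι → κ → ℕ,
        if m = upd m' i j (q * m' i j) then GV V f RN CN Qr Qc R C i j q m' else 0)
        (fun _ _ => zero_le) (Finset.mem_univ j))
      refine le_trans ?_ (ENNReal.le_tsum q)
      refine le_trans ?_ (ENNReal.le_tsum m')
      rw [if_pos hmm.symm]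
      unfold GV
      rw [if_pos ⟨hij, hq, hr, hc, by rw [hmm]; exact hm⟩]
      have htot : tot m = q * tot m' := by rw [← tot_upd, hmm]
      rw [htot]
      calc V (q * tot m') * ∏ i', ∏ j', f i' j' (m i' j')
          = V (q * tot m') * ∏ i', ∏ j', f i' j' (upd m' i j (q * m' i j) i' j') := by rw [hmm]
        _ ≤ V (q * tot m') * ((q : ℝ≥0∞)⁻¹ * ∏ i', ∏ j', f i' j' (m' i' j')) :=
            mul_le_mul' le_rfl (wt_upd f hf m' i j q hq)
        _ = _ := by ring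
    · exact zero_le
  unfold ZV
  refine (ENNReal.tsum_le_tsum key).trans (le_of_eq ?_)
  rw [Summable.tsum_finsetSum (fun _ _ => ENNReal.summable)]
  refine Finset.sum_congr rfl fun i _ => ?_
  rw [Summable.tsum_finsetSum (fun _ _ => ENNReal.summable)]
  refine Finset.sum_congr rfl fun j _ => ?_
  rw [ENNReal.tsum_comm]
  refine tsum_congr fun q => ?_
  rw [ENNReal.tsum_comm]
  refine tsum_congr fun m' => ?_
  rw [tsum_ite_eq]

open Classical in
/-- one step, with the weight `V` -/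
lemma sum_GV_le (V : ℕ → ℝ≥0∞) (f : ι → κ → ℕ → ℝ≥0∞)
    (RN : ι → ℕ → Prop) (CN : κ → ℕ → Prop) (Qr : ι → ℝ) (Qc : κ → ℝ)
    (R : Finset ι) (C : Finset κ)
    (α : ι → ℝ≥0∞) (β : κ → ℝ≥0∞) (K : ℝ≥0∞)
    (h2r : ∀ i ∈ R, ∀ A M, (∑' q : ℕ, if q.Prime ∧ (∀ i' ∈ R, Qr i' < q) ∧ (∀ j' ∈ C, Qc j' < q) ∧
      RN i (q * A) then (q : ℝ≥0∞)⁻¹ * V (q * M) else 0) ≤ K * α i)
    (h2c : ∀ j ∈ C, ∀ A M, (∑' q : ℕ, if q.Prime ∧ (∀ i' ∈ R, Qr i' < q) ∧ (∀ j' ∈ C, Qc j' < q) ∧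
      CN j (q * A) then (q : ℝ≥0∞)⁻¹ * V (q * M) else 0) ≤ K * β j)
    (h3 : ∀ i ∈ R, ∀ j ∈ C, ∀ A A' M, A ≠ A' → (∑' q : ℕ, if q.Prime ∧ (∀ i' ∈ R, Qr i' < q) ∧
      (∀ j' ∈ C, Qc j' < q) ∧ RN i (q * A) ∧
      CN j (q * A') then (q : ℝ≥0∞)⁻¹ * V (q * M) else 0) ≤ K * (α i * β j)) (i : ι) (j : κ) :
    ∑' q : ℕ, ∑' m : ι → κ → ℕ, GV V f RN CN Qr Qc R C i j q m ≤
      K * ((if i ∈ R then α i else 1) * (if j ∈ C then β j else 1)) *
        (if i ∈ R ∨ j ∈ C then Z f RN CN (R.erase i) (C.erase j) else 0) := by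
  by_cases hij : i ∈ R ∨ j ∈ C
  swap
  · have : ∀ q m, GV V f RN CN Qr Qc R C i j q m = 0 := by
      intro q m
      unfold GV
      rw [if_neg]
      rintro ⟨h, -⟩
      exact hij h
    simp only [this, tsum_zero]
    exact zero_le
  rw [if_pos hij, ENNReal.tsum_comm]
  unfold Z
  rw [← ENNReal.tsum_mul_left]
  refine ENNReal.tsum_le_tsum fun m => ?_
  -- the conditions for the erased sets
  set W := ∏ i', ∏ j', f i' j' (m i' j') with hW
  have hcond : ∀ q, Cond RN CN R C (upd m i j (q * m i j)) →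
      Cond RN CN (R.erase i) (C.erase j) m := by
    rintro q ⟨h1, h2, h3'⟩
    refine ⟨fun i' hi' => ?_, fun j' hj' => ?_, fun i' hi' j' hj' => ?_⟩
    · have := h1 i' (Finset.mem_of_mem_erase hi')
      rwa [row_upd_ne _ _ _ _ _ (Finset.ne_of_mem_erase hi')] at this
    · have := h2 j' (Finset.mem_of_mem_erase hj')
      rwa [col_upd_ne _ _ _ _ _ (Finset.ne_of_mem_erase hj')] at this
    · have := h3' i' (Finset.mem_of_mem_erase hi') j' (Finset.mem_of_mem_erase hj')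
      rwa [row_upd_ne _ _ _ _ _ (Finset.ne_of_mem_erase hi'),
        col_upd_ne _ _ _ _ _ (Finset.ne_of_mem_erase hj')] at this
  by_cases hc : Cond RN CN (R.erase i) (C.erase j) m
  swap
  · have : ∀ q, GV V f RN CN Qr Qc R C i j q m = 0 := by
      intro q
      unfold GV
      rw [if_neg]
      rintro ⟨-, -, -, -, h⟩
      exact hc (hcond q h)
    simp only [this, tsum_zero]
    exact zero_le
  rw [if_pos hc]
  set M := tot m with hM
  -- bound the sum over q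
  have hG : ∀ q, GV V f RN CN Qr Qc R C i j q m ≤
      (if q.Prime ∧ (∀ i' ∈ R, Qr i' < q) ∧ (∀ j' ∈ C, Qc j' < q) ∧
        (i ∈ R → RN i (q * ∏ j', m i j')) ∧ (j ∈ C → CN j (q * ∏ i', m i' j)) ∧
        (i ∈ R → j ∈ C → ∏ j', m i j' ≠ ∏ i', m i' j)
        then (q : ℝ≥0∞)⁻¹ * V (q * M) else 0) * W := by
    intro q
    unfold GV
    split_ifs with ha hb
    · exact le_rfl
    · exfalso
      apply hb
      obtain ⟨-, h1, h2, h3', h4, h5, h6⟩ := ha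
      refine ⟨h1, h2, h3', fun hi => ?_, fun hj => ?_, fun hi hj => ?_⟩
      · have := h4 i hi
        rwa [row_upd] at this
      · have := h5 j hj
        rwa [col_upd] at this
      · have := h6 i hi j hj
        rw [row_upd, col_upd] at this
        intro h
        exact this (by rw [h])
    · exact zero_le
    · exact zero_le
  refine (ENNReal.tsum_le_tsum hG).trans ?_
  rw [ENNReal.tsum_mul_right]
  refine mul_le_mul' ?_ le_rfl
  by_cases hi : i ∈ R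
  · by_cases hj : j ∈ C
    · rw [if_pos hi, if_pos hj]
      by_cases hne : ∏ j', m i j' ≠ ∏ i', m i' j
      · refine le_trans (ENNReal.tsum_le_tsum fun q => ?_) (h3 i hi j hj _ _ M hne)
        split_ifs with h1 h2
        · exact le_rfl
        · exfalso
          apply h2
          exact ⟨h1.1, h1.2.1, h1.2.2.1, h1.2.2.2.1 hi, h1.2.2.2.2.1 hj⟩
        · exact zero_le
        · exact zero_le
      · have : ∀ q : ℕ, (if q.Prime ∧ (∀ i' ∈ R, Qr i' < q) ∧ (∀ j' ∈ C, Qc j' < q) ∧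
          (i ∈ R → RN i (q * ∏ j', m i j')) ∧ (j ∈ C → CN j (q * ∏ i', m i' j)) ∧
          (i ∈ R → j ∈ C → ∏ j', m i j' ≠ ∏ i', m i' j)
          then (q : ℝ≥0∞)⁻¹ * V (q * M) else 0) = 0 := by
          intro q
          rw [if_neg]
          rintro ⟨-, -, -, -, -, h⟩
          exact hne (h hi hj)
        simp only [this, tsum_zero]
        exact zero_le
    · rw [if_pos hi, if_neg hj, mul_one]
      refine le_trans (ENNReal.tsum_le_tsum fun q => ?_) (h2r i hi (∏ j', m i j') M)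
      split_ifs with h1 h2
      · exact le_rfl
      · exfalso
        apply h2
        exact ⟨h1.1, h1.2.1, h1.2.2.1, h1.2.2.2.1 hi⟩
      · exact zero_le
      · exact zero_le
  · have hj : j ∈ C := hij.resolve_left hi
    rw [if_neg hi, if_pos hj, one_mul]
    refine le_trans (ENNReal.tsum_le_tsum fun q => ?_) (h2c j hj (∏ i', m i' j) M)
    split_ifs with h1 h2
    · exact le_rfl
    · exfalso
      apply h2
      exact ⟨h1.1, h1.2.1, h1.2.2.1, h1.2.2.2.2.1 hj⟩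
    · exact zero_le
    · exact zero_le

/-- **The iterated sieve with a weight `V` of the total product.** -/
theorem ZV_le (V : ℕ → ℝ≥0∞) (f : ι → κ → ℕ → ℝ≥0∞)
    (hf : ∀ i j q r, q.Prime → f i j (q * r) ≤ (q : ℝ≥0∞)⁻¹ * f i j r)
    (RN : ι → ℕ → Prop) (CN : κ → ℕ → Prop) (Qr : ι → ℝ) (Qc : κ → ℝ)
    (hRN : ∀ i n, RN i n → n ≠ 0 ∧ ∃ q : ℕ, q.Prime ∧ q ∣ n ∧ Qr i < q)
    (hCN : ∀ j n, CN j n → n ≠ 0 ∧ ∃ q : ℕ, q.Prime ∧ q ∣ n ∧ Qc j < q)
    (α : ι → ℝ≥0∞) (β : κ → ℝ≥0∞) (K : ℝ≥0∞)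
    (h2r : ∀ i A, (∑' q : ℕ, open Classical in if q.Prime ∧ Qr i < q ∧ RN i (q * A)
      then (q : ℝ≥0∞)⁻¹ else 0) ≤ α i)
    (h2c : ∀ j A, (∑' q : ℕ, open Classical in if q.Prime ∧ Qc j < q ∧ CN j (q * A)
      then (q : ℝ≥0∞)⁻¹ else 0) ≤ β j)
    (h3 : ∀ i j A A', A ≠ A' → (∑' q : ℕ, open Classical in if q.Prime ∧ Qr i < q ∧ Qc j < q ∧
      RN i (q * A) ∧ CN j (q * A') then (q : ℝ≥0∞)⁻¹ else 0) ≤ α i * β j)
    (R : Finset ι) (C : Finset κ) (hRC : R.Nonempty ∨ C.Nonempty)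
    (h2rV : ∀ i ∈ R, ∀ A M, (∑' q : ℕ, open Classical in if q.Prime ∧ (∀ i' ∈ R, Qr i' < q) ∧
      (∀ j' ∈ C, Qc j' < q) ∧ RN i (q * A) then (q : ℝ≥0∞)⁻¹ * V (q * M) else 0) ≤ K * α i)
    (h2cV : ∀ j ∈ C, ∀ A M, (∑' q : ℕ, open Classical in if q.Prime ∧ (∀ i' ∈ R, Qr i' < q) ∧
      (∀ j' ∈ C, Qc j' < q) ∧ CN j (q * A) then (q : ℝ≥0∞)⁻¹ * V (q * M) else 0) ≤ K * β j)
    (h3V : ∀ i ∈ R, ∀ j ∈ C, ∀ A A' M, A ≠ A' → (∑' q : ℕ, open Classical in
      if q.Prime ∧ (∀ i' ∈ R, Qr i' < q) ∧ (∀ j' ∈ C, Qc j' < q) ∧ RN i (q * A) ∧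
      CN j (q * A') then (q : ℝ≥0∞)⁻¹ * V (q * M) else 0) ≤ K * (α i * β j)) :
    ZV V f RN CN R C ≤ K * ((∏ i ∈ R, α i) * (∏ j ∈ C, β j) *
      ((Fintype.card ι * Fintype.card κ : ℕ) : ℝ≥0∞) ^ (R.card + C.card) * Z f RN CN ∅ ∅) := by
  classical
  set M : ℝ≥0∞ := ((Fintype.card ι * Fintype.card κ : ℕ) : ℝ≥0∞) with hM
  set n := R.card + C.card with hn
  have hn1 : 1 ≤ n := by
    rcases hRC with h | h
    · have := Finset.card_pos.2 h
      omega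
    · have := Finset.card_pos.2 h
      omega
  refine (ZV_le_sum_GV V f hf RN CN Qr Qc hRN hCN R C hRC).trans ?_
  have hterm : ∀ i j, ∑' q : ℕ, ∑' m : ι → κ → ℕ, GV V f RN CN Qr Qc R C i j q m ≤
      K * ((∏ i ∈ R, α i) * (∏ j ∈ C, β j) * M ^ (n - 1) * Z f RN CN ∅ ∅) := by
    intro i j
    refine (sum_GV_le V f RN CN Qr Qc R C α β K h2rV h2cV h3V i j).trans ?_
    by_cases hij : i ∈ R ∨ j ∈ C
    swap
    · rw [if_neg hij, mul_zero]
      exact zero_le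
    rw [if_pos hij]
    have hι : 1 ≤ Fintype.card ι := Fintype.card_pos_iff.2 ⟨i⟩
    have hκ : 1 ≤ Fintype.card κ := Fintype.card_pos_iff.2 ⟨j⟩
    have hM1 : 1 ≤ M := by
      rw [hM]
      exact_mod_cast Nat.one_le_iff_ne_zero.2 (by positivity)
    have hlt : (R.erase i).card + (C.erase j).card < n := by
      rcases hij with h | h
      · have h1 := Finset.card_erase_lt_of_mem h
        have h2 := Finset.card_erase_le (s := C) (a := j)
        omega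
      · have h1 := Finset.card_erase_lt_of_mem h
        have h2 := Finset.card_erase_le (s := R) (a := i)
        omega
    have hIH := Z_le f hf RN CN Qr Qc hRN hCN α β h2r h2c h3 (R.erase i) (C.erase j)
    have hα : (if i ∈ R then α i else 1) * ∏ i' ∈ R.erase i, α i' = ∏ i ∈ R, α i := by
      split_ifs with h
      · exact Finset.mul_prod_erase R α h
      · rw [one_mul, Finset.erase_eq_of_notMem h]
    have hβ : (if j ∈ C then β j else 1) * ∏ j' ∈ C.erase j, β j' = ∏ j ∈ C, β j := by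
      split_ifs with h
      · exact Finset.mul_prod_erase C β h
      · rw [one_mul, Finset.erase_eq_of_notMem h]
    calc K * ((if i ∈ R then α i else 1) * (if j ∈ C then β j else 1)) *
          Z f RN CN (R.erase i) (C.erase j)
        ≤ K * ((if i ∈ R then α i else 1) * (if j ∈ C then β j else 1)) *
          ((∏ i ∈ R.erase i, α i) * (∏ j ∈ C.erase j, β j) *
            M ^ ((R.erase i).card + (C.erase j).card) * Z f RN CN ∅ ∅) :=
          mul_le_mul' le_rfl hIH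
      _ = K * (((if i ∈ R then α i else 1) * ∏ i' ∈ R.erase i, α i') *
          ((if j ∈ C then β j else 1) * ∏ j' ∈ C.erase j, β j') *
            M ^ ((R.erase i).card + (C.erase j).card) * Z f RN CN ∅ ∅) := by ring
      _ ≤ _ := by
          rw [hα, hβ]
          refine mul_le_mul' le_rfl (mul_le_mul' (mul_le_mul' le_rfl ?_) le_rfl)
          exact pow_le_pow_right₀ hM1 (by omega)
  calc ∑ i, ∑ j, ∑' q : ℕ, ∑' m : ι → κ → ℕ, GV V f RN CN Qr Qc R C i j q m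
      ≤ ∑ i : ι, ∑ j : κ, K * ((∏ i ∈ R, α i) * (∏ j ∈ C, β j) * M ^ (n - 1) * Z f RN CN ∅ ∅) :=
        Finset.sum_le_sum fun i _ => Finset.sum_le_sum fun j _ => hterm i j
    _ = M * (K * ((∏ i ∈ R, α i) * (∏ j ∈ C, β j) * M ^ (n - 1) * Z f RN CN ∅ ∅)) := by
        rw [Finset.sum_const, Finset.sum_const, Finset.card_univ, Finset.card_univ]
        rw [smul_smul, nsmul_eq_mul, hM]
    _ = K * ((∏ i ∈ R, α i) * (∏ j ∈ C, β j) * M ^ n * Z f RN CN ∅ ∅) := by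
        obtain ⟨k, hk⟩ : ∃ k, n = k + 1 := ⟨n - 1, by omega⟩
        rw [hk, Nat.add_sub_cancel, pow_succ]
        ring

end Crest.Agent.R020.Coll
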