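import Crest.Agent.R020.CollIter

/-!
Row 20, module E (collisions): structures (marked cells), expansion of a matrix.
-/

set_option autoImplicit false

namespace Crest.Agent.R020.CollM

open Finset

/-- matrices with a "small" row and column `none` -/
abbrev Mat (s t : ℕ) := Option (Fin s) → Option (Fin t) → ℕ

/-- product of the entries of a row -/
def rowp {s t : ℕ} (m : Mat s t) (i : Fin s) : ℕ := ∏ j, m (some i) j
/-- product of the entries of a column -/
def colp {s t : ℕ} (m : Mat s t) (j : Fin t) : ℕ := ∏ i, m i (some j)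
/-- product of all entries -/
def vp {s t : ℕ} (m : Mat s t) : ℕ := ∏ i, ∏ j, m i j

/-- combinatorial structure of the marks: column of the mark of row `i`, row of the mark of
column `j`, flag "the mark of row `i` is also the mark of its column", order of elimination. -/
abbrev Str (s t : ℕ) :=
  (Fin s → Fin t) × (Fin t → Fin s) × (Fin s → Bool) × (Fin (s + t) ≃ (Fin s ⊕ Fin t))

namespace Str

variable {s t : ℕ} (σ : Str s t)

/-- column of the mark of row `i` -/
def c : Fin s → Fin t := σ.1
/-- row of the mark of column `j` -/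
def r : Fin t → Fin s := σ.2.1
/-- flag -/
def β : Fin s → Bool := σ.2.2.1
/-- the order -/
def ord : Fin (s + t) ≃ (Fin s ⊕ Fin t) := σ.2.2.2
/-- rank -/
def rk (e : Fin s ⊕ Fin t) : Fin (s + t) := σ.ord.symm e

/-- column `j` has its mark in common with row `r j` -/
def dummy (j : Fin t) : Prop := σ.β (σ.r j) = true ∧ σ.c (σ.r j) = j

instance : DecidablePred σ.dummy := fun _ => by unfold dummy; infer_instance

/-- validity of a structure -/
structure Valid : Prop where
  v1 : ∀ i, σ.β i = true → σ.r (σ.c i) = i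
  v2 : ∀ j, ¬ σ.dummy j → σ.rk (Sum.inl (σ.r j)) < σ.rk (Sum.inr j)
  v3 : ∀ i, ¬ σ.dummy (σ.c i) → σ.rk (Sum.inr (σ.c i)) < σ.rk (Sum.inl i)
  v4 : ∀ i i', i ≠ i' → σ.β i = true → σ.c i' = σ.c i → σ.rk (Sum.inl i) < σ.rk (Sum.inl i')
  v5 : ∀ j, (σ.rk (Sum.inr j) : ℕ) = 0 → ¬ σ.dummy j

variable {σ}

theorem Valid.dummy_c (h : σ.Valid) {i : Fin s} (hi : σ.β i = true) : σ.dummy (σ.c i) := by
  have := h.v1 i hi
  refine ⟨?_, ?_⟩ <;> rw [this]
  exact hi

variable (σ)

/-- multiplier of the cell `(i,j)` -/
def mulc (R : Fin s ⊕ Fin t → ℕ) (i : Fin s) (j : Fin t) : ℕ :=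
  (if σ.c i = j then R (Sum.inl i) else 1) * (if σ.r j = i ∧ ¬ σ.dummy j then R (Sum.inr j) else 1)

/-- put the marks back -/
def expand (m : Mat s t) (R : Fin s ⊕ Fin t → ℕ) : Mat s t := fun i j =>
  match i, j with
  | some i, some j => m (some i) (some j) * σ.mulc R i j
  | none, j => m none j
  | i, none => m i none

/-- cofactor of the mark in row `i` -/
def rowA (m : Mat s t) (R : Fin s ⊕ Fin t → ℕ) (i : Fin s) : ℕ :=
  rowp m i * ∏ j, (if σ.r j = i ∧ ¬ σ.dummy j then R (Sum.inr j) else 1)

/-- cofactor of the mark in a non-dummy column `j` -/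
def colA (m : Mat s t) (R : Fin s ⊕ Fin t → ℕ) (j : Fin t) : ℕ :=
  colp m j * ∏ i, (if σ.c i = j then R (Sum.inl i) else 1)

/-- cofactor of the mark of row `i` in its column, if this mark is shared -/
def colB (m : Mat s t) (R : Fin s ⊕ Fin t → ℕ) (i : Fin s) : ℕ :=
  colp m (σ.c i) * ∏ i', (if i' ≠ i ∧ σ.c i' = σ.c i then R (Sum.inl i') else 1)

theorem rowp_expand (m : Mat s t) (R : Fin s ⊕ Fin t → ℕ) (i : Fin s) :
    rowp (σ.expand m R) i = R (Sum.inl i) * σ.rowA m R i := by
  unfold rowp rowA rowp
  rw [Fintype.prod_option, Fintype.prod_option]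
  have h1 : ∀ j : Fin t, σ.expand m R (some i) (some j) = m (some i) (some j) *
      ((if σ.c i = j then R (Sum.inl i) else 1) *
        (if σ.r j = i ∧ ¬ σ.dummy j then R (Sum.inr j) else 1)) := fun j => rfl
  have h2 : σ.expand m R (some i) none = m (some i) none := rfl
  simp_rw [h1, h2, Finset.prod_mul_distrib]
  rw [Finset.prod_ite_eq]
  simp only [Finset.mem_univ, if_true]
  ring

theorem colp_expand (m : Mat s t) (R : Fin s ⊕ Fin t → ℕ) (j : Fin t) (hj : ¬ σ.dummy j) :
    colp (σ.expand m R) j = R (Sum.inr j) * σ.colA m R j := by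
  unfold colp colA colp
  rw [Fintype.prod_option, Fintype.prod_option]
  have h1 : ∀ i : Fin s, σ.expand m R (some i) (some j) = m (some i) (some j) *
      ((if σ.c i = j then R (Sum.inl i) else 1) *
        (if σ.r j = i then R (Sum.inr j) else 1)) := by
    intro i
    show _ * σ.mulc R i j = _
    unfold mulc
    simp [hj]
  have h2 : σ.expand m R none (some j) = m none (some j) := rfl
  simp_rw [h1, h2, Finset.prod_mul_distrib]
  rw [Finset.prod_ite_eq Finset.univ (σ.r j) (fun _ => R (Sum.inr j))]
  simp only [Finset.mem_univ, if_true]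
  ring

theorem colp_expand' (hσ : σ.Valid) (m : Mat s t) (R : Fin s ⊕ Fin t → ℕ) (i : Fin s)
    (hi : σ.β i = true) :
    colp (σ.expand m R) (σ.c i) = R (Sum.inl i) * σ.colB m R i := by
  have hd : σ.dummy (σ.c i) := hσ.dummy_c hi
  unfold colp colB colp
  rw [Fintype.prod_option, Fintype.prod_option]
  have h1 : ∀ i' : Fin s, σ.expand m R (some i') (some (σ.c i)) = m (some i') (some (σ.c i)) *
      (if σ.c i' = σ.c i then R (Sum.inl i') else 1) := by
    intro i'
    show _ * σ.mulc R i' (σ.c i) = _
    unfold mulc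
    simp [hd]
  have h2 : σ.expand m R none (some (σ.c i)) = m none (some (σ.c i)) := rfl
  simp_rw [h1, h2, Finset.prod_mul_distrib]
  have h3 : ∏ i', (if σ.c i' = σ.c i then R (Sum.inl i') else 1)
      = R (Sum.inl i) * ∏ i', (if i' ≠ i ∧ σ.c i' = σ.c i then R (Sum.inl i') else 1) := by
    have : ∀ i', (if σ.c i' = σ.c i then R (Sum.inl i') else 1)
        = (if i = i' then R (Sum.inl i') else 1) *
          (if i' ≠ i ∧ σ.c i' = σ.c i then R (Sum.inl i') else 1) := by
      intro i'
      by_cases h : i' = i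
      · subst h; simp
      · by_cases h' : σ.c i' = σ.c i
        · simp [h, h', Ne.symm h]
        · simp [h', Ne.symm h]
    simp_rw [this, Finset.prod_mul_distrib]
    rw [Finset.prod_ite_eq]
    simp
  rw [h3]
  ring

theorem vp_expand (m : Mat s t) (R : Fin s ⊕ Fin t → ℕ)
    (hR : ∀ j, σ.dummy j → R (Sum.inr j) = 1) :
    vp (σ.expand m R) = vp m * ∏ e, R e := by
  have h0 : ∀ i j, σ.expand m R i j = m i j *
      (match i, j with
        | some i, some j => σ.mulc R i j
        | none, _ => 1
        | _, none => 1) := by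
    intro i j
    cases i <;> cases j <;> simp [expand]
  unfold vp
  simp_rw [h0, Finset.prod_mul_distrib]
  congr 1
  rw [Fintype.prod_option]
  have hn : (∏ j : Option (Fin t), (match (none : Option (Fin s)), j with
        | some i, some j => σ.mulc R i j
        | none, _ => 1
        | _, none => 1)) = 1 := by
    apply Finset.prod_eq_one
    intro j _
    rfl
  rw [hn, one_mul]
  have h1 : ∀ i : Fin s, (∏ j : Option (Fin t), (match (some i : Option (Fin s)), j with
        | some i, some j => σ.mulc R i j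
        | none, _ => 1
        | _, none => 1)) = R (Sum.inl i) *
          ∏ j, (if σ.r j = i ∧ ¬ σ.dummy j then R (Sum.inr j) else 1) := by
    intro i
    rw [Fintype.prod_option]
    simp only [one_mul]
    unfold mulc
    rw [Finset.prod_mul_distrib, Finset.prod_ite_eq]
    simp
  simp_rw [h1, Finset.prod_mul_distrib]
  rw [Fintype.prod_sum_type]
  congr 1
  rw [Finset.prod_comm]
  apply Finset.prod_congr rfl
  intro j _
  by_cases hd : σ.dummy j
  · simp [hd, hR j hd]
  · simp only [hd, not_false_eq_true, and_true]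
    rw [Finset.prod_ite_eq]
    simp

end Str

end Crest.Agent.R020.CollM
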