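import Crest.Agent.R020.CollExt

/-!
Row 20, module E (collisions): the iterated sum over the marks.
-/

set_option autoImplicit false

namespace Crest.Agent.R020.CollM

open Finset

/-- primes in `[ρ, X]` -/
noncomputable def primesIn (ρ : ℝ) (X : ℕ) : Finset ℕ := (range (X + 1)).filter (fun x => x.Prime ∧ ρ ≤ (x : ℝ))

/-- one linear form condition -/
def C1 (X A x : ℕ) : Prop := (x * A + 1).Prime ∧ x * A + 1 ≤ X

instance (X A x : ℕ) : Decidable (C1 X A x) := by unfold C1; infer_instance

variable {s t : ℕ}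

section
variable (σ : Str s t) (X : ℕ) (r : Fin s → ℝ) (r' : Fin t → ℝ) (ρt : ℝ)
  (W : ℕ → ℝ) (m : Mat s t)

/-- lower bound for the mark `e` -/
noncomputable def lo (e : Fin s ⊕ Fin t) : ℝ :=
  max (if (σ.rk e : ℕ) = 0 then ρt else 0)
    (match e with
      | Sum.inl i => if σ.β i = true then max (r i) (r' (σ.c i)) else r i
      | Sum.inr j => r' j)

/-- range of the mark `e` -/
noncomputable def TT (e : Fin s ⊕ Fin t) : Finset ℕ :=
  match e with
    | Sum.inl i => primesIn (lo σ r r' ρt (Sum.inl i)) X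
    | Sum.inr j => if σ.dummy j then {1} else primesIn (lo σ r r' ρt (Sum.inr j)) X

/-- product of everything except the mark `e` -/
def Mof (e : Fin s ⊕ Fin t) (R : Fin s ⊕ Fin t → ℕ) : ℕ := vp m * ∏ e' ∈ univ.erase e, R e'

/-- weight of the mark `e` -/
noncomputable def wt (e : Fin s ⊕ Fin t) (R : Fin s ⊕ Fin t → ℕ) : ℝ :=
  if (σ.rk e : ℕ) = 0 then (Mof m e R : ℝ) * W (Mof m e R * R e) else 1 / (R e : ℝ)

/-- the condition attached to the mark `e` -/
def cond (e : Fin s ⊕ Fin t) (R : Fin s ⊕ Fin t → ℕ) : Prop :=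
  match e with
    | Sum.inl i => C1 X (σ.rowA m R i) (R (Sum.inl i)) ∧
        (σ.β i = true → C1 X (σ.colB m R i) (R (Sum.inl i)) ∧ σ.rowA m R i ≠ σ.colB m R i)
    | Sum.inr j => C1 X (σ.colA m R j) (R (Sum.inr j))

open Classical in
/-- the factor attached to the mark `e` -/
noncomputable def ff (e : Fin s ⊕ Fin t) (R : Fin s ⊕ Fin t → ℕ) : ℝ :=
  match e with
    | Sum.inl i => if cond σ X m (Sum.inl i) R then wt σ W m (Sum.inl i) R else 0
    | Sum.inr j => if σ.dummy j then 1 else
        if cond σ X m (Sum.inr j) R then wt σ W m (Sum.inr j) R else 0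

/-- the bound attached to the mark `e` -/
noncomputable def BB (L κ : ℝ) (e : Fin s ⊕ Fin t) : ℝ :=
  (if (σ.rk e : ℕ) = 0 then κ else 1) *
    (match e with
      | Sum.inl i => if σ.β i = true then L / (Real.log (r i) * Real.log (r' (σ.c i)))
          else L / Real.log (r i)
      | Sum.inr j => if σ.dummy j then 1 else L / Real.log (r' j))

end

/-- sieve hypotheses -/
structure Sieve (X : ℕ) (ρ0 ρt L κ : ℝ) (W : ℕ → ℝ) : Prop where
  one_lt : 1 < ρ0
  L1 : 1 ≤ L
  κ0 : 0 ≤ κ
  W0 : ∀ v, 0 ≤ W v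
  S1 : ∀ (A : ℕ) (ρ : ℝ), ρ0 ≤ ρ →
    ∑ x ∈ (primesIn ρ X).filter (fun x => C1 X A x), (1 / (x : ℝ)) ≤ L / Real.log ρ
  S2 : ∀ (A B : ℕ) (ρ : ℝ), A ≠ B → ρ0 ≤ ρ →
    ∑ x ∈ (primesIn ρ X).filter (fun x => C1 X A x ∧ C1 X B x), (1 / (x : ℝ))
      ≤ L / (Real.log ρ) ^ 2
  top1 : ∀ (M A : ℕ) (ρ : ℝ), 0 < M → ρ0 ≤ ρ → ρt ≤ ρ →
    ∑ x ∈ (primesIn ρ X).filter (fun x => C1 X A x), (M : ℝ) * W (M * x)
      ≤ κ * (L / Real.log ρ)
  top2 : ∀ (M A B : ℕ) (ρ : ℝ), 0 < M → A ≠ B → ρ0 ≤ ρ → ρt ≤ ρ →
    ∑ x ∈ (primesIn ρ X).filter (fun x => C1 X A x ∧ C1 X B x), (M : ℝ) * W (M * x)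
      ≤ κ * (L / (Real.log ρ) ^ 2)

variable {σ : Str s t} {X : ℕ} {r : Fin s → ℝ} {r' : Fin t → ℝ} {ρ0 ρt L κ : ℝ}
  {W : ℕ → ℝ}

theorem wt_nonneg (hS : Sieve X ρ0 ρt L κ W) (m : Mat s t) (e) (R) : 0 ≤ wt σ W m e R := by
  unfold wt
  split_ifs
  · exact mul_nonneg (Nat.cast_nonneg _) (hS.W0 _)
  · positivity

theorem ff_nonneg (hS : Sieve X ρ0 ρt L κ W) (m : Mat s t) (e) (R) : 0 ≤ ff σ X W m e R := by
  unfold ff
  rcases e with i | j
  · dsimp only
    split_ifs
    · exact wt_nonneg hS m _ _
    · exact le_rfl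
  · dsimp only
    split_ifs
    · norm_num
    · exact wt_nonneg hS m _ _
    · exact le_rfl

/-- dependence of the factors -/
theorem ff_dep (hσ : σ.Valid) (m : Mat s t) (e) (R R' : Fin s ⊕ Fin t → ℕ)
    (h : ∀ b, σ.rk e ≤ σ.rk b → R b = R' b) : ff σ X W m e R = ff σ X W m e R' := by
  have he : R e = R' e := h e le_rfl
  have hwt : wt σ W m e R = wt σ W m e R' := by
    unfold wt
    by_cases h0 : (σ.rk e : ℕ) = 0
    · have : R = R' := by
        funext b
        apply h
        rw [Fin.le_def, h0]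
        exact Nat.zero_le _
      rw [this]
    · rw [if_neg h0, if_neg h0, he]
  rcases e with i | j
  · have hA : σ.rowA m R i = σ.rowA m R' i := by
      unfold Str.rowA
      congr 1
      apply Finset.prod_congr rfl
      intro j _
      by_cases hj : σ.r j = i ∧ ¬ σ.dummy j
      · rw [if_pos hj, if_pos hj]
        apply h
        have := hσ.v2 j hj.2
        rw [hj.1] at this
        exact this.le
      · rw [if_neg hj, if_neg hj]
    have hB : σ.β i = true → σ.colB m R i = σ.colB m R' i := by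
      intro hb
      unfold Str.colB
      congr 1
      apply Finset.prod_congr rfl
      intro i' _
      by_cases hi : i' ≠ i ∧ σ.c i' = σ.c i
      · rw [if_pos hi, if_pos hi]
        apply h
        exact (hσ.v4 i i' hi.1.symm hb hi.2).le
      · rw [if_neg hi, if_neg hi]
    have hc : cond σ X m (Sum.inl i) R ↔ cond σ X m (Sum.inl i) R' := by
      unfold cond
      dsimp only
      rw [hA, he]
      constructor
      · rintro ⟨h1, h2⟩
        refine ⟨h1, fun hb => ?_⟩
        rw [← hB hb]
        exact h2 hb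
      · rintro ⟨h1, h2⟩
        refine ⟨h1, fun hb => ?_⟩
        rw [hB hb]
        exact h2 hb
    unfold ff
    dsimp only
    rw [hwt]
    by_cases h1 : cond σ X m (Sum.inl i) R
    · rw [if_pos h1, if_pos (hc.mp h1)]
    · rw [if_neg h1, if_neg (fun h2 => h1 (hc.mpr h2))]
  · by_cases hd : σ.dummy j
    · unfold ff
      dsimp only
      rw [if_pos hd, if_pos hd]
    · have hA : σ.colA m R j = σ.colA m R' j := by
        unfold Str.colA
        congr 1
        apply Finset.prod_congr rfl
        intro i _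
        by_cases hi : σ.c i = j
        · rw [if_pos hi, if_pos hi]
          apply h
          have := hσ.v3 i (by rw [hi]; exact hd)
          rw [hi] at this
          exact this.le
        · rw [if_neg hi, if_neg hi]
      have hc : cond σ X m (Sum.inr j) R ↔ cond σ X m (Sum.inr j) R' := by
        unfold cond
        dsimp only
        rw [hA, he]
      unfold ff
      dsimp only
      rw [hwt]
      by_cases h1 : cond σ X m (Sum.inr j) R
      · rw [if_pos h1, if_pos (hc.mp h1)]
      · rw [if_neg h1, if_neg (fun h2 => h1 (hc.mpr h2))]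

theorem rowA_update (m : Mat s t) (R : Fin s ⊕ Fin t → ℕ) (i : Fin s) (x : ℕ) :
    σ.rowA m (Function.update R (Sum.inl i) x) i = σ.rowA m R i := by
  unfold Str.rowA
  congr 1

theorem colB_update (m : Mat s t) (R : Fin s ⊕ Fin t → ℕ) (i : Fin s) (x : ℕ) :
    σ.colB m (Function.update R (Sum.inl i) x) i = σ.colB m R i := by
  unfold Str.colB
  congr 1
  apply Finset.prod_congr rfl
  intro i' _
  by_cases hi : i' ≠ i ∧ σ.c i' = σ.c i
  · rw [if_pos hi, if_pos hi, Function.update_of_ne]
    intro hh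
    exact hi.1 (Sum.inl_injective hh)
  · rw [if_neg hi, if_neg hi]

theorem colA_update (m : Mat s t) (R : Fin s ⊕ Fin t → ℕ) (j : Fin t) (x : ℕ) :
    σ.colA m (Function.update R (Sum.inr j) x) j = σ.colA m R j := by
  unfold Str.colA
  congr 1

theorem Mof_update (m : Mat s t) (R : Fin s ⊕ Fin t → ℕ) (e : Fin s ⊕ Fin t) (x : ℕ) :
    Mof m e (Function.update R e x) = Mof m e R := by
  unfold Mof
  congr 1
  apply Finset.prod_congr rfl
  intro e' he'
  rw [Function.update_of_ne (Finset.ne_of_mem_erase he')]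

theorem lo_ge (hr : ∀ i, ρ0 ≤ r i) (hr' : ∀ j, ρ0 ≤ r' j) (e : Fin s ⊕ Fin t) :
    ρ0 ≤ lo σ r r' ρt e := by
  unfold lo
  apply le_trans _ (le_max_right _ _)
  rcases e with i | j
  · dsimp only
    split_ifs
    · exact le_trans (hr i) (le_max_left _ _)
    · exact hr i
  · exact hr' j

theorem lo_top (e : Fin s ⊕ Fin t) (he : (σ.rk e : ℕ) = 0) : ρt ≤ lo σ r r' ρt e := by
  unfold lo
  rw [if_pos he]
  exact le_max_left _ _

/-- weighted sum with one condition -/
theorem sum_wt1 (hS : Sieve X ρ0 ρt L κ W) (m : Mat s t) (e : Fin s ⊕ Fin t)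
    (R : Fin s ⊕ Fin t → ℕ) (A : ℕ) (hr : ∀ i, ρ0 ≤ r i) (hr' : ∀ j, ρ0 ≤ r' j) :
    ∑ x ∈ (primesIn (lo σ r r' ρt e) X).filter (fun x => C1 X A x),
      wt σ W m e (Function.update R e x)
      ≤ (if (σ.rk e : ℕ) = 0 then κ else 1) * (L / Real.log (lo σ r r' ρt e)) := by
  have h0 : ρ0 ≤ lo σ r r' ρt e := lo_ge hr hr' e
  have hlog : 0 ≤ Real.log (lo σ r r' ρt e) := Real.log_nonneg (by linarith [hS.one_lt])
  by_cases he : (σ.rk e : ℕ) = 0
  · simp only [wt, he, if_true, Mof_update, Function.update_self]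
    rcases Nat.eq_zero_or_pos (Mof m e R) with hM | hM
    · simp only [hM, Nat.cast_zero, zero_mul, Finset.sum_const_zero]
      have := hS.κ0
      have := hS.L1
      positivity
    · exact hS.top1 _ A _ hM h0 (lo_top e he)
  · simp only [wt, he, if_false, Function.update_self, one_mul]
    exact hS.S1 A _ h0

/-- weighted sum with two conditions -/
theorem sum_wt2 (hS : Sieve X ρ0 ρt L κ W) (m : Mat s t) (e : Fin s ⊕ Fin t)
    (R : Fin s ⊕ Fin t → ℕ) (A B : ℕ) (hAB : A ≠ B) (hr : ∀ i, ρ0 ≤ r i)
    (hr' : ∀ j, ρ0 ≤ r' j) :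
    ∑ x ∈ (primesIn (lo σ r r' ρt e) X).filter (fun x => C1 X A x ∧ C1 X B x),
      wt σ W m e (Function.update R e x)
      ≤ (if (σ.rk e : ℕ) = 0 then κ else 1) * (L / (Real.log (lo σ r r' ρt e)) ^ 2) := by
  have h0 : ρ0 ≤ lo σ r r' ρt e := lo_ge hr hr' e
  by_cases he : (σ.rk e : ℕ) = 0
  · simp only [wt, he, if_true, Mof_update, Function.update_self]
    rcases Nat.eq_zero_or_pos (Mof m e R) with hM | hM
    · simp only [hM, Nat.cast_zero, zero_mul, Finset.sum_const_zero]
      have := hS.κ0
      have := hS.L1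
      positivity
    · exact hS.top2 _ A B _ hM hAB h0 (lo_top e he)
  · simp only [wt, he, if_false, Function.update_self, one_mul]
    exact hS.S2 A B _ hAB h0

theorem sum_ff (hS : Sieve X ρ0 ρt L κ W) (hσ : σ.Valid) (m : Mat s t)
    (hr : ∀ i, ρ0 ≤ r i) (hr' : ∀ j, ρ0 ≤ r' j) (e : Fin s ⊕ Fin t)
    (R : Fin s ⊕ Fin t → ℕ) :
    ∑ x ∈ TT σ X r r' ρt e, ff σ X W m e (Function.update R e x) ≤ BB σ r r' L κ e := by
  classical
  have hL := hS.L1
  have hκ : 0 ≤ (if (σ.rk e : ℕ) = 0 then κ else 1) := by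
    split_ifs
    · exact hS.κ0
    · norm_num
  rcases e with i | j
  · have hloA : r i ≤ lo σ r r' ρt (Sum.inl i) := by
      unfold lo
      apply le_trans _ (le_max_right _ _)
      dsimp only
      split_ifs
      · exact le_max_left _ _
      · exact le_rfl
    have hlogr : 0 < Real.log (r i) := Real.log_pos (by linarith [hS.one_lt, hr i])
    have hlog1 : Real.log (r i) ≤ Real.log (lo σ r r' ρt (Sum.inl i)) :=
      Real.log_le_log (by linarith [hS.one_lt, hr i]) hloA
    unfold TT ff BB
    dsimp only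
    by_cases hb : σ.β i = true
    · rw [if_pos hb]
      have hloB : r' (σ.c i) ≤ lo σ r r' ρt (Sum.inl i) := by
        unfold lo
        apply le_trans _ (le_max_right _ _)
        dsimp only
        rw [if_pos hb]
        exact le_max_right _ _
      have hlogr' : 0 < Real.log (r' (σ.c i)) :=
        Real.log_pos (by linarith [hS.one_lt, hr' (σ.c i)])
      have hlog2 : Real.log (r' (σ.c i)) ≤ Real.log (lo σ r r' ρt (Sum.inl i)) :=
        Real.log_le_log (by linarith [hS.one_lt, hr' (σ.c i)]) hloB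
      by_cases hAB : σ.rowA m R i = σ.colB m R i
      · have : ∀ x, ¬ cond σ X m (Sum.inl i) (Function.update R (Sum.inl i) x) := by
          intro x hc
          unfold cond at hc
          dsimp only at hc
          have := (hc.2 hb).2
          rw [rowA_update, colB_update] at this
          exact this hAB
        simp only [this, if_false, Finset.sum_const_zero]
        positivity
      · have hiff : ∀ x, cond σ X m (Sum.inl i) (Function.update R (Sum.inl i) x) ↔
            (C1 X (σ.rowA m R i) x ∧ C1 X (σ.colB m R i) x) := by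
          intro x
          unfold cond
          dsimp only
          rw [rowA_update, colB_update, Function.update_self]
          constructor
          · rintro ⟨h1, h2⟩
            exact ⟨h1, (h2 hb).1⟩
          · rintro ⟨h1, h2⟩
            exact ⟨h1, fun _ => ⟨h2, hAB⟩⟩
        simp only [hiff]
        rw [← Finset.sum_filter]
        refine le_trans (sum_wt2 hS m (Sum.inl i) R _ _ hAB hr hr') ?_
        apply mul_le_mul_of_nonneg_left _ hκ
        apply div_le_div_of_nonneg_left (by linarith) (by positivity)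
        rw [pow_two]
        exact mul_le_mul hlog1 hlog2 hlogr'.le (by linarith)
    · rw [if_neg hb]
      have hiff : ∀ x, cond σ X m (Sum.inl i) (Function.update R (Sum.inl i) x) ↔
            (C1 X (σ.rowA m R i) x) := by
          intro x
          unfold cond
          dsimp only
          rw [rowA_update, Function.update_self]
          constructor
          · rintro ⟨h1, h2⟩
            exact h1
          · intro h1
            exact ⟨h1, fun h => absurd h hb⟩
      simp only [hiff]
      rw [← Finset.sum_filter]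
      refine le_trans (sum_wt1 hS m (Sum.inl i) R _ hr hr') ?_
      apply mul_le_mul_of_nonneg_left _ hκ
      exact div_le_div_of_nonneg_left (by linarith) hlogr hlog1
  · unfold TT ff BB
    dsimp only
    by_cases hd : σ.dummy j
    · simp only [hd, if_true, Finset.sum_singleton, mul_one]
      have : ¬ ((σ.rk (Sum.inr j) : ℕ) = 0) := fun h => hσ.v5 j h hd
      rw [if_neg this]
    · simp only [hd, if_false]
      have hloA : r' j ≤ lo σ r r' ρt (Sum.inr j) := by
        unfold lo
        exact le_max_right _ _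
      have hlogr : 0 < Real.log (r' j) := Real.log_pos (by linarith [hS.one_lt, hr' j])
      have hlog1 : Real.log (r' j) ≤ Real.log (lo σ r r' ρt (Sum.inr j)) :=
        Real.log_le_log (by linarith [hS.one_lt, hr' j]) hloA
      have hiff : ∀ x, cond σ X m (Sum.inr j) (Function.update R (Sum.inr j) x) ↔
            (C1 X (σ.colA m R j) x) := by
          intro x
          unfold cond
          dsimp only
          rw [colA_update, Function.update_self]
      simp only [hiff]
      rw [← Finset.sum_filter]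
      refine le_trans (sum_wt1 hS m (Sum.inr j) R _ hr hr') ?_
      apply mul_le_mul_of_nonneg_left _ hκ
      exact div_le_div_of_nonneg_left (by linarith) hlogr hlog1

/-- the sum over all marks for a fixed structure and cofactor matrix -/
theorem sum_marks (hS : Sieve X ρ0 ρt L κ W) (hσ : σ.Valid) (m : Mat s t)
    (hr : ∀ i, ρ0 ≤ r i) (hr' : ∀ j, ρ0 ≤ r' j) :
    ∑ R ∈ Fintype.piFinset (TT σ X r r' ρt), ∏ e, ff σ X W m e R
      ≤ ∏ e, BB σ r r' L κ e := by
  apply iter_sum σ.ord
  · intro e R
    exact ff_nonneg hS m e R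
  · intro e R R' h
    exact ff_dep hσ m e R R' h
  · intro e R
    exact sum_ff hS hσ m hr hr' e R

theorem prod_BB_le (hS : Sieve X ρ0 ρt L κ W) (hσ : σ.Valid) (hs : 0 < s)
    (hr : ∀ i, ρ0 ≤ r i) (hr' : ∀ j, ρ0 ≤ r' j) :
    ∏ e, BB σ r r' L κ e ≤ κ * L ^ (s + t) * (∏ i, (1 / Real.log (r i))) *
      ∏ j, (1 / Real.log (r' j)) := by
  have hL := hS.L1
  have hκ := hS.κ0
  have hlr : ∀ i, 0 < Real.log (r i) := fun i => Real.log_pos (by linarith [hS.one_lt, hr i])
  have hlr' : ∀ j, 0 < Real.log (r' j) := fun j => Real.log_pos (by linarith [hS.one_lt, hr' j])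
  unfold BB
  rw [Finset.prod_mul_distrib]
  have h1 : ∏ e : Fin s ⊕ Fin t, (if (σ.rk e : ℕ) = 0 then κ else 1) = κ := by
    have hst : 0 < s + t := by omega
    have : ∀ e : Fin s ⊕ Fin t, ((σ.rk e : ℕ) = 0) ↔ σ.ord ⟨0, hst⟩ = e := by
      intro e
      constructor
      · intro h
        have : σ.rk e = ⟨0, hst⟩ := Fin.ext h
        rw [← this]
        simp [Str.rk]
      · intro h
        rw [← h]
        simp [Str.rk]
    simp_rw [this]
    rw [Finset.prod_ite_eq]
    simp
  rw [h1, Fintype.prod_sum_type]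
  have h2 : ∏ i : Fin s, (if σ.β i = true then L / (Real.log (r i) * Real.log (r' (σ.c i)))
          else L / Real.log (r i))
      = L ^ s * (∏ i, (1 / Real.log (r i))) *
        ∏ i, (if σ.β i = true then 1 / Real.log (r' (σ.c i)) else 1) := by
    have : ∀ i : Fin s, (if σ.β i = true then L / (Real.log (r i) * Real.log (r' (σ.c i)))
          else L / Real.log (r i))
        = L * (1 / Real.log (r i)) * (if σ.β i = true then 1 / Real.log (r' (σ.c i)) else 1) := by
      intro i
      split_ifs
      · field_simp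
      · field_simp
    simp_rw [this, Finset.prod_mul_distrib]
    simp
  have h3 : ∏ i, (if σ.β i = true then 1 / Real.log (r' (σ.c i)) else 1)
      = ∏ j, (if σ.dummy j then 1 / Real.log (r' j) else 1) := by
    rw [← Finset.prod_filter, ← Finset.prod_filter]
    refine Finset.prod_bij' (i := fun i _ => σ.c i) (j := fun j _ => σ.r j) ?_ ?_ ?_ ?_ ?_
    · intro i hi
      rw [Finset.mem_filter] at hi ⊢
      exact ⟨Finset.mem_univ _, hσ.dummy_c hi.2⟩
    · intro j hj
      rw [Finset.mem_filter] at hj ⊢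
      exact ⟨Finset.mem_univ _, hj.2.1⟩
    · intro i hi
      rw [Finset.mem_filter] at hi
      exact hσ.v1 i hi.2
    · intro j hj
      rw [Finset.mem_filter] at hj
      exact hj.2.2
    · intro i _
      rfl
  have h4 : (∏ j, (if σ.dummy j then 1 / Real.log (r' j) else 1)) *
      (∏ j : Fin t, (if σ.dummy j then 1 else L / Real.log (r' j)))
      ≤ L ^ t * ∏ j, (1 / Real.log (r' j)) := by
    rw [← Finset.prod_mul_distrib]
    have : L ^ t * ∏ j, (1 / Real.log (r' j)) = ∏ j : Fin t, (L * (1 / Real.log (r' j))) := by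
      rw [Finset.prod_mul_distrib]
      simp
    rw [this]
    apply Finset.prod_le_prod
    · intro j _
      have := hlr' j
      split_ifs <;> positivity
    · intro j _
      have h5 := hlr' j
      split_ifs
      · rw [mul_one]
        have h6 : 0 ≤ 1 / Real.log (r' j) := by positivity
        nlinarith
      · apply le_of_eq
        field_simp
  rw [h2, h3]
  have h5 : 0 ≤ ∏ i, (1 / Real.log (r i)) := Finset.prod_nonneg (fun i _ => by
    have := hlr i; positivity)
  calc κ * (L ^ s * (∏ i, (1 / Real.log (r i))) *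
        (∏ j, (if σ.dummy j then 1 / Real.log (r' j) else 1)) *
        (∏ j : Fin t, (if σ.dummy j then 1 else L / Real.log (r' j))))
      = κ * (L ^ s * (∏ i, (1 / Real.log (r i)))) *
        ((∏ j, (if σ.dummy j then 1 / Real.log (r' j) else 1)) *
        (∏ j : Fin t, (if σ.dummy j then 1 else L / Real.log (r' j)))) := by ring
    _ ≤ κ * (L ^ s * (∏ i, (1 / Real.log (r i)))) * (L ^ t * ∏ j, (1 / Real.log (r' j))) := by
        apply mul_le_mul_of_nonneg_left h4
        positivity
    _ = _ := by rw [pow_add]; ring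

end Crest.Agent.R020.CollM
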