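import Mathlib

/-!
Row 20, module G2: a convexity lemma. If `f` is convex and antitone on `(0,∞)` and
`f η ≥ K log(1/η) - C_K` for every `K`, then `f η - f ((1+δ)η)` is large on whole periods
`[ρ η₀, η₀]` with `η₀` arbitrarily small.
-/

set_option autoImplicit false

noncomputable section

open Filter Topology Set

namespace Crest.Agent.R020

/-- slope comparison for convex functions -/
theorem convex_slope_cmp {f : ℝ → ℝ} (hf : ConvexOn ℝ (Ioi (0:ℝ)) f) {a b c d : ℝ} (ha : 0 < a)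
    (hab : a < b) (hac : a ≤ c) (hbd : b ≤ d) (hcd : c < d) :
    (f b - f a) / (b - a) ≤ (f d - f c) / (d - c) := by
  have hb : 0 < b := ha.trans hab
  have hc : 0 < c := lt_of_lt_of_le ha hac
  have hd : 0 < d := hc.trans hcd
  -- slope(a,b) ≤ slope(a,d) ≤ slope(c,d)
  have had : a < d := lt_of_lt_of_le hab hbd
  have h1 : (f b - f a) / (b - a) ≤ (f d - f a) / (d - a) := by
    rcases hbd.eq_or_lt with h | h
    · rw [h]
    · exact hf.secant_mono (a := a) (x := b) (y := d) ha hb hd hab.ne' had.ne' hbd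
  have h2 : (f d - f a) / (d - a) ≤ (f d - f c) / (d - c) := by
    rcases hac.eq_or_lt with h | h
    · rw [h]
    · have := hf.secant_mono (a := d) (x := a) (y := c) hd ha hc had.ne hcd.ne hac
      have e1 : (f a - f d) / (a - d) = (f d - f a) / (d - a) := by
        rw [← neg_sub (f d), ← neg_sub d, neg_div_neg_eq]
      have e2 : (f c - f d) / (c - d) = (f d - f c) / (d - c) := by
        rw [← neg_sub (f d), ← neg_sub d, neg_div_neg_eq]
      rw [e1, e2] at this
      exact this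
  exact h1.trans h2

theorem exists_period_drop {f : ℝ → ℝ} (hf : ConvexOn ℝ (Ioi (0:ℝ)) f)
    (hanti : AntitoneOn f (Ioi (0:ℝ)))
    (hgrow : ∀ K : ℝ, ∃ C : ℝ, ∀ η : ℝ, 0 < η → η ≤ 1 → K * Real.log (1 / η) - C ≤ f η)
    {δ ρ : ℝ} (hδ : 0 < δ) (hρ0 : 0 < ρ) (hρ1 : ρ < 1) (M : ℝ) (η1 : ℝ) (hη1 : 0 < η1) :
    ∃ η0 : ℝ, 0 < η0 ∧ η0 < η1 ∧ ∀ η : ℝ, ρ * η0 ≤ η → η ≤ η0 →
      M ≤ f η - f ((1 + δ) * η) := by
  -- reduce to small δ
  set δ' : ℝ := min δ (1 / ρ - 1) with hδ'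
  have hinv : 1 < 1 / ρ := by rw [lt_div_iff₀ hρ0]; linarith
  have hδ'0 : 0 < δ' := lt_min hδ (by linarith)
  suffices h : ∃ η0 : ℝ, 0 < η0 ∧ η0 < η1 ∧ ∀ η : ℝ, ρ * η0 ≤ η → η ≤ η0 →
      M ≤ f η - f ((1 + δ') * η) by
    obtain ⟨η0, h0, h1, h2⟩ := h
    refine ⟨η0, h0, h1, fun η h3 h4 => (h2 η h3 h4).trans ?_⟩
    have hη : 0 < η := lt_of_lt_of_le (mul_pos hρ0 h0) h3
    have : f ((1 + δ) * η) ≤ f ((1 + δ') * η) :=
      hanti (mem_Ioi.2 (by positivity)) (mem_Ioi.2 (by positivity))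
        (mul_le_mul_of_nonneg_right (by linarith [min_le_left δ (1 / ρ - 1)]) hη.le)
    linarith
  by_contra hcon
  push Not at hcon
  set M0 : ℝ := max M 0 with hM0
  have hM00 : 0 ≤ M0 := le_max_right _ _
  have hM0' : M ≤ M0 := le_max_left _ _
  set M' : ℝ := M0 * (1 / ρ - 1) / (δ' * ρ) with hM'
  have hM'0 : 0 ≤ M' := by
    rw [hM']
    have : 0 < 1 / ρ - 1 := by linarith
    positivity
  have hstep : ∀ η0 : ℝ, 0 < η0 → η0 < η1 → f η0 ≤ f (η0 / ρ) + M' := by
    intro η0 h0 h1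
    obtain ⟨η, hη1', hη2, hη3⟩ := hcon η0 h0 h1
    have hηpos : 0 < η := lt_of_lt_of_le (mul_pos hρ0 h0) hη1'
    have hdrop : f η - f ((1 + δ') * η) ≤ M0 := by linarith
    have hlt : η < (1 + δ') * η := by nlinarith
    have hη0ρ : η0 < η0 / ρ := by
      rw [lt_div_iff₀ hρ0]; nlinarith
    have hcase : (1 + δ') * η ≤ η0 / ρ := by
      have e1 : 1 + δ' ≤ 1 / ρ := by linarith [min_le_right δ (1 / ρ - 1)]
      calc (1 + δ') * η ≤ (1 / ρ) * η0 := mul_le_mul e1 hη2 hηpos.le (by positivity)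
        _ = η0 / ρ := by ring
    have hs := convex_slope_cmp hf (a := η) (b := (1 + δ') * η) (c := η0) (d := η0 / ρ) hηpos hlt
      hη2 hcase hη0ρ
    have e1 : (1 + δ') * η - η = δ' * η := by ring
    rw [e1, div_le_div_iff₀ (by positivity) (by linarith)] at hs
    have h2 : -(M0 * (η0 / ρ - η0)) ≤ (f (η0 / ρ) - f η0) * (δ' * η) := by
      refine le_trans ?_ hs
      nlinarith [mul_le_mul_of_nonneg_right hdrop (sub_nonneg.2 hη0ρ.le)]
    have h3 : f η0 - f (η0 / ρ) ≤ M0 * (η0 / ρ - η0) / (δ' * η) := by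
      rw [le_div_iff₀ (by positivity)]
      linarith
    have h4 : M0 * (η0 / ρ - η0) / (δ' * η) ≤ M' := by
      rw [hM', div_le_div_iff₀ (by positivity) (by positivity)]
      have h5 : η0 / ρ - η0 = η0 * (1 / ρ - 1) := by ring
      rw [h5]
      have h6 : 0 ≤ M0 * (1 / ρ - 1) * δ' := by
        have : 0 < 1 / ρ - 1 := by linarith
        positivity
      nlinarith [mul_le_mul_of_nonneg_left hη1' h6]
    linarith
  -- iterate
  set s : ℝ := min η1 1 / 2 with hs
  have hs0 : 0 < s := by positivity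
  have hs1 : s < η1 := by
    have : min η1 1 ≤ η1 := min_le_left _ _
    have h2 : 0 < min η1 1 := lt_min hη1 one_pos
    rw [hs]; linarith
  have hs1' : s ≤ 1 := by
    have : min η1 1 ≤ 1 := min_le_right _ _
    have h2 : 0 < min η1 1 := lt_min hη1 one_pos
    rw [hs]; linarith
  have hiter : ∀ j : ℕ, f (ρ ^ j * s) ≤ f s + j * M' := by
    intro j
    induction j with
    | zero => simp
    | succ j ih =>
      have h0 : 0 < ρ ^ (j + 1) * s := by positivity
      have h1 : ρ ^ (j + 1) * s < η1 := by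
        have : ρ ^ (j + 1) * s ≤ s := mul_le_of_le_one_left hs0.le (pow_le_one₀ hρ0.le hρ1.le)
        linarith
      have h2 := hstep _ h0 h1
      have h3 : ρ ^ (j + 1) * s / ρ = ρ ^ j * s := by
        rw [pow_succ]; field_simp
      rw [h3] at h2
      push_cast
      linarith
  have hlogρ : 0 < Real.log (1 / ρ) := Real.log_pos hinv
  obtain ⟨C, hC⟩ := hgrow ((M' + 1) / Real.log (1 / ρ))
  obtain ⟨j, hj⟩ := exists_nat_gt (f s + C)
  have h1 := hC (ρ ^ j * s) (by positivity)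
    ((mul_le_of_le_one_left hs0.le (pow_le_one₀ hρ0.le hρ1.le)).trans hs1')
  have h2 : Real.log (1 / (ρ ^ j * s)) = j * Real.log (1 / ρ) + Real.log (1 / s) := by
    rw [one_div, mul_inv, Real.log_mul (by positivity) (by positivity), ← inv_pow, Real.log_pow]
    simp
  have h3 : 0 ≤ Real.log (1 / s) := Real.log_nonneg (by rw [le_div_iff₀ hs0]; linarith)
  have h4 : (j:ℝ) * (M' + 1) ≤ (M' + 1) / Real.log (1 / ρ) * Real.log (1 / (ρ ^ j * s)) := by
    rw [h2]
    have e1 : (M' + 1) / Real.log (1 / ρ) * (↑j * Real.log (1 / ρ) + Real.log (1 / s))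
        = (j:ℝ) * (M' + 1) + (M' + 1) / Real.log (1 / ρ) * Real.log (1 / s) := by
      field_simp
    rw [e1]
    have : 0 ≤ (M' + 1) / Real.log (1 / ρ) * Real.log (1 / s) := by positivity
    linarith
  have h5 := hiter j
  nlinarith

end Crest.Agent.R020
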