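import Crest.Agent.R020.Cells
import Crest.Agent.R020.Abn5
import Crest.Agent.R020.CollDefs

/-!
Row 20 (helper661): the left statistic, Chernoff bounds over tuples of primes in given cells
(note 7137, S4 (ii), (iii)).

* `st ℓ n = ∑_{p | n} ℓ (cl p)` (with multiplicity);
* `tuple_chernoff`: weight (`∏ 1/(q_a - 1)`) of the tuples `q : ι → ℕ` of primes in the cells `α a`
  with `∑ st ℓ (q_a - 1) ≥ H`;
* `tuple_dev`: deviation from the mean.
-/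

set_option autoImplicit false

open scoped ENNReal

noncomputable section

namespace Crest.Agent.R020.LS

/-- the additive statistic with value `ℓ (cl p)` at the prime `p` -/
def st (ℓ : ℕ → ℝ) (n : ℕ) : ℝ := (n.primeFactorsList.map (fun p => ℓ (cl p))).sum

lemma cl_eq_coll (p : ℕ) : cl p = Coll.cl p := rfl

lemma st_eq_coll (ℓ : ℕ → ℝ) (n : ℕ) : st ℓ n = Coll.st ℓ n := rfl

@[simp] lemma st_one (ℓ : ℕ → ℝ) : st ℓ 1 = 0 := by simp [st]

@[simp] lemma st_zero (ℓ : ℕ → ℝ) : st ℓ 0 = 0 := by simp [st]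

lemma st_mul (ℓ : ℕ → ℝ) {m n : ℕ} (hm : m ≠ 0) (hn : n ≠ 0) :
    st ℓ (m * n) = st ℓ m + st ℓ n := by
  unfold st
  rw [((Nat.perm_primeFactorsList_mul hm hn).map _).sum_eq, List.map_append, List.sum_append]

lemma st_prod {ι : Type*} (ℓ : ℕ → ℝ) (s : Finset ι) (m : ι → ℕ) (h : ∀ i ∈ s, m i ≠ 0) :
    st ℓ (∏ i ∈ s, m i) = ∑ i ∈ s, st ℓ (m i) := by
  classical
  induction s using Finset.induction_on with
  | empty => simp
  | insert a s ha ih =>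
    rw [Finset.prod_insert ha, Finset.sum_insert ha, st_mul, ih]
    · intro i hi; exact h i (Finset.mem_insert_of_mem hi)
    · exact h a (Finset.mem_insert_self a s)
    · exact Finset.prod_ne_zero_iff.mpr fun i hi => h i (Finset.mem_insert_of_mem hi)

lemma st_nonneg {ℓ : ℕ → ℝ} (h : ∀ i, 0 ≤ ℓ i) (n : ℕ) : 0 ≤ st ℓ n := by
  unfold st
  apply List.sum_nonneg
  intro x hx
  rw [List.mem_map] at hx
  obtain ⟨p, -, rfl⟩ := hx
  exact h _

lemma st_mono {ℓ ℓ' : ℕ → ℝ} (h : ∀ i, ℓ i ≤ ℓ' i) (n : ℕ) : st ℓ n ≤ st ℓ' n := by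
  unfold st
  apply List.sum_le_sum
  intro p _
  exact h _

lemma st_add (ℓ ℓ' : ℕ → ℝ) (n : ℕ) : st (fun i => ℓ i + ℓ' i) n = st ℓ n + st ℓ' n := by
  unfold st
  rw [← List.sum_map_add]

lemma st_smul (c : ℝ) (ℓ : ℕ → ℝ) (n : ℕ) : st (fun i => c * ℓ i) n = c * st ℓ n := by
  unfold st
  rw [List.sum_map_mul_left]

lemma st_le_card {ℓ : ℕ → ℝ} {Λ : ℝ} (h : ∀ i, ℓ i ≤ Λ) (n : ℕ) :
    st ℓ n ≤ Λ * n.primeFactorsList.length := by
  unfold st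
  have h1 : ∀ l : List ℕ, (l.map (fun p => ℓ (cl p))).sum ≤ Λ * l.length := by
    intro l
    induction l with
    | nil => simp
    | cons a l ih =>
      simp only [List.map_cons, List.sum_cons, List.length_cons]
      have := h (cl a)
      push_cast
      linarith
  exact h1 _

/-- the weight `exp (c * st ℓ n)` is completely multiplicative -/
lemma cm_exp_st (c : ℝ) (ℓ : ℕ → ℝ) {n : ℕ} (hn : n ≠ 0) :
    Coll.cm (fun p => ENNReal.ofReal (Real.exp (c * ℓ (cl p)))) n =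
      ENNReal.ofReal (Real.exp (c * st ℓ n)) := by
  unfold Coll.cm st
  rw [if_neg hn]
  have h1 : ∀ l : List ℕ, (l.map (fun p => ENNReal.ofReal (Real.exp (c * ℓ (cl p))))).prod =
      ENNReal.ofReal (Real.exp (c * (l.map (fun p => ℓ (cl p))).sum)) := by
    intro l
    induction l with
    | nil => simp
    | cons a l ih =>
      simp only [List.map_cons, List.prod_cons, List.sum_cons]
      rw [ih, ← ENNReal.ofReal_mul (Real.exp_pos _).le, ← Real.exp_add]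
      congr 2
      ring
  exact h1 _

lemma PL_eq_PU (U : ℝ) : PL U = PU U := by
  unfold PL PU
  ext p
  rw [Finset.mem_filter, Finset.mem_range, Nat.mem_primesLE, Nat.lt_succ_iff]

lemma exp_two_fifths : Real.exp (2 / 5) ≤ 3 / 2 := by
  have h : Real.exp (2 / 5) ^ 5 ≤ (3 / 2 : ℝ) ^ 5 := by
    rw [← Real.exp_nat_mul]
    have h1 : ((5 : ℕ) : ℝ) * (2 / 5) = 1 + 1 := by norm_num
    rw [h1, Real.exp_add]
    have := Real.exp_one_lt_d9
    have := Real.exp_pos 1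
    nlinarith
  exact le_of_pow_le_pow_left₀ (by norm_num) (by norm_num) h

/-- one coordinate -/
lemma one_coord : ∃ C : ℝ, 0 < C ∧ ∀ (α : ℕ) (ℓ : ℕ → ℝ) (Λ τ : ℝ), (∀ i, 0 ≤ ℓ i) →
    (∀ i, ℓ i ≤ Λ) → 0 ≤ τ → τ * Λ ≤ 2 / 5 →
    ∑' q : ℕ, {q : ℕ | q.Prime ∧ cl q = α}.indicator
      (fun q => ENNReal.ofReal (Real.exp (τ * st ℓ (q - 1))) * ((q - 1 : ℕ) : ℝ≥0∞)⁻¹) q ≤
      ENNReal.ofReal (Real.exp (C + 2 * Real.log (1 + α) +
        ∑ i ∈ Finset.range α, (Real.exp (τ * ℓ i) - 1))) := by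
  obtain ⟨C1, hC1, hTS⟩ := twisted_collcm_le
  refine ⟨max 1 (Real.log C1 + 56), lt_of_lt_of_le one_pos (le_max_left _ _), ?_⟩
  intro α ℓ Λ τ hℓ0 hℓ hτ hτΛ
  set h : ℕ → ℝ≥0∞ := fun p => ENNReal.ofReal (Real.exp (τ * ℓ (cl p))) with hh
  have hle : ∀ i, Real.exp (τ * ℓ i) ≤ 3 / 2 := fun i =>
    (Real.exp_le_exp.mpr ((mul_le_mul_of_nonneg_left (hℓ i) hτ).trans hτΛ)).trans exp_two_fifths
  have h1 := hTS h (fun p _ => ENNReal.ofReal_le_ofReal (hle _)) (α : ℝ) (by positivity)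
  have h2 : ∑' q : ℕ, {q : ℕ | q.Prime ∧ cl q = α}.indicator
      (fun q => ENNReal.ofReal (Real.exp (τ * st ℓ (q - 1))) * ((q - 1 : ℕ) : ℝ≥0∞)⁻¹) q ≤
      ∑' q : ℕ, {q : ℕ | q.Prime ∧ (α : ℝ) ≤ yy q ∧ yy q ≤ α + 1}.indicator
      (fun q => Coll.cm h (q - 1) * ((q - 1 : ℕ) : ℝ≥0∞)⁻¹) q := by
    apply ENNReal.tsum_le_tsum
    intro q
    by_cases hq : q ∈ {q : ℕ | q.Prime ∧ cl q = α}
    · rw [Set.indicator_of_mem hq, Set.indicator_of_mem]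
      · rw [hh, cm_exp_st]
        have := hq.1.two_le
        omega
      · refine ⟨hq.1, ?_, ?_⟩
        · have := cl_le_yy q; rwa [hq.2] at this
        · have := yy_le_cl q; rwa [hq.2] at this
    · rw [Set.indicator_of_notMem hq]; exact zero_le
  refine h2.trans (h1.trans ?_)
  apply ENNReal.ofReal_le_ofReal
  have h3 : ∑ p ∈ PL (α : ℝ), (h p).toReal / p ≤
      ∑ i ∈ Finset.range α, Real.exp (τ * ℓ i) + 37 * (3 / 2) := by
    rw [PL_eq_PU]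
    have h4 := sum_cl_div_le (f := fun i => Real.exp (τ * ℓ i)) (B := 3 / 2)
      (fun i => (Real.exp_pos _).le) hle α
    refine le_trans (le_of_eq ?_) h4
    apply Finset.sum_congr rfl
    intro p _
    rw [hh, ENNReal.toReal_ofReal (Real.exp_pos _).le]
  have h5 : C1 * (1 + (α : ℝ)) ^ 2 * Real.exp (-(α : ℝ)) *
      Real.exp (∑ p ∈ PL (α : ℝ), (h p).toReal / p) =
      Real.exp (Real.log C1 + 2 * Real.log (1 + α) + -(α : ℝ) +
        ∑ p ∈ PL (α : ℝ), (h p).toReal / p) := by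
    have hα : (0 : ℝ) < 1 + α := by positivity
    rw [Real.exp_add, Real.exp_add, Real.exp_add, Real.exp_log hC1]
    congr 3
    rw [two_mul, Real.exp_add, Real.exp_log hα]
    ring
  rw [h5]
  apply Real.exp_le_exp.mpr
  rw [Finset.sum_sub_distrib, Finset.sum_const, Finset.card_range, nsmul_eq_mul, mul_one]
  have h6 := le_max_right 1 (Real.log C1 + 56)
  linarith

/-- Chernoff bound for tuples of primes in given cells. -/
theorem tuple_chernoff : ∃ C : ℝ, 0 < C ∧ ∀ (ι : Type) [Fintype ι] (α : ι → ℕ) (ℓ : ℕ → ℝ)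
    (Λ τ H : ℝ), (∀ i, 0 ≤ ℓ i) → (∀ i, ℓ i ≤ Λ) → 0 ≤ τ → τ * Λ ≤ 2 / 5 →
    ∑' q : ι → ℕ, {q : ι → ℕ | (∀ a, (q a).Prime ∧ cl (q a) = α a) ∧
        H ≤ ∑ a, st ℓ (q a - 1)}.indicator (fun q => ∏ a, ((q a - 1 : ℕ) : ℝ≥0∞)⁻¹) q ≤
      ENNReal.ofReal (Real.exp (-(τ * H) + C * Fintype.card ι + 2 * ∑ a, Real.log (1 + α a) +
        ∑ a, ∑ i ∈ Finset.range (α a), (Real.exp (τ * ℓ i) - 1))) := by
  obtain ⟨C, hC, h1⟩ := one_coord
  refine ⟨C, hC, ?_⟩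
  intro ι _ α ℓ Λ τ H hℓ0 hℓ hτ hτΛ
  set A : ι → ℕ → ℝ≥0∞ := fun a q => {q : ℕ | q.Prime ∧ cl q = α a}.indicator
      (fun q => ENNReal.ofReal (Real.exp (τ * st ℓ (q - 1))) * ((q - 1 : ℕ) : ℝ≥0∞)⁻¹) q with hA
  have h2 : ∀ q : ι → ℕ, {q : ι → ℕ | (∀ a, (q a).Prime ∧ cl (q a) = α a) ∧
        H ≤ ∑ a, st ℓ (q a - 1)}.indicator (fun q => ∏ a, ((q a - 1 : ℕ) : ℝ≥0∞)⁻¹) q ≤
      ENNReal.ofReal (Real.exp (-(τ * H))) * ∏ a, A a (q a) := by
    intro q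
    by_cases hq : q ∈ {q : ι → ℕ | (∀ a, (q a).Prime ∧ cl (q a) = α a) ∧
        H ≤ ∑ a, st ℓ (q a - 1)}
    · rw [Set.indicator_of_mem hq]
      have h3 : ∏ a, A a (q a) = ENNReal.ofReal (Real.exp (τ * ∑ a, st ℓ (q a - 1))) *
          ∏ a, ((q a - 1 : ℕ) : ℝ≥0∞)⁻¹ := by
        rw [Finset.mul_sum, Real.exp_sum, ENNReal.ofReal_prod_of_nonneg
          (fun i _ => (Real.exp_pos _).le), ← Finset.prod_mul_distrib]
        apply Finset.prod_congr rfl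
        intro a _
        have h30 : q a ∈ {q : ℕ | q.Prime ∧ cl q = α a} := hq.1 a
        simp only [hA]
        rw [Set.indicator_of_mem h30]
      rw [h3, ← mul_assoc, ← ENNReal.ofReal_mul (Real.exp_pos _).le, ← Real.exp_add]
      have h4 : (1 : ℝ≥0∞) ≤ ENNReal.ofReal (Real.exp (-(τ * H) + τ * ∑ a, st ℓ (q a - 1))) := by
        rw [← ENNReal.ofReal_one]
        apply ENNReal.ofReal_le_ofReal
        apply Real.one_le_exp
        have := mul_le_mul_of_nonneg_left hq.2 hτ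
        linarith
      have h5 := mul_le_mul' h4 (le_refl (∏ a, ((q a - 1 : ℕ) : ℝ≥0∞)⁻¹))
      rwa [one_mul] at h5
    · rw [Set.indicator_of_notMem hq]; exact zero_le
  refine (ENNReal.tsum_le_tsum h2).trans ?_
  rw [ENNReal.tsum_mul_left]
  have h5 := Coll.tsum_prod_le A
  have h6 : ∏ a, ∑' n, A a n ≤ ∏ a, ENNReal.ofReal (Real.exp (C + 2 * Real.log (1 + α a) +
        ∑ i ∈ Finset.range (α a), (Real.exp (τ * ℓ i) - 1))) := by
    apply Finset.prod_le_prod'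
    intro a _
    exact h1 (α a) ℓ Λ τ hℓ0 hℓ hτ hτΛ
  refine (mul_le_mul' le_rfl (h5.trans h6)).trans ?_
  rw [← ENNReal.ofReal_prod_of_nonneg (fun i _ => (Real.exp_pos _).le), ← Real.exp_sum,
    ← ENNReal.ofReal_mul (Real.exp_pos _).le, ← Real.exp_add]
  apply ENNReal.ofReal_le_ofReal
  apply Real.exp_le_exp.mpr
  rw [Finset.sum_add_distrib, Finset.sum_add_distrib, Finset.sum_const, Finset.card_univ,
    nsmul_eq_mul, ← Finset.mul_sum]
  linarith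

lemma exp_sub_one_sub_le {x : ℝ} (h0 : 0 ≤ x) (h1 : x ≤ 1) : Real.exp x - 1 - x ≤ x ^ 2 := by
  have := Real.exp_bound' h0 h1 (n := 2) (by norm_num)
  norm_num [Finset.sum_range_succ, Nat.factorial] at this
  nlinarith

/-- Deviation bound (S4 (iii)): tuples whose statistic exceeds the sum of the `ℓ`'s of the cells
`i ≤ α a` by `F`. -/
theorem tuple_dev : ∃ C : ℝ, 0 < C ∧ ∀ (ι : Type) [Fintype ι] (α : ι → ℕ) (ℓ : ℕ → ℝ)
    (Λ τ F : ℝ), (∀ i, 0 ≤ ℓ i) → (∀ i, ℓ i ≤ Λ) → 0 ≤ τ → τ * Λ ≤ 2 / 5 →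
    ∑' q : ι → ℕ, {q : ι → ℕ | (∀ a, (q a).Prime ∧ cl (q a) = α a) ∧
        ∑ a, ∑ i ∈ Finset.range (α a), ℓ i + F ≤ ∑ a, st ℓ (q a - 1)}.indicator
          (fun q => ∏ a, ((q a - 1 : ℕ) : ℝ≥0∞)⁻¹) q ≤
      ENNReal.ofReal (Real.exp (-(τ * F) + τ ^ 2 * Λ ^ 2 * ∑ a, (α a : ℝ) +
        C * Fintype.card ι + 2 * ∑ a, Real.log (1 + α a))) := by
  obtain ⟨C, hC, h1⟩ := tuple_chernoff
  refine ⟨C, hC, ?_⟩
  intro ι _ α ℓ Λ τ F hℓ0 hℓ hτ hτΛ
  refine (h1 ι α ℓ Λ τ (∑ a, ∑ i ∈ Finset.range (α a), ℓ i + F) hℓ0 hℓ hτ hτΛ).trans ?_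
  apply ENNReal.ofReal_le_ofReal
  apply Real.exp_le_exp.mpr
  have h2 : ∑ a, ∑ i ∈ Finset.range (α a), (Real.exp (τ * ℓ i) - 1) ≤
      τ * ∑ a, ∑ i ∈ Finset.range (α a), ℓ i + τ ^ 2 * Λ ^ 2 * ∑ a, (α a : ℝ) := by
    rw [Finset.mul_sum, Finset.mul_sum, ← Finset.sum_add_distrib]
    apply Finset.sum_le_sum
    intro a _
    have h3 : τ ^ 2 * Λ ^ 2 * (α a : ℝ) = ∑ i ∈ Finset.range (α a), τ ^ 2 * Λ ^ 2 := by
      rw [Finset.sum_const, Finset.card_range, nsmul_eq_mul]; ring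
    rw [h3, Finset.mul_sum, ← Finset.sum_add_distrib]
    apply Finset.sum_le_sum
    intro i _
    have h4 : 0 ≤ τ * ℓ i := mul_nonneg hτ (hℓ0 i)
    have h5 : τ * ℓ i ≤ τ * Λ := mul_le_mul_of_nonneg_left (hℓ i) hτ
    have h6 := exp_sub_one_sub_le h4 (by linarith)
    have h7 : (τ * ℓ i) ^ 2 ≤ (τ * Λ) ^ 2 := by
      apply pow_le_pow_left₀ h4 h5
    rw [mul_pow] at h7
    rw [mul_pow] at h7
    rw [mul_pow] at h6
    linarith
  rw [mul_add]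
  linarith

end Crest.Agent.R020.LS
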