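import Crest.Agent.R020.LStat
import Crest.Agent.R020.CollPair

/-!
Row 20 (helper661): sums over totients through the decomposition of the canonical preimage into
alive primes and dead part.

* `dsum_le`: `∑_d 1/d ∏_{p ∈ alv w (rr d)} g p * h (φ (deadPart))
    ≤ ∏_{p ∈ PU Y} (1 + g p/(p-1)) * ∑_{e ∈ Sm (PU w)} h e / e`;
* `alv_cons`, `deadPart_cons`: `n = q * rr d`.
-/

set_option autoImplicit false

open scoped ENNReal

noncomputable section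

namespace Crest.Agent.R020.LS

open Coll (alv deadPart redv kap ell Alive)

/-- totients whose canonical preimage is squarefree above `w`, with alive primes `≤ Y` -/
def DD (w : ℕ) (Y : ℝ) : Set ℕ :=
  {d | IsTot d ∧ (∀ p : ℕ, p.Prime → (w : ℝ) < yy p → ¬ p ^ 2 ∣ rr d) ∧
    ∀ p ∈ alv w (rr d), yy p ≤ Y}

/-- the dead part of the totient `d` -/
def dd (w d : ℕ) : ℕ := Nat.totient (deadPart w (rr d))

lemma DD_eq {w : ℕ} {Y : ℝ} {d : ℕ} (h : d ∈ DD w Y) :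
    d = (∏ p ∈ alv w (rr d), (p - 1)) * dd w d := by
  have h1 := Coll.totient_decomp_alv (n := rr d) h.2.1
  rw [totient_rr h.1] at h1
  exact h1

lemma dd_mem {w : ℕ} {Y : ℝ} {d : ℕ} (h : d ∈ DD w Y) : dd w d ∈ Sm (PU (w : ℝ) : Set ℕ) := by
  have hr := rr_pos d
  refine ⟨?_, ?_⟩
  · unfold dd
    exact (Nat.totient_pos.mpr (Nat.pos_of_ne_zero (Coll.deadPart_ne_zero hr.ne'))).ne'
  · intro p hp
    rw [Nat.mem_primeFactors] at hp
    rw [Finset.mem_coe, mem_PU (by positivity)]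
    exact ⟨hp.1, Coll.yy_le_of_dvd_dead hr.ne' h.2.1 hp.1 hp.2.1⟩

lemma DD_injOn (w : ℕ) (Y : ℝ) : Set.InjOn (fun d => (alv w (rr d), dd w d)) (DD w Y) := by
  intro d hd d' hd' h
  simp only [Prod.mk.injEq] at h
  rw [DD_eq hd, DD_eq hd', h.1, h.2]

/-- The basic sum over totients. -/
lemma dsum_le (w : ℕ) {Y : ℝ} (hY : 0 ≤ Y) (g h : ℕ → ℝ≥0∞) :
    ∑' d : ℕ, (DD w Y).indicator
        (fun d => (d : ℝ≥0∞)⁻¹ * ((∏ p ∈ alv w (rr d), g p) * h (dd w d))) d ≤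
      (∏ p ∈ PU Y, (1 + g p * ((p - 1 : ℕ) : ℝ≥0∞)⁻¹)) *
        ws (fun e => h e * (e : ℝ≥0∞)⁻¹) (Sm (PU (w : ℝ) : Set ℕ)) := by
  classical
  set a : Finset ℕ → ℝ≥0∞ := fun A =>
    if A ∈ (PU Y).powerset then ∏ p ∈ A, (g p * ((p - 1 : ℕ) : ℝ≥0∞)⁻¹) else 0 with ha
  set b : ℕ → ℝ≥0∞ := (Sm (PU (w : ℝ) : Set ℕ)).indicator (fun e => h e * (e : ℝ≥0∞)⁻¹) with hb
  have h1 : ∑' A : Finset ℕ, a A = ∏ p ∈ PU Y, (1 + g p * ((p - 1 : ℕ) : ℝ≥0∞)⁻¹) := by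
    rw [Finset.prod_one_add]
    rw [tsum_eq_sum (s := (PU Y).powerset)]
    · apply Finset.sum_congr rfl
      intro A hA
      rw [ha]
      simp only [if_pos hA]
    · intro A hA
      rw [ha]
      simp only [if_neg hA]
  have h2 : (∏ p ∈ PU Y, (1 + g p * ((p - 1 : ℕ) : ℝ≥0∞)⁻¹)) *
        ws (fun e => h e * (e : ℝ≥0∞)⁻¹) (Sm (PU (w : ℝ) : Set ℕ)) =
      ∑' x : Finset ℕ × ℕ, a x.1 * b x.2 := by
    rw [ENNReal.tsum_prod (f := fun A e => a A * b e)]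
    simp_rw [ENNReal.tsum_mul_left]
    rw [ENNReal.tsum_mul_right, h1]
    rfl
  rw [h2, ← tsum_subtype (DD w Y)]
  have hinj : Function.Injective (fun d : DD w Y => (alv w (rr (d : ℕ)), dd w (d : ℕ))) := by
    intro d d' hdd
    exact Subtype.ext (DD_injOn w Y d.2 d'.2 hdd)
  refine le_trans (le_of_eq ?_) (ENNReal.tsum_comp_le_tsum_of_injective hinj
    (fun x : Finset ℕ × ℕ => a x.1 * b x.2))
  apply tsum_congr
  rintro ⟨d, hd⟩
  simp only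
  have h3 : alv w (rr d) ∈ (PU Y).powerset := by
    rw [Finset.mem_powerset]
    intro p hp
    rw [mem_PU hY]
    exact ⟨(Coll.mem_alv.mp hp).1.1, hd.2.2 p hp⟩
  rw [ha, hb]
  simp only [if_pos h3]
  rw [Set.indicator_of_mem (dd_mem hd), Finset.prod_mul_distrib]
  have h4 : (d : ℝ≥0∞)⁻¹ = (∏ p ∈ alv w (rr d), ((p - 1 : ℕ) : ℝ≥0∞)⁻¹) *
      ((dd w d : ℕ) : ℝ≥0∞)⁻¹ := by
    conv_lhs => rw [DD_eq hd]
    rw [inv_mul_nat]
    congr 1
    have h5 : ∀ A : Finset ℕ, ((∏ p ∈ A, (p - 1) : ℕ) : ℝ≥0∞)⁻¹ =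
        ∏ p ∈ A, ((p - 1 : ℕ) : ℝ≥0∞)⁻¹ := by
      intro A
      induction A using Finset.induction_on with
      | empty => simp
      | insert p A hp ih => rw [Finset.prod_insert hp, Finset.prod_insert hp, inv_mul_nat, ih]
    exact h5 _
  rw [h4]
  ring

/-! ### The pair `n = q * rr d` -/

lemma coprime_of_Pm {q m : ℕ} (hq : q.Prime) (hm : m ≠ 0) (hP : Pm m < q) : ¬ q ∣ m := by
  intro h
  exact lt_irrefl _ ((Pm_lt_iff hm hq.two_le).mp hP q hq h)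

lemma not_mem_alv {w q m : ℕ} (hq : q.Prime) (hm : m ≠ 0) (hP : Pm m < q) : q ∉ alv w m := by
  intro h
  exact coprime_of_Pm hq hm hP (Coll.mem_alv.mp h).1.2.1

lemma alv_cons {w q m : ℕ} (hq : q.Prime) (hm : m ≠ 0) (ha : Alive w q) :
    alv w (q * m) = insert q (alv w m) := by
  ext p
  rw [Finset.mem_insert, Coll.mem_alv, Coll.mem_alv]
  constructor
  · rintro ⟨⟨hp, hd, h0⟩, hal⟩
    rcases (Nat.Prime.dvd_mul hp).mp hd with h | h
    · left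
      exact (Nat.prime_dvd_prime_iff_eq hp hq).mp h
    · right
      exact ⟨⟨hp, h, hm⟩, hal⟩
  · rintro (rfl | ⟨⟨hp, hd, h0⟩, hal⟩)
    · exact ⟨⟨hq, dvd_mul_right _ _, mul_ne_zero hq.ne_zero hm⟩, ha⟩
    · exact ⟨⟨hp, hd.mul_left _, mul_ne_zero hq.ne_zero hm⟩, hal⟩

lemma deadPart_cons {w q m : ℕ} (hq : q.Prime) (hm : m ≠ 0) (hP : Pm m < q) (ha : Alive w q) :
    deadPart w (q * m) = deadPart w m := by
  have h1 := Coll.deadPart_mul w (q * m)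
  have h2 := Coll.deadPart_mul w m
  rw [alv_cons hq hm ha, Finset.prod_insert (not_mem_alv hq hm hP), mul_assoc] at h1
  have h3 := Nat.eq_of_mul_eq_mul_left hq.pos h1
  have h4 : 0 < ∏ p ∈ alv w m, p := Finset.prod_pos fun p hp => (Coll.mem_alv.mp hp).1.1.pos
  exact Nat.eq_of_mul_eq_mul_left h4 (h3.trans h2.symm)

end Crest.Agent.R020.LS
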