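import Crest.Agent.R020.LStatA

/-!
Row 20 (helper661): exponential moments of the excess of the left statistic.

* `ex ℓ p = max 0 (st ℓ (p-1) - ∑_{i ≤ cl p} ℓ i)`;
* `cell_ex`: `∑_{q in cell α} exp (τ ex ℓ q)/(q-1) ≤ C (1+α)^2 exp (τ²Λ²α)`;
* `dsum_bound`: sums over totients.
-/

set_option autoImplicit false

open scoped ENNReal

noncomputable section

namespace Crest.Agent.R020.LS

open Coll (alv deadPart redv kap ell Alive)

/-- excess of the statistic `ℓ` at the prime `p` -/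
def ex (ℓ : ℕ → ℝ) (p : ℕ) : ℝ := max 0 (st ℓ (p - 1) - ∑ i ∈ Finset.range (cl p + 1), ℓ i)

lemma ex_nonneg (ℓ : ℕ → ℝ) (p : ℕ) : 0 ≤ ex ℓ p := le_max_left _ _

lemma le_ex (ℓ : ℕ → ℝ) (p : ℕ) :
    st ℓ (p - 1) ≤ ∑ i ∈ Finset.range (cl p + 1), ℓ i + ex ℓ p := by
  have := le_max_right 0 (st ℓ (p - 1) - ∑ i ∈ Finset.range (cl p + 1), ℓ i)
  unfold ex
  linarith

lemma exp_mul_max_le {τ x : ℝ} :
    Real.exp (τ * max 0 x) ≤ 1 + Real.exp (τ * x) := by
  rcases le_total 0 x with h | h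
  · rw [max_eq_right h]
    linarith
  · rw [max_eq_left h, mul_zero, Real.exp_zero]
    linarith [Real.exp_pos (τ * x)]

/-- one cell -/
lemma cell_ex : ∃ C : ℝ, 0 < C ∧ ∀ (α : ℕ) (ℓ : ℕ → ℝ) (Λ τ : ℝ), (∀ i, 0 ≤ ℓ i) →
    (∀ i, ℓ i ≤ Λ) → 0 ≤ τ → τ * Λ ≤ 2 / 5 →
    ∑' q : ℕ, {q : ℕ | q.Prime ∧ cl q = α}.indicator
      (fun q => ENNReal.ofReal (Real.exp (τ * ex ℓ q)) * ((q - 1 : ℕ) : ℝ≥0∞)⁻¹) q ≤
      ENNReal.ofReal (C * (1 + (α : ℝ)) ^ 2 * Real.exp (τ ^ 2 * Λ ^ 2 * α)) := by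
  obtain ⟨C, hC, h1⟩ := one_coord
  refine ⟨2 * Real.exp C, by positivity, ?_⟩
  intro α ℓ Λ τ hℓ0 hℓ hτ hτΛ
  have hΛ : 0 ≤ Λ := (hℓ0 0).trans (hℓ 0)
  have hα : (0 : ℝ) < 1 + α := by positivity
  set m : ℝ := ∑ i ∈ Finset.range (α + 1), ℓ i with hm
  have h2 : ∀ q : ℕ, {q : ℕ | q.Prime ∧ cl q = α}.indicator
      (fun q => ENNReal.ofReal (Real.exp (τ * ex ℓ q)) * ((q - 1 : ℕ) : ℝ≥0∞)⁻¹) q ≤
      {q : ℕ | q.Prime ∧ cl q = α}.indicator
      (fun q => ENNReal.ofReal (Real.exp (0 * st ℓ (q - 1))) * ((q - 1 : ℕ) : ℝ≥0∞)⁻¹) q +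
      ENNReal.ofReal (Real.exp (-(τ * m))) * {q : ℕ | q.Prime ∧ cl q = α}.indicator
      (fun q => ENNReal.ofReal (Real.exp (τ * st ℓ (q - 1))) * ((q - 1 : ℕ) : ℝ≥0∞)⁻¹) q := by
    intro q
    by_cases hq : q ∈ {q : ℕ | q.Prime ∧ cl q = α}
    · rw [Set.indicator_of_mem hq, Set.indicator_of_mem hq, Set.indicator_of_mem hq, ← mul_assoc,
        ← ENNReal.ofReal_mul (Real.exp_pos _).le, ← add_mul, ← ENNReal.ofReal_add
        (Real.exp_pos _).le (by positivity), ← Real.exp_add]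
      apply mul_le_mul' _ le_rfl
      apply ENNReal.ofReal_le_ofReal
      rw [zero_mul, Real.exp_zero]
      have h3 := exp_mul_max_le (τ := τ) (x := st ℓ (q - 1) - m)
      have h4 : ex ℓ q = max 0 (st ℓ (q - 1) - m) := by
        unfold ex
        rw [hq.2, hm]
      rw [h4]
      refine h3.trans (le_of_eq ?_)
      congr 2
      ring
    · rw [Set.indicator_of_notMem hq]; exact zero_le
  refine (ENNReal.tsum_le_tsum h2).trans ?_
  rw [ENNReal.tsum_add, ENNReal.tsum_mul_left]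
  have h3 := h1 α ℓ Λ 0 hℓ0 hℓ le_rfl (by norm_num)
  have h4 := h1 α ℓ Λ τ hℓ0 hℓ hτ hτΛ
  refine (add_le_add h3 (mul_le_mul' le_rfl h4)).trans ?_
  rw [← ENNReal.ofReal_mul (Real.exp_pos _).le, ← ENNReal.ofReal_add (by positivity) (by positivity)]
  apply ENNReal.ofReal_le_ofReal
  have h5 : Real.exp (2 * Real.log (1 + (α : ℝ))) = (1 + (α : ℝ)) ^ 2 := by
    rw [two_mul, Real.exp_add, Real.exp_log hα]; ring
  have h6 : ∑ i ∈ Finset.range α, (Real.exp (0 * ℓ i) - 1) = 0 := by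
    apply Finset.sum_eq_zero
    intro i _
    simp
  have h7 : -(τ * m) + ∑ i ∈ Finset.range α, (Real.exp (τ * ℓ i) - 1) ≤ τ ^ 2 * Λ ^ 2 * α := by
    have h8 : τ ^ 2 * Λ ^ 2 * (α : ℝ) = ∑ i ∈ Finset.range α, τ ^ 2 * Λ ^ 2 := by
      rw [Finset.sum_const, Finset.card_range, nsmul_eq_mul]; ring
    have h9 : ∑ i ∈ Finset.range α, (Real.exp (τ * ℓ i) - 1) ≤
        ∑ i ∈ Finset.range α, (τ * ℓ i + τ ^ 2 * Λ ^ 2) := by
      apply Finset.sum_le_sum
      intro i _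
      have h4 : 0 ≤ τ * ℓ i := mul_nonneg hτ (hℓ0 i)
      have h5 : τ * ℓ i ≤ τ * Λ := mul_le_mul_of_nonneg_left (hℓ i) hτ
      have h6 := exp_sub_one_sub_le h4 (by linarith)
      have h7 : (τ * ℓ i) ^ 2 ≤ (τ * Λ) ^ 2 := pow_le_pow_left₀ h4 h5 2
      rw [mul_pow τ Λ] at h7
      linarith
    rw [Finset.sum_add_distrib, ← Finset.mul_sum, ← h8] at h9
    have h10 : m = ∑ i ∈ Finset.range α, ℓ i + ℓ α := by rw [hm, Finset.sum_range_succ]
    have h11 := mul_nonneg hτ (hℓ0 α)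
    rw [h10, mul_add]
    linarith
  rw [h6, add_zero, Real.exp_add C, h5]
  have h12 : Real.exp (-(τ * m)) * Real.exp (C + 2 * Real.log (1 + (α : ℝ)) +
      ∑ i ∈ Finset.range α, (Real.exp (τ * ℓ i) - 1)) =
      Real.exp C * (1 + (α : ℝ)) ^ 2 *
        Real.exp (-(τ * m) + ∑ i ∈ Finset.range α, (Real.exp (τ * ℓ i) - 1)) := by
    rw [← h5, ← Real.exp_add, ← Real.exp_add, ← Real.exp_add]
    congr 1
    ring
  rw [h12]
  have h13 := Real.exp_le_exp.mpr h7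
  have h14 : (1 : ℝ) ≤ Real.exp (τ ^ 2 * Λ ^ 2 * α) := Real.one_le_exp (by positivity)
  have h15 : 0 < Real.exp C * (1 + (α : ℝ)) ^ 2 := by positivity
  nlinarith

lemma prod_one_add_le (s : Finset ℕ) (x : ℕ → ℝ≥0∞) {S : ℝ} (hS : 0 ≤ S)
    (h : ∑ p ∈ s, x p ≤ ENNReal.ofReal S) : ∏ p ∈ s, (1 + x p) ≤ ENNReal.ofReal (Real.exp S) := by
  have h1 : ∀ p ∈ s, x p ≠ ⊤ := by
    intro p hp
    have h2 : x p ≤ ∑ p ∈ s, x p := Finset.single_le_sum (fun _ _ => zero_le) hp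
    exact ne_top_of_le_ne_top ENNReal.ofReal_ne_top (h2.trans h)
  have h2 : ∑ p ∈ s, (x p).toReal ≤ S := by
    rw [← ENNReal.toReal_sum h1]
    exact ENNReal.toReal_le_of_le_ofReal hS h
  have h3 : ∏ p ∈ s, (1 + x p) ≤ ∏ p ∈ s, ENNReal.ofReal (Real.exp (x p).toReal) := by
    apply Finset.prod_le_prod'
    intro p hp
    have h4 : 1 + x p = ENNReal.ofReal (1 + (x p).toReal) := by
      rw [ENNReal.ofReal_add zero_le_one ENNReal.toReal_nonneg, ENNReal.ofReal_one,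
        ENNReal.ofReal_toReal (h1 p hp)]
    rw [h4]
    apply ENNReal.ofReal_le_ofReal
    rw [add_comm]
    exact Real.add_one_le_exp _
  refine h3.trans ?_
  rw [← ENNReal.ofReal_prod_of_nonneg (fun i _ => (Real.exp_pos _).le), ← Real.exp_sum]
  exact ENNReal.ofReal_le_ofReal (Real.exp_le_exp.mpr h2)

/-- sums over the primes with `yy ≤ Y` are bounded by sums over cells -/
lemma sum_PU_le_cells {Y : ℝ} (hY : 0 ≤ Y) {J : ℕ} (hJ : 1 ≤ J) (hYJ : Y ≤ J) (f : ℕ → ℝ≥0∞) :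
    ∑ p ∈ PU Y, f p ≤ ∑ α ∈ Finset.range J,
      ∑' q : ℕ, {q : ℕ | q.Prime ∧ cl q = α}.indicator f q := by
  have h1 : ∀ p ∈ PU Y, f p ≤ ∑ α ∈ Finset.range J,
      {q : ℕ | q.Prime ∧ cl q = α}.indicator f p := by
    intro p hp
    rw [mem_PU hY] at hp
    have h2 : cl p ∈ Finset.range J := by
      rw [Finset.mem_range]
      obtain ⟨m, rfl⟩ : ∃ m, J = m + 1 := ⟨J - 1, by omega⟩
      rw [Nat.lt_succ_iff, cl_le_iff]
      push_cast at hYJ
      linarith [hp.2]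
    have h3 : p ∈ {q : ℕ | q.Prime ∧ cl q = cl p} := ⟨hp.1, rfl⟩
    calc f p = {q : ℕ | q.Prime ∧ cl q = cl p}.indicator f p := by rw [Set.indicator_of_mem h3]
      _ ≤ _ := Finset.single_le_sum (f := fun α => {q : ℕ | q.Prime ∧ cl q = α}.indicator f p)
        (fun _ _ => zero_le) h2
  refine (Finset.sum_le_sum h1).trans ?_
  rw [Finset.sum_comm]
  apply Finset.sum_le_sum
  intro α _
  exact ENNReal.sum_le_tsum _

lemma dead_le {w : ℕ} {c : ℝ} (hc : Real.exp c ≤ 3 / 2) :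
    ws (fun e => ENNReal.ofReal (Real.exp (c * e.primeFactorsList.length)) * (e : ℝ≥0∞)⁻¹)
      (Sm (PU (w : ℝ) : Set ℕ)) ≤ ENNReal.ofReal (Real.exp (3 / 2 * w + 23)) := by
  have h1 := ws_sm_le (z := fun _ => Real.exp c) (fun _ => (Real.exp_pos _).le) (fun _ => hc)
    (w : ℝ)
  refine le_trans (ws_mono_fun ?_) (h1.trans ?_)
  · intro e he
    have he0 : (0 : ℝ) < e := by exact_mod_cast Nat.pos_of_ne_zero he.1
    rw [wt_const_eq _ he.1, ← Real.exp_nat_mul, div_eq_mul_inv, ENNReal.ofReal_mul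
      (Real.exp_pos _).le, ENNReal.ofReal_inv_of_pos he0, ENNReal.ofReal_natCast, mul_comm c]
  · apply ENNReal.ofReal_le_ofReal
    apply Real.exp_le_exp.mpr
    have h5 := sum_inv_PU (U := (w : ℝ)) (by positivity)
    have h6 : ∑ p ∈ PU (w : ℝ), Real.exp c / p ≤ 3 / 2 * ∑ p ∈ PU (w : ℝ), (1 : ℝ) / p := by
      rw [Finset.mul_sum]
      apply Finset.sum_le_sum
      intro p _
      rw [mul_one_div]
      exact div_le_div_of_nonneg_right hc (Nat.cast_nonneg p)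
    linarith

/-- The exponential moment over totients. -/
theorem dsum_bound : ∃ C : ℝ, 0 < C ∧ ∀ (w J : ℕ) (Y M τ Λ : ℝ) (ℓ : ℕ → ℝ), 1 ≤ w → 0 ≤ Y →
    Y ≤ J → 1 ≤ J → (∀ i, 0 ≤ ℓ i) → (∀ i, ℓ i ≤ Λ) → 0 ≤ τ → τ * Λ ≤ 2 / 5 →
    ∑' d : ℕ, {d | d ∈ DD w Y ∧ ∑ p ∈ alv w (rr d), (cl p : ℝ) ≤ M}.indicator
      (fun d => (d : ℝ≥0∞)⁻¹ * ENNReal.ofReal (Real.exp (τ * (∑ p ∈ alv w (rr d), ex ℓ p +
        Λ * (dd w d).primeFactorsList.length)))) d ≤
      ENNReal.ofReal (Real.exp ((τ ^ 2 * Λ ^ 2 + 3 * Real.log (J + 1) / w) * M + C +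
        3 / 2 * w)) := by
  obtain ⟨C, hC, hcell⟩ := cell_ex
  refine ⟨C + 23, by positivity, ?_⟩
  intro w J Y M τ Λ ℓ hw hY hYJ hJ hℓ0 hℓ hτ hτΛ
  have hΛ : 0 ≤ Λ := (hℓ0 0).trans (hℓ 0)
  have hw0 : (0 : ℝ) < w := by exact_mod_cast hw
  have hJ0 : (0 : ℝ) < (J : ℝ) + 1 := by positivity
  have hlJ : 0 ≤ Real.log ((J : ℝ) + 1) := Real.log_nonneg (by
    have : (0 : ℝ) ≤ J := by positivity
    linarith)
  set s : ℝ := τ ^ 2 * Λ ^ 2 + 3 * Real.log (J + 1) / w with hs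
  have hs0 : 0 ≤ s := by positivity
  set g : ℕ → ℝ≥0∞ := fun p => if w ≤ cl p then
    ENNReal.ofReal (Real.exp (-(s * cl p))) * ENNReal.ofReal (Real.exp (τ * ex ℓ p)) else 0 with hg
  set h : ℕ → ℝ≥0∞ := fun e => ENNReal.ofReal (Real.exp (τ * Λ * e.primeFactorsList.length))
    with hh
  have key := dsum_le w hY g h
  -- pointwise
  have h1 : ∀ d : ℕ, {d | d ∈ DD w Y ∧ ∑ p ∈ alv w (rr d), (cl p : ℝ) ≤ M}.indicator
      (fun d => (d : ℝ≥0∞)⁻¹ * ENNReal.ofReal (Real.exp (τ * (∑ p ∈ alv w (rr d), ex ℓ p +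
        Λ * (dd w d).primeFactorsList.length)))) d ≤ ENNReal.ofReal (Real.exp (s * M)) *
      (DD w Y).indicator
        (fun d => (d : ℝ≥0∞)⁻¹ * ((∏ p ∈ alv w (rr d), g p) * h (dd w d))) d := by
    intro d
    by_cases hd : d ∈ {d | d ∈ DD w Y ∧ ∑ p ∈ alv w (rr d), (cl p : ℝ) ≤ M}
    · rw [Set.indicator_of_mem hd, Set.indicator_of_mem hd.1]
      have h2 : ∏ p ∈ alv w (rr d), g p = ENNReal.ofReal (Real.exp (∑ p ∈ alv w (rr d),
          (-(s * cl p) + τ * ex ℓ p))) := by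
        rw [Real.exp_sum, ENNReal.ofReal_prod_of_nonneg (fun i _ => (Real.exp_pos _).le)]
        apply Finset.prod_congr rfl
        intro p hp
        have h3 : w ≤ cl p := Coll.le_cl_of_lt_yy (Coll.mem_alv.mp hp).2.lt_yy
        rw [hg]
        simp only [if_pos h3]
        rw [← ENNReal.ofReal_mul (Real.exp_pos _).le, ← Real.exp_add]
      rw [h2, hh]
      simp only
      rw [← ENNReal.ofReal_mul (Real.exp_pos _).le, ← Real.exp_add, mul_left_comm,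
        ← ENNReal.ofReal_mul (Real.exp_pos _).le, ← Real.exp_add]
      apply mul_le_mul' le_rfl
      apply ENNReal.ofReal_le_ofReal
      apply Real.exp_le_exp.mpr
      rw [Finset.sum_add_distrib, Finset.sum_neg_distrib, ← Finset.mul_sum, ← Finset.mul_sum]
      have h4 := mul_le_mul_of_nonneg_left hd.2 hs0
      rw [mul_add]
      linarith
    · rw [Set.indicator_of_notMem hd]; exact zero_le
  refine (ENNReal.tsum_le_tsum h1).trans ?_
  rw [ENNReal.tsum_mul_left]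
  -- dead part
  have h2 := dead_le (w := w) (c := τ * Λ)
    ((Real.exp_le_exp.mpr hτΛ).trans exp_two_fifths)
  -- the product
  have h3 : ∑ p ∈ PU Y, g p * ((p - 1 : ℕ) : ℝ≥0∞)⁻¹ ≤ ENNReal.ofReal C := by
    refine (sum_PU_le_cells hY hJ hYJ _).trans ?_
    have h4 : ∀ α ∈ Finset.range J, ∑' q : ℕ, {q : ℕ | q.Prime ∧ cl q = α}.indicator
        (fun p => g p * ((p - 1 : ℕ) : ℝ≥0∞)⁻¹) q ≤ ENNReal.ofReal (C * ((J : ℝ) + 1)⁻¹) := by
      intro α hα
      rw [Finset.mem_range] at hα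
      by_cases hwα : w ≤ α
      · have h5 : ∀ q : ℕ, {q : ℕ | q.Prime ∧ cl q = α}.indicator
            (fun p => g p * ((p - 1 : ℕ) : ℝ≥0∞)⁻¹) q ≤ ENNReal.ofReal (Real.exp (-(s * α))) *
            {q : ℕ | q.Prime ∧ cl q = α}.indicator
            (fun q => ENNReal.ofReal (Real.exp (τ * ex ℓ q)) * ((q - 1 : ℕ) : ℝ≥0∞)⁻¹) q := by
          intro q
          by_cases hq : q ∈ {q : ℕ | q.Prime ∧ cl q = α}
          · rw [Set.indicator_of_mem hq, Set.indicator_of_mem hq, hg]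
            simp only
            rw [hq.2, if_pos hwα, mul_assoc]
          · rw [Set.indicator_of_notMem hq]; exact zero_le
        refine (ENNReal.tsum_le_tsum h5).trans ?_
        rw [ENNReal.tsum_mul_left]
        refine (mul_le_mul' le_rfl (hcell α ℓ Λ τ hℓ0 hℓ hτ hτΛ)).trans ?_
        rw [← ENNReal.ofReal_mul (Real.exp_pos _).le]
        apply ENNReal.ofReal_le_ofReal
        have h6 : Real.exp (-(s * α)) ≤ Real.exp (-(τ ^ 2 * Λ ^ 2 * α)) *
            (((J : ℝ) + 1) ^ 3)⁻¹ := by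
          have h7 : (((J : ℝ) + 1) ^ 3)⁻¹ = Real.exp (-(3 * Real.log ((J : ℝ) + 1))) := by
            rw [Real.exp_neg]
            congr 1
            rw [show (3 : ℝ) * Real.log ((J : ℝ) + 1) = ((3 : ℕ) : ℝ) * Real.log ((J : ℝ) + 1) by
              norm_num, Real.exp_nat_mul, Real.exp_log hJ0]
          rw [h7, ← Real.exp_add]
          apply Real.exp_le_exp.mpr
          have h8 : 3 * Real.log ((J : ℝ) + 1) ≤ 3 * Real.log ((J : ℝ) + 1) / w * α := by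
            rw [div_mul_eq_mul_div, le_div_iff₀ hw0]
            have : (w : ℝ) ≤ α := by exact_mod_cast hwα
            exact mul_le_mul_of_nonneg_left this (by positivity)
          rw [hs, add_mul]
          linarith
        have h9 : (1 + (α : ℝ)) ^ 2 ≤ ((J : ℝ) + 1) ^ 2 := by
          have : (α : ℝ) + 1 ≤ J := by exact_mod_cast hα
          apply pow_le_pow_left₀ (by positivity)
          linarith
        calc Real.exp (-(s * α)) * (C * (1 + (α : ℝ)) ^ 2 * Real.exp (τ ^ 2 * Λ ^ 2 * α)) ≤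
            (Real.exp (-(τ ^ 2 * Λ ^ 2 * α)) * (((J : ℝ) + 1) ^ 3)⁻¹) *
              (C * ((J : ℝ) + 1) ^ 2 * Real.exp (τ ^ 2 * Λ ^ 2 * α)) := by
              apply mul_le_mul h6 _ (by positivity) (by positivity)
              apply mul_le_mul_of_nonneg_right _ (Real.exp_pos _).le
              exact mul_le_mul_of_nonneg_left h9 hC.le
          _ = (Real.exp (-(τ ^ 2 * Λ ^ 2 * α)) * Real.exp (τ ^ 2 * Λ ^ 2 * α)) * (C *
              ((((J : ℝ) + 1) ^ 3)⁻¹ * ((J : ℝ) + 1) ^ 2)) := by ring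
          _ = C * ((J : ℝ) + 1)⁻¹ := by
              rw [← Real.exp_add, neg_add_cancel, Real.exp_zero, one_mul]
              congr 1
              field_simp
      · have h5 : ∀ q : ℕ, {q : ℕ | q.Prime ∧ cl q = α}.indicator
            (fun p => g p * ((p - 1 : ℕ) : ℝ≥0∞)⁻¹) q = 0 := by
          intro q
          by_cases hq : q ∈ {q : ℕ | q.Prime ∧ cl q = α}
          · rw [Set.indicator_of_mem hq, hg]
            simp only
            rw [hq.2, if_neg hwα, zero_mul]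
          · rw [Set.indicator_of_notMem hq]
        rw [tsum_congr h5, tsum_zero]
        exact zero_le
    refine (Finset.sum_le_sum h4).trans ?_
    rw [Finset.sum_const, Finset.card_range, nsmul_eq_mul, ← ENNReal.ofReal_natCast,
      ← ENNReal.ofReal_mul (Nat.cast_nonneg J)]
    apply ENNReal.ofReal_le_ofReal
    have h10 : (J : ℝ) * ((J : ℝ) + 1)⁻¹ ≤ 1 := by
      rw [← div_eq_mul_inv, div_le_one hJ0]; linarith
    nlinarith
  have h4 := prod_one_add_le (PU Y) _ hC.le h3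
  refine (mul_le_mul' le_rfl (key.trans (mul_le_mul' h4 h2))).trans ?_
  rw [← ENNReal.ofReal_mul (Real.exp_pos _).le, ← ENNReal.ofReal_mul (Real.exp_pos _).le,
    ← Real.exp_add, ← Real.exp_add]
  apply ENNReal.ofReal_le_ofReal
  apply Real.exp_le_exp.mpr
  linarith

end Crest.Agent.R020.LS
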