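import Crest.Agent.R020.LStatB

/-!
Row 20 (helper661): the field `stat` of `LGood` fails on a thin set of pairs; general form.
-/

set_option autoImplicit false

open scoped ENNReal

noncomputable section

namespace Crest.Agent.R020.LS

open Coll (alv deadPart redv kap ell Alive)

/-- the field `stat` of `Coll.LGood`, for `n = q * rr d` -/
def StatOK (w N J : ℕ) (F : ℝ) (n : ℕ) : Prop :=
  ∀ S ⊆ alv w n, ∀ κ' : ℕ → ℕ, Antitone κ' → κ' 0 ≤ N → (∀ i, J ≤ i → κ' i = 0) →
    Coll.st (ell w κ') (redv w n S) ≤ ∑ i ∈ Finset.range J, kap S i * ell w κ' i + F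

/-- the profile attached to `β : Fin N → Fin (J+1)` -/
def kb {N J : ℕ} (β : Fin N → Fin (J + 1)) (i : ℕ) : ℕ :=
  (Finset.univ.filter (fun b : Fin N => i < (β b : ℕ))).card

lemma kb_le {N J : ℕ} (β : Fin N → Fin (J + 1)) (i : ℕ) : kb β i ≤ N := by
  unfold kb
  refine (Finset.card_le_univ _).trans ?_
  simp

lemma exists_kb {N J : ℕ} {κ' : ℕ → ℕ} (hκ : Antitone κ') (h0 : κ' 0 ≤ N)
    (hJ : ∀ i, J ≤ i → κ' i = 0) : ∃ β : Fin N → Fin (J + 1), κ' = kb β := by
  classical
  -- `m b = #{i < J : b < κ' i}`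
  set m : ℕ → ℕ := fun b => ((Finset.range J).filter (fun i => b < κ' i)).card with hm
  have hmJ : ∀ b, m b < J + 1 := by
    intro b
    rw [Nat.lt_succ_iff]
    exact (Finset.card_filter_le _ _).trans (by simp)
  have hmi : ∀ b i, i < m b ↔ b < κ' i := by
    intro b i
    constructor
    · intro h
      by_contra hle
      push Not at hle
      -- then the set is contained in `range i`
      have h1 : (Finset.range J).filter (fun i => b < κ' i) ⊆ Finset.range i := by
        intro j hj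
        rw [Finset.mem_filter] at hj
        rw [Finset.mem_range]
        by_contra hij
        push Not at hij
        have := hκ hij
        omega
      have h2 := Finset.card_le_card h1
      rw [Finset.card_range] at h2
      have h3 : m b ≤ i := h2
      omega
    · intro h
      have h1 : Finset.range (i + 1) ⊆ (Finset.range J).filter (fun i => b < κ' i) := by
        intro j hj
        rw [Finset.mem_range] at hj
        have h3 := hκ (show j ≤ i by omega)
        rw [Finset.mem_filter, Finset.mem_range]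
        refine ⟨?_, by omega⟩
        by_contra hjJ
        push Not at hjJ
        have := hJ j hjJ
        omega
      have h2 := Finset.card_le_card h1
      rw [Finset.card_range] at h2
      exact h2
  refine ⟨fun b => ⟨m b, hmJ b⟩, ?_⟩
  funext i
  unfold kb
  simp only
  have h1 : (Finset.univ.filter (fun b : Fin N => i < m (b : ℕ))) =
      (Finset.univ.filter (fun b : Fin N => (b : ℕ) < κ' i)) := by
    apply Finset.filter_congr
    intro b _
    exact hmi b i
  rw [h1]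
  have h2 : κ' i ≤ N := (hκ (Nat.zero_le i)).trans h0
  have h3 : (Finset.univ.filter (fun b : Fin N => (b : ℕ) < κ' i)).card = κ' i := by
    rw [← Finset.card_map Fin.valEmbedding]
    have h4 : (Finset.univ.filter (fun b : Fin N => (b : ℕ) < κ' i)).map Fin.valEmbedding =
        Finset.range (κ' i) := by
      ext j
      simp only [Finset.mem_map, Finset.mem_filter, Finset.mem_univ, true_and,
        Fin.valEmbedding_apply, Finset.mem_range]
      constructor
      · rintro ⟨b, hb, rfl⟩; exact hb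
      · intro hj
        exact ⟨⟨j, by omega⟩, hj, rfl⟩
    rw [h4, Finset.card_range]
  exact h3.symm

lemma ell_nonneg (w : ℕ) (κ' : ℕ → ℕ) (i : ℕ) : 0 ≤ ell w κ' i := by
  unfold Coll.ell
  split_ifs
  · apply Real.log_nonneg
    have : (0 : ℝ) ≤ κ' 0 := Nat.cast_nonneg _
    linarith
  · exact Real.log_nonneg (le_max_left _ _)

lemma ell_kb_le (w : ℕ) {N J : ℕ} (β : Fin N → Fin (J + 1)) (i : ℕ) :
    ell w (kb β) i ≤ Real.log (N + 1) := by
  unfold Coll.ell
  split_ifs
  · apply Real.log_le_log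
    · positivity
    · have : (kb β 0 : ℝ) ≤ N := by exact_mod_cast kb_le β 0
      linarith
  · apply Real.log_le_log
    · exact lt_of_lt_of_le one_pos (le_max_left _ _)
    · apply max_le
      · have : (0 : ℝ) ≤ N := Nat.cast_nonneg _
        linarith
      · have : (kb β i : ℝ) ≤ N := by exact_mod_cast kb_le β i
        linarith

lemma sum_kap (S : Finset ℕ) (J : ℕ) (ℓ : ℕ → ℝ) (hS : ∀ p ∈ S, cl p < J) :
    ∑ i ∈ Finset.range J, (kap S i : ℝ) * ℓ i =
      ∑ p ∈ S, ∑ i ∈ Finset.range (cl p + 1), ℓ i := by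
  have h1 : ∀ i, (kap S i : ℝ) * ℓ i = ∑ p ∈ S, if i ≤ cl p then ℓ i else 0 := by
    intro i
    unfold Coll.kap
    rw [← Finset.sum_filter, Finset.sum_const, nsmul_eq_mul]
    rfl
  simp_rw [h1]
  rw [Finset.sum_comm]
  apply Finset.sum_congr rfl
  intro p hp
  rw [← Finset.sum_filter]
  apply Finset.sum_congr
  · ext i
    have := hS p hp
    simp only [Finset.mem_filter, Finset.mem_range]
    omega
  · intro i _; rfl

/-- The key inequality. -/
lemma st_redv_le {w n J : ℕ} {ℓ : ℕ → ℝ} {Λ : ℝ} (hℓ : ∀ i, ℓ i ≤ Λ) (hn : n ≠ 0)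
    {S : Finset ℕ} (hS : S ⊆ alv w n) (hJ : ∀ p ∈ alv w n, cl p < J) :
    st ℓ (redv w n S) ≤ ∑ i ∈ Finset.range J, (kap S i : ℝ) * ℓ i + (∑ p ∈ alv w n, ex ℓ p +
      Λ * (Nat.totient (deadPart w n)).primeFactorsList.length) := by
  have hD : Nat.totient (deadPart w n) ≠ 0 :=
    (Nat.totient_pos.mpr (Nat.pos_of_ne_zero (Coll.deadPart_ne_zero hn))).ne'
  have hSp : ∀ p ∈ S, p.Prime := fun p hp => (Coll.mem_alv.mp (hS hp)).1.1
  have hP := Coll.prod_sub_one_pos hSp
  unfold Coll.redv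
  rw [st_mul ℓ hP.ne' hD, st_prod ℓ S (fun p => p - 1) (by
    intro p hp
    have := (hSp p hp).two_le
    show p - 1 ≠ 0
    omega), sum_kap S J ℓ (fun p hp => hJ p (hS hp))]
  have h1 : ∑ p ∈ S, st ℓ (p - 1) ≤ ∑ p ∈ S, (∑ i ∈ Finset.range (cl p + 1), ℓ i + ex ℓ p) :=
    Finset.sum_le_sum fun p _ => le_ex ℓ p
  rw [Finset.sum_add_distrib] at h1
  have h2 : ∑ p ∈ S, ex ℓ p ≤ ∑ p ∈ alv w n, ex ℓ p :=
    Finset.sum_le_sum_of_subset_of_nonneg hS (fun p _ _ => ex_nonneg ℓ p)
  have h3 := st_le_card hℓ (Nat.totient (deadPart w n))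
  linarith

/-- If `stat` fails then some profile `β` has a large excess. -/
lemma exists_of_not_statOK {w N J : ℕ} {F : ℝ} {n : ℕ} (hn : n ≠ 0)
    (hJ : ∀ p ∈ alv w n, cl p < J) (h : ¬ StatOK w N J F n) :
    ∃ β : Fin N → Fin (J + 1), F < ∑ p ∈ alv w n, ex (ell w (kb β)) p +
      Real.log (N + 1) * (Nat.totient (deadPart w n)).primeFactorsList.length := by
  unfold StatOK at h
  push Not at h
  obtain ⟨S, hS, κ', hκ, h0, hκJ, hlt⟩ := h
  obtain ⟨β, rfl⟩ := exists_kb hκ h0 hκJ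
  refine ⟨β, ?_⟩
  have h1 := st_redv_le (ℓ := ell w (kb β)) (ell_kb_le w β) hn hS hJ
  rw [st_eq_coll] at h1
  linarith

/-- General bound for weighted sums over the pairs for which `stat` fails. -/
theorem stat_general : ∃ C : ℝ, 0 < C ∧ ∀ (w N J : ℕ) (Y M τ F K : ℝ) (W : ℕ → ℕ → ℝ≥0∞)
    (P : Set (ℕ × ℕ)), 1 ≤ w → 0 ≤ Y → Y ≤ J → 1 ≤ J → 0 ≤ τ → τ * Real.log (N + 1) ≤ 2 / 5 →
    0 ≤ K →
    (∀ x ∈ P, x.1.Prime ∧ IsTot x.2 ∧ Pm (rr x.2) < x.1 ∧ Alive w x.1 ∧ yy x.1 ≤ Y ∧
      (∀ p : ℕ, p.Prime → (w : ℝ) < yy p → ¬ p ^ 2 ∣ rr x.2) ∧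
      ∑ p ∈ alv w (rr x.2), (cl p : ℝ) ≤ M ∧ ¬ StatOK w N J F (x.1 * rr x.2)) →
    (∀ ℓ : ℕ → ℝ, (∀ i, 0 ≤ ℓ i) → (∀ i, ℓ i ≤ Real.log (N + 1)) → ∀ d : ℕ, d ≠ 0 →
      ∑' q : ℕ, {q : ℕ | (q, d) ∈ P}.indicator
        (fun q => W q d * ENNReal.ofReal (Real.exp (τ * ex ℓ q))) q ≤
        ENNReal.ofReal K * (d : ℝ≥0∞)⁻¹) →
    ∑' x : ℕ × ℕ, P.indicator (fun x => W x.1 x.2) x ≤
      ENNReal.ofReal (((J : ℝ) + 1) ^ N * Real.exp (-(τ * F)) * K *
        Real.exp ((τ ^ 2 * Real.log (N + 1) ^ 2 + 3 * Real.log (J + 1) / w) * M + C +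
        3 / 2 * w)) := by
  obtain ⟨C, hC, hd⟩ := dsum_bound
  refine ⟨C, hC, ?_⟩
  intro w N J Y M τ F K W P hw hY hYJ hJ hτ hτΛ hK hP hq
  set Λ : ℝ := Real.log (N + 1) with hΛ
  -- notation
  set A : Set ℕ := {d | d ∈ DD w Y ∧ ∑ p ∈ alv w (rr d), (cl p : ℝ) ≤ M} with hA
  set E : (Fin N → Fin (J + 1)) → ℕ → ℝ≥0∞ := fun β d =>
    ENNReal.ofReal (Real.exp (τ * (∑ p ∈ alv w (rr d), ex (ell w (kb β)) p +
        Λ * (dd w d).primeFactorsList.length))) with hE
  have h1 : ∀ x : ℕ × ℕ, P.indicator (fun x => W x.1 x.2) x ≤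
      ∑ β : Fin N → Fin (J + 1), ENNReal.ofReal (Real.exp (-(τ * F))) *
        (A.indicator (fun d => E β d) x.2 *
        P.indicator (fun x => W x.1 x.2 * ENNReal.ofReal (Real.exp (τ * ex (ell w (kb β)) x.1))) x)
        := by
    rintro ⟨q, d⟩
    by_cases hx : (q, d) ∈ P
    · obtain ⟨hqp, hdt, hPm, hal, hyq, hsq, hM, hbad⟩ := hP _ hx
      simp only at hqp hdt hPm hal hyq hsq hM hbad
      have hr := rr_pos d
      have hn : q * rr d ≠ 0 := mul_ne_zero hqp.ne_zero hr.ne'
      have hyp : ∀ p ∈ alv w (rr d), yy p ≤ Y := by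
        intro p hp
        have h2 := (Coll.mem_alv.mp hp).1
        have h3 := (Pm_lt_iff hr.ne' hqp.two_le).mp hPm p h2.1 h2.2.1
        exact (yy_mono h3.le).trans hyq
      have hdA : d ∈ A := ⟨⟨hdt, hsq, hyp⟩, hM⟩
      have hclJ : ∀ p ∈ alv w (q * rr d), cl p < J := by
        intro p hp
        have h5 : yy p ≤ Y := by
          rw [alv_cons hqp hr.ne' hal, Finset.mem_insert] at hp
          rcases hp with rfl | hp
          · exact hyq
          · exact hyp p hp
        obtain ⟨m, rfl⟩ : ∃ m, J = m + 1 := ⟨J - 1, by omega⟩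
        rw [Nat.lt_succ_iff, cl_le_iff]
        push_cast at hYJ
        linarith
      obtain ⟨β, hβ⟩ := exists_of_not_statOK hn hclJ hbad
      rw [alv_cons hqp hr.ne' hal, Finset.sum_insert (not_mem_alv hqp hr.ne' hPm),
        deadPart_cons hqp hr.ne' hPm hal] at hβ
      rw [Set.indicator_of_mem hx]
      refine le_trans ?_ (Finset.single_le_sum (f := fun β : Fin N → Fin (J + 1) =>
        ENNReal.ofReal (Real.exp (-(τ * F))) *
        (A.indicator (fun d => E β d) d *
        P.indicator (fun x => W x.1 x.2 * ENNReal.ofReal (Real.exp (τ * ex (ell w (kb β)) x.1)))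
          (q, d))) (fun _ _ => zero_le) (Finset.mem_univ β))
      simp only
      rw [Set.indicator_of_mem hdA, Set.indicator_of_mem hx, hE]
      simp only
      have h6 : (1 : ℝ≥0∞) ≤ ENNReal.ofReal (Real.exp (-(τ * F))) *
          (ENNReal.ofReal (Real.exp (τ * (∑ p ∈ alv w (rr d), ex (ell w (kb β)) p +
            Λ * (dd w d).primeFactorsList.length))) *
          ENNReal.ofReal (Real.exp (τ * ex (ell w (kb β)) q))) := by
        rw [← ENNReal.ofReal_mul (Real.exp_pos _).le, ← Real.exp_add,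
          ← ENNReal.ofReal_mul (Real.exp_pos _).le, ← Real.exp_add, ← ENNReal.ofReal_one]
        apply ENNReal.ofReal_le_ofReal
        apply Real.one_le_exp
        have h7 := mul_le_mul_of_nonneg_left hβ.le hτ
        unfold dd
        linarith
      calc W q d = 1 * W q d := (one_mul _).symm
        _ ≤ _ := mul_le_mul' h6 le_rfl
        _ = _ := by ring
    · rw [Set.indicator_of_notMem hx]; exact zero_le
  refine (ENNReal.tsum_le_tsum h1).trans ?_
  rw [Summable.tsum_finsetSum (fun _ _ => ENNReal.summable)]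
  have h2 : ∀ β ∈ (Finset.univ : Finset (Fin N → Fin (J + 1))),
      ∑' x : ℕ × ℕ, ENNReal.ofReal (Real.exp (-(τ * F))) *
        (A.indicator (fun d => E β d) x.2 *
        P.indicator (fun x => W x.1 x.2 * ENNReal.ofReal (Real.exp (τ * ex (ell w (kb β)) x.1))) x)
      ≤ ENNReal.ofReal (Real.exp (-(τ * F)) * (K *
        Real.exp ((τ ^ 2 * Λ ^ 2 + 3 * Real.log (J + 1) / w) * M + C + 3 / 2 * w))) := by
    intro β _
    rw [ENNReal.tsum_mul_left, ENNReal.ofReal_mul (Real.exp_pos _).le]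
    apply mul_le_mul' le_rfl
    rw [ENNReal.tsum_prod (f := fun q d => A.indicator (fun d => E β d) d *
        P.indicator (fun x => W x.1 x.2 * ENNReal.ofReal (Real.exp (τ * ex (ell w (kb β)) x.1)))
          (q, d)), ENNReal.tsum_comm]
    have h3 : ∀ d : ℕ, ∑' q : ℕ, A.indicator (fun d => E β d) d *
        P.indicator (fun x => W x.1 x.2 * ENNReal.ofReal (Real.exp (τ * ex (ell w (kb β)) x.1)))
          (q, d) ≤ ENNReal.ofReal K * A.indicator (fun d => (d : ℝ≥0∞)⁻¹ * E β d) d := by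
      intro d
      rw [ENNReal.tsum_mul_left]
      by_cases hdA : d ∈ A
      · rw [Set.indicator_of_mem hdA, Set.indicator_of_mem hdA]
        have hd0 : d ≠ 0 := hdA.1.1.pos.ne'
        have h4 := hq (ell w (kb β)) (ell_nonneg w _) (ell_kb_le w β) d hd0
        have h5 : ∀ q : ℕ, P.indicator (fun x : ℕ × ℕ => W x.1 x.2 *
            ENNReal.ofReal (Real.exp (τ * ex (ell w (kb β)) x.1))) (q, d) =
            {q : ℕ | (q, d) ∈ P}.indicator
              (fun q => W q d * ENNReal.ofReal (Real.exp (τ * ex (ell w (kb β)) q))) q := by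
          intro q
          by_cases hx : (q, d) ∈ P
          · rw [Set.indicator_of_mem hx, Set.indicator_of_mem (show q ∈ {q : ℕ | (q, d) ∈ P} from hx)]
          · rw [Set.indicator_of_notMem hx,
              Set.indicator_of_notMem (show q ∉ {q : ℕ | (q, d) ∈ P} from hx)]
        simp_rw [h5]
        refine (mul_le_mul' le_rfl h4).trans (le_of_eq ?_)
        ring
      · rw [Set.indicator_of_notMem hdA, zero_mul]; exact zero_le
    refine (ENNReal.tsum_le_tsum h3).trans ?_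
    rw [ENNReal.tsum_mul_left, ENNReal.ofReal_mul hK]
    apply mul_le_mul' le_rfl
    exact hd w J Y M τ Λ (ell w (kb β)) hw hY hYJ hJ (ell_nonneg w _) (ell_kb_le w β) hτ hτΛ
  refine (Finset.sum_le_sum h2).trans ?_
  rw [Finset.sum_const, Finset.card_univ, Fintype.card_fun, Fintype.card_fin, Fintype.card_fin,
    nsmul_eq_mul, ← ENNReal.ofReal_natCast, ← ENNReal.ofReal_mul (Nat.cast_nonneg _)]
  apply ENNReal.ofReal_le_ofReal
  apply le_of_eq
  push_cast
  ring

end Crest.Agent.R020.LS
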