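import Crest.Agent.R020.LStatC
import Crest.Agent.R020.Stmt
import Crest.Agent.R020.Renewal

/-!
Row 20 (helper661): the field `stat` of `LGood`, final bounds (plain and counting).
-/

set_option autoImplicit false

open scoped ENNReal

noncomputable section

namespace Crest.Agent.R020.LS

open Coll (alv deadPart redv kap ell Alive)

/-! ### The sum over `q`, plain -/

lemma qsum_plain : ∃ C : ℝ, 0 < C ∧ ∀ (J : ℕ) (Y τ Λ : ℝ) (ℓ : ℕ → ℝ), 0 ≤ Y → Y ≤ J → 1 ≤ J →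
    (∀ i, 0 ≤ ℓ i) → (∀ i, ℓ i ≤ Λ) → 0 ≤ τ → τ * Λ ≤ 2 / 5 →
    ∑' q : ℕ, {q : ℕ | q.Prime ∧ yy q ≤ Y}.indicator
      (fun q => ENNReal.ofReal (Real.exp (τ * ex ℓ q)) * ((q - 1 : ℕ) : ℝ≥0∞)⁻¹) q ≤
      ENNReal.ofReal (C * ((J : ℝ) + 1) ^ 3 * Real.exp (τ ^ 2 * Λ ^ 2 * J)) := by
  classical
  obtain ⟨C, hC, h1⟩ := cell_ex
  refine ⟨C, hC, ?_⟩
  intro J Y τ Λ ℓ hY hYJ hJ hℓ0 hℓ hτ hτΛ
  have h2 : ∑' q : ℕ, {q : ℕ | q.Prime ∧ yy q ≤ Y}.indicator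
      (fun q => ENNReal.ofReal (Real.exp (τ * ex ℓ q)) * ((q - 1 : ℕ) : ℝ≥0∞)⁻¹) q =
      ∑ q ∈ PU Y, ENNReal.ofReal (Real.exp (τ * ex ℓ q)) * ((q - 1 : ℕ) : ℝ≥0∞)⁻¹ := by
    rw [tsum_eq_sum (s := PU Y)]
    · apply Finset.sum_congr rfl
      intro q hq
      rw [Set.indicator_of_mem]
      exact (mem_PU hY).mp hq
    · intro q hq
      rw [Set.indicator_of_notMem]
      intro h
      exact hq ((mem_PU hY).mpr h)
  rw [h2]
  refine (sum_PU_le_cells hY hJ hYJ _).trans ?_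
  have h3 : ∀ α ∈ Finset.range J, ∑' q : ℕ, {q : ℕ | q.Prime ∧ cl q = α}.indicator
      (fun q => ENNReal.ofReal (Real.exp (τ * ex ℓ q)) * ((q - 1 : ℕ) : ℝ≥0∞)⁻¹) q ≤
      ENNReal.ofReal (C * ((J : ℝ) + 1) ^ 2 * Real.exp (τ ^ 2 * Λ ^ 2 * J)) := by
    intro α hα
    rw [Finset.mem_range] at hα
    refine (h1 α ℓ Λ τ hℓ0 hℓ hτ hτΛ).trans ?_
    apply ENNReal.ofReal_le_ofReal
    have hα' : (α : ℝ) + 1 ≤ J := by exact_mod_cast hα
    apply mul_le_mul _ _ (Real.exp_pos _).le (by positivity)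
    · apply mul_le_mul_of_nonneg_left _ hC.le
      apply pow_le_pow_left₀ (by positivity)
      linarith
    · apply Real.exp_le_exp.mpr
      apply mul_le_mul_of_nonneg_left _ (by positivity)
      linarith
  refine (Finset.sum_le_sum h3).trans ?_
  rw [Finset.sum_const, Finset.card_range, nsmul_eq_mul, ← ENNReal.ofReal_natCast,
      ← ENNReal.ofReal_mul (Nat.cast_nonneg J)]
  apply ENNReal.ofReal_le_ofReal
  have h4 : (0 : ℝ) ≤ C * ((J : ℝ) + 1) ^ 2 * Real.exp (τ ^ 2 * Λ ^ 2 * J) := by positivity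
  calc (J : ℝ) * (C * ((J : ℝ) + 1) ^ 2 * Real.exp (τ ^ 2 * Λ ^ 2 * J)) ≤
      ((J : ℝ) + 1) * (C * ((J : ℝ) + 1) ^ 2 * Real.exp (τ ^ 2 * Λ ^ 2 * J)) :=
        mul_le_mul_of_nonneg_right (by linarith) h4
    _ = _ := by ring

/-! ### The sum over `q`, counting -/

lemma count_st : ∃ C : ℝ, 0 < C ∧ ∀ (n : ℕ) (τ Λ : ℝ) (ℓ : ℕ → ℝ),
    (∀ i, 0 ≤ ℓ i) → (∀ i, ℓ i ≤ Λ) → 0 ≤ τ → τ * Λ ≤ 2 / 5 → 2 ≤ n →
    ∀ z : ℝ, Real.exp (Real.exp ((n : ℝ) - 2)) ≤ z → z ≤ Real.exp (Real.exp (n : ℝ)) →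
    ∀ A : Finset ℕ, (∀ q ∈ A, q.Prime ∧ (q : ℝ) ≤ z) →
    ∑ q ∈ A, Real.exp (τ * st ℓ (q - 1)) ≤ C * (1 + (n : ℝ)) ^ 2 * (z *
      Real.exp (-(2 * n) + ∑ i ∈ Finset.range n, Real.exp (τ * ℓ i))) := by
  obtain ⟨C, hC, hTS⟩ := shifted_sum_le
  refine ⟨C * Real.exp 60, by positivity, ?_⟩
  intro n τ Λ ℓ hℓ0 hℓ hτ hτΛ hn z hz1 hz2 A hA
  have hn2 : (2 : ℝ) ≤ n := by exact_mod_cast hn
  have hle : ∀ i, Real.exp (τ * ℓ i) ≤ 3 / 2 := fun i =>
    (Real.exp_le_exp.mpr ((mul_le_mul_of_nonneg_left (hℓ i) hτ).trans hτΛ)).trans exp_two_fifths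
  set h : ℕ → ℝ≥0∞ := fun p => ENNReal.ofReal (Real.exp (τ * ℓ (cl p))) with hh
  have hhp : ∀ p : ℕ, p.Prime → Coll.cm h p ≤ ENNReal.ofReal (3 / 2) := by
    intro p hp
    rw [Coll.cm_prime h p hp]
    exact ENNReal.ofReal_le_ofReal (hle _)
  have hmul : ∀ m n : ℕ, m ≠ 0 → n ≠ 0 → Coll.cm h (m * n) = Coll.cm h m * Coll.cm h n :=
    fun m n _ _ => Coll.cm_mul h m n
  set g := toHom (Coll.cm h) (Coll.cm_one h) hmul with hg
  have hz0 : 0 < z := lt_of_lt_of_le (Real.exp_pos _) hz1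
  have he1 : 1 ≤ Real.exp ((n : ℝ) - 2) := Real.one_le_exp (by linarith)
  have hz2' : 2 ≤ z := by
    have := Real.exp_one_gt_d9
    have := Real.exp_le_exp.mpr he1
    linarith
  have hlz1 : Real.exp ((n : ℝ) - 2) ≤ Real.log z := by
    rw [Real.le_log_iff_exp_le hz0]; exact hz1
  have hlz2 : Real.log z ≤ Real.exp (n : ℝ) := by
    rw [Real.log_le_iff_le_exp hz0]; exact hz2
  have hlz0 : 0 < Real.log z := lt_of_lt_of_le (Real.exp_pos _) hlz1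
  have hllz : Real.log (Real.log z) ≤ n := by
    rw [Real.log_le_iff_le_exp hlz0]; exact hlz2
  have h1 := hTS g (toHom_prime_bounds (Coll.cm_one h) hmul hhp) z hz2' A hA
  have h2 : ∀ q ∈ A, g (q - 1) = Real.exp (τ * st ℓ (q - 1)) := by
    intro q hq
    have hq2 := (hA q hq).1.two_le
    have hq1 : q - 1 ≠ 0 := by omega
    rw [hg, toHom_apply _ _ hq1, hh, cm_exp_st τ ℓ hq1, ENNReal.toReal_ofReal (Real.exp_pos _).le]
  rw [Finset.sum_congr rfl h2] at h1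
  refine h1.trans ?_
  have h3 : ∑ p ∈ Finset.range (⌊z⌋₊ + 1) with p.Prime, g p / p ≤
      ∑ i ∈ Finset.range n, Real.exp (τ * ℓ i) + 37 * (3 / 2) := by
    have h4 := sum_cl_div_le (f := fun i => Real.exp (τ * ℓ i)) (B := 3 / 2)
      (fun i => (Real.exp_pos _).le) hle n
    refine le_trans ?_ h4
    have h5 : ∑ p ∈ Finset.range (⌊z⌋₊ + 1) with p.Prime, g p / p =
        ∑ p ∈ Finset.range (⌊z⌋₊ + 1) with p.Prime, Real.exp (τ * ℓ (cl p)) / p := by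
      apply Finset.sum_congr rfl
      intro p hp
      rw [Finset.mem_filter] at hp
      rw [hg, toHom_apply _ _ hp.2.ne_zero, Coll.cm_prime h p hp.2, hh,
        ENNReal.toReal_ofReal (Real.exp_pos _).le]
    rw [h5]
    apply Finset.sum_le_sum_of_subset_of_nonneg
    · intro p hp
      rw [Finset.mem_filter, Finset.mem_range, Nat.lt_succ_iff, Nat.le_floor_iff hz0.le] at hp
      rw [mem_PU (by positivity), yy_le_iff (by positivity)]
      exact ⟨hp.2, hp.1.trans hz2⟩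
    · intro p _ _; positivity
  have hLL : LLx z ≤ 1 + n := by
    unfold LLx
    have : max 0 (Real.log (Real.log z)) ≤ n := max_le (by positivity) hllz
    linarith
  have hLL0 : 0 ≤ LLx z := zero_le_one.trans (one_le_LLx z)
  have h6 : z / Real.log z ^ 2 ≤ z * Real.exp (-(2 * n) + 4) := by
    have h7 : Real.exp (-(2 * (n : ℝ)) + 4) = (Real.exp ((n : ℝ) - 2) ^ 2)⁻¹ := by
      rw [← Real.exp_nat_mul, ← Real.exp_neg]
      congr 1
      push_cast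
      ring
    rw [h7, div_eq_mul_inv]
    apply mul_le_mul_of_nonneg_left _ hz0.le
    apply inv_anti₀ (by positivity)
    exact pow_le_pow_left₀ (Real.exp_pos _).le hlz1 2
  calc C * LLx z ^ 2 * (z / Real.log z ^ 2) *
        Real.exp (∑ p ∈ Finset.range (⌊z⌋₊ + 1) with p.Prime, g p / p) ≤
      C * (1 + (n : ℝ)) ^ 2 * (z * Real.exp (-(2 * n) + 4)) *
        Real.exp (∑ i ∈ Finset.range n, Real.exp (τ * ℓ i) + 37 * (3 / 2)) := by
        apply mul_le_mul _ (Real.exp_le_exp.mpr h3) (Real.exp_pos _).le (by positivity)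
        apply mul_le_mul _ h6 (by positivity) (by positivity)
        apply mul_le_mul_of_nonneg_left _ hC.le
        exact pow_le_pow_left₀ hLL0 hLL 2
    _ = C * (1 + (n : ℝ)) ^ 2 * z * (Real.exp (-(2 * n) + 4) *
        Real.exp (∑ i ∈ Finset.range n, Real.exp (τ * ℓ i) + 37 * (3 / 2))) := by ring
    _ ≤ C * (1 + (n : ℝ)) ^ 2 * z * (Real.exp 60 * Real.exp (-(2 * n) +
        ∑ i ∈ Finset.range n, Real.exp (τ * ℓ i))) := by
        apply mul_le_mul_of_nonneg_left _ (by positivity)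
        rw [← Real.exp_add, ← Real.exp_add]
        apply Real.exp_le_exp.mpr
        linarith
    _ = _ := by ring

lemma count_coord : ∃ C : ℝ, 0 < C ∧ ∀ (n : ℕ) (τ Λ : ℝ) (ℓ : ℕ → ℝ),
    (∀ i, 0 ≤ ℓ i) → (∀ i, ℓ i ≤ Λ) → 0 ≤ τ → τ * Λ ≤ 2 / 5 → 2 ≤ n →
    ∀ z R : ℝ, 0 ≤ z → z ≤ Real.exp (Real.exp (n : ℝ)) → Real.exp (Real.exp ((n : ℝ) - 2)) ≤ R →
    ∑' q : ℕ, {q : ℕ | q.Prime ∧ R < (q : ℝ) ∧ (q : ℝ) ≤ z}.indicator
      (fun q => ENNReal.ofReal (Real.exp (τ * ex ℓ q))) q ≤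
      ENNReal.ofReal (C * (1 + (n : ℝ)) ^ 2 * Real.exp (τ ^ 2 * Λ ^ 2 * n) *
        (z * Real.exp (-(n : ℝ)))) := by
  classical
  obtain ⟨C, hC, h1⟩ := count_st
  refine ⟨C * 3, by positivity, ?_⟩
  intro n τ Λ ℓ hℓ0 hℓ hτ hτΛ hn z R hz0 hz hR
  have hΛ : 0 ≤ Λ := (hℓ0 0).trans (hℓ 0)
  have hn2 : (2 : ℝ) ≤ n := by exact_mod_cast hn
  set A : Finset ℕ := (Finset.range (⌊z⌋₊ + 1)).filter (fun q => q.Prime ∧ R < (q : ℝ)) with hA
  have hmemA : ∀ q, q ∈ A ↔ q.Prime ∧ R < (q : ℝ) ∧ (q : ℝ) ≤ z := by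
    intro q
    rw [hA, Finset.mem_filter, Finset.mem_range, Nat.lt_succ_iff, Nat.le_floor_iff hz0]
    tauto
  have h2 : ∑' q : ℕ, {q : ℕ | q.Prime ∧ R < (q : ℝ) ∧ (q : ℝ) ≤ z}.indicator
      (fun q => ENNReal.ofReal (Real.exp (τ * ex ℓ q))) q =
      ∑ q ∈ A, ENNReal.ofReal (Real.exp (τ * ex ℓ q)) := by
    rw [tsum_eq_sum (s := A)]
    · apply Finset.sum_congr rfl
      intro q hq
      rw [Set.indicator_of_mem]
      exact (hmemA q).mp hq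
    · intro q hq
      rw [Set.indicator_of_notMem]
      intro h
      exact hq ((hmemA q).mpr h)
  rw [h2, ← ENNReal.ofReal_sum_of_nonneg (fun q _ => (Real.exp_pos _).le)]
  apply ENNReal.ofReal_le_ofReal
  rcases A.eq_empty_or_nonempty with hAe | ⟨q0, hq0⟩
  · rw [hAe, Finset.sum_empty]; positivity
  have hRz : R ≤ z := by
    have := (hmemA q0).mp hq0
    linarith [this.2.1, this.2.2]
  have hzl : Real.exp (Real.exp ((n : ℝ) - 2)) ≤ z := hR.trans hRz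
  obtain ⟨k, rfl⟩ : ∃ k, n = k + 1 := ⟨n - 1, by omega⟩
  set m : ℝ := ∑ i ∈ Finset.range k, ℓ i with hm
  have h3 : ∀ q ∈ A, Real.exp (τ * ex ℓ q) ≤ Real.exp (0 * st ℓ (q - 1)) +
      Real.exp (-(τ * m)) * Real.exp (τ * st ℓ (q - 1)) := by
    intro q hq
    have hq' := (hmemA q).mp hq
    have hcl : k ≤ cl q + 1 := by
      have h5 : ((k + 1 : ℕ) : ℝ) - 2 < yy q := by
        rw [lt_yy_iff (by linarith)]
        exact lt_of_le_of_lt hR hq'.2.1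
      have h6 := yy_le_cl q
      push_cast at h5
      have h7 : (k : ℝ) < cl q + 2 := by linarith
      have h8 : k < cl q + 2 := by exact_mod_cast h7
      omega
    have h5 : ex ℓ q ≤ max 0 (st ℓ (q - 1) - m) := by
      unfold ex
      apply max_le_max le_rfl
      have h6 : m ≤ ∑ i ∈ Finset.range (cl q + 1), ℓ i := by
        rw [hm]
        apply Finset.sum_le_sum_of_subset_of_nonneg
        · intro i hi
          rw [Finset.mem_range] at hi ⊢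
          omega
        · intro i _ _; exact hℓ0 i
      linarith
    have h6 := exp_mul_max_le (τ := τ) (x := st ℓ (q - 1) - m)
    rw [zero_mul, Real.exp_zero, ← Real.exp_add]
    refine (Real.exp_le_exp.mpr (mul_le_mul_of_nonneg_left h5 hτ)).trans (h6.trans (le_of_eq ?_))
    congr 2
    ring
  refine (Finset.sum_le_sum h3).trans ?_
  rw [Finset.sum_add_distrib, ← Finset.mul_sum]
  have hA' : ∀ q ∈ A, q.Prime ∧ (q : ℝ) ≤ z := fun q hq =>
    ⟨((hmemA q).mp hq).1, ((hmemA q).mp hq).2.2⟩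
  have h4 := h1 (k + 1) 0 Λ ℓ hℓ0 hℓ le_rfl (by norm_num) hn z hzl hz A hA'
  have h5 := h1 (k + 1) τ Λ ℓ hℓ0 hℓ hτ hτΛ hn z hzl hz A hA'
  have h6 : ∑ i ∈ Finset.range (k + 1), Real.exp (0 * ℓ i) = ((k + 1 : ℕ) : ℝ) := by
    simp
  rw [h6] at h4
  have h7 : -(2 * ((k + 1 : ℕ) : ℝ)) + ((k + 1 : ℕ) : ℝ) = -((k + 1 : ℕ) : ℝ) := by ring
  rw [h7] at h4
  -- second part
  have h9 : ∑ i ∈ Finset.range (k + 1), Real.exp (τ * ℓ i) ≤
      ((k + 1 : ℕ) : ℝ) + τ * m + 2 / 5 + τ ^ 2 * Λ ^ 2 * ((k + 1 : ℕ) : ℝ) := by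
    have h10 : ∑ i ∈ Finset.range (k + 1), Real.exp (τ * ℓ i) ≤
        ∑ i ∈ Finset.range (k + 1), (1 + τ * ℓ i + τ ^ 2 * Λ ^ 2) := by
      apply Finset.sum_le_sum
      intro i _
      have h4 : 0 ≤ τ * ℓ i := mul_nonneg hτ (hℓ0 i)
      have h5 : τ * ℓ i ≤ τ * Λ := mul_le_mul_of_nonneg_left (hℓ i) hτ
      have h6 := exp_sub_one_sub_le h4 (by linarith)
      have h7 : (τ * ℓ i) ^ 2 ≤ (τ * Λ) ^ 2 := pow_le_pow_left₀ h4 h5 2
      rw [mul_pow τ Λ] at h7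
      linarith
    rw [Finset.sum_add_distrib, Finset.sum_add_distrib, ← Finset.mul_sum, Finset.sum_const,
      Finset.sum_const, Finset.card_range, nsmul_eq_mul, nsmul_eq_mul, mul_one,
      Finset.sum_range_succ (fun i => ℓ i) k, ← hm, mul_add] at h10
    have h11 : τ * ℓ k ≤ 2 / 5 := (mul_le_mul_of_nonneg_left (hℓ k) hτ).trans hτΛ
    linarith
  have h12 : Real.exp (-(τ * m)) * Real.exp (-(2 * ((k + 1 : ℕ) : ℝ)) +
      ∑ i ∈ Finset.range (k + 1), Real.exp (τ * ℓ i)) ≤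
      2 * Real.exp (τ ^ 2 * Λ ^ 2 * ((k + 1 : ℕ) : ℝ)) * Real.exp (-((k + 1 : ℕ) : ℝ)) := by
    have h13 : Real.exp (2 / 5) ≤ 2 := exp_two_fifths.trans (by norm_num)
    calc Real.exp (-(τ * m)) * Real.exp (-(2 * ((k + 1 : ℕ) : ℝ)) +
      ∑ i ∈ Finset.range (k + 1), Real.exp (τ * ℓ i)) ≤
        Real.exp (2 / 5) * (Real.exp (τ ^ 2 * Λ ^ 2 * ((k + 1 : ℕ) : ℝ)) *
          Real.exp (-((k + 1 : ℕ) : ℝ))) := by
          rw [← Real.exp_add, ← Real.exp_add, ← Real.exp_add]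
          apply Real.exp_le_exp.mpr
          linarith
      _ ≤ 2 * (Real.exp (τ ^ 2 * Λ ^ 2 * ((k + 1 : ℕ) : ℝ)) *
          Real.exp (-((k + 1 : ℕ) : ℝ))) := mul_le_mul_of_nonneg_right h13 (by positivity)
      _ = _ := by ring
  have h14 : (1 : ℝ) ≤ Real.exp (τ ^ 2 * Λ ^ 2 * ((k + 1 : ℕ) : ℝ)) :=
    Real.one_le_exp (by positivity)
  set E := Real.exp (τ ^ 2 * Λ ^ 2 * ((k + 1 : ℕ) : ℝ)) with hE
  set G := C * (1 + ((k + 1 : ℕ) : ℝ)) ^ 2 with hG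
  have hG0 : 0 ≤ G := by positivity
  set e := Real.exp (-((k + 1 : ℕ) : ℝ)) with he
  have he0 : 0 < e := Real.exp_pos _
  have h15 : Real.exp (-(τ * m)) * ∑ q ∈ A, Real.exp (τ * st ℓ (q - 1)) ≤
      G * z * (2 * E * e) := by
    refine (mul_le_mul_of_nonneg_left h5 (Real.exp_pos _).le).trans ?_
    have h16 := mul_le_mul_of_nonneg_left h12 (mul_nonneg hG0 hz0)
    refine le_trans (le_of_eq ?_) h16
    ring
  have h17 : G * (z * e) ≤ G * z * (1 * E * e) := by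
    have h18 : 0 ≤ G * z * e := by positivity
    nlinarith
  have h18 : C * 3 * (1 + ((k + 1 : ℕ) : ℝ)) ^ 2 * E * (z * e) = G * z * (3 * E * e) := by
    rw [hG]; ring
  rw [h18]
  linarith

/-! ### The size of the cells of the alive primes -/

lemma third_le_aa (i : ℕ) : 1 / 3 ≤ aa i := by
  have h1 : aa 0 ≤ aa i := by
    unfold aa
    exact aCoef_mono (by omega) (by omega)
  refine le_trans ?_ h1
  unfold aa Crest.NumberTheoryR.TotientScale.aCoef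
  have := Real.log_two_gt_d9
  norm_num
  linarith

lemma sum_yy_le_FL {c : ℕ → ℝ} (hc : ∀ i, 1 / 3 ≤ c i) (l : List ℕ) :
    1 / 3 * (l.map yy).sum ≤ FL c l := by
  induction l generalizing c with
  | nil => simp
  | cons p l ih =>
    rw [FL_cons, List.map_cons, List.sum_cons, mul_add]
    have := ih (c := fun i => c (i + 1)) (fun i => hc _)
    have := mul_le_mul_of_nonneg_right (hc 0) (yy_nonneg p)
    linarith

lemma sum_toFinset_le (f : ℕ → ℝ) (hf : ∀ n, 0 ≤ f n) (l : List ℕ) :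
    ∑ p ∈ l.toFinset, f p ≤ (l.map f).sum := by
  induction l with
  | nil => simp
  | cons p l ih =>
    rw [List.toFinset_cons, List.map_cons, List.sum_cons]
    by_cases hp : p ∈ l.toFinset
    · rw [Finset.insert_eq_of_mem hp]
      linarith [hf p]
    · rw [Finset.sum_insert hp]
      linarith

end Crest.Agent.R020.LS
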