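import Crest.Agent.R020.LStatD

/-!
Row 20 (helper661): the field `stat` of `LGood`, final bounds.

* `stat_bad`: plain version; `stat_bad_count`: counting version.
-/

set_option autoImplicit false

open scoped ENNReal
open Filter Topology

noncomputable section

namespace Crest.Agent.R020.LS

open Coll (alv deadPart redv kap ell Alive)

lemma sum_cl_le {w d : ℕ} {Y : ℝ} (h : FF aa d ≤ Y) :
    ∑ p ∈ alv w (rr d), (cl p : ℝ) ≤ 3 * Y := by
  have h1 : ∑ p ∈ alv w (rr d), (cl p : ℝ) ≤ ∑ p ∈ (rr d).primeFactors, yy p := by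
    have h2 : ∑ p ∈ alv w (rr d), (cl p : ℝ) ≤ ∑ p ∈ alv w (rr d), yy p :=
      Finset.sum_le_sum fun p _ => cl_le_yy p
    refine h2.trans (Finset.sum_le_sum_of_subset_of_nonneg ?_ fun p _ _ => yy_nonneg p)
    intro p hp
    have := (Coll.mem_alv.mp hp).1
    exact Nat.mem_primeFactors.mpr this
  have h2 : ∑ p ∈ (rr d).primeFactors, yy p ≤ ((dl (rr d)).map yy).sum := by
    rw [((dl_perm (rr d)).map yy).sum_eq]
    exact sum_toFinset_le yy yy_nonneg _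
  have h3 := sum_yy_le_FL third_le_aa (dl (rr d))
  unfold FF at h
  linarith

lemma StatOK.mono {w N J n : ℕ} {F F' : ℝ} (hF : F ≤ F') (h : StatOK w N J F n) :
    StatOK w N J F' n := by
  intro S hS κ' h1 h2 h3
  have := h S hS κ' h1 h2 h3
  linarith

/-- the final numerical estimate -/
lemma numeric (c C1 C2 : ℝ) (hc : 0 ≤ c) (hC1 : 0 < C1) : ∃ Y0 : ℝ, 1 ≤ Y0 ∧ ∀ Y : ℝ, Y0 ≤ Y →
    ∀ w N J : ℕ, Real.sqrt Y / 2 ≤ w → (w : ℝ) ≤ Real.sqrt Y → (N : ℝ) ≤ c * Real.sqrt Y →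
    (J : ℝ) ≤ 3 * Y →
    ∃ τ : ℝ, 0 ≤ τ ∧ τ * Real.log (N + 1) ≤ 2 / 5 ∧
      ((J : ℝ) + 1) ^ N * Real.exp (-(τ * Y ^ (9 / 10 : ℝ))) *
        (C1 * ((J : ℝ) + 1) ^ 3 * Real.exp (τ ^ 2 * Real.log (N + 1) ^ 2 * J)) *
        Real.exp ((τ ^ 2 * Real.log (N + 1) ^ 2 + 3 * Real.log (J + 1) / w) * (3 * Y) + C2 +
          3 / 2 * w) ≤ Real.exp (-Y ^ (3 / 4 : ℝ)) := by
  -- thresholds
  have hlog : ∀ Y : ℝ, 1 ≤ Y → Real.log Y ≤ 100 * Y ^ (1 / 100 : ℝ) := by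
    intro Y hY
    have h := Real.log_le_rpow_div (show (0 : ℝ) ≤ Y by linarith) (show (0 : ℝ) < 1 / 100 by norm_num)
    refine h.trans (le_of_eq ?_)
    ring
  set D : ℝ := 400 * c + (|C2| + |Real.log C1|) + 10000 with hD
  have hev : ∀ᶠ Y : ℝ in atTop, D * 250000 ≤ Y ^ (3 / 100 : ℝ) :=
    (tendsto_rpow_atTop (by norm_num : (0 : ℝ) < 3 / 100)).eventually_ge_atTop _
  have hev2 : ∀ᶠ Y : ℝ in atTop, (c + 1) ^ 2 + 3 ≤ Y := eventually_ge_atTop _
  obtain ⟨Y0, hY0⟩ := (hev.and hev2).exists_forall_of_atTop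
  refine ⟨max 1 Y0, le_max_left _ _, ?_⟩
  intro Y hY w N J hw1 hw2 hN hJ
  have hY1 : 1 ≤ Y := (le_max_left _ _).trans hY
  obtain ⟨h250, hYc⟩ := hY0 Y ((le_max_right _ _).trans hY)
  have hYpos : 0 < Y := by linarith
  have hY3 : 3 ≤ Y := by nlinarith [sq_nonneg (c + 1)]
  set L : ℝ := Real.log Y with hL
  have hL1 : 1 ≤ L := by
    rw [hL, Real.le_log_iff_exp_le hYpos]
    have := Real.exp_one_lt_d9
    linarith
  have hLup := hlog Y hY1
  have hsqrt : Real.sqrt Y = Y ^ (1 / 2 : ℝ) := Real.sqrt_eq_rpow Y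
  have hs1 : 1 ≤ Real.sqrt Y := Real.one_le_sqrt.mpr hY1
  have hss : Real.sqrt Y * Real.sqrt Y = Y := Real.mul_self_sqrt hYpos.le
  -- log (N+1) ≤ L
  have hcs : c + 1 ≤ Real.sqrt Y := by
    apply Real.le_sqrt_of_sq_le
    linarith
  have hN1 : (N : ℝ) + 1 ≤ Y := by
    have : (N : ℝ) + 1 ≤ (c + 1) * Real.sqrt Y := by linarith
    refine this.trans ?_
    calc (c + 1) * Real.sqrt Y ≤ Real.sqrt Y * Real.sqrt Y :=
        mul_le_mul_of_nonneg_right hcs (by positivity)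
      _ = Y := hss
  have hlN0 : 0 ≤ Real.log ((N : ℝ) + 1) := Real.log_nonneg (by
    have : (0 : ℝ) ≤ N := Nat.cast_nonneg N
    linarith)
  have hlN : Real.log ((N : ℝ) + 1) ≤ L := Real.log_le_log (by positivity) hN1
  have hlJ0 : 0 ≤ Real.log ((J : ℝ) + 1) := Real.log_nonneg (by
    have : (0 : ℝ) ≤ J := Nat.cast_nonneg J
    linarith)
  have hlJ : Real.log ((J : ℝ) + 1) ≤ 2 * L + 2 := by
    have h1 : (J : ℝ) + 1 ≤ 4 * Y := by linarith
    have h2 : Real.log ((J : ℝ) + 1) ≤ Real.log (4 * Y) := Real.log_le_log (by positivity) h1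
    rw [Real.log_mul (by norm_num) hYpos.ne'] at h2
    have h3 : Real.log 4 ≤ 2 := by
      have : Real.log 4 = 2 * Real.log 2 := by
        rw [show (4 : ℝ) = 2 ^ 2 by norm_num, Real.log_pow]; norm_num
      have := Real.log_two_lt_d9
      linarith
    linarith
  have hlJ' : Real.log ((J : ℝ) + 1) ≤ 4 * L := by linarith
  -- powers
  have e1 : Y ^ (9 / 10 : ℝ) = Y ^ (-(1 / 10) : ℝ) * Y := by
    rw [← Real.rpow_add_one hYpos.ne']; norm_num
  set u : ℝ := Y ^ (-(1 / 10) : ℝ) with hu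
  have hu0 : 0 < u := Real.rpow_pos_of_pos hYpos _
  have hu1 : u ≤ 1 := Real.rpow_le_one_of_one_le_of_nonpos hY1 (by norm_num)
  have hu2 : u ^ 2 * Y = Y ^ (8 / 10 : ℝ) := by
    rw [hu, ← Real.rpow_natCast, ← Real.rpow_mul hYpos.le, ← Real.rpow_add_one hYpos.ne']
    norm_num
  set τ : ℝ := u / (10 * L ^ 2) with hτ
  have hτ0 : 0 ≤ τ := by positivity
  have hτL : τ * L ≤ 1 / 10 := by
    rw [hτ, div_mul_eq_mul_div, div_le_div_iff₀ (by positivity) (by norm_num)]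
    nlinarith
  refine ⟨τ, hτ0, ?_, ?_⟩
  · have := mul_le_mul_of_nonneg_left hlN hτ0
    linarith
  -- write everything as an exponential
  have hJ1 : (0 : ℝ) < (J : ℝ) + 1 := by positivity
  have e2 : ((J : ℝ) + 1) ^ N = Real.exp (N * Real.log ((J : ℝ) + 1)) := by
    rw [Real.exp_nat_mul, Real.exp_log hJ1]
  have e3 : ((J : ℝ) + 1) ^ 3 = Real.exp (3 * Real.log ((J : ℝ) + 1)) := by
    rw [show (3 : ℝ) * Real.log ((J : ℝ) + 1) = ((3 : ℕ) : ℝ) * Real.log ((J : ℝ) + 1) by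
      norm_num, Real.exp_nat_mul, Real.exp_log hJ1]
  have e4 : C1 = Real.exp (Real.log C1) := (Real.exp_log hC1).symm
  rw [e2, e3, e4, ← Real.exp_add, ← Real.exp_add, ← Real.exp_add, ← Real.exp_add, ← Real.exp_add]
  apply Real.exp_le_exp.mpr
  -- estimates of the terms
  have hw0 : (0 : ℝ) < w := by linarith
  have hYw : Y / w ≤ 2 * Real.sqrt Y := by
    rw [div_le_iff₀ hw0]
    have h1 := mul_le_mul_of_nonneg_left hw1 (show 0 ≤ 2 * Real.sqrt Y by positivity)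
    linarith
  have t1 : (N : ℝ) * Real.log ((J : ℝ) + 1) ≤ c * Real.sqrt Y * (4 * L) :=
    mul_le_mul hN hlJ' hlJ0 (by positivity)
  have t2 : τ * Y ^ (9 / 10 : ℝ) = 1 / 10 * (Y ^ (8 / 10 : ℝ) / L ^ 2) := by
    rw [e1, hτ, ← hu2]
    field_simp
  have t3 : τ ^ 2 * Real.log ((N : ℝ) + 1) ^ 2 * Y ≤ 1 / 100 * (Y ^ (8 / 10 : ℝ) / L ^ 2) := by
    have h1 : τ ^ 2 * Real.log ((N : ℝ) + 1) ^ 2 * Y ≤ τ ^ 2 * L ^ 2 * Y := by
      apply mul_le_mul_of_nonneg_right _ hYpos.le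
      apply mul_le_mul_of_nonneg_left _ (by positivity)
      exact pow_le_pow_left₀ hlN0 hlN 2
    refine h1.trans (le_of_eq ?_)
    rw [hτ, ← hu2]
    have hL0 : L ≠ 0 := by linarith
    field_simp
    norm_num
  have t4 : τ ^ 2 * Real.log ((N : ℝ) + 1) ^ 2 * J ≤ 3 * (τ ^ 2 * Real.log ((N : ℝ) + 1) ^ 2 * Y) := by
    have h1 : 0 ≤ τ ^ 2 * Real.log ((N : ℝ) + 1) ^ 2 := by positivity
    have h2 := mul_le_mul_of_nonneg_left hJ h1
    linarith
  have t5 : 3 * Real.log ((J : ℝ) + 1) / w * (3 * Y) ≤ 72 * L * Real.sqrt Y := by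
    have h1 : 3 * Real.log ((J : ℝ) + 1) / w * (3 * Y) = 9 * Real.log ((J : ℝ) + 1) * (Y / w) := by
      ring
    rw [h1]
    calc 9 * Real.log ((J : ℝ) + 1) * (Y / w) ≤ 9 * (4 * L) * (2 * Real.sqrt Y) := by
          apply mul_le_mul _ hYw (by positivity) (by positivity)
          linarith
      _ = _ := by ring
  -- the main inequality
  have hLs : L * Real.sqrt Y ≤ 100 * Y ^ (51 / 100 : ℝ) := by
    rw [hsqrt]
    calc L * Y ^ (1 / 2 : ℝ) ≤ 100 * Y ^ (1 / 100 : ℝ) * Y ^ (1 / 2 : ℝ) :=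
        mul_le_mul_of_nonneg_right hLup (by positivity)
      _ = 100 * Y ^ (51 / 100 : ℝ) := by
        rw [mul_assoc, ← Real.rpow_add hYpos]; norm_num
  have hLs' : L * Real.sqrt Y ≤ 100 * Y ^ (3 / 4 : ℝ) := by
    refine hLs.trans ?_
    apply mul_le_mul_of_nonneg_left _ (by norm_num)
    exact Real.rpow_le_rpow_of_exponent_le hY1 (by norm_num)
  have hP1 : 1 ≤ Y ^ (3 / 4 : ℝ) := Real.one_le_rpow hY1 (by norm_num)
  have hsP : Real.sqrt Y ≤ Y ^ (3 / 4 : ℝ) := by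
    rw [hsqrt]; exact Real.rpow_le_rpow_of_exponent_le hY1 (by norm_num)
  have hmain : D * 25 * Y ^ (3 / 4 : ℝ) ≤ Y ^ (8 / 10 : ℝ) / L ^ 2 := by
    rw [le_div_iff₀ (by positivity)]
    have h1 : L ^ 2 ≤ 10000 * Y ^ (2 / 100 : ℝ) := by
      have h2 : L ^ 2 ≤ (100 * Y ^ (1 / 100 : ℝ)) ^ 2 := pow_le_pow_left₀ (by linarith) hLup 2
      refine h2.trans (le_of_eq ?_)
      rw [mul_pow, ← Real.rpow_natCast (Y ^ (1 / 100 : ℝ)), ← Real.rpow_mul hYpos.le]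
      norm_num
    have hD0 : 0 ≤ D := by rw [hD]; positivity
    calc D * 25 * Y ^ (3 / 4 : ℝ) * L ^ 2 ≤
        D * 25 * Y ^ (3 / 4 : ℝ) * (10000 * Y ^ (2 / 100 : ℝ)) :=
          mul_le_mul_of_nonneg_left h1 (by positivity)
      _ = (D * 250000) * (Y ^ (3 / 4 : ℝ) * Y ^ (2 / 100 : ℝ)) := by ring
      _ ≤ Y ^ (3 / 100 : ℝ) * (Y ^ (3 / 4 : ℝ) * Y ^ (2 / 100 : ℝ)) :=
          mul_le_mul_of_nonneg_right h250 (by positivity)
      _ = Y ^ (8 / 10 : ℝ) := by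
          rw [← Real.rpow_add hYpos, ← Real.rpow_add hYpos]; norm_num
  set P := Y ^ (3 / 4 : ℝ) with hP
  set Q := Y ^ (8 / 10 : ℝ) / L ^ 2 with hQ
  have hC2 : C2 ≤ |C2| * P := by
    have := le_abs_self C2
    have h2 : |C2| ≤ |C2| * P := le_mul_of_one_le_right (abs_nonneg _) hP1
    linarith
  have hC1' : Real.log C1 ≤ |Real.log C1| * P := by
    have := le_abs_self (Real.log C1)
    have h2 : |Real.log C1| ≤ |Real.log C1| * P := le_mul_of_one_le_right (abs_nonneg _) hP1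
    linarith
  have hcP : c * Real.sqrt Y * (4 * L) ≤ 400 * c * P := by
    have : c * Real.sqrt Y * (4 * L) = 4 * c * (L * Real.sqrt Y) := by ring
    rw [this]
    have h2 := mul_le_mul_of_nonneg_left hLs' (show 0 ≤ 4 * c by positivity)
    linarith
  have h72 : 72 * L * Real.sqrt Y ≤ 7200 * P := by
    have : 72 * L * Real.sqrt Y = 72 * (L * Real.sqrt Y) := by ring
    rw [this]
    linarith
  have hLP : 12 * L ≤ 1200 * P := by
    have h2 : L ≤ L * Real.sqrt Y := le_mul_of_one_le_right (by linarith) hs1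
    linarith
  rw [t2]
  rw [add_mul]
  have hDP : D * 25 * P = 10000 * (c * P) + 25 * (|C2| * P) + 25 * (|Real.log C1| * P) +
      250000 * P := by
    rw [hD]; ring
  have ha := abs_nonneg C2
  have hb := abs_nonneg (Real.log C1)
  have ha' : 0 ≤ |C2| * P := by positivity
  have hb' : 0 ≤ |Real.log C1| * P := by positivity
  have hc' : 0 ≤ c * P := by positivity
  have hPp : 0 ≤ P := by linarith
  linarith

end Crest.Agent.R020.LS
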