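import Crest.Agent.R020.LStatE

/-!
Row 20 (helper661): the field `stat` of `LGood`, final theorems.

* `stat_bad`: plain version;
* `stat_bad_count`, `stat_bad_ncard`: counting version.
-/

set_option autoImplicit false

open scoped ENNReal
open Filter Topology

noncomputable section

namespace Crest.Agent.R020.LS

open Coll (alv deadPart redv kap ell Alive)

/-- The pairs `(q, d)` (with the properties that are used) for which the field `stat` of
`Coll.LGood` fails. -/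
def BadStat (Y : ℝ) (w N J : ℕ) (F : ℝ) : Set (ℕ × ℕ) :=
  {x | x.1.Prime ∧ IsTot x.2 ∧ Pm (rr x.2) < x.1 ∧ Alive w x.1 ∧ yy x.1 ≤ Y ∧ FF aa x.2 ≤ Y ∧
    (∀ p : ℕ, p.Prime → (w : ℝ) < yy p → ¬ p ^ 2 ∣ rr x.2) ∧ ¬ StatOK w N J F (x.1 * rr x.2)}

/-- **S4, plain version.** -/
theorem stat_bad (c : ℝ) (hc : 0 ≤ c) : ∃ Y0 : ℝ, 1 ≤ Y0 ∧ ∀ Y : ℝ, Y0 ≤ Y → ∀ (w N J : ℕ) (F : ℝ),
    Real.sqrt Y / 2 ≤ w → (w : ℝ) ≤ Real.sqrt Y → (N : ℝ) ≤ c * Real.sqrt Y → Y ≤ J →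
    (J : ℝ) ≤ 3 * Y → Y ^ (9 / 10 : ℝ) ≤ F →
    wt2 (BadStat Y w N J F) ≤ ENNReal.ofReal (Real.exp (-Y ^ (3 / 4 : ℝ))) := by
  obtain ⟨C1, hC1, hq⟩ := qsum_plain
  obtain ⟨C2, hC2, hgen⟩ := stat_general
  obtain ⟨Y0, hY0, hnum⟩ := numeric c C1 C2 hc hC1
  refine ⟨Y0, hY0, ?_⟩
  intro Y hY w N J F hw1 hw2 hN hYJ hJ hF
  obtain ⟨τ, hτ0, hτL, hfin⟩ := hnum Y hY w N J hw1 hw2 hN hJ
  have hY1 : 1 ≤ Y := hY0.trans hY
  have hYpos : 0 ≤ Y := by linarith
  have hs1 : 1 ≤ Real.sqrt Y := Real.one_le_sqrt.mpr hY1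
  have hw : 1 ≤ w := by
    have : (0 : ℝ) < w := by linarith
    exact_mod_cast this
  have hJ1 : 1 ≤ J := by
    have : (1 : ℝ) ≤ J := by linarith
    exact_mod_cast this
  have h1 := hgen w N J Y (3 * Y) τ (Y ^ (9 / 10 : ℝ))
    (C1 * ((J : ℝ) + 1) ^ 3 * Real.exp (τ ^ 2 * Real.log (N + 1) ^ 2 * J))
    (fun q d => (((q - 1) * d : ℕ) : ℝ≥0∞)⁻¹) (BadStat Y w N J F) hw hYpos hYJ hJ1 hτ0 hτL
    (by positivity)
    (by
      rintro ⟨q, d⟩ ⟨h1, h2, h3, h4, h5, h6, h7, h8⟩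
      refine ⟨h1, h2, h3, h4, h5, h7, sum_cl_le h6, ?_⟩
      intro h9
      exact h8 (h9.mono hF))
    (by
      intro ℓ hℓ0 hℓ d hd
      have h2 : ∀ q : ℕ, {q : ℕ | (q, d) ∈ BadStat Y w N J F}.indicator
          (fun q => (((q - 1) * d : ℕ) : ℝ≥0∞)⁻¹ * ENNReal.ofReal (Real.exp (τ * ex ℓ q))) q ≤
          {q : ℕ | q.Prime ∧ yy q ≤ Y}.indicator
          (fun q => ENNReal.ofReal (Real.exp (τ * ex ℓ q)) * ((q - 1 : ℕ) : ℝ≥0∞)⁻¹) q *
          (d : ℝ≥0∞)⁻¹ := by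
        intro q
        by_cases hx : q ∈ {q : ℕ | (q, d) ∈ BadStat Y w N J F}
        · have hx' : q ∈ {q : ℕ | q.Prime ∧ yy q ≤ Y} := ⟨hx.1, hx.2.2.2.2.1⟩
          rw [Set.indicator_of_mem hx, Set.indicator_of_mem hx', inv_mul_nat]
          apply le_of_eq
          ring
        · rw [Set.indicator_of_notMem hx]; exact zero_le
      refine (ENNReal.tsum_le_tsum h2).trans ?_
      rw [ENNReal.tsum_mul_right]
      exact mul_le_mul' (hq J Y τ (Real.log (N + 1)) ℓ hYpos hYJ hJ1 hℓ0 hℓ hτ0 hτL) le_rfl)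
  unfold wt2
  exact h1.trans (ENNReal.ofReal_le_ofReal hfin)

lemma ncard_le_of_tsum {α : Type*} {P : Set α} {r : ℝ} (hr : 0 ≤ r)
    (h : ∑' x, P.indicator (fun _ => (1 : ℝ≥0∞)) x ≤ ENNReal.ofReal r) : (P.ncard : ℝ) ≤ r := by
  classical
  by_cases hP : P.Finite
  · rw [Set.ncard_eq_toFinset_card P hP]
    have h1 : ((hP.toFinset.card : ℕ) : ℝ≥0∞) ≤ ENNReal.ofReal r := by
      refine le_trans ?_ h
      refine le_trans (le_of_eq ?_) (ENNReal.sum_le_tsum hP.toFinset)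
      rw [Finset.card_eq_sum_ones, Nat.cast_sum]
      apply Finset.sum_congr rfl
      intro x hx
      rw [Set.indicator_of_mem ((Set.Finite.mem_toFinset hP).mp hx)]
      simp
    rw [← ENNReal.ofReal_natCast] at h1
    exact (ENNReal.ofReal_le_ofReal_iff hr).mp h1
  · rw [Set.Infinite.ncard hP]
    simpa using hr

lemma exists_scale {x : ℝ} (hx : 3 ≤ x) (hB : 3 ≤ Real.log (Real.log x)) : ∃ n : ℕ, 2 ≤ n ∧
    (∀ J : ℕ, Real.log (Real.log x) + 1 ≤ J → n ≤ J) ∧ x + 1 ≤ Real.exp (Real.exp (n : ℝ)) ∧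
    Real.exp (Real.exp ((n : ℝ) - 2)) ≤ Real.sqrt x ∧ Real.exp (-(n : ℝ)) ≤ 1 / Real.log x ∧
    0 < Real.log x := by
  have hx0 : 0 < x := by linarith
  have hl0 : 0 < Real.log x := Real.log_pos (by linarith)
  have hl20 : 20 ≤ Real.log x := by
    have h1 : Real.exp 3 ≤ Real.log x := by
      rw [← Real.le_log_iff_exp_le hl0]; exact hB
    have h2 : (20 : ℝ) ≤ Real.exp 3 := by
      have h3 : Real.exp 3 = Real.exp 1 ^ 3 := by
        rw [← Real.exp_nat_mul]; norm_num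
      rw [h3]
      have h4 := Real.exp_one_gt_d9
      have h5 : (2.718 : ℝ) ^ 3 ≤ Real.exp 1 ^ 3 := pow_le_pow_left₀ (by norm_num) (by linarith) 3
      norm_num at h5
      linarith
    linarith
  have h1 : Real.log (x + 1) ≤ Real.log x + 1 := by
    have h2 : x + 1 ≤ Real.exp 1 * x := by
      have := Real.exp_one_gt_d9
      nlinarith
    have h3 := Real.log_le_log (by linarith) h2
    rw [Real.log_mul (Real.exp_pos 1).ne' hx0.ne', Real.log_exp] at h3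
    linarith
  have h1' : Real.log x ≤ Real.log (x + 1) := Real.log_le_log hx0 (by linarith)
  have hl1 : 0 < Real.log (x + 1) := by linarith
  have h2 : Real.log (Real.log (x + 1)) ≤ Real.log (Real.log x) + 1 / 10 := by
    have h3 : Real.log (x + 1) ≤ Real.log x * (1 + 1 / 20) := by linarith
    have h4 := Real.log_le_log hl1 h3
    rw [Real.log_mul hl0.ne' (by norm_num)] at h4
    have h5 : Real.log (1 + 1 / 20 : ℝ) ≤ 1 / 20 := by
      have := Real.log_le_sub_one_of_pos (show (0 : ℝ) < 1 + 1 / 20 by norm_num)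
      linarith
    linarith
  have h2' : Real.log (Real.log x) ≤ Real.log (Real.log (x + 1)) := Real.log_le_log hl0 h1'
  set n : ℕ := ⌈Real.log (Real.log (x + 1))⌉₊ with hn
  have hn1 : Real.log (Real.log (x + 1)) ≤ n := Nat.le_ceil _
  have hn2 : (n : ℝ) < Real.log (Real.log (x + 1)) + 1 := Nat.ceil_lt_add_one (by linarith)
  refine ⟨n, ?_, ?_, ?_, ?_, ?_, hl0⟩
  · have : (2 : ℝ) ≤ n := by linarith
    exact_mod_cast this
  · intro J hJ
    rw [hn, Nat.ceil_le]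
    linarith
  · rw [← Real.log_le_iff_le_exp (by linarith), ← Real.log_le_iff_le_exp hl1]
    exact hn1
  · have h6 : Real.exp ((n : ℝ) - 2) ≤ Real.log x / 2 := by
      have h7 : (n : ℝ) - 2 ≤ Real.log (Real.log x / 2) := by
        rw [Real.log_div hl0.ne' (by norm_num)]
        have := Real.log_two_lt_d9
        linarith
      refine (Real.exp_le_exp.mpr h7).trans ?_
      rw [Real.exp_log (by positivity)]
    refine (Real.exp_le_exp.mpr h6).trans (le_of_eq ?_)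
    rw [Real.sqrt_eq_rpow, Real.rpow_def_of_pos hx0]
    congr 1
    ring
  · rw [Real.exp_neg, one_div]
    apply inv_anti₀ hl0
    rw [← Real.log_le_iff_le_exp hl0]
    linarith

/-- **S4, counting version.** -/
theorem stat_bad_count (c : ℝ) (hc : 0 ≤ c) : ∃ Y0 : ℝ, 1 ≤ Y0 ∧ ∀ (x Y : ℝ), 3 ≤ x →
    3 ≤ Real.log (Real.log x) →
    Y0 ≤ Y → Real.log (Real.log x) + 1 ≤ Y → ∀ (w N J : ℕ) (F : ℝ),
    Real.sqrt Y / 2 ≤ w → (w : ℝ) ≤ Real.sqrt Y → (N : ℝ) ≤ c * Real.sqrt Y → Y ≤ J →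
    (J : ℝ) ≤ 3 * Y → Y ^ (9 / 10 : ℝ) ≤ F →
    ∑' y : ℕ × ℕ, {y : ℕ × ℕ | y ∈ BadStat Y w N J F ∧ Real.sqrt x < y.1 ∧
      (((y.1 - 1) * y.2 : ℕ) : ℝ) ≤ x}.indicator (fun _ => (1 : ℝ≥0∞)) y ≤
      ENNReal.ofReal (x / Real.log x * Real.exp (-Y ^ (3 / 4 : ℝ))) := by
  obtain ⟨C1, hC1, hq⟩ := count_coord
  obtain ⟨C2, hC2, hgen⟩ := stat_general
  obtain ⟨Y0, hY0, hnum⟩ := numeric c (2 * C1) C2 hc (by positivity)
  refine ⟨Y0, hY0, ?_⟩
  intro x Y hx3 hB hY hBY w N J F hw1 hw2 hN hYJ hJ hF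
  obtain ⟨τ, hτ0, hτL, hfin⟩ := hnum Y hY w N J hw1 hw2 hN hJ
  have hY1 : 1 ≤ Y := hY0.trans hY
  have hYpos : 0 ≤ Y := by linarith
  have hs1 : 1 ≤ Real.sqrt Y := Real.one_le_sqrt.mpr hY1
  have hw : 1 ≤ w := by
    have : (0 : ℝ) < w := by linarith
    exact_mod_cast this
  have hJ1 : 1 ≤ J := by
    have : (1 : ℝ) ≤ J := by linarith
    exact_mod_cast this
  have hx0 : 0 < x := by linarith
  obtain ⟨n, hn2, hnJ, hnx, hnR, hnl, hl0⟩ := exists_scale hx3 hB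
  have hnJ' : n ≤ J := hnJ J (by linarith)
  have hnJr : (n : ℝ) ≤ J := by exact_mod_cast hnJ'
  set P : Set (ℕ × ℕ) := {y : ℕ × ℕ | y ∈ BadStat Y w N J F ∧ Real.sqrt x < y.1 ∧
      (((y.1 - 1) * y.2 : ℕ) : ℝ) ≤ x} with hP
  have h1 := hgen w N J Y (3 * Y) τ (Y ^ (9 / 10 : ℝ))
    (2 * C1 * ((J : ℝ) + 1) ^ 3 * Real.exp (τ ^ 2 * Real.log (N + 1) ^ 2 * J) *
      (x / Real.log x))
    (fun _ _ => 1) P hw hYpos hYJ hJ1 hτ0 hτL
    (by positivity)
    (by
      rintro ⟨q, d⟩ ⟨⟨h1, h2, h3, h4, h5, h6, h7, h8⟩, -, -⟩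
      refine ⟨h1, h2, h3, h4, h5, h7, sum_cl_le h6, ?_⟩
      intro h9
      exact h8 (h9.mono hF))
    (by
      intro ℓ hℓ0 hℓ d hd
      have hd1 : (1 : ℝ) ≤ d := by exact_mod_cast Nat.one_le_iff_ne_zero.mpr hd
      have hd0 : (0 : ℝ) < d := by linarith
      rcases le_or_gt (d : ℝ) x with hdx | hdx
      · set z : ℝ := x / d + 1 with hz
        have hz0 : 0 ≤ z := by positivity
        have hz1 : z ≤ x + 1 := by
          rw [hz]
          have : x / d ≤ x := div_le_self hx0.le hd1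
          linarith
        have h2 : ∀ q : ℕ, {q : ℕ | (q, d) ∈ P}.indicator
            (fun q => 1 * ENNReal.ofReal (Real.exp (τ * ex ℓ q))) q ≤
            {q : ℕ | q.Prime ∧ Real.sqrt x < (q : ℝ) ∧ (q : ℝ) ≤ z}.indicator
            (fun q => ENNReal.ofReal (Real.exp (τ * ex ℓ q))) q := by
          intro q
          by_cases hx : q ∈ {q : ℕ | (q, d) ∈ P}
          · have hqp : q.Prime := hx.1.1
            have hx' : q ∈ {q : ℕ | q.Prime ∧ Real.sqrt x < (q : ℝ) ∧ (q : ℝ) ≤ z} := by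
              refine ⟨hqp, hx.2.1, ?_⟩
              have h3 := hx.2.2
              simp only at h3
              rw [Nat.cast_mul, Nat.cast_sub hqp.one_le, Nat.cast_one] at h3
              have h4 : (q : ℝ) - 1 ≤ x / d := by
                rw [le_div_iff₀ hd0]; exact h3
              rw [hz]
              linarith
            rw [Set.indicator_of_mem hx, Set.indicator_of_mem hx', one_mul]
          · rw [Set.indicator_of_notMem hx]; exact zero_le
        refine (ENNReal.tsum_le_tsum h2).trans ?_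
        refine (hq n τ (Real.log (N + 1)) ℓ hℓ0 hℓ hτ0 hτL hn2 z (Real.sqrt x) hz0
          (hz1.trans hnx) hnR).trans ?_
        have h5 : (d : ℝ≥0∞)⁻¹ = ENNReal.ofReal ((d : ℝ)⁻¹) := by
          rw [ENNReal.ofReal_inv_of_pos hd0, ENNReal.ofReal_natCast]
        rw [h5, ← ENNReal.ofReal_mul (by positivity)]
        apply ENNReal.ofReal_le_ofReal
        have h6 : z * Real.exp (-(n : ℝ)) ≤ 2 * (x / Real.log x) * (d : ℝ)⁻¹ := by
          have h7 : z ≤ 2 * (x / d) := by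
            have : 1 ≤ x / d := by rw [le_div_iff₀ hd0]; linarith
            rw [hz]; linarith
          calc z * Real.exp (-(n : ℝ)) ≤ 2 * (x / d) * (1 / Real.log x) :=
                mul_le_mul h7 hnl (Real.exp_pos _).le (by positivity)
            _ = _ := by field_simp
        have h8 : (1 + (n : ℝ)) ^ 2 ≤ ((J : ℝ) + 1) ^ 3 := by
          have h9 : (1 + (n : ℝ)) ^ 2 ≤ ((J : ℝ) + 1) ^ 2 :=
            pow_le_pow_left₀ (by positivity) (by linarith) 2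
          have h10 : ((J : ℝ) + 1) ^ 2 ≤ ((J : ℝ) + 1) ^ 3 := by
            apply pow_le_pow_right₀ _ (by norm_num)
            have : (0 : ℝ) ≤ J := Nat.cast_nonneg J
            linarith
          exact h9.trans h10
        have h11 : Real.exp (τ ^ 2 * Real.log (N + 1) ^ 2 * n) ≤
            Real.exp (τ ^ 2 * Real.log (N + 1) ^ 2 * J) := by
          apply Real.exp_le_exp.mpr
          exact mul_le_mul_of_nonneg_left hnJr (by positivity)
        calc C1 * (1 + (n : ℝ)) ^ 2 * Real.exp (τ ^ 2 * Real.log (N + 1) ^ 2 * n) *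
              (z * Real.exp (-(n : ℝ))) ≤
            C1 * ((J : ℝ) + 1) ^ 3 * Real.exp (τ ^ 2 * Real.log (N + 1) ^ 2 * J) *
              (2 * (x / Real.log x) * (d : ℝ)⁻¹) := by
              apply mul_le_mul _ h6 (by positivity) (by positivity)
              apply mul_le_mul _ h11 (Real.exp_pos _).le (by positivity)
              exact mul_le_mul_of_nonneg_left h8 hC1.le
          _ = _ := by ring
      · have h2 : ∀ q : ℕ, {q : ℕ | (q, d) ∈ P}.indicator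
            (fun q => 1 * ENNReal.ofReal (Real.exp (τ * ex ℓ q))) q = 0 := by
          intro q
          rw [Set.indicator_of_notMem]
          intro hx
          have hqp : q.Prime := hx.1.1
          have h3 := hx.2.2
          simp only at h3
          have h4 : d ≤ (q - 1) * d := Nat.le_mul_of_pos_left d (by
            have := hqp.two_le
            omega)
          have h5 : (d : ℝ) ≤ (((q - 1) * d : ℕ) : ℝ) := by exact_mod_cast h4
          linarith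
        rw [tsum_congr h2, tsum_zero]
        exact zero_le)
  refine h1.trans (ENNReal.ofReal_le_ofReal ?_)
  have hxl : 0 ≤ x / Real.log x := by positivity
  have h2 := mul_le_mul_of_nonneg_left hfin hxl
  refine le_trans (le_of_eq ?_) h2
  ring

/-- **S4, counting version**, as a bound for `ncard`. -/
theorem stat_bad_ncard (c : ℝ) (hc : 0 ≤ c) : ∃ Y0 : ℝ, 1 ≤ Y0 ∧ ∀ (x Y : ℝ), 3 ≤ x →
    3 ≤ Real.log (Real.log x) →
    Y0 ≤ Y → Real.log (Real.log x) + 1 ≤ Y → ∀ (w N J : ℕ) (F : ℝ),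
    Real.sqrt Y / 2 ≤ w → (w : ℝ) ≤ Real.sqrt Y → (N : ℝ) ≤ c * Real.sqrt Y → Y ≤ J →
    (J : ℝ) ≤ 3 * Y → Y ^ (9 / 10 : ℝ) ≤ F →
    (Set.ncard {y : ℕ × ℕ | y ∈ BadStat Y w N J F ∧ Real.sqrt x < y.1 ∧
      (((y.1 - 1) * y.2 : ℕ) : ℝ) ≤ x} : ℝ) ≤
      x / Real.log x * Real.exp (-Y ^ (3 / 4 : ℝ)) := by
  obtain ⟨Y0, hY0, h⟩ := stat_bad_count c hc
  refine ⟨Y0, hY0, ?_⟩
  intro x Y hx3 hB hY hBY w N J F hw1 hw2 hN hYJ hJ hF
  apply ncard_le_of_tsum
  · have : 0 < Real.log x := Real.log_pos (by linarith)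
    positivity
  · exact h x Y hx3 hB hY hBY w N J F hw1 hw2 hN hYJ hJ hF

/-! ### Relation with `Coll.LGood` -/

lemma lgood_iff {Y : ℝ} {w N J : ℕ} {F : ℝ} {q d : ℕ} : Coll.LGood Y w N J F q d ↔
    ((((q - 1) * d).primeFactorsList.length : ℝ) ≤ 20 * Y ∧
    (alv w (q * rr d)).card ≤ N ∧ (alv w (rr ((q - 1) * d))).card ≤ N ∧
    (∀ p : ℕ, p.Prime → (w : ℝ) < yy p → ¬ p ^ 2 ∣ q * rr d) ∧
    (∀ p : ℕ, p.Prime → (w : ℝ) < yy p → ¬ p ^ 2 ∣ rr ((q - 1) * d))) ∧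
    StatOK w N J F (q * rr d) := by
  constructor
  · intro h
    exact ⟨⟨h.om, h.cardL, h.cardR, h.sqL, h.sqR⟩, h.stat⟩
  · rintro ⟨⟨h1, h2, h3, h4, h5⟩, h6⟩
    exact ⟨h1, h2, h3, h4, h5, h6⟩

end Crest.Agent.R020.LS
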