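import Mathlib

/-!
Row 20 (S0026, S0027), module G2 (helper826): the abstract Laplace sums `D(η) = ∑ w e^{-ηH}` and the
limit `∑ w (1 - T/B)_+^k → D(η)`.
-/

set_option autoImplicit false

open Filter Topology

namespace Crest.Agent.R020.Laplace

variable {V : Type*}

/-- `D(η) = ∑ w e^{-ηH}`. -/
noncomputable def D (w H : V → ℝ) (η : ℝ) : ℝ := ∑' v, w v * Real.exp (-(η * H v))

/-- The abstract data: nonnegative weights and heights with finite Laplace sums. -/
structure Data (w H : V → ℝ) : Prop where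
  w_nonneg : ∀ v, 0 ≤ w v
  H_nonneg : ∀ v, 0 ≤ H v
  summable : ∀ η, 0 < η → Summable fun v => w v * Real.exp (-(η * H v))
  pos : ∃ v, 0 < w v

/-! ### summability from a counting bound -/

theorem summable_of_count {w H : V → ℝ} (hw : ∀ v, 0 ≤ w v) (hH : ∀ v, 0 ≤ H v) (G : ℕ → ℝ)
    (hG : ∀ N : ℕ, ∀ s : Finset V, (∀ v ∈ s, H v < N + 1) → ∑ v ∈ s, w v ≤ G N)
    {η : ℝ} (hη : 0 ≤ η) (hs : Summable fun N : ℕ => Real.exp (-(η * N)) * G N) :
    Summable fun v => w v * Real.exp (-(η * H v)) := by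
  classical
  have hG0 : ∀ N, 0 ≤ G N := fun N => by simpa using hG N ∅ (by simp)
  refine summable_of_sum_le (c := ∑' N : ℕ, Real.exp (-(η * N)) * G N)
    (fun v => mul_nonneg (hw v) (Real.exp_pos _).le) fun s => ?_
  have h1 : ∑ v ∈ s, w v * Real.exp (-(η * H v))
      = ∑ N ∈ s.image (fun v => ⌊H v⌋₊), ∑ v ∈ s.filter (fun v => ⌊H v⌋₊ = N),
        w v * Real.exp (-(η * H v)) :=
    (Finset.sum_fiberwise_of_maps_to (fun v hv => Finset.mem_image_of_mem _ hv) _).symm
  rw [h1]
  have h2 : ∀ N ∈ s.image (fun v => ⌊H v⌋₊), ∑ v ∈ s.filter (fun v => ⌊H v⌋₊ = N),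
        w v * Real.exp (-(η * H v)) ≤ Real.exp (-(η * N)) * G N := by
    intro N _
    have h3 : ∀ v ∈ s.filter (fun v => ⌊H v⌋₊ = N), w v * Real.exp (-(η * H v))
        ≤ Real.exp (-(η * N)) * w v := by
      intro v hv
      rw [Finset.mem_filter] at hv
      have h4 : (N : ℝ) ≤ H v := by rw [← hv.2]; exact Nat.floor_le (hH v)
      rw [mul_comm]
      refine mul_le_mul_of_nonneg_right (Real.exp_le_exp.2 ?_) (hw v)
      have := mul_le_mul_of_nonneg_left h4 hη
      linarith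
    refine (Finset.sum_le_sum h3).trans ?_
    rw [← Finset.mul_sum]
    refine mul_le_mul_of_nonneg_left (hG N _ fun v hv => ?_) (Real.exp_pos _).le
    rw [Finset.mem_filter] at hv
    rw [← hv.2]
    exact Nat.lt_floor_add_one _
  refine (Finset.sum_le_sum h2).trans ?_
  exact hs.sum_le_tsum _ fun N _ => mul_nonneg (Real.exp_pos _).le (hG0 N)

theorem summable_exp_logsq {C η : ℝ} (hC : 0 ≤ C) (hη : 0 < η) :
    Summable fun N : ℕ => Real.exp (-(η * N)) * Real.exp (C * Real.log ((N : ℝ) + 3) ^ 2) := by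
  have h1 := (Real.isLittleO_pow_log_id_atTop (n := 2)).bound
    (show (0 : ℝ) < η / (2 * (C + 1)) by positivity)
  have h2 : Tendsto (fun N : ℕ => (N : ℝ) + 3) atTop atTop :=
    tendsto_atTop_add_const_right _ _ tendsto_natCast_atTop_atTop
  have h3 := h2.eventually h1
  have h4 : Summable fun N : ℕ => Real.exp (3 * η / 2) * Real.exp (-(η / 2)) ^ N :=
    (summable_geometric_of_lt_one (Real.exp_pos _).le
      (by rw [Real.exp_lt_one_iff]; linarith)).mul_left _
  refine Summable.of_norm_bounded_eventually_nat h4 ?_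
  filter_upwards [h3] with N hN
  rw [Real.norm_of_nonneg (by positivity), ← Real.exp_nat_mul, ← Real.exp_add, ← Real.exp_add,
    Real.exp_le_exp]
  have hN3 : (0 : ℝ) < (N : ℝ) + 3 := by positivity
  simp only [id, Real.norm_eq_abs, abs_of_pos hN3] at hN
  rw [abs_of_nonneg (sq_nonneg (Real.log ((N : ℝ) + 3)))] at hN
  have h5 : C * Real.log ((N : ℝ) + 3) ^ 2 ≤ (C + 1) * (η / (2 * (C + 1)) * ((N : ℝ) + 3)) :=
    (mul_le_mul_of_nonneg_right (by linarith) (sq_nonneg _)).trans
      (mul_le_mul_of_nonneg_left hN (by linarith))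
  have h6 : (C + 1) * (η / (2 * (C + 1)) * ((N : ℝ) + 3)) = η / 2 * ((N : ℝ) + 3) := by
    field_simp
  rw [h6] at h5
  linarith

/-- the form used in row 20: `∑_{H < N+1} w ≤ exp(C log²(N+3))`. -/
theorem Data.of_logsq {w H : V → ℝ} (hw : ∀ v, 0 ≤ w v) (hH : ∀ v, 0 ≤ H v) (hpos : ∃ v, 0 < w v)
    {C : ℝ} (hC : 0 ≤ C)
    (hG : ∀ N : ℕ, ∀ s : Finset V, (∀ v ∈ s, H v < N + 1) →
      ∑ v ∈ s, w v ≤ Real.exp (C * Real.log ((N : ℝ) + 3) ^ 2)) : Data w H :=
  ⟨hw, hH, fun _ hη => summable_of_count hw hH _ hG hη.le (summable_exp_logsq hC hη), hpos⟩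

section

variable {w H : V → ℝ} (hD : Data w H)

include hD

theorem Data.term_nonneg (η : ℝ) (v : V) : 0 ≤ w v * Real.exp (-(η * H v)) :=
  mul_nonneg (hD.w_nonneg v) (Real.exp_pos _).le

theorem Data.D_pos {η : ℝ} (hη : 0 < η) : 0 < D w H η := by
  obtain ⟨v, hv⟩ := hD.pos
  exact (hD.summable η hη).tsum_pos (hD.term_nonneg η) v (mul_pos hv (Real.exp_pos _))

theorem Data.D_anti {a b : ℝ} (ha : 0 < a) (hab : a ≤ b) : D w H b ≤ D w H a := by
  refine (hD.summable b (ha.trans_le hab)).tsum_le_tsum (fun v => ?_) (hD.summable a ha)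
  refine mul_le_mul_of_nonneg_left (Real.exp_le_exp.2 ?_) (hD.w_nonneg v)
  have := mul_le_mul_of_nonneg_right hab (hD.H_nonneg v)
  linarith

/-- `D` is log-convex (Hölder). -/
theorem Data.D_holder {a b s t : ℝ} (ha : 0 < a) (hb : 0 < b) (hs : 0 < s) (ht : 0 < t)
    (hst : s + t = 1) : D w H (s * a + t * b) ≤ D w H a ^ s * D w H b ^ t := by
  have hpq : (1 / s).HolderConjugate (1 / t) := by
    rw [Real.holderConjugate_iff]
    refine ⟨by rw [lt_div_iff₀ hs]; linarith, by simpa using hst⟩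
  have e : ∀ (c u : ℝ), 0 < u → ∀ v, ((w v * Real.exp (-(c * H v))) ^ u) ^ (1 / u)
      = w v * Real.exp (-(c * H v)) := fun c u hu v => by
    rw [← Real.rpow_mul (hD.term_nonneg c v), mul_one_div_cancel hu.ne', Real.rpow_one]
  have h1 := Real.inner_le_Lp_mul_Lq_tsum_of_nonneg hpq
    (f := fun v => (w v * Real.exp (-(a * H v))) ^ s)
    (g := fun v => (w v * Real.exp (-(b * H v))) ^ t)
    (fun v => Real.rpow_nonneg (hD.term_nonneg a v) _)
    (fun v => Real.rpow_nonneg (hD.term_nonneg b v) _)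
    (by simpa only [e a s hs] using hD.summable a ha)
    (by simpa only [e b t ht] using hD.summable b hb)
  simp only [e a s hs, e b t ht, one_div_one_div] at h1
  refine le_trans (le_of_eq ?_) h1
  refine tsum_congr fun v => ?_
  rw [Real.mul_rpow (hD.w_nonneg v) (Real.exp_pos _).le,
    Real.mul_rpow (hD.w_nonneg v) (Real.exp_pos _).le, ← Real.exp_mul, ← Real.exp_mul]
  have h2 : w v = w v ^ s * w v ^ t := by
    rcases (hD.w_nonneg v).eq_or_lt with h0 | h0
    · rw [← h0, Real.zero_rpow hs.ne', zero_mul]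
    · rw [← Real.rpow_add h0, hst, Real.rpow_one]
  calc w v * Real.exp (-((s * a + t * b) * H v))
      = (w v ^ s * w v ^ t) * (Real.exp (-(a * H v) * s) * Real.exp (-(b * H v) * t)) := by
        rw [← h2, ← Real.exp_add]
        congr 2
        ring
    _ = _ := by ring

theorem Data.convexOn_log : ConvexOn ℝ (Set.Ioi 0) fun η => Real.log (D w H η) := by
  refine ⟨convex_Ioi 0, fun a ha b hb s t hs ht hst => ?_⟩
  rw [Set.mem_Ioi] at ha hb
  rcases hs.eq_or_lt with h0 | hs0
  · subst h0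
    have : t = 1 := by linarith
    subst this
    simp
  rcases ht.eq_or_lt with h0 | ht0
  · subst h0
    have : s = 1 := by linarith
    subst this
    simp
  have h1 := hD.D_holder ha hb hs0 ht0 hst
  have h2 : 0 < D w H (s * a + t * b) := hD.D_pos (by positivity)
  have h3 := Real.log_le_log h2 h1
  rw [Real.log_mul (Real.rpow_pos_of_pos (hD.D_pos ha) _).ne'
    (Real.rpow_pos_of_pos (hD.D_pos hb) _).ne', Real.log_rpow (hD.D_pos ha),
    Real.log_rpow (hD.D_pos hb)] at h3
  simpa [smul_eq_mul] using h3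

/-- comparison of the decrement `log D(η) - log D((1+δ)η)` at two scales. -/
theorem Data.decr_mono {δ η η' : ℝ} (hδ : 0 < δ) (hη : 0 < η) (h : η ≤ η') :
    (Real.log (D w H η') - Real.log (D w H ((1 + δ) * η'))) * η
      ≤ (Real.log (D w H η) - Real.log (D w H ((1 + δ) * η))) * η' := by
  have hη' : 0 < η' := hη.trans_le h
  have hc := hD.convexOn_log
  have m : ∀ x : ℝ, 0 < x → x ∈ Set.Ioi (0 : ℝ) := fun x hx => hx
  have e1 : η < (1 + δ) * η := by nlinarith
  have e2 : η' < (1 + δ) * η' := by nlinarith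
  have h1 := hc.secant_mono (m η hη) (m _ (hη.trans e1))
    (m _ (hη'.trans e2)) e1.ne' (h.trans_lt e2).ne' (mul_le_mul_of_nonneg_left h (by linarith))
  have h2 := hc.secant_mono (m _ (hη'.trans e2)) (m η hη) (m η' hη') (h.trans_lt e2).ne e2.ne h
  have e3 : (Real.log (D w H η) - Real.log (D w H ((1 + δ) * η'))) / (η - (1 + δ) * η')
      = (Real.log (D w H ((1 + δ) * η')) - Real.log (D w H η)) / ((1 + δ) * η' - η) := by
    rw [← neg_sub, ← neg_sub ((1 + δ) * η') η, neg_div_neg_eq]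
  have h3 := (h1.trans_eq e3.symm).trans h2
  have e4 : (1 + δ) * η - η = δ * η := by ring
  have e5 : η' - (1 + δ) * η' = -(δ * η') := by ring
  rw [e4, e5, div_neg, ← neg_div, neg_sub] at h3
  have p1 : 0 < δ * η := by positivity
  have p2 : 0 < δ * η' := by positivity
  rw [div_le_div_iff₀ p1 p2] at h3
  have h4 : δ * ((Real.log (D w H η') - Real.log (D w H ((1 + δ) * η'))) * η)
      ≤ δ * ((Real.log (D w H η) - Real.log (D w H ((1 + δ) * η))) * η') := by
    nlinarith [h3]
  exact le_of_mul_le_mul_left h4 hδ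

/-- **One good period.** If `D` grows faster than every power of `1/η`, then for all `δ, ε > 0` there
are arbitrarily large `r` such that `D((1+δ)η) ≤ ε D(η)` on the whole period `[Z ρ^{r+1}, Z ρ^r]`. -/
theorem Data.exists_good_period {ρ δ ε Z : ℝ} (hρ0 : 0 < ρ) (hρ1 : ρ < 1) (hδ : 0 < δ)
    (hε : 0 < ε) (hZ : 0 < Z)
    (hgrow : ∀ K : ℕ, ∃ c : ℝ, 0 < c ∧ ∀ η, 0 < η → η ≤ 1 → c * (1 / η) ^ K ≤ D w H η) (R : ℕ) :
    ∃ r, R ≤ r ∧ ∀ η, Z * ρ ^ (r + 1) ≤ η → η ≤ Z * ρ ^ r → D w H ((1 + δ) * η) ≤ ε * D w H η := by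
  by_contra hcon
  push Not at hcon
  set L : ℝ := Real.log (1 / ε) with hL
  -- decrement bound at the bad points
  have hbad : ∀ r, R ≤ r → ∃ η, Z * ρ ^ (r + 1) ≤ η ∧ η ≤ Z * ρ ^ r ∧
      Real.log (D w H η) - Real.log (D w H ((1 + δ) * η)) ≤ max L 0 := by
    intro r hr
    obtain ⟨η, h1, h2, h3⟩ := hcon r hr
    have hη : 0 < η := lt_of_lt_of_le (by positivity) h1
    refine ⟨η, h1, h2, le_trans ?_ (le_max_left _ _)⟩
    have h4 : Real.log (ε * D w H η) ≤ Real.log (D w H ((1 + δ) * η)) :=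
      Real.log_le_log (mul_pos hε (hD.D_pos hη)) h3.le
    rw [Real.log_mul hε.ne' (hD.D_pos hη).ne'] at h4
    rw [hL, one_div, Real.log_inv]
    linarith
  set M : ℝ := max L 0 / ρ ^ 2 with hM
  have hM0 : 0 ≤ M := div_nonneg (le_max_right _ _) (by positivity)
  -- decrement bound at all small scales
  have hall : ∀ η, 0 < η → η ≤ Z * ρ ^ R →
      Real.log (D w H η) - Real.log (D w H ((1 + δ) * η)) ≤ M := by
    intro η hη hηR
    -- choose r with Z ρ^(r+1) < η ≤ Z ρ^r, r ≥ R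
    have hex : ∃ n : ℕ, Z * ρ ^ n < η := by
      obtain ⟨n, hn⟩ := exists_pow_lt_of_lt_one (div_pos hη hZ) hρ1
      exact ⟨n, by rwa [lt_div_iff₀ hZ, mul_comm] at hn⟩
    classical
    set n := Nat.find hex with hn
    have hn1 : Z * ρ ^ n < η := Nat.find_spec hex
    have hnR : R < n := by
      by_contra hc
      push Not at hc
      have h5 : Z * ρ ^ R ≤ Z * ρ ^ n :=
        mul_le_mul_of_nonneg_left (pow_le_pow_of_le_one hρ0.le hρ1.le hc) hZ.le
      linarith
    have hn2 : η ≤ Z * ρ ^ (n - 1) := by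
      by_contra hc
      push Not at hc
      have := Nat.find_min' hex hc
      omega
    obtain ⟨η', h1, h2, h3⟩ := hbad n hnR.le
    have hη' : 0 < η' := lt_of_lt_of_le (by positivity) h1
    have h4 := hD.decr_mono (η := η') (η' := η) hδ hη' (h2.trans hn1.le)
    have h5 : η * ρ ^ 2 ≤ η' := by
      refine le_trans ?_ h1
      have h6 : ρ ^ (n + 1) = ρ ^ (n - 1) * ρ ^ 2 := by
        rw [← pow_add]; congr 1; omega
      rw [h6, ← mul_assoc]
      exact mul_le_mul_of_nonneg_right hn2 (by positivity)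
    have h7 : (Real.log (D w H η) - Real.log (D w H ((1 + δ) * η))) * η' ≤ max L 0 * η :=
      h4.trans (mul_le_mul_of_nonneg_right h3 hη.le)
    have h8 : max L 0 * η ≤ M * η' := by
      rw [hM, div_mul_eq_mul_div, le_div_iff₀ (by positivity), mul_assoc]
      exact mul_le_mul_of_nonneg_left h5 (le_max_right _ _)
    exact le_of_mul_le_mul_right (h7.trans h8) hη'
  -- iterate
  set η₀ : ℝ := min 1 (Z * ρ ^ R) with hη₀
  have hη₀pos : 0 < η₀ := lt_min one_pos (by positivity)
  have hδ1 : (0 : ℝ) < 1 + δ := by linarith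
  have hiter : ∀ n : ℕ, Real.log (D w H (η₀ / (1 + δ) ^ n)) ≤ Real.log (D w H η₀) + n * M := by
    intro n
    induction n with
    | zero => simp
    | succ n ih =>
      have h1 : 0 < η₀ / (1 + δ) ^ (n + 1) := by positivity
      have h2 : η₀ / (1 + δ) ^ (n + 1) ≤ Z * ρ ^ R := by
        refine le_trans (div_le_self hη₀pos.le ?_) (min_le_right _ _)
        exact one_le_pow₀ (by linarith)
      have h3 := hall _ h1 h2
      have h4 : (1 + δ) * (η₀ / (1 + δ) ^ (n + 1)) = η₀ / (1 + δ) ^ n := by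
        rw [pow_succ]; field_simp
      rw [h4] at h3
      push_cast
      linarith
  have hlog : 0 < Real.log (1 + δ) := Real.log_pos (by linarith)
  obtain ⟨K, hK⟩ := exists_nat_gt (M / Real.log (1 + δ))
  rw [div_lt_iff₀ hlog] at hK
  obtain ⟨c, hc, hcD⟩ := hgrow K
  have hlow : ∀ n : ℕ, Real.log c + K * (n * Real.log (1 + δ) - Real.log η₀)
      ≤ Real.log (D w H (η₀ / (1 + δ) ^ n)) := by
    intro n
    have h1 : 0 < η₀ / (1 + δ) ^ n := by positivity
    have h2 : η₀ / (1 + δ) ^ n ≤ 1 :=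
      le_trans (div_le_self hη₀pos.le (one_le_pow₀ (by linarith))) (min_le_left _ _)
    have h3 := Real.log_le_log (by positivity) (hcD _ h1 h2)
    rw [Real.log_mul hc.ne' (by positivity), Real.log_pow, one_div, Real.log_inv,
      Real.log_div hη₀pos.ne' (by positivity), Real.log_pow] at h3
    linarith
  -- contradiction for large n
  have hgap : 0 < K * Real.log (1 + δ) - M := by linarith
  obtain ⟨n, hn⟩ := exists_nat_gt
    ((Real.log (D w H η₀) - Real.log c + K * Real.log η₀) / (K * Real.log (1 + δ) - M))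
  rw [div_lt_iff₀ hgap] at hn
  have h1 := hiter n
  have h2 := hlow n
  nlinarith

end

end Crest.Agent.R020.Laplace
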