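import Crest.Agent.R020.Laplace

/-!
Row 20 (S0026, S0027), module G2 (helper826): the Laplace limit
`∑ w (1 - T/B)_+^k - D(η) → 0`.
-/

set_option autoImplicit false

open Filter Topology

namespace Crest.Agent.R020.Laplace

/-- `(1-y)_+^k ≤ e^{-ky}` -/
theorem pos_pow_le_exp (y : ℝ) (k : ℕ) : (max 0 (1 - y)) ^ k ≤ Real.exp (-(k * y)) := by
  have h1 : max 0 (1 - y) ≤ Real.exp (-y) := by
    refine max_le (Real.exp_pos _).le ?_
    have := Real.add_one_le_exp (-y)
    linarith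
  calc (max 0 (1 - y)) ^ k ≤ (Real.exp (-y)) ^ k := pow_le_pow_left₀ (le_max_left _ _) h1 k
    _ = Real.exp (-(k * y)) := by rw [← Real.exp_nat_mul]; ring_nf

/-- `e^{-ky} (1 - k y²) ≤ (1-y)_+^k` for `0 ≤ y ≤ 1`. -/
theorem exp_mul_le_pos_pow {y : ℝ} (hy0 : 0 ≤ y) (hy1 : y ≤ 1) (k : ℕ) :
    Real.exp (-(k * y)) * (1 - k * y ^ 2) ≤ (max 0 (1 - y)) ^ k := by
  rw [max_eq_right (by linarith)]
  have h1 : 1 - y ^ 2 ≤ (1 - y) * Real.exp y := by
    have h2 := Real.add_one_le_exp y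
    nlinarith [mul_le_mul_of_nonneg_left h2 (show (0 : ℝ) ≤ 1 - y by linarith)]
  have h2 : 1 - (k : ℝ) * y ^ 2 ≤ (1 - y ^ 2) ^ k := by
    have h3 := one_add_mul_le_pow (show (-2 : ℝ) ≤ -(y ^ 2) by nlinarith) k
    have e1 : (1 : ℝ) + -(y ^ 2) = 1 - y ^ 2 := by ring
    rw [e1] at h3
    linarith
  have h3 : (1 - y ^ 2) ^ k ≤ ((1 - y) * Real.exp y) ^ k :=
    pow_le_pow_left₀ (by nlinarith) h1 k
  rw [mul_pow, ← Real.exp_nat_mul] at h3
  have h4 : 1 - (k : ℝ) * y ^ 2 ≤ (1 - y) ^ k * Real.exp (k * y) := h2.trans h3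
  calc Real.exp (-(k * y)) * (1 - k * y ^ 2)
      ≤ Real.exp (-(k * y)) * ((1 - y) ^ k * Real.exp (k * y)) :=
        mul_le_mul_of_nonneg_left h4 (Real.exp_pos _).le
    _ = (1 - y) ^ k * (Real.exp (-(k * y)) * Real.exp (k * y)) := by ring
    _ = (1 - y) ^ k := by rw [← Real.exp_add]; simp

variable {ι : Type*} {l : Filter ι}

/-- pointwise limit: if `k y - x → 0` with `x` bounded, `k → ∞`, then `(1-y)_+^k - e^{-x} → 0`. -/
theorem tendsto_pos_pow_sub {k : ι → ℕ} {y x : ι → ℝ} (hk : Tendsto k l atTop)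
    (hy : ∀ᶠ i in l, 0 ≤ y i) {X : ℝ} (hx0 : ∀ᶠ i in l, 0 ≤ x i) (hx : ∀ᶠ i in l, x i ≤ X)
    (hxy : Tendsto (fun i => (k i : ℝ) * y i - x i) l (𝓝 0)) :
    Tendsto (fun i => (max 0 (1 - y i)) ^ k i - Real.exp (-x i)) l (𝓝 0) := by
  have hkR : Tendsto (fun i => (k i : ℝ)) l atTop := tendsto_natCast_atTop_atTop.comp hk
  -- e^{-ky} - e^{-x} → 0
  have h1 : Tendsto (fun i => Real.exp (-(k i * y i)) - Real.exp (-x i)) l (𝓝 0) := by
    have h2 : Tendsto (fun i => Real.exp (-(k i * y i - x i)) - 1) l (𝓝 0) := by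
      have h3 := (Real.continuous_exp.tendsto 0).comp (by simpa using hxy.neg)
      have h4 : Tendsto (fun i => Real.exp (-(k i * y i - x i))) l (𝓝 1) := by
        simpa [Function.comp_def] using h3
      simpa using h4.sub_const 1
    refine squeeze_zero_norm' ?_ (tendsto_zero_iff_norm_tendsto_zero.1 h2)
    filter_upwards [hx0] with i hi
    have e : Real.exp (-(k i * y i)) - Real.exp (-x i)
        = Real.exp (-x i) * (Real.exp (-(k i * y i - x i)) - 1) := by
      rw [mul_sub, ← Real.exp_add, mul_one]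
      congr 2
      ring
    rw [e, norm_mul, Real.norm_of_nonneg (Real.exp_pos _).le]
    exact mul_le_of_le_one_left (norm_nonneg _) (by rw [Real.exp_le_one_iff]; linarith)
  -- (1-y)_+^k - e^{-ky} → 0
  have h2 : Tendsto (fun i => (max 0 (1 - y i)) ^ k i - Real.exp (-(k i * y i))) l (𝓝 0) := by
    have hb : ∀ᶠ i in l, (k i : ℝ) * y i ≤ X + 1 := by
      filter_upwards [hx, hxy.eventually (gt_mem_nhds one_pos)] with i h3 h4
      linarith
    have h5 : Tendsto (fun i => (X + 1) ^ 2 / (k i : ℝ)) l (𝓝 0) :=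
      tendsto_const_nhds.div_atTop hkR
    refine squeeze_zero_norm' ?_ h5
    filter_upwards [hb, hy, hkR.eventually_gt_atTop 0, hkR.eventually_ge_atTop (X + 1)]
      with i h6 h7 h8 h9
    have hy1 : y i ≤ 1 := by
      have : (k i : ℝ) * y i ≤ k i * 1 := by linarith
      exact le_of_mul_le_mul_left this h8
    have h10 := pos_pow_le_exp (y i) (k i)
    have h11 := exp_mul_le_pos_pow h7 hy1 (k i)
    have h12 : (k i : ℝ) * y i ^ 2 ≤ (X + 1) ^ 2 / k i := by
      rw [le_div_iff₀ h8]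
      have : ((k i : ℝ) * y i) ^ 2 ≤ (X + 1) ^ 2 :=
        pow_le_pow_left₀ (mul_nonneg h8.le h7) h6 2
      nlinarith
    have h13 : Real.exp (-(k i * y i)) ≤ 1 := by
      rw [Real.exp_le_one_iff]
      have := mul_nonneg h8.le h7
      linarith
    have h14 : 0 ≤ (k i : ℝ) * y i ^ 2 := by positivity
    rw [Real.norm_eq_abs, abs_le]
    constructor
    · have h15 : Real.exp (-(k i * y i)) * (k i * y i ^ 2) ≤ k i * y i ^ 2 :=
        mul_le_of_le_one_left h14 h13
      nlinarith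
    · have : 0 ≤ (X + 1) ^ 2 / (k i : ℝ) := by positivity
      linarith
  have h3 := h2.add h1
  rw [add_zero] at h3
  exact h3.congr fun i => by ring

variable {V : Type*} {w H : V → ℝ}

/-- **The Laplace limit.** -/
theorem Data.tendsto_laplace (hD : Data w H) {k : ι → ℕ} {B κ ε η : ι → ℝ} {T : ι → V → ℝ}
    {η₀ η₁ : ℝ} [l.IsCountablyGenerated]
    (hη₀ : 0 < η₀) (hk : Tendsto k l atTop) (hB : ∀ᶠ i in l, 0 < B i)
    (hκ : ∀ᶠ i in l, 0 ≤ κ i) (hε : Tendsto ε l (𝓝 0))
    (hη : ∀ᶠ i in l, η₀ ≤ η i ∧ η i ≤ η₁)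
    (hT : ∀ᶠ i in l, ∀ v, |T i v - κ i * H v| ≤ ε i * (κ i * H v))
    (hlim : Tendsto (fun i => (k i : ℝ) * κ i / B i - η i) l (𝓝 0)) :
    Tendsto (fun i => ∑' v, w v * (max 0 (1 - T i v / B i)) ^ k i - D w H (η i)) l (𝓝 0) := by
  have hkR : Tendsto (fun i => (k i : ℝ)) l atTop := tendsto_natCast_atTop_atTop.comp hk
  -- eventually `ε ≤ 1/4` etc.
  have hε1 : ∀ᶠ i in l, ε i ≤ 1 / 4 := hε.eventually_le_const (by norm_num)
  have hlow : ∀ᶠ i in l, 3 / 4 * η₀ ≤ (k i : ℝ) * κ i / B i := by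
    have := hlim.eventually (lt_mem_nhds (show -(η₀ / 4) < 0 by linarith))
    filter_upwards [this, hη] with i h1 h2
    linarith
  -- domination of the terms
  have hterm : ∀ᶠ i in l, ∀ v, η₀ / 2 * H v ≤ (k i : ℝ) * (T i v / B i) := by
    filter_upwards [hε1, hlow, hT, hB, hκ] with i h1 h2 h3 h4 h5 v
    have hH := hD.H_nonneg v
    have h6 := (abs_le.1 (h3 v)).1
    have h7 : (3 / 4) * (κ i * H v) ≤ T i v := by
      have : ε i * (κ i * H v) ≤ 1 / 4 * (κ i * H v) :=
        mul_le_mul_of_nonneg_right h1 (mul_nonneg h5 hH)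
      linarith
    have h8 : (3 / 4) * ((k i : ℝ) * κ i / B i * H v) ≤ (k i : ℝ) * (T i v / B i) := by
      have h9 : (k i : ℝ) * ((3 / 4) * (κ i * H v) / B i) ≤ (k i : ℝ) * (T i v / B i) :=
        mul_le_mul_of_nonneg_left (div_le_div_of_nonneg_right h7 h4.le) (Nat.cast_nonneg _)
      refine le_trans (le_of_eq ?_) h9
      ring
    have h9 : 3 / 4 * η₀ * H v ≤ (k i : ℝ) * κ i / B i * H v :=
      mul_le_mul_of_nonneg_right h2 hH
    nlinarith
  have hbound : ∀ᶠ i in l, ∀ v, ‖w v * ((max 0 (1 - T i v / B i)) ^ k i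
      - Real.exp (-(η i * H v)))‖ ≤ 2 * (w v * Real.exp (-(η₀ / 2 * H v))) := by
    filter_upwards [hterm, hη] with i h1 h2 v
    have hH := hD.H_nonneg v
    have hw := hD.w_nonneg v
    have h3 : (max 0 (1 - T i v / B i)) ^ k i ≤ Real.exp (-(η₀ / 2 * H v)) :=
      (pos_pow_le_exp _ _).trans (Real.exp_le_exp.2 (neg_le_neg (h1 v)))
    have h4 : Real.exp (-(η i * H v)) ≤ Real.exp (-(η₀ / 2 * H v)) := by
      refine Real.exp_le_exp.2 (neg_le_neg (mul_le_mul_of_nonneg_right ?_ hH))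
      linarith [h2.1]
    have h5 : 0 ≤ (max 0 (1 - T i v / B i)) ^ k i := pow_nonneg (le_max_left _ _) _
    have h6 := (Real.exp_pos (-(η i * H v))).le
    rw [norm_mul, Real.norm_of_nonneg hw, Real.norm_eq_abs]
    have h7 : |(max 0 (1 - T i v / B i)) ^ k i - Real.exp (-(η i * H v))|
        ≤ 2 * Real.exp (-(η₀ / 2 * H v)) := by
      rw [abs_le]; constructor <;> linarith [(Real.exp_pos (-(η₀ / 2 * H v))).le]
    nlinarith [mul_le_mul_of_nonneg_left h7 hw]
  have hmain : Tendsto (fun i => ∑' v, w v * ((max 0 (1 - T i v / B i)) ^ k i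
      - Real.exp (-(η i * H v)))) l (𝓝 (∑' _ : V, (0 : ℝ))) := by
    refine tendsto_tsum_of_dominated_convergence (bound := fun v =>
      2 * (w v * Real.exp (-(η₀ / 2 * H v)))) ((hD.summable _ (by positivity)).mul_left 2)
      (fun v => ?_) hbound
    have hH := hD.H_nonneg v
    suffices hs : Tendsto (fun i => (max 0 (1 - T i v / B i)) ^ k i
        - Real.exp (-(η i * H v))) l (𝓝 0) by
      simpa using hs.const_mul (w v)
    refine tendsto_pos_pow_sub (X := η₁ * H v) hk ?_ ?_ ?_ ?_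
    · filter_upwards [hterm, hkR.eventually_gt_atTop 0] with i h1 h2
      have h3 : 0 ≤ (k i : ℝ) * (T i v / B i) := le_trans (by positivity) (h1 v)
      exact nonneg_of_mul_nonneg_right h3 h2
    · filter_upwards [hη] with i h1
      exact mul_nonneg (hη₀.le.trans h1.1) hH
    · filter_upwards [hη] with i h1
      exact mul_le_mul_of_nonneg_right h1.2 hH
    · -- k T / B - η H → 0
      have h1 : Tendsto (fun i => ((k i : ℝ) * κ i / B i - η i) * H v) l (𝓝 0) := by
        simpa using hlim.mul_const (H v)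
      have h2 : Tendsto (fun i => |ε i| * ((|η₁| + 1) * H v)) l (𝓝 0) := by
        simpa using (hε.abs.mul_const ((|η₁| + 1) * H v))
      have h3 : Tendsto (fun i => (k i : ℝ) * (T i v / B i) - (k i : ℝ) * κ i / B i * H v) l
          (𝓝 0) := by
        refine squeeze_zero_norm' ?_ h2
        filter_upwards [hT, hB, hκ, hη, hlim.eventually (gt_mem_nhds one_pos)] with
          i a1 a2 a3 a4 a5
        have e : (k i : ℝ) * (T i v / B i) - (k i : ℝ) * κ i / B i * H v
            = (k i : ℝ) / B i * (T i v - κ i * H v) := by ring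
        rw [e, norm_mul, Real.norm_of_nonneg (div_nonneg (Nat.cast_nonneg _) a2.le),
          Real.norm_eq_abs]
        have b1 : |T i v - κ i * H v| ≤ |ε i| * (κ i * H v) :=
          (a1 v).trans (mul_le_mul_of_nonneg_right (le_abs_self _) (mul_nonneg a3 hH))
        have b2 : (k i : ℝ) / B i * |T i v - κ i * H v|
            ≤ (k i : ℝ) / B i * (|ε i| * (κ i * H v)) :=
          mul_le_mul_of_nonneg_left b1 (div_nonneg (Nat.cast_nonneg _) a2.le)
        have b3 : (k i : ℝ) * κ i / B i ≤ |η₁| + 1 := by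
          have := le_abs_self η₁
          linarith [a4.2]
        calc (k i : ℝ) / B i * |T i v - κ i * H v|
            ≤ (k i : ℝ) / B i * (|ε i| * (κ i * H v)) := b2
          _ = |ε i| * (((k i : ℝ) * κ i / B i) * H v) := by ring
          _ ≤ |ε i| * ((|η₁| + 1) * H v) :=
            mul_le_mul_of_nonneg_left (mul_le_mul_of_nonneg_right b3 hH) (abs_nonneg _)
      have h4 := h3.add h1
      rw [add_zero] at h4
      exact h4.congr fun i => by ring
  rw [tsum_zero] at hmain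
  refine hmain.congr' ?_
  filter_upwards [hterm, hη] with i h1 h2
  have s1 : Summable fun v => w v * Real.exp (-(η i * H v)) :=
    hD.summable _ (hη₀.trans_le h2.1)
  have s2 : Summable fun v => w v * (max 0 (1 - T i v / B i)) ^ k i := by
    refine Summable.of_nonneg_of_le
      (fun v => mul_nonneg (hD.w_nonneg v) (pow_nonneg (le_max_left _ _) _)) (fun v => ?_)
      (hD.summable (η₀ / 2) (by positivity))
    exact mul_le_mul_of_nonneg_left ((pos_pow_le_exp _ _).trans
      (Real.exp_le_exp.2 (neg_le_neg (h1 v)))) (hD.w_nonneg v)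
  rw [D, ← s2.tsum_sub s1]
  exact tsum_congr fun v => by ring

end Crest.Agent.R020.Laplace
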