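import Mathlib
import Crest.Agent.R020.Abn5

/-!
# Chernoff bounds over tuples of primes, for completely additive statistics of the shifted primes

`St ℓ n` is the completely additive function with values `ℓ p` at the primes. For a family of unit
windows `[u a, u a + 1]` of the `loglog` scale we bound the weight `∑ ∏ 1/(q_a - 1)` of the tuples
of primes `q_a` in the windows for which `∑_a St ℓ (q_a - 1)` deviates from
`∑_a M ℓ (u a)`, `M ℓ u = ∑_{yy p ≤ u} ℓ p / p`.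
-/

set_option autoImplicit false

open Finset Filter
open scoped ENNReal

namespace Crest.Agent.R020.LS

/-- completely additive statistic -/
noncomputable def St (ℓ : ℕ → ℝ) (n : ℕ) : ℝ := (n.primeFactorsList.map ℓ).sum

lemma St_one (ℓ : ℕ → ℝ) : St ℓ 1 = 0 := by simp [St]

lemma St_mul (ℓ : ℕ → ℝ) {m n : ℕ} (hm : m ≠ 0) (hn : n ≠ 0) : St ℓ (m * n) = St ℓ m + St ℓ n := by
  unfold St
  rw [((Nat.perm_primeFactorsList_mul hm hn).map ℓ).sum_eq, List.map_append, List.sum_append]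

lemma St_prime (ℓ : ℕ → ℝ) {p : ℕ} (hp : p.Prime) : St ℓ p = ℓ p := by
  simp [St, Nat.primeFactorsList_prime hp]

lemma St_nonneg {ℓ : ℕ → ℝ} (h : ∀ p : ℕ, p.Prime → 0 ≤ ℓ p) (n : ℕ) : 0 ≤ St ℓ n := by
  unfold St
  refine List.sum_nonneg fun x hx => ?_
  rw [List.mem_map] at hx
  obtain ⟨p, hp, rfl⟩ := hx
  exact h p (Nat.prime_of_mem_primeFactorsList hp)

/-- the exponential of an additive statistic is a completely multiplicative weight -/
lemma cm_exp (ℓ : ℕ → ℝ) (n : ℕ) :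
    cm (fun p => ENNReal.ofReal (Real.exp (ℓ p))) n = ENNReal.ofReal (Real.exp (St ℓ n)) := by
  unfold cm St
  induction n.primeFactorsList with
  | nil => simp
  | cons p l ih =>
    rw [List.map_cons, List.prod_cons, List.map_cons, List.sum_cons, ih, Real.exp_add,
      ENNReal.ofReal_mul (Real.exp_pos _).le]

/-- tuples of primes in the given unit windows -/
def Tup {ι : Type*} (u : ι → ℝ) : Set (ι → ℕ) :=
  {q | ∀ a, (q a).Prime ∧ u a ≤ yy (q a) ∧ yy (q a) ≤ u a + 1}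

/-- the mean of the statistic on the window at `u` -/
noncomputable def M (ℓ : ℕ → ℝ) (u : ℝ) : ℝ := ∑ p ∈ PL u, ℓ p / p

lemma sum_PL_inv_le {u : ℝ} (hu : 0 ≤ u) : ∑ p ∈ PL u, (1 : ℝ) / p ≤ u + 27 := by
  have h2 : (2 : ℝ) ≤ Real.exp (Real.exp u) := by
    have h1 : (1 : ℝ) ≤ Real.exp u := Real.one_le_exp hu
    have h3 := Real.add_one_le_exp (Real.exp u)
    linarith
  have := sum_inv_primes_le (Real.exp (Real.exp u)) h2
  rwa [Real.log_exp, Real.log_exp] at this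

/-- the product form of the twisted sums -/
theorem tuple_sum_le : ∃ C : ℝ, 0 < C ∧ ∀ {ι : Type} [Fintype ι] (ℓ : ℕ → ℝ)
    (_ : ∀ p : ℕ, p.Prime → ℓ p ≤ 2 / 5) (u : ι → ℝ) (_ : ∀ a, 0 ≤ u a),
    ∑' q : ι → ℕ, (Tup u).indicator
      (fun q => ENNReal.ofReal (Real.exp (∑ a, St ℓ (q a - 1))) *
        ∏ a, ((q a - 1 : ℕ) : ℝ≥0∞)⁻¹) q ≤
      ENNReal.ofReal (∏ a, (C * (1 + u a) ^ 2 * Real.exp (-(u a)) *
        Real.exp (∑ p ∈ PL (u a), Real.exp (ℓ p) / p))) := by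
  obtain ⟨C, hC, hTS⟩ := twisted_cm_le
  refine ⟨C, hC, fun {ι} _ ℓ hℓ u hu => ?_⟩
  have hexp : Real.exp (2 / 5) ≤ 3 / 2 := by
    have h1 : Real.exp (2 / 5) ^ 5 = Real.exp 1 ^ 2 := by
      rw [← Real.exp_nat_mul, ← Real.exp_nat_mul]; norm_num
    have h2 := Real.exp_one_lt_d9
    have h3 : Real.exp 1 ^ 2 < 7.4 := by
      have := Real.exp_pos 1
      nlinarith
    by_contra hcon
    push Not at hcon
    have h4 : (3 / 2 : ℝ) ^ 5 < Real.exp (2 / 5) ^ 5 :=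
      pow_lt_pow_left₀ hcon (by norm_num) (by norm_num)
    rw [h1] at h4
    have h5 : (3 / 2 : ℝ) ^ 5 = 7.59375 := by norm_num
    rw [h5] at h4
    linarith
  set h : ℕ → ℝ≥0∞ := fun p => ENNReal.ofReal (Real.exp (ℓ p)) with hh
  have hh2 : ∀ p : ℕ, p.Prime → h p ≤ ENNReal.ofReal (3 / 2) := fun p hp =>
    ENNReal.ofReal_le_ofReal ((Real.exp_le_exp.mpr (hℓ p hp)).trans hexp)
  calc ∑' q : ι → ℕ, (Tup u).indicator
          (fun q => ENNReal.ofReal (Real.exp (∑ a, St ℓ (q a - 1))) *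
            ∏ a, ((q a - 1 : ℕ) : ℝ≥0∞)⁻¹) q
      = ∑' q : ι → ℕ, ∏ a, {n : ℕ | n.Prime ∧ u a ≤ yy n ∧ yy n ≤ u a + 1}.indicator
          (fun n => cm h (n - 1) * ((n - 1 : ℕ) : ℝ≥0∞)⁻¹) (q a) := by
        refine tsum_congr fun q => ?_
        by_cases hq : q ∈ Tup u
        · rw [Set.indicator_of_mem hq, Real.exp_sum, ENNReal.ofReal_prod_of_nonneg
            (fun _ _ => (Real.exp_pos _).le), ← Finset.prod_mul_distrib]
          refine Finset.prod_congr rfl fun a _ => ?_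
          rw [Set.indicator_of_mem (by exact hq a), cm_exp]
        · rw [Set.indicator_of_notMem hq]
          have : ∃ a, ¬ ((q a).Prime ∧ u a ≤ yy (q a) ∧ yy (q a) ≤ u a + 1) := by
            by_contra hcon
            push Not at hcon
            exact hq fun a => hcon a
          obtain ⟨a, ha⟩ := this
          symm
          refine Finset.prod_eq_zero (Finset.mem_univ a) ?_
          rw [Set.indicator_of_notMem (by exact ha)]
    _ ≤ ∏ a, ∑' n : ℕ, {n : ℕ | n.Prime ∧ u a ≤ yy n ∧ yy n ≤ u a + 1}.indicator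
          (fun n => cm h (n - 1) * ((n - 1 : ℕ) : ℝ≥0∞)⁻¹) n := Coll.tsum_prod_le _
    _ ≤ ∏ a, ENNReal.ofReal (C * (1 + u a) ^ 2 * Real.exp (-(u a)) *
          Real.exp (∑ p ∈ PL (u a), (h p).toReal / p)) :=
        Finset.prod_le_prod' fun a _ => hTS h hh2 (u a) (hu a)
    _ = _ := by
        rw [ENNReal.ofReal_prod_of_nonneg (fun a _ => by positivity)]
        refine Finset.prod_congr rfl fun a _ => ?_
        congr 3
        refine Finset.sum_congr rfl fun p _ => ?_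
        rw [hh]
        simp only
        rw [ENNReal.toReal_ofReal (Real.exp_pos _).le]

/-- Markov's inequality for tuples. -/
theorem tuple_markov : ∃ C : ℝ, 0 < C ∧ ∀ {ι : Type} [Fintype ι] (ℓ : ℕ → ℝ)
    (_ : ∀ p : ℕ, p.Prime → ℓ p ≤ 2 / 5) (u : ι → ℝ) (_ : ∀ a, 0 ≤ u a) (X : ℝ),
    ∑' q : ι → ℕ, {q | q ∈ Tup u ∧ X ≤ ∑ a, St ℓ (q a - 1)}.indicator
      (fun q => ∏ a, ((q a - 1 : ℕ) : ℝ≥0∞)⁻¹) q ≤
      ENNReal.ofReal (Real.exp (-X) * ∏ a, (C * (1 + u a) ^ 2 * Real.exp (-(u a)) *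
        Real.exp (∑ p ∈ PL (u a), Real.exp (ℓ p) / p))) := by
  obtain ⟨C, hC, hT⟩ := tuple_sum_le
  refine ⟨C, hC, fun {ι} _ ℓ hℓ u hu X => ?_⟩
  rw [ENNReal.ofReal_mul (Real.exp_pos _).le]
  refine le_trans ?_ (mul_le_mul_right (hT ℓ hℓ u hu) _)
  rw [← ENNReal.tsum_mul_left]
  refine ENNReal.tsum_le_tsum fun q => ?_
  by_cases hq : q ∈ Tup u ∧ X ≤ ∑ a, St ℓ (q a - 1)
  · rw [Set.indicator_of_mem (by exact hq), Set.indicator_of_mem hq.1, ← mul_assoc,
      ← ENNReal.ofReal_mul (Real.exp_pos _).le, ← Real.exp_add]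
    refine le_mul_of_one_le_left (zero_le) ?_
    rw [← ENNReal.ofReal_one]
    refine ENNReal.ofReal_le_ofReal (Real.one_le_exp ?_)
    linarith [hq.2]
  · rw [Set.indicator_of_notMem (by exact hq)]
    exact zero_le

/-- bound for the product of the factors -/
lemma prod_factors_le {ι : Type} [Fintype ι] {C : ℝ} (hC : 0 < C) {u : ι → ℝ} (hu : ∀ a, 0 ≤ u a)
    {Y : ℝ} (huY : ∀ a, u a ≤ Y) (E R : ι → ℝ)
    (hE : ∀ a, E a ≤ u a + 27 + R a) :
    ∏ a, (C * (1 + u a) ^ 2 * Real.exp (-(u a)) * Real.exp (E a)) ≤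
      (C * Real.exp 27 * (1 + Y) ^ 2) ^ (Fintype.card ι) * Real.exp (∑ a, R a) := by
  calc ∏ a, (C * (1 + u a) ^ 2 * Real.exp (-(u a)) * Real.exp (E a))
      ≤ ∏ a, (C * Real.exp 27 * (1 + Y) ^ 2 * Real.exp (R a)) := by
        refine Finset.prod_le_prod (fun a _ => by positivity) (fun a _ => ?_)
        have h1 : (1 + u a) ^ 2 ≤ (1 + Y) ^ 2 :=
          pow_le_pow_left₀ (by linarith [hu a]) (by linarith [huY a]) 2
        have h2 : Real.exp (-(u a)) * Real.exp (E a) ≤ Real.exp 27 * Real.exp (R a) := by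
          rw [← Real.exp_add, ← Real.exp_add, Real.exp_le_exp]
          linarith [hE a]
        calc C * (1 + u a) ^ 2 * Real.exp (-(u a)) * Real.exp (E a)
            = C * (1 + u a) ^ 2 * (Real.exp (-(u a)) * Real.exp (E a)) := by ring
          _ ≤ C * (1 + Y) ^ 2 * (Real.exp 27 * Real.exp (R a)) := by
              refine mul_le_mul ?_ h2 (by positivity) (by positivity)
              exact mul_le_mul_of_nonneg_left h1 hC.le
          _ = _ := by ring
    _ = _ := by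
        rw [Finset.prod_mul_distrib, Finset.prod_const, Real.exp_sum, Finset.card_univ]

/-- **Upper tail** for tuples. -/
theorem tuple_upper : ∃ C : ℝ, 0 < C ∧ ∀ {ι : Type} [Fintype ι] (ℓ : ℕ → ℝ) (L : ℝ)
    (_ : 0 < L) (_ : ∀ p : ℕ, p.Prime → 0 ≤ ℓ p ∧ ℓ p ≤ L) (u : ι → ℝ) (_ : ∀ a, 0 ≤ u a)
    (Y : ℝ) (_ : ∀ a, u a ≤ Y) (V : ℝ) (_ : ∑ a, (u a + 27) ≤ V) (_ : 0 < V)
    (F : ℝ) (_ : 0 ≤ F) (_ : F ≤ 4 / 5 * L * V),
    ∑' q : ι → ℕ, {q | q ∈ Tup u ∧ ∑ a, M ℓ (u a) + F ≤ ∑ a, St ℓ (q a - 1)}.indicator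
      (fun q => ∏ a, ((q a - 1 : ℕ) : ℝ≥0∞)⁻¹) q ≤
      ENNReal.ofReal ((C * (1 + Y) ^ 2) ^ (Fintype.card ι) * Real.exp (-(F ^ 2 / (4 * L ^ 2 * V)))) := by
  obtain ⟨C, hC, hT⟩ := tuple_markov
  refine ⟨C * Real.exp 27, by positivity, fun {ι} _ ℓ L hL hℓ u hu Y huY V hV hV0 F hF0 hF => ?_⟩
  set τ : ℝ := F / (2 * L ^ 2 * V) with hτ
  have hτ0 : 0 ≤ τ := by positivity
  have hτL : τ * L ≤ 2 / 5 := by
    rw [hτ, div_mul_eq_mul_div, div_le_iff₀ (by positivity)]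
    nlinarith
  have hℓ' : ∀ p : ℕ, p.Prime → τ * ℓ p ≤ 2 / 5 := fun p hp =>
    (mul_le_mul_of_nonneg_left (hℓ p hp).2 hτ0).trans hτL
  have hSt : ∀ n, St (fun p => τ * ℓ p) n = τ * St ℓ n := by
    intro n
    unfold St
    induction n.primeFactorsList with
    | nil => simp
    | cons p l ih => simp only [List.map_cons, List.sum_cons] at ih ⊢; rw [ih]; ring
  have h1 := hT (fun p => τ * ℓ p) hℓ' u hu (τ * (∑ a, M ℓ (u a) + F))
  refine le_trans (le_trans ?_ h1) (ENNReal.ofReal_le_ofReal ?_)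
  · refine ENNReal.tsum_le_tsum fun q => ?_
    refine Set.indicator_le_indicator_of_subset ?_ (fun _ => zero_le) q
    rintro q ⟨hq1, hq2⟩
    refine ⟨hq1, ?_⟩
    simp only [hSt]
    rw [← Finset.mul_sum]
    exact mul_le_mul_of_nonneg_left hq2 hτ0
  · have hR : ∀ a, ∑ p ∈ PL (u a), Real.exp (τ * ℓ p) / (p : ℝ) ≤
        u a + 27 + (τ * M ℓ (u a) + τ ^ 2 * L ^ 2 * (u a + 27)) := by
      intro a
      have hs := sum_PL_inv_le (hu a)
      calc ∑ p ∈ PL (u a), Real.exp (τ * ℓ p) / (p : ℝ)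
          ≤ ∑ p ∈ PL (u a), ((1 : ℝ) / p + τ * (ℓ p / p) + τ ^ 2 * L ^ 2 * (1 / p)) := by
            refine Finset.sum_le_sum fun p hp => ?_
            have hpp := ((mem_PL (hu a)).mp hp).1
            have hp0 : (0 : ℝ) < p := by exact_mod_cast hpp.pos
            have h3 := hℓ p hpp
            have h4 := hℓ' p hpp
            have h5 : 0 ≤ τ * ℓ p := mul_nonneg hτ0 h3.1
            have h6 : Real.exp (τ * ℓ p) ≤ 1 + τ * ℓ p + (τ * ℓ p) ^ 2 := by
              have h9 := Real.abs_exp_sub_one_sub_id_le (x := τ * ℓ p) (by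
                rw [abs_of_nonneg h5]; linarith)
              have h10 := (abs_le.mp h9).2
              linarith
            have h7 : (τ * ℓ p) ^ 2 ≤ τ ^ 2 * L ^ 2 := by
              rw [mul_pow]
              exact mul_le_mul_of_nonneg_left (pow_le_pow_left₀ h3.1 h3.2 2) (by positivity)
            rw [div_le_iff₀ hp0]
            have h8 : ((1 : ℝ) / p + τ * (ℓ p / p) + τ ^ 2 * L ^ 2 * (1 / p)) * p =
                1 + τ * ℓ p + τ ^ 2 * L ^ 2 := by
              field_simp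
            rw [h8]
            linarith
        _ = ∑ p ∈ PL (u a), (1 : ℝ) / p + τ * M ℓ (u a) +
              τ ^ 2 * L ^ 2 * ∑ p ∈ PL (u a), (1 : ℝ) / p := by
            rw [Finset.sum_add_distrib, Finset.sum_add_distrib, ← Finset.mul_sum,
              ← Finset.mul_sum, M]
        _ ≤ _ := by
            have : 0 ≤ τ ^ 2 * L ^ 2 := by positivity
            nlinarith
    have h2 := prod_factors_le hC hu huY (fun a => ∑ p ∈ PL (u a), Real.exp (τ * ℓ p) / (p : ℝ))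
      (fun a => τ * M ℓ (u a) + τ ^ 2 * L ^ 2 * (u a + 27)) hR
    have hsumR : ∑ a, (τ * M ℓ (u a) + τ ^ 2 * L ^ 2 * (u a + 27)) ≤
        τ * ∑ a, M ℓ (u a) + τ ^ 2 * L ^ 2 * V := by
      rw [Finset.sum_add_distrib, ← Finset.mul_sum, ← Finset.mul_sum]
      have : 0 ≤ τ ^ 2 * L ^ 2 := by positivity
      nlinarith
    calc Real.exp (-(τ * (∑ a, M ℓ (u a) + F))) * ∏ a, (C * (1 + u a) ^ 2 * Real.exp (-(u a)) *
          Real.exp (∑ p ∈ PL (u a), Real.exp (τ * ℓ p) / p))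
        ≤ Real.exp (-(τ * (∑ a, M ℓ (u a) + F))) *
          ((C * Real.exp 27 * (1 + Y) ^ 2) ^ (Fintype.card ι) *
            Real.exp (τ * ∑ a, M ℓ (u a) + τ ^ 2 * L ^ 2 * V)) := by
          refine mul_le_mul_of_nonneg_left (h2.trans ?_) (Real.exp_pos _).le
          refine mul_le_mul_of_nonneg_left (Real.exp_le_exp.mpr hsumR) ?_
          positivity
      _ = (C * Real.exp 27 * (1 + Y) ^ 2) ^ (Fintype.card ι) *
            (Real.exp (-(τ * (∑ a, M ℓ (u a) + F))) *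
            Real.exp (τ * ∑ a, M ℓ (u a) + τ ^ 2 * L ^ 2 * V)) := by ring
      _ = _ := by
          rw [← Real.exp_add]
          congr 2
          rw [hτ]
          field_simp
          ring

/-- **Lower tail** for tuples. -/
theorem tuple_lower : ∃ C : ℝ, 0 < C ∧ ∀ {ι : Type} [Fintype ι] (ℓ : ℕ → ℝ) (L : ℝ)
    (_ : 0 < L) (_ : ∀ p : ℕ, p.Prime → 0 ≤ ℓ p ∧ ℓ p ≤ L) (u : ι → ℝ) (_ : ∀ a, 0 ≤ u a)
    (Y : ℝ) (_ : ∀ a, u a ≤ Y) (V : ℝ) (_ : ∑ a, (u a + 27) ≤ V) (_ : 0 < V)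
    (F : ℝ) (_ : 0 ≤ F),
    ∑' q : ι → ℕ, {q | q ∈ Tup u ∧ ∑ a, St ℓ (q a - 1) + F ≤ ∑ a, M ℓ (u a)}.indicator
      (fun q => ∏ a, ((q a - 1 : ℕ) : ℝ≥0∞)⁻¹) q ≤
      ENNReal.ofReal ((C * (1 + Y) ^ 2) ^ (Fintype.card ι) * Real.exp (-(F ^ 2 / (4 * L ^ 2 * V)))) := by
  obtain ⟨C, hC, hT⟩ := tuple_markov
  refine ⟨C * Real.exp 27, by positivity, fun {ι} _ ℓ L hL hℓ u hu Y huY V hV hV0 F hF0 => ?_⟩
  set τ : ℝ := F / (2 * L ^ 2 * V) with hτ
  have hτ0 : 0 ≤ τ := by positivity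
  have hℓ' : ∀ p : ℕ, p.Prime → -τ * ℓ p ≤ 2 / 5 := fun p hp => by
    have := mul_nonneg hτ0 (hℓ p hp).1
    linarith
  have hSt : ∀ n, St (fun p => -τ * ℓ p) n = -τ * St ℓ n := by
    intro n
    unfold St
    induction n.primeFactorsList with
    | nil => simp
    | cons p l ih => simp only [List.map_cons, List.sum_cons] at ih ⊢; rw [ih]; ring
  have h1 := hT (fun p => -τ * ℓ p) hℓ' u hu (-τ * (∑ a, M ℓ (u a) - F))
  refine le_trans (le_trans ?_ h1) (ENNReal.ofReal_le_ofReal ?_)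
  · refine ENNReal.tsum_le_tsum fun q => ?_
    refine Set.indicator_le_indicator_of_subset ?_ (fun _ => zero_le) q
    rintro q ⟨hq1, hq2⟩
    refine ⟨hq1, ?_⟩
    simp only [hSt]
    rw [← Finset.mul_sum]
    nlinarith
  · have hR : ∀ a, ∑ p ∈ PL (u a), Real.exp (-τ * ℓ p) / (p : ℝ) ≤
        u a + 27 + (-τ * M ℓ (u a) + τ ^ 2 * L ^ 2 * (u a + 27)) := by
      intro a
      have hs := sum_PL_inv_le (hu a)
      calc ∑ p ∈ PL (u a), Real.exp (-τ * ℓ p) / (p : ℝ)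
          ≤ ∑ p ∈ PL (u a), ((1 : ℝ) / p + -τ * (ℓ p / p) + τ ^ 2 * L ^ 2 * (1 / p)) := by
            refine Finset.sum_le_sum fun p hp => ?_
            have hpp := ((mem_PL (hu a)).mp hp).1
            have hp0 : (0 : ℝ) < p := by exact_mod_cast hpp.pos
            have h3 := hℓ p hpp
            have h5 : 0 ≤ τ * ℓ p := mul_nonneg hτ0 h3.1
            have h6 : Real.exp (-τ * ℓ p) ≤ 1 - τ * ℓ p + (τ * ℓ p) ^ 2 := by
              have e1 : -τ * ℓ p = -(τ * ℓ p) := by ring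
              rw [e1, Real.exp_neg, inv_le_comm₀ (Real.exp_pos _) (by nlinarith [sq_nonneg (τ * ℓ p - 1 / 2)])]
              have h9 := Real.quadratic_le_exp_of_nonneg h5
              refine le_trans ?_ h9
              have h10 : 0 < 1 - τ * ℓ p + (τ * ℓ p) ^ 2 := by nlinarith [sq_nonneg (τ * ℓ p - 1 / 2)]
              rw [inv_le_iff_one_le_mul₀ h10]
              nlinarith [mul_nonneg h5 h5, mul_nonneg (mul_nonneg h5 h5) h5, sq_nonneg (τ * ℓ p * (τ * ℓ p) - τ * ℓ p), sq_nonneg (τ * ℓ p)]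
            have h7 : (τ * ℓ p) ^ 2 ≤ τ ^ 2 * L ^ 2 := by
              rw [mul_pow]
              exact mul_le_mul_of_nonneg_left (pow_le_pow_left₀ h3.1 h3.2 2) (by positivity)
            rw [div_le_iff₀ hp0]
            have h8 : ((1 : ℝ) / p + -τ * (ℓ p / p) + τ ^ 2 * L ^ 2 * (1 / p)) * p =
                1 + -τ * ℓ p + τ ^ 2 * L ^ 2 := by
              field_simp
            rw [h8]
            linarith
        _ = ∑ p ∈ PL (u a), (1 : ℝ) / p + -τ * M ℓ (u a) +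
              τ ^ 2 * L ^ 2 * ∑ p ∈ PL (u a), (1 : ℝ) / p := by
            rw [Finset.sum_add_distrib, Finset.sum_add_distrib, ← Finset.mul_sum,
              ← Finset.mul_sum, M]
        _ ≤ _ := by
            have : 0 ≤ τ ^ 2 * L ^ 2 := by positivity
            nlinarith
    have h2 := prod_factors_le hC hu huY (fun a => ∑ p ∈ PL (u a), Real.exp (-τ * ℓ p) / (p : ℝ))
      (fun a => -τ * M ℓ (u a) + τ ^ 2 * L ^ 2 * (u a + 27)) hR
    have hsumR : ∑ a, (-τ * M ℓ (u a) + τ ^ 2 * L ^ 2 * (u a + 27)) ≤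
        -τ * ∑ a, M ℓ (u a) + τ ^ 2 * L ^ 2 * V := by
      rw [Finset.sum_add_distrib, ← Finset.mul_sum, ← Finset.mul_sum]
      have : 0 ≤ τ ^ 2 * L ^ 2 := by positivity
      nlinarith
    calc Real.exp (-(-τ * (∑ a, M ℓ (u a) - F))) * ∏ a, (C * (1 + u a) ^ 2 * Real.exp (-(u a)) *
          Real.exp (∑ p ∈ PL (u a), Real.exp (-τ * ℓ p) / p))
        ≤ Real.exp (-(-τ * (∑ a, M ℓ (u a) - F))) *
          ((C * Real.exp 27 * (1 + Y) ^ 2) ^ (Fintype.card ι) *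
            Real.exp (-τ * ∑ a, M ℓ (u a) + τ ^ 2 * L ^ 2 * V)) := by
          refine mul_le_mul_of_nonneg_left (h2.trans ?_) (Real.exp_pos _).le
          refine mul_le_mul_of_nonneg_left (Real.exp_le_exp.mpr hsumR) ?_
          positivity
      _ = (C * Real.exp 27 * (1 + Y) ^ 2) ^ (Fintype.card ι) *
            (Real.exp (-(-τ * (∑ a, M ℓ (u a) - F))) *
            Real.exp (-τ * ∑ a, M ℓ (u a) + τ ^ 2 * L ^ 2 * V)) := by ring
      _ = _ := by
          rw [← Real.exp_add]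
          congr 2
          rw [hτ]
          field_simp
          ring

end Crest.Agent.R020.LS
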