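import Mathlib
import Crest.Agent.R020.LeftStat

/-!
# Counting versions of the Chernoff bounds over tuples of primes

The outermost prime `q₀` is summed with the counting form `shifted_sum_le` (TS1), the others with
the reciprocal form (TS2).
-/

set_option autoImplicit false

open Finset Filter
open scoped ENNReal

namespace Crest.Agent.R020.LS

lemma PL_loglog {x : ℝ} (hx : 1 < x) (hx' : 1 < Real.log x) :
    PL (Real.log (Real.log x)) = (Finset.range (⌊x⌋₊ + 1)).filter Nat.Prime := by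
  unfold PL
  rw [Real.exp_log (by linarith), Real.exp_log (by linarith)]

/-- the first coordinate, counting form -/
theorem count_first : ∃ C : ℝ, 0 < C ∧ ∀ g : ℕ →*₀ ℝ,
    (∀ p : ℕ, p.Prime → 0 ≤ g p ∧ g p ≤ 3 / 2) → ∀ x lam z : ℝ, 16 ≤ x → 1 ≤ lam →
    2 ≤ z → z ≤ x → Real.log x ≤ lam * Real.log z →
    ∀ A : Finset ℕ, (∀ q ∈ A, q.Prime ∧ (q : ℝ) ≤ z + 1) →
    ∑ q ∈ A, g (q - 1) ≤ C * (1 + Real.log (Real.log x)) ^ 2 * lam ^ 2 *
      (z / (Real.log x) ^ 2) * Real.exp (∑ p ∈ PL (Real.log (Real.log x)), g p / p) := by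
  obtain ⟨C, hC, hTS⟩ := shifted_sum_le
  refine ⟨C * 4 * (3 / 2) * Real.exp 1, by positivity, ?_⟩
  intro g hg x lam z hx hlam hz hzx hlog A hA
  have hgn := nonneg_of_prime fun p hp => (hg p hp).1
  have hl1 : 1 < Real.log x := by
    rw [Real.lt_log_iff_exp_lt (by linarith)]
    have := Real.exp_one_lt_d9
    linarith
  have hB : 0 < Real.log (Real.log x) := Real.log_pos hl1
  have hlz : 0 < Real.log z := Real.log_pos (by linarith)
  have h1 := hTS g hg (z + 1) (by linarith) A hA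
  refine h1.trans ?_
  have hLL : LLx (z + 1) ^ 2 ≤ 4 * (1 + Real.log (Real.log x)) ^ 2 := by
    have h2 : LLx (z + 1) ≤ 2 * (1 + Real.log (Real.log x)) := by
      unfold LLx
      have h3 : Real.log (Real.log (z + 1)) ≤ Real.log (Real.log x) + 1 := by
        have h4 : Real.log (z + 1) ≤ Real.exp 1 * Real.log x := by
          have h5 : Real.log (z + 1) ≤ Real.log (x * x) :=
            Real.log_le_log (by linarith) (by nlinarith)
          rw [Real.log_mul (by linarith) (by linarith)] at h5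
          have h6 : 2 ≤ Real.exp 1 := by have := Real.exp_one_gt_d9; linarith
          nlinarith
        have h7 : 0 < Real.log (z + 1) := Real.log_pos (by linarith)
        have h8 := Real.log_le_log h7 h4
        rw [Real.log_mul (Real.exp_pos 1).ne' (by linarith), Real.log_exp] at h8
        linarith
      have : max 0 (Real.log (Real.log (z + 1))) ≤ Real.log (Real.log x) + 1 :=
        max_le (by linarith) h3
      linarith
    have h3 := pow_le_pow_left₀ (by linarith [one_le_LLx (z + 1)]) h2 2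
    nlinarith
  have hfrac : (z + 1) / Real.log (z + 1) ^ 2 ≤ 3 / 2 * lam ^ 2 * (z / Real.log x ^ 2) := by
    have h2 : Real.log z ≤ Real.log (z + 1) := Real.log_le_log (by linarith) (by linarith)
    have h3 : (z + 1) / Real.log (z + 1) ^ 2 ≤ (3 / 2 * z) / Real.log z ^ 2 := by
      refine div_le_div₀ (by linarith) (by linarith) (by positivity) ?_
      exact pow_le_pow_left₀ hlz.le h2 2
    refine h3.trans ?_
    rw [div_le_iff₀ (by positivity)]
    have h4 : Real.log x ^ 2 ≤ (lam * Real.log z) ^ 2 := pow_le_pow_left₀ (by linarith) hlog 2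
    have h5 : 3 / 2 * lam ^ 2 * (z / Real.log x ^ 2) * Real.log z ^ 2 =
        3 / 2 * z * ((lam * Real.log z) ^ 2 / Real.log x ^ 2) := by ring
    rw [h5]
    have h6 : 1 ≤ (lam * Real.log z) ^ 2 / Real.log x ^ 2 := by
      rw [one_le_div (by positivity)]; exact h4
    nlinarith
  have hexp : Real.exp (∑ p ∈ Finset.range (⌊z + 1⌋₊ + 1) with p.Prime, g p / p) ≤
      Real.exp 1 * Real.exp (∑ p ∈ PL (Real.log (Real.log x)), g p / p) := by
    rw [← Real.exp_add, Real.exp_le_exp, PL_loglog (by linarith) hl1]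
    have hsub : (Finset.range (⌊z + 1⌋₊ + 1)).filter Nat.Prime ⊆
        insert (⌊x⌋₊ + 1) ((Finset.range (⌊x⌋₊ + 1)).filter Nat.Prime) := by
      intro p hp
      rw [Finset.mem_filter, Finset.mem_range] at hp
      have h2 : ⌊z + 1⌋₊ ≤ ⌊x⌋₊ + 1 := by
        rw [← Nat.floor_add_one (by linarith)]
        exact Nat.floor_le_floor (by linarith)
      rw [Finset.mem_insert, Finset.mem_filter, Finset.mem_range]
      rcases Nat.lt_or_ge p (⌊x⌋₊ + 1) with h | h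
      · right; exact ⟨h, hp.2⟩
      · left; omega
    have hne : (⌊x⌋₊ + 1) ∉ (Finset.range (⌊x⌋₊ + 1)).filter Nat.Prime := by
      simp
    by_cases hprime : (⌊x⌋₊ + 1).Prime
    · refine (Finset.sum_le_sum_of_subset_of_nonneg hsub
        (fun p _ _ => div_nonneg (hgn p) (Nat.cast_nonneg _))).trans ?_
      rw [Finset.sum_insert hne]
      refine add_le_add ?_ le_rfl
      have h2 := (hg _ hprime).2
      have h3 : (2 : ℝ) ≤ ((⌊x⌋₊ + 1 : ℕ) : ℝ) := by exact_mod_cast hprime.two_le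
      rw [div_le_one (by linarith)]
      linarith
    · have hsub' : (Finset.range (⌊z + 1⌋₊ + 1)).filter Nat.Prime ⊆
          (Finset.range (⌊x⌋₊ + 1)).filter Nat.Prime := by
        intro p hp
        have h2 := hsub hp
        rw [Finset.mem_insert] at h2
        rcases h2 with h | h
        · rw [Finset.mem_filter] at hp
          rw [h] at hp
          exact absurd hp.2 hprime
        · exact h
      have h2 : ∑ p ∈ Finset.range (⌊z + 1⌋₊ + 1) with p.Prime, g p / (p : ℝ) ≤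
          ∑ p ∈ Finset.range (⌊x⌋₊ + 1) with p.Prime, g p / (p : ℝ) :=
        Finset.sum_le_sum_of_subset_of_nonneg hsub'
          (fun p _ _ => div_nonneg (hgn p) (Nat.cast_nonneg _))
      linarith
  calc C * LLx (z + 1) ^ 2 * ((z + 1) / Real.log (z + 1) ^ 2) *
        Real.exp (∑ p ∈ Finset.range (⌊z + 1⌋₊ + 1) with p.Prime, g p / p)
      ≤ C * (4 * (1 + Real.log (Real.log x)) ^ 2) * (3 / 2 * lam ^ 2 * (z / Real.log x ^ 2)) *
        (Real.exp 1 * Real.exp (∑ p ∈ PL (Real.log (Real.log x)), g p / p)) := by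
        refine mul_le_mul ?_ hexp (Real.exp_pos _).le (by positivity)
        refine mul_le_mul ?_ hfrac (by positivity) (by positivity)
        exact mul_le_mul_of_nonneg_left hLL hC.le
    _ = _ := by ring

/-- exponential weight of an additive statistic as a completely multiplicative function -/
noncomputable def gexp (ℓ : ℕ → ℝ) : ℕ →*₀ ℝ where
  toFun n := if n = 0 then 0 else Real.exp (St ℓ n)
  map_zero' := by simp
  map_one' := by simp [St_one]
  map_mul' m n := by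
    rcases eq_or_ne m 0 with rfl | hm
    · simp
    rcases eq_or_ne n 0 with rfl | hn
    · simp
    rw [if_neg (mul_ne_zero hm hn), if_neg hm, if_neg hn, St_mul ℓ hm hn, Real.exp_add]

lemma gexp_apply (ℓ : ℕ → ℝ) {n : ℕ} (hn : n ≠ 0) : gexp ℓ n = Real.exp (St ℓ n) := by
  show (if n = 0 then 0 else Real.exp (St ℓ n)) = _
  rw [if_neg hn]

lemma exp_two_fifths_le : Real.exp (2 / 5) ≤ 3 / 2 := by
  have h1 : Real.exp (2 / 5) ^ 5 = Real.exp 1 ^ 2 := by
    rw [← Real.exp_nat_mul, ← Real.exp_nat_mul]; norm_num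
  have h2 := Real.exp_one_lt_d9
  have h3 : Real.exp 1 ^ 2 < 7.4 := by
    have := Real.exp_pos 1
    nlinarith
  by_contra hcon
  push Not at hcon
  have h4 : (3 / 2 : ℝ) ^ 5 < Real.exp (2 / 5) ^ 5 :=
    pow_lt_pow_left₀ hcon (by norm_num) (by norm_num)
  rw [h1] at h4
  have h5 : (3 / 2 : ℝ) ^ 5 = 7.59375 := by norm_num
  rw [h5] at h4
  linarith

lemma gexp_bounds {ℓ : ℕ → ℝ} (hℓ : ∀ p : ℕ, p.Prime → ℓ p ≤ 2 / 5) :
    ∀ p : ℕ, p.Prime → 0 ≤ gexp ℓ p ∧ gexp ℓ p ≤ 3 / 2 := by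
  intro p hp
  rw [gexp_apply ℓ hp.ne_zero, St_prime ℓ hp]
  exact ⟨(Real.exp_pos _).le, (Real.exp_le_exp.mpr (hℓ p hp)).trans exp_two_fifths_le⟩

lemma cast_prime_sub_one {q : ℕ} (hq : q.Prime) : ((q - 1 : ℕ) : ℝ) = (q : ℝ) - 1 := by
  rw [Nat.cast_sub hq.one_lt.le]; simp

lemma Tup_sub_one_pos {ι : Type} {u : ι → ℝ} {q : ι → ℕ} (hq : q ∈ Tup u) (a : ι) :
    (0 : ℝ) < ((q a - 1 : ℕ) : ℝ) := by
  have := (hq a).1.two_le
  exact_mod_cast (by omega : 0 < q a - 1)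

/-- real finite-sum version of `tuple_sum_le` -/
theorem tuple_fsum_le : ∃ C : ℝ, 0 < C ∧ ∀ {ι : Type} [Fintype ι] (ℓ : ℕ → ℝ)
    (_ : ∀ p : ℕ, p.Prime → ℓ p ≤ 2 / 5) (u : ι → ℝ) (_ : ∀ a, 0 ≤ u a)
    (Q : Finset (ι → ℕ)) (_ : ∀ q ∈ Q, q ∈ Tup u),
    ∑ q ∈ Q, Real.exp (∑ a, St ℓ (q a - 1)) * ∏ a, ((q a - 1 : ℕ) : ℝ)⁻¹ ≤
      ∏ a, (C * (1 + u a) ^ 2 * Real.exp (-(u a)) *
        Real.exp (∑ p ∈ PL (u a), Real.exp (ℓ p) / p)) := by
  obtain ⟨C, hC, hT⟩ := tuple_sum_le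
  refine ⟨C, hC, fun {ι} _ ℓ hℓ u hu Q hQ => ?_⟩
  have h1 := hT ℓ hℓ u hu
  rw [← ENNReal.ofReal_le_ofReal_iff (Finset.prod_nonneg fun a _ => by positivity)]
  refine le_trans ?_ h1
  rw [ENNReal.ofReal_sum_of_nonneg (fun q _ => by positivity)]
  refine le_trans (le_of_eq ?_) (ENNReal.sum_le_tsum Q)
  refine Finset.sum_congr rfl fun q hq => ?_
  rw [Set.indicator_of_mem (hQ q hq), ENNReal.ofReal_mul (Real.exp_pos _).le,
    ENNReal.ofReal_prod_of_nonneg (fun a _ => by positivity)]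
  congr 1
  refine Finset.prod_congr rfl fun a _ => ?_
  rw [ENNReal.ofReal_inv_of_pos (Tup_sub_one_pos (hQ q hq) a), ENNReal.ofReal_natCast]

/-- **Markov, counting version.** -/
theorem count_markov : ∃ C : ℝ, 0 < C ∧ ∀ {ι : Type} [Fintype ι] (ℓ : ℕ → ℝ)
    (_ : ∀ p : ℕ, p.Prime → ℓ p ≤ 2 / 5) (u : ι → ℝ) (_ : ∀ a, 0 ≤ u a)
    (x lam X : ℝ) (_ : 16 ≤ x) (_ : 1 ≤ lam) (R : Finset ℕ) (_ : ∀ r ∈ R, r ≠ 0)
    (D : Finset (ℕ × (ι → ℕ) × ℕ))
    (_ : ∀ d ∈ D, d.1.Prime ∧ d.2.1 ∈ Tup u ∧ d.2.2 ∈ R ∧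
      ((d.1 : ℝ) - 1) * ((∏ a, ((d.2.1 a - 1 : ℕ) : ℝ)) * d.2.2) ≤ x ∧
      2 ≤ x / ((∏ a, ((d.2.1 a - 1 : ℕ) : ℝ)) * d.2.2) ∧
      Real.log x ≤ lam * Real.log (x / ((∏ a, ((d.2.1 a - 1 : ℕ) : ℝ)) * d.2.2)) ∧
      X ≤ St ℓ (d.1 - 1) + ∑ a, St ℓ (d.2.1 a - 1)),
    (D.card : ℝ) ≤ Real.exp (-X) * (C * (1 + Real.log (Real.log x)) ^ 2 * lam ^ 2 *
      (x / (Real.log x) ^ 2) * Real.exp (∑ p ∈ PL (Real.log (Real.log x)), Real.exp (ℓ p) / p)) *
      (∑ r ∈ R, (1 : ℝ) / r) *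
      ∏ a, (C * (1 + u a) ^ 2 * Real.exp (-(u a)) *
        Real.exp (∑ p ∈ PL (u a), Real.exp (ℓ p) / p)) := by
  obtain ⟨C₁, hC₁, hT⟩ := tuple_fsum_le
  obtain ⟨C₂, hC₂, hF⟩ := count_first
  refine ⟨max C₁ C₂, lt_of_lt_of_le hC₁ (le_max_left _ _), ?_⟩
  intro ι _ ℓ hℓ u hu x lam X hx hlam R hR D hD
  classical
  have hl1 : 1 < Real.log x := by
    rw [Real.lt_log_iff_exp_lt (by linarith)]
    have := Real.exp_one_lt_d9
    linarith
  have hB : 0 < Real.log (Real.log x) := Real.log_pos hl1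
  set B := Real.log (Real.log x) with hBdef
  have hx0 : 0 < x := by linarith
  -- the constant of the first coordinate
  set K : ℝ := C₂ * (1 + B) ^ 2 * lam ^ 2 * (1 / (Real.log x) ^ 2) *
    Real.exp (∑ p ∈ PL B, Real.exp (ℓ p) / p) with hK
  have hK0 : 0 ≤ K := by positivity
  set Pr : Finset ((ι → ℕ) × ℕ) := D.image (fun d => (d.2.1, d.2.2)) with hPr
  set Q : Finset (ι → ℕ) := D.image (fun d => d.2.1) with hQdef
  have hQ : ∀ q ∈ Q, q ∈ Tup u := by
    intro q hq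
    rw [hQdef, Finset.mem_image] at hq
    obtain ⟨d, hd, rfl⟩ := hq
    exact (hD d hd).2.1
  have hprodpos : ∀ q ∈ Q, (0 : ℝ) < ∏ a, ((q a - 1 : ℕ) : ℝ) := fun q hq =>
    Finset.prod_pos fun a _ => Tup_sub_one_pos (hQ q hq) a
  -- step 1 : cardinality by exponential weights
  have h1 : (D.card : ℝ) ≤ ∑ d ∈ D, Real.exp (-X) * (Real.exp (∑ a, St ℓ (d.2.1 a - 1)) *
      Real.exp (St ℓ (d.1 - 1))) := by
    rw [Finset.card_eq_sum_ones, Nat.cast_sum]
    refine Finset.sum_le_sum fun d hd => ?_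
    rw [← Real.exp_add, ← Real.exp_add]
    push_cast
    refine Real.one_le_exp ?_
    linarith [(hD d hd).2.2.2.2.2.2]
  -- step 2 : fibres
  have h2 : ∀ pr ∈ Pr, ∑ d ∈ D with (d.2.1, d.2.2) = pr, Real.exp (-X) *
      (Real.exp (∑ a, St ℓ (d.2.1 a - 1)) * Real.exp (St ℓ (d.1 - 1))) ≤
      Real.exp (-X) * (Real.exp (∑ a, St ℓ (pr.1 a - 1)) *
        (K * (x / ((∏ a, ((pr.1 a - 1 : ℕ) : ℝ)) * pr.2)))) := by
    intro pr hpr
    rw [hPr, Finset.mem_image] at hpr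
    obtain ⟨d₀, hd₀, rfl⟩ := hpr
    obtain ⟨hp, htup, hr, hle, hz2, hzl, hX⟩ := hD d₀ hd₀
    set z := x / ((∏ a, ((d₀.2.1 a - 1 : ℕ) : ℝ)) * d₀.2.2) with hz
    have hden : (1 : ℝ) ≤ (∏ a, ((d₀.2.1 a - 1 : ℕ) : ℝ)) * d₀.2.2 := by
      have e1 : (1 : ℝ) ≤ ∏ a, ((d₀.2.1 a - 1 : ℕ) : ℝ) := by
        have : 1 ≤ ∏ a, (d₀.2.1 a - 1) := Finset.one_le_prod' fun a _ => by
          have := (htup a).1.two_le
          omega
        exact_mod_cast this
      have e2 : (1 : ℝ) ≤ d₀.2.2 := by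
        exact_mod_cast Nat.one_le_iff_ne_zero.mpr (hR _ hr)
      nlinarith
    have hzx : z ≤ x := div_le_self hx0.le hden
    set A : Finset ℕ := (D.filter (fun d => (d.2.1, d.2.2) = (d₀.2.1, d₀.2.2))).image
      (fun d => d.1) with hA
    have hAm : ∀ q ∈ A, q.Prime ∧ (q : ℝ) ≤ z + 1 := by
      intro q hq
      rw [hA, Finset.mem_image] at hq
      obtain ⟨d, hd, rfl⟩ := hq
      rw [Finset.mem_filter] at hd
      obtain ⟨hdD, hdeq⟩ := hd
      obtain ⟨hp', -, -, hle', -⟩ := hD d hdD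
      refine ⟨hp', ?_⟩
      rw [Prod.mk.injEq] at hdeq
      rw [hdeq.1, hdeq.2] at hle'
      have : (d.1 : ℝ) - 1 ≤ z := by
        rw [hz, le_div_iff₀ (by linarith)]
        exact hle'
      linarith
    have h3 := hF (gexp ℓ) (gexp_bounds hℓ) x lam z hx hlam hz2 hzx hzl A hAm
    have h4 : ∑ d ∈ D with (d.2.1, d.2.2) = (d₀.2.1, d₀.2.2), Real.exp (St ℓ (d.1 - 1)) =
        ∑ q ∈ A, gexp ℓ (q - 1) := by
      rw [hA, Finset.sum_image]
      · refine Finset.sum_congr rfl fun d hd => ?_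
        rw [Finset.mem_filter] at hd
        have := (hD d hd.1).1.two_le
        rw [gexp_apply ℓ (by omega)]
      · intro d hd d' hd' hdd
        rw [Finset.mem_coe, Finset.mem_filter] at hd hd'
        have e1 := hd.2.trans hd'.2.symm
        rw [Prod.mk.injEq] at e1
        exact Prod.ext hdd (Prod.ext e1.1 e1.2)
    have h5 : ∑ p ∈ PL B, gexp ℓ p / (p : ℝ) = ∑ p ∈ PL B, Real.exp (ℓ p) / (p : ℝ) := by
      refine Finset.sum_congr rfl fun p hp => ?_
      have := ((mem_PL hB.le).mp hp).1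
      rw [gexp_apply ℓ this.ne_zero, St_prime ℓ this]
    rw [← Finset.mul_sum]
    refine mul_le_mul_of_nonneg_left ?_ (Real.exp_pos _).le
    have h6 : ∑ d ∈ D with (d.2.1, d.2.2) = (d₀.2.1, d₀.2.2),
        Real.exp (∑ a, St ℓ (d.2.1 a - 1)) * Real.exp (St ℓ (d.1 - 1)) =
        Real.exp (∑ a, St ℓ (d₀.2.1 a - 1)) *
          ∑ d ∈ D with (d.2.1, d.2.2) = (d₀.2.1, d₀.2.2), Real.exp (St ℓ (d.1 - 1)) := by
      rw [Finset.mul_sum]
      refine Finset.sum_congr rfl fun d hd => ?_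
      rw [Finset.mem_filter, Prod.mk.injEq] at hd
      rw [hd.2.1]
    rw [h6, h4]
    refine mul_le_mul_of_nonneg_left (h3.trans (le_of_eq ?_)) (Real.exp_pos _).le
    rw [h5, hK]
    ring
  have hmaps : ∀ d ∈ D, (d.2.1, d.2.2) ∈ Pr := fun d hd => Finset.mem_image_of_mem _ hd
  have h3 : (D.card : ℝ) ≤ ∑ pr ∈ Pr, Real.exp (-X) * (Real.exp (∑ a, St ℓ (pr.1 a - 1)) *
        (K * (x / ((∏ a, ((pr.1 a - 1 : ℕ) : ℝ)) * pr.2)))) := by
    refine h1.trans ?_
    rw [← Finset.sum_fiberwise_of_maps_to hmaps]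
    exact Finset.sum_le_sum h2
  -- step 3 : extend to the product set
  have hsub : Pr ⊆ Q ×ˢ R := by
    intro pr hpr
    rw [hPr, Finset.mem_image] at hpr
    obtain ⟨d, hd, rfl⟩ := hpr
    rw [Finset.mem_product]
    exact ⟨Finset.mem_image_of_mem _ hd, (hD d hd).2.2.1⟩
  have h4 : (D.card : ℝ) ≤ ∑ q ∈ Q, ∑ r ∈ R, Real.exp (-X) * (Real.exp (∑ a, St ℓ (q a - 1)) *
        (K * (x / ((∏ a, ((q a - 1 : ℕ) : ℝ)) * r)))) := by
    refine h3.trans ?_
    rw [← Finset.sum_product']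
    refine Finset.sum_le_sum_of_subset_of_nonneg hsub fun pr hpr _ => ?_
    rw [Finset.mem_product] at hpr
    have := hprodpos pr.1 hpr.1
    positivity
  have h5 : ∑ q ∈ Q, ∑ r ∈ R, Real.exp (-X) * (Real.exp (∑ a, St ℓ (q a - 1)) *
        (K * (x / ((∏ a, ((q a - 1 : ℕ) : ℝ)) * r)))) =
      Real.exp (-X) * (K * x) * (∑ r ∈ R, (1 : ℝ) / r) *
        ∑ q ∈ Q, Real.exp (∑ a, St ℓ (q a - 1)) * ∏ a, ((q a - 1 : ℕ) : ℝ)⁻¹ := by
    rw [Finset.mul_sum]
    refine Finset.sum_congr rfl fun q hq => ?_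
    rw [Finset.mul_sum, Finset.sum_mul]
    refine Finset.sum_congr rfl fun r hr => ?_
    have e1 := (hprodpos q hq).ne'
    have e2 : (r : ℝ) ≠ 0 := by exact_mod_cast hR r hr
    rw [Finset.prod_inv_distrib]
    field_simp
  rw [h5] at h4
  have h6 := hT ℓ hℓ u hu Q hQ
  have hR0 : 0 ≤ ∑ r ∈ R, (1 : ℝ) / r := Finset.sum_nonneg fun r _ => by positivity
  refine h4.trans ?_
  refine mul_le_mul ?_ (h6.trans ?_) (Finset.sum_nonneg fun q _ => by positivity) (by positivity)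
  · refine mul_le_mul_of_nonneg_right ?_ hR0
    refine mul_le_mul_of_nonneg_left ?_ (Real.exp_pos _).le
    rw [hK]
    have e1 : C₂ * (1 + B) ^ 2 * lam ^ 2 * (1 / (Real.log x) ^ 2) *
        Real.exp (∑ p ∈ PL B, Real.exp (ℓ p) / p) * x =
        C₂ * ((1 + B) ^ 2 * lam ^ 2 * (x / (Real.log x) ^ 2) *
        Real.exp (∑ p ∈ PL B, Real.exp (ℓ p) / p)) := by ring
    have e2 : max C₁ C₂ * (1 + B) ^ 2 * lam ^ 2 * (x / (Real.log x) ^ 2) *
        Real.exp (∑ p ∈ PL B, Real.exp (ℓ p) / p) =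
        max C₁ C₂ * ((1 + B) ^ 2 * lam ^ 2 * (x / (Real.log x) ^ 2) *
        Real.exp (∑ p ∈ PL B, Real.exp (ℓ p) / p)) := by ring
    rw [e1, e2]
    exact mul_le_mul_of_nonneg_right (le_max_right _ _) (by positivity)
  · refine Finset.prod_le_prod (fun a _ => by positivity) (fun a _ => ?_)
    have e1 : C₁ * (1 + u a) ^ 2 ≤ max C₁ C₂ * (1 + u a) ^ 2 :=
      mul_le_mul_of_nonneg_right (le_max_left _ _) (by positivity)
    exact mul_le_mul_of_nonneg_right (mul_le_mul_of_nonneg_right e1 (Real.exp_pos _).le)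
      (Real.exp_pos _).le

end Crest.Agent.R020.LS
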