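import Mathlib
import Crest.Agent.R020.LeftCount

/-!
# Counting versions of the two Chernoff tails over tuples of primes
-/

set_option autoImplicit false

open Finset Filter
open scoped ENNReal

namespace Crest.Agent.R020.LS

lemma St_smul (ℓ : ℕ → ℝ) (τ : ℝ) (n : ℕ) : St (fun p => τ * ℓ p) n = τ * St ℓ n := by
  unfold St
  induction n.primeFactorsList with
  | nil => simp
  | cons p l ih => simp only [List.map_cons, List.sum_cons] at ih ⊢; rw [ih]; ring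

/-- `e^t ≤ 1 + t + t²` for `t ≤ 1`. -/
lemma exp_le_quad {t : ℝ} (ht : t ≤ 1) : Real.exp t ≤ 1 + t + t ^ 2 := by
  rcases le_or_gt (-1) t with h | h
  · have h9 := Real.abs_exp_sub_one_sub_id_le (x := t) (abs_le.mpr ⟨h, ht⟩)
    have h10 := (abs_le.mp h9).2
    linarith
  · have : Real.exp t ≤ 1 := Real.exp_le_one_iff.mpr (by linarith)
    nlinarith

/-- exponent of the twisted sums for a tilt `τ` (of either sign) -/
lemma sum_exp_le {ℓ : ℕ → ℝ} {L τ : ℝ} (hℓ : ∀ p : ℕ, p.Prime → 0 ≤ ℓ p ∧ ℓ p ≤ L)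
    (hτ : ∀ p : ℕ, p.Prime → τ * ℓ p ≤ 2 / 5) {u : ℝ} (hu : 0 ≤ u) :
    ∑ p ∈ PL u, Real.exp (τ * ℓ p) / (p : ℝ) ≤
      u + 27 + (τ * M ℓ u + τ ^ 2 * L ^ 2 * (u + 27)) := by
  have hs := sum_PL_inv_le hu
  calc ∑ p ∈ PL u, Real.exp (τ * ℓ p) / (p : ℝ)
      ≤ ∑ p ∈ PL u, ((1 : ℝ) / p + τ * (ℓ p / p) + τ ^ 2 * L ^ 2 * (1 / p)) := by
        refine Finset.sum_le_sum fun p hp => ?_
        have hpp := ((mem_PL hu).mp hp).1
        have hp0 : (0 : ℝ) < p := by exact_mod_cast hpp.pos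
        have h3 := hℓ p hpp
        have h4 := hτ p hpp
        have h6 : Real.exp (τ * ℓ p) ≤ 1 + τ * ℓ p + (τ * ℓ p) ^ 2 := exp_le_quad (by linarith)
        have h7 : (τ * ℓ p) ^ 2 ≤ τ ^ 2 * L ^ 2 := by
          rw [mul_pow]
          exact mul_le_mul_of_nonneg_left (pow_le_pow_left₀ h3.1 h3.2 2) (by positivity)
        rw [div_le_iff₀ hp0]
        have h8 : ((1 : ℝ) / p + τ * (ℓ p / p) + τ ^ 2 * L ^ 2 * (1 / p)) * p =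
            1 + τ * ℓ p + τ ^ 2 * L ^ 2 := by
          field_simp
        rw [h8]
        linarith
    _ = ∑ p ∈ PL u, (1 : ℝ) / p + τ * M ℓ u + τ ^ 2 * L ^ 2 * ∑ p ∈ PL u, (1 : ℝ) / p := by
        rw [Finset.sum_add_distrib, Finset.sum_add_distrib, ← Finset.mul_sum, ← Finset.mul_sum, M]
    _ ≤ _ := by
        have : 0 ≤ τ ^ 2 * L ^ 2 := by positivity
        nlinarith

/-- The conditions on the triples `(q₀, (q_a), r)` in the counting versions. -/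
def CT {ι : Type} [Fintype ι] (u : ι → ℝ) (x lam : ℝ) (R : Finset ℕ)
    (d : ℕ × (ι → ℕ) × ℕ) : Prop :=
  d.1.Prime ∧ d.2.1 ∈ Tup u ∧ d.2.2 ∈ R ∧
    ((d.1 : ℝ) - 1) * ((∏ a, ((d.2.1 a - 1 : ℕ) : ℝ)) * d.2.2) ≤ x ∧
    2 ≤ x / ((∏ a, ((d.2.1 a - 1 : ℕ) : ℝ)) * d.2.2) ∧
    Real.log x ≤ lam * Real.log (x / ((∏ a, ((d.2.1 a - 1 : ℕ) : ℝ)) * d.2.2))

/-- common form of both tails: a tilt `τ` of either sign. -/
theorem count_tilt : ∃ C : ℝ, 0 < C ∧ ∀ {ι : Type} [Fintype ι] (ℓ : ℕ → ℝ) (L τ : ℝ)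
    (_ : ∀ p : ℕ, p.Prime → 0 ≤ ℓ p ∧ ℓ p ≤ L) (_ : ∀ p : ℕ, p.Prime → τ * ℓ p ≤ 2 / 5)
    (u : ι → ℝ) (_ : ∀ a, 0 ≤ u a) (Y : ℝ) (_ : ∀ a, u a ≤ Y)
    (x lam X V : ℝ) (_ : 16 ≤ x) (_ : 1 ≤ lam) 
    (_ : (Real.log (Real.log x) + 27) + ∑ a, (u a + 27) ≤ V)
    (R : Finset ℕ) (_ : ∀ r ∈ R, r ≠ 0)
    (D : Finset (ℕ × (ι → ℕ) × ℕ)) (_ : ∀ d ∈ D, CT u x lam R d ∧
      X ≤ τ * (St ℓ (d.1 - 1) + ∑ a, St ℓ (d.2.1 a - 1))),
    (D.card : ℝ) ≤ C * (1 + Real.log (Real.log x)) ^ 2 * lam ^ 2 * (x / Real.log x) *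
      (∑ r ∈ R, (1 : ℝ) / r) * (C * (1 + Y) ^ 2) ^ (Fintype.card ι) *
      Real.exp (-X + τ * (M ℓ (Real.log (Real.log x)) + ∑ a, M ℓ (u a)) + τ ^ 2 * L ^ 2 * V) := by
  obtain ⟨C, hC, hT⟩ := count_markov
  refine ⟨C * Real.exp 27, by positivity, ?_⟩
  intro ι _ ℓ L τ hℓ hτ u hu Y huY x lam X V hx hlam hV R hR D hD
  have hl1 : 1 < Real.log x := by
    rw [Real.lt_log_iff_exp_lt (by linarith)]
    have := Real.exp_one_lt_d9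
    linarith
  have hB : 0 < Real.log (Real.log x) := Real.log_pos hl1
  set B := Real.log (Real.log x) with hBdef
  have hx0 : 0 < x := by linarith
  have h1 := hT (fun p => τ * ℓ p) hτ u hu x lam X hx hlam R hR D (fun d hd => by
    obtain ⟨⟨a1, a2, a3, a4, a5, a6⟩, a7⟩ := hD d hd
    refine ⟨a1, a2, a3, a4, a5, a6, ?_⟩
    simp only [St_smul]
    rw [← Finset.mul_sum, ← mul_add]
    exact a7)
  refine h1.trans ?_
  have h2 := prod_factors_le hC hu huY (fun a => ∑ p ∈ PL (u a), Real.exp (τ * ℓ p) / (p : ℝ))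
    (fun a => τ * M ℓ (u a) + τ ^ 2 * L ^ 2 * (u a + 27)) (fun a => sum_exp_le hℓ hτ (hu a))
  have h3 : Real.exp (∑ p ∈ PL B, Real.exp (τ * ℓ p) / (p : ℝ)) ≤
      Real.log x * Real.exp 27 * Real.exp (τ * M ℓ B + τ ^ 2 * L ^ 2 * (B + 27)) := by
    have h4 := sum_exp_le hℓ hτ hB.le
    have h5 : Real.log x = Real.exp B := by rw [hBdef, Real.exp_log (by linarith)]
    rw [h5, ← Real.exp_add, ← Real.exp_add, Real.exp_le_exp]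
    linarith
  have hR0 : 0 ≤ ∑ r ∈ R, (1 : ℝ) / r := Finset.sum_nonneg fun r _ => by positivity
  have hlam0 : 0 < lam := by linarith
  calc Real.exp (-X) * (C * (1 + B) ^ 2 * lam ^ 2 * (x / Real.log x ^ 2) *
          Real.exp (∑ p ∈ PL B, Real.exp (τ * ℓ p) / ↑p)) * (∑ r ∈ R, (1 : ℝ) / r) *
        ∏ a, (C * (1 + u a) ^ 2 * Real.exp (-(u a)) *
          Real.exp (∑ p ∈ PL (u a), Real.exp (τ * ℓ p) / p))
      ≤ Real.exp (-X) * (C * (1 + B) ^ 2 * lam ^ 2 * (x / Real.log x ^ 2) *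
          (Real.log x * Real.exp 27 * Real.exp (τ * M ℓ B + τ ^ 2 * L ^ 2 * (B + 27)))) *
          (∑ r ∈ R, (1 : ℝ) / r) *
        ((C * Real.exp 27 * (1 + Y) ^ 2) ^ (Fintype.card ι) *
          Real.exp (∑ a, (τ * M ℓ (u a) + τ ^ 2 * L ^ 2 * (u a + 27)))) := by
        refine mul_le_mul ?_ h2 (Finset.prod_nonneg fun a _ => by positivity) (by positivity)
        refine mul_le_mul_of_nonneg_right ?_ hR0
        refine mul_le_mul_of_nonneg_left ?_ (Real.exp_pos _).le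
        exact mul_le_mul_of_nonneg_left h3 (by positivity)
    _ = C * Real.exp 27 * (1 + B) ^ 2 * lam ^ 2 * (x / Real.log x) *
          (∑ r ∈ R, (1 : ℝ) / r) * (C * Real.exp 27 * (1 + Y) ^ 2) ^ (Fintype.card ι) *
          (Real.exp (-X) * Real.exp (τ * M ℓ B + τ ^ 2 * L ^ 2 * (B + 27)) *
          Real.exp (∑ a, (τ * M ℓ (u a) + τ ^ 2 * L ^ 2 * (u a + 27)))) := by
        have : Real.log x ≠ 0 := by linarith
        field_simp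
    _ ≤ _ := by
        refine mul_le_mul_of_nonneg_left ?_ (by positivity)
        rw [← Real.exp_add, ← Real.exp_add, Real.exp_le_exp, Finset.sum_add_distrib,
          ← Finset.mul_sum, ← Finset.mul_sum]
        have h4 : 0 ≤ τ ^ 2 * L ^ 2 := by positivity
        have h5 := mul_le_mul_of_nonneg_left hV h4
        linarith

/-- **Upper tail, counting version.** -/
theorem count_upper : ∃ C : ℝ, 0 < C ∧ ∀ {ι : Type} [Fintype ι] (ℓ : ℕ → ℝ) (L : ℝ)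
    (_ : 0 < L) (_ : ∀ p : ℕ, p.Prime → 0 ≤ ℓ p ∧ ℓ p ≤ L)
    (u : ι → ℝ) (_ : ∀ a, 0 ≤ u a) (Y : ℝ) (_ : ∀ a, u a ≤ Y)
    (x lam V F : ℝ) (_ : 16 ≤ x) (_ : 1 ≤ lam) 
    (_ : (Real.log (Real.log x) + 27) + ∑ a, (u a + 27) ≤ V) (_ : 0 < V)
    (_ : 0 ≤ F) (_ : F ≤ 4 / 5 * L * V) (R : Finset ℕ) (_ : ∀ r ∈ R, r ≠ 0)
    (D : Finset (ℕ × (ι → ℕ) × ℕ)) (_ : ∀ d ∈ D, CT u x lam R d ∧
      (M ℓ (Real.log (Real.log x)) + ∑ a, M ℓ (u a)) + F ≤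
        St ℓ (d.1 - 1) + ∑ a, St ℓ (d.2.1 a - 1)),
    (D.card : ℝ) ≤ C * (1 + Real.log (Real.log x)) ^ 2 * lam ^ 2 * (x / Real.log x) *
      (∑ r ∈ R, (1 : ℝ) / r) * (C * (1 + Y) ^ 2) ^ (Fintype.card ι) *
      Real.exp (-(F ^ 2 / (4 * L ^ 2 * V))) := by
  obtain ⟨C, hC, hT⟩ := count_tilt
  refine ⟨C, hC, ?_⟩
  intro ι _ ℓ L hL hℓ u hu Y huY x lam V F hx hlam hV hV0 hF0 hF R hR D hD
  set τ : ℝ := F / (2 * L ^ 2 * V) with hτ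
  have hτ0 : 0 ≤ τ := by positivity
  have hτL : τ * L ≤ 2 / 5 := by
    rw [hτ, div_mul_eq_mul_div, div_le_iff₀ (by positivity)]
    nlinarith
  have hℓ' : ∀ p : ℕ, p.Prime → τ * ℓ p ≤ 2 / 5 := fun p hp =>
    (mul_le_mul_of_nonneg_left (hℓ p hp).2 hτ0).trans hτL
  have h1 := hT ℓ L τ hℓ hℓ' u hu Y huY x lam
    (τ * ((M ℓ (Real.log (Real.log x)) + ∑ a, M ℓ (u a)) + F)) V hx hlam hV R hR D
    (fun d hd => ⟨(hD d hd).1, mul_le_mul_of_nonneg_left (hD d hd).2 hτ0⟩)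
  refine h1.trans (le_of_eq ?_)
  congr 2
  rw [hτ]
  field_simp
  ring

/-- **Lower tail, counting version.** -/
theorem count_lower : ∃ C : ℝ, 0 < C ∧ ∀ {ι : Type} [Fintype ι] (ℓ : ℕ → ℝ) (L : ℝ)
    (_ : 0 < L) (_ : ∀ p : ℕ, p.Prime → 0 ≤ ℓ p ∧ ℓ p ≤ L)
    (u : ι → ℝ) (_ : ∀ a, 0 ≤ u a) (Y : ℝ) (_ : ∀ a, u a ≤ Y)
    (x lam V F : ℝ) (_ : 16 ≤ x) (_ : 1 ≤ lam) 
    (_ : (Real.log (Real.log x) + 27) + ∑ a, (u a + 27) ≤ V) (_ : 0 < V)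
    (_ : 0 ≤ F) (R : Finset ℕ) (_ : ∀ r ∈ R, r ≠ 0)
    (D : Finset (ℕ × (ι → ℕ) × ℕ)) (_ : ∀ d ∈ D, CT u x lam R d ∧
      (St ℓ (d.1 - 1) + ∑ a, St ℓ (d.2.1 a - 1)) + F ≤
        M ℓ (Real.log (Real.log x)) + ∑ a, M ℓ (u a)),
    (D.card : ℝ) ≤ C * (1 + Real.log (Real.log x)) ^ 2 * lam ^ 2 * (x / Real.log x) *
      (∑ r ∈ R, (1 : ℝ) / r) * (C * (1 + Y) ^ 2) ^ (Fintype.card ι) *
      Real.exp (-(F ^ 2 / (4 * L ^ 2 * V))) := by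
  obtain ⟨C, hC, hT⟩ := count_tilt
  refine ⟨C, hC, ?_⟩
  intro ι _ ℓ L hL hℓ u hu Y huY x lam V F hx hlam hV hV0 hF0 R hR D hD
  set τ : ℝ := F / (2 * L ^ 2 * V) with hτ
  have hτ0 : 0 ≤ τ := by positivity
  have hℓ' : ∀ p : ℕ, p.Prime → -τ * ℓ p ≤ 2 / 5 := fun p hp => by
    have := mul_nonneg hτ0 (hℓ p hp).1
    linarith
  have h1 := hT ℓ L (-τ) hℓ hℓ' u hu Y huY x lam
    (-τ * ((M ℓ (Real.log (Real.log x)) + ∑ a, M ℓ (u a)) - F)) V hx hlam hV R hR D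
    (fun d hd => ⟨(hD d hd).1, by
      have := (hD d hd).2
      nlinarith⟩)
  refine h1.trans (le_of_eq ?_)
  congr 2
  rw [hτ]
  field_simp
  ring

end Crest.Agent.R020.LS
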