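import Mathlib
import Crest.Agent.R020.PreU

/-!
Row 20 (helper162): the twisted-sum hypothesis, preimages with large `Σ yy`, squares, tuples.
-/

set_option autoImplicit false

open scoped ENNReal
open Crest.NumberTheoryR.TotientScale

noncomputable section

namespace Crest.Agent.R020

/-- completely multiplicative real function with given values at primes -/
def gz (z : ℕ → ℝ) : ℕ →*₀ ℝ where
  toFun n := if n = 0 then 0 else (n.primeFactorsList.map z).prod
  map_zero' := by simp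
  map_one' := by simp
  map_mul' a b := by
    by_cases ha : a = 0
    · simp [ha]
    by_cases hb : b = 0
    · simp [hb]
    rw [if_neg ha, if_neg hb, if_neg (mul_ne_zero ha hb),
      ((Nat.perm_primeFactorsList_mul ha hb).map z).prod_eq, List.map_append, List.prod_append]

lemma gz_apply (z : ℕ → ℝ) {n : ℕ} (hn : n ≠ 0) : gz z n = (n.primeFactorsList.map z).prod := by
  show (if n = 0 then 0 else (n.primeFactorsList.map z).prod) = _
  rw [if_neg hn]

lemma gz_prime (z : ℕ → ℝ) {p : ℕ} (hp : p.Prime) : gz z p = z p := by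
  rw [gz_apply z hp.ne_zero, Nat.primeFactorsList_prime hp]
  simp

lemma gz_const (c : ℝ) {n : ℕ} (hn : n ≠ 0) : gz (fun _ => c) n = c ^ Om n := by
  rw [gz_apply _ hn, List.map_const', List.prod_replicate]

lemma gz_nonneg {z : ℕ → ℝ} (hz : ∀ p, p.Prime → 0 ≤ z p) (n : ℕ) : 0 ≤ gz z n := by
  by_cases hn : n = 0
  · rw [hn, map_zero]
  rw [gz_apply z hn]
  apply List.prod_nonneg
  intro a ha
  obtain ⟨p, hp, rfl⟩ := List.mem_map.mp ha
  exact hz p (Nat.prime_of_mem_primeFactorsList hp)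

lemma cm_eq_gz {z : ℕ → ℝ} (hz : ∀ p, p.Prime → 0 ≤ z p) {n : ℕ} (hn : n ≠ 0) :
    cm (fun p => ENNReal.ofReal (z p / p)) n = ENNReal.ofReal (gz z n / n) := by
  have h1 : cm (fun p => ENNReal.ofReal (z p / p)) n
      = cm (fun p => ENNReal.ofReal (z p)) n * cm (fun p => (p : ℝ≥0∞)⁻¹) n := by
    rw [← cm_mul_fun]
    have h : ∀ p : ℕ, p.Prime → ENNReal.ofReal (z p / p) = ENNReal.ofReal (z p) * (p : ℝ≥0∞)⁻¹ := by
      intro p hp
      have hp0 : (0 : ℝ) < p := by exact_mod_cast hp.pos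
      rw [div_eq_mul_inv, ENNReal.ofReal_mul (hz p hp), ENNReal.ofReal_inv_of_pos hp0,
        ENNReal.ofReal_natCast]
    exact le_antisymm (cm_mono (fun p hp => (h p hp).le) n) (cm_mono (fun p hp => (h p hp).ge) n)
  rw [h1, cm_inv hn]
  have hn0 : (0 : ℝ) < n := by exact_mod_cast Nat.pos_of_ne_zero hn
  rw [div_eq_mul_inv, ENNReal.ofReal_mul (gz_nonneg hz n), ENNReal.ofReal_inv_of_pos hn0,
    ENNReal.ofReal_natCast]
  congr 1
  rw [gz_apply z hn]
  unfold cm
  have : ∀ l : List ℕ, (∀ p ∈ l, p.Prime) →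
      (l.map fun p => ENNReal.ofReal (z p)).prod = ENNReal.ofReal (l.map z).prod := by
    intro l
    induction l with
    | nil => simp
    | cons a l ih =>
      intro hl
      simp only [List.map_cons, List.prod_cons]
      rw [ih fun p hp => hl p (by simp [hp]), ENNReal.ofReal_mul (hz a (hl a (by simp)))]
  exact this _ fun p hp => Nat.prime_of_mem_primeFactorsList hp

/-- The twisted shifted-prime sum in unit cells (proved by helper185). -/
def TSHyp (C : ℝ) : Prop :=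
  ∀ g : ℕ →*₀ ℝ, (∀ p : ℕ, p.Prime → 0 ≤ g p ∧ g p ≤ 3 / 2) → ∀ u : ℝ, 0 ≤ u →
    ∀ S : Finset ℕ, (∀ q ∈ S, q.Prime ∧ u ≤ yy q ∧ yy q ≤ u + 1) →
      ∑ q ∈ S, g (q - 1) / ((q - 1 : ℕ) : ℝ) ≤
        C * (1 + u) ^ 2 * Real.exp (-u) * Real.exp (∑ p ∈ PT u, g p / p)

/-- `exp (3/10 yy q - Ω(q-1)) / (q-1)` -/
def hB (q : ℕ) : ℝ := Real.exp (3 / 10 * yy q - Om (q - 1)) / ((q - 1 : ℕ) : ℝ)

lemma hB_nonneg (q : ℕ) : 0 ≤ hB q := div_nonneg (Real.exp_pos _).le (Nat.cast_nonneg _)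

lemma exp_yy_le {p : ℕ} (hp : 1 ≤ p) : Real.exp (yy p) ≤ p := by
  have hp1 : (1 : ℝ) ≤ p := by exact_mod_cast hp
  unfold yy
  rcases max_choice 0 (Real.log (Real.log (p : ℝ))) with h | h
  · rw [h, Real.exp_zero]; exact hp1
  · rw [h]
    rcases eq_or_lt_of_le hp1 with h1 | h1
    · rw [← h1]; simp
    · have hl : 0 < Real.log p := Real.log_pos h1
      rw [Real.exp_log hl]
      have := Real.log_le_sub_one_of_pos (show (0 : ℝ) < p by linarith)
      linarith

lemma eq_two_of_kap {q : ℕ} (hq : q.Prime) (h : kap q = 0) : q = 2 := by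
  by_contra h2
  have h3 : 3 ≤ q := by have := hq.two_le; omega
  have h4 : yy q ≤ 0 := by
    have := yy_le_kap q
    rw [h] at this
    exact_mod_cast this
  rw [yy_le_iff hq.two_le le_rfl, Real.exp_zero] at h4
  have h5 : (3 : ℝ) ≤ q := by exact_mod_cast h3
  have := Real.exp_one_lt_d9
  linarith

lemma sum_hB_le {C0 : ℝ} (hC0 : 0 ≤ C0) (hTS : TSHyp C0) :
    ∃ C : ℝ, 0 ≤ C ∧ ∀ T : ℝ, 0 ≤ T → ∑ q ∈ PT T, hB q ≤ C := by
  -- the summable majorant
  have hsum : Summable fun k : ℕ => ((k : ℝ) ^ 2 * Real.exp (-(33 / 100) * k)) :=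
    Real.summable_pow_mul_exp_neg_nat_mul 2 (by norm_num)
  have hsum2 : Summable fun k : ℕ =>
      (((k + 1 : ℕ) : ℝ) ^ 2 * Real.exp (-(33 / 100) * ((k + 1 : ℕ) : ℝ))) :=
    (summable_nat_add_iff (f := fun k : ℕ => ((k : ℝ) ^ 2 * Real.exp (-(33 / 100) * k))) 1).mpr hsum
  set S := ∑' k : ℕ, (((k + 1 : ℕ) : ℝ) ^ 2 * Real.exp (-(33 / 100) * ((k + 1 : ℕ) : ℝ))) with hS
  have hS0 : 0 ≤ S := tsum_nonneg fun k => by positivity
  refine ⟨1 + C0 * Real.exp 13 * S, by positivity, fun T hT => ?_⟩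
  set M := ⌈T⌉₊ with hM
  have hmaps : ∀ q ∈ PT T, kap q ∈ Finset.range (M + 1) := by
    intro q hq
    rw [Finset.mem_range]
    have h1 := ((mem_PT hT).mp hq).2
    have : kap q ≤ M := Nat.ceil_le_ceil h1
    omega
  rw [← Finset.sum_fiberwise_of_maps_to hmaps, Finset.sum_range_succ']
  have h0 : ∑ q ∈ (PT T).filter (fun q => kap q = 0), hB q ≤ 1 := by
    have hsub : (PT T).filter (fun q => kap q = 0) ⊆ {2} := by
      intro q hq
      rw [Finset.mem_filter] at hq
      rw [Finset.mem_singleton]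
      exact eq_two_of_kap (prime_of_mem_PT hq.1) hq.2
    calc ∑ q ∈ (PT T).filter (fun q => kap q = 0), hB q ≤ ∑ q ∈ {2}, hB q :=
          Finset.sum_le_sum_of_subset_of_nonneg hsub fun q _ _ => hB_nonneg q
      _ = 1 := by
          rw [Finset.sum_singleton]
          unfold hB Om
          rw [yy_two]
          norm_num
  have hk : ∀ k ∈ Finset.range M, ∑ q ∈ (PT T).filter (fun q => kap q = k + 1), hB q ≤
      C0 * Real.exp 13 * (((k + 1 : ℕ) : ℝ) ^ 2 * Real.exp (-(33 / 100) * ((k + 1 : ℕ) : ℝ))) := by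
    intro k _
    have hu : (0 : ℝ) ≤ k := Nat.cast_nonneg k
    have h1 := hTS (gz fun _ => Real.exp (-1)) (fun p hp => by
      rw [gz_prime _ hp]
      refine ⟨(Real.exp_pos _).le, ?_⟩
      have : Real.exp (-1) ≤ Real.exp 0 := Real.exp_le_exp.mpr (by norm_num)
      rw [Real.exp_zero] at this
      linarith) k hu ((PT T).filter (fun q => kap q = k + 1)) (fun q hq => by
        rw [Finset.mem_filter] at hq
        refine ⟨prime_of_mem_PT hq.1, ?_, ?_⟩
        · have := kap_lt q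
          rw [hq.2] at this
          push_cast at this
          linarith
        · have := yy_le_kap q
          rw [hq.2] at this
          exact_mod_cast this)
    have h2 : ∀ q ∈ (PT T).filter (fun q => kap q = k + 1), hB q ≤
        Real.exp (3 / 10 * (k + 1)) * ((gz fun _ => Real.exp (-1)) (q - 1) / ((q - 1 : ℕ) : ℝ)) := by
      intro q hq
      rw [Finset.mem_filter] at hq
      have hqp := prime_of_mem_PT hq.1
      have hq1 : q - 1 ≠ 0 := by have := hqp.two_le; omega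
      rw [gz_const _ hq1]
      unfold hB
      rw [← mul_div_assoc]
      apply div_le_div_of_nonneg_right _ (Nat.cast_nonneg _)
      rw [← Real.exp_nat_mul, ← Real.exp_add]
      apply Real.exp_le_exp.mpr
      have := yy_le_kap q
      rw [hq.2] at this
      push_cast at this
      linarith
    have h3 : ∑ p ∈ PT (k : ℝ), (gz fun _ => Real.exp (-1)) p / p ≤ Real.exp (-1) * (k + 30) := by
      have h4 : ∀ p ∈ PT (k : ℝ), (gz fun _ => Real.exp (-1)) p / p = Real.exp (-1) * (1 / p) := by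
        intro p hp
        rw [gz_prime _ (prime_of_mem_PT hp)]
        ring
      rw [Finset.sum_congr rfl h4, ← Finset.mul_sum]
      exact mul_le_mul_of_nonneg_left (sum_PT_le hu) (Real.exp_pos _).le
    calc ∑ q ∈ (PT T).filter (fun q => kap q = k + 1), hB q
        ≤ ∑ q ∈ (PT T).filter (fun q => kap q = k + 1), Real.exp (3 / 10 * (k + 1)) *
          ((gz fun _ => Real.exp (-1)) (q - 1) / ((q - 1 : ℕ) : ℝ)) := Finset.sum_le_sum h2
      _ = Real.exp (3 / 10 * (k + 1)) * ∑ q ∈ (PT T).filter (fun q => kap q = k + 1),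
          ((gz fun _ => Real.exp (-1)) (q - 1) / ((q - 1 : ℕ) : ℝ)) := by rw [Finset.mul_sum]
      _ ≤ Real.exp (3 / 10 * (k + 1)) * (C0 * (1 + k) ^ 2 * Real.exp (-k) *
          Real.exp (Real.exp (-1) * (k + 30))) := by
          gcongr
          refine h1.trans ?_
          gcongr
      _ = C0 * ((k + 1 : ℕ) : ℝ) ^ 2 * Real.exp (3 / 10 * (k + 1) + -k + Real.exp (-1) * (k + 30)) := by
          rw [Real.exp_add, Real.exp_add]
          push_cast
          ring
      _ ≤ C0 * ((k + 1 : ℕ) : ℝ) ^ 2 * Real.exp (13 + -(33 / 100) * ((k + 1 : ℕ) : ℝ)) := by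
          apply mul_le_mul_of_nonneg_left _ (by positivity)
          apply Real.exp_le_exp.mpr
          have he : Real.exp (-1) ≤ 0.37 := by
            have := Real.exp_neg_one_lt_d9
            linarith
          have he2 : Real.exp (-1) * (k + 30) ≤ 0.37 * (k + 30) := by gcongr
          push_cast
          linarith
      _ = _ := by
          rw [Real.exp_add]
          ring
  have h4 : ∑ k ∈ Finset.range M, ∑ q ∈ (PT T).filter (fun q => kap q = k + 1), hB q ≤
      C0 * Real.exp 13 * S := by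
    refine (Finset.sum_le_sum hk).trans ?_
    rw [← Finset.mul_sum]
    gcongr
    exact hsum2.sum_le_tsum _ fun k _ => by positivity
  linarith

/-- local factors for (b) -/
def bB (p k : ℕ) : ℝ≥0∞ :=
  if k = 0 then 1 else ENNReal.ofReal (Real.exp (3 / 10 * (k * yy p) - ((k - 1 : ℕ) + Om (p - 1)))) *
    ((p ^ (k - 1) * (p - 1) : ℕ) : ℝ≥0∞)⁻¹

lemma tsum_bB_le {p : ℕ} (hp : p.Prime) : ∑' k, bB p k ≤ ENNReal.ofReal (Real.exp (2 * hB p)) := by
  rw [tsum_eq_zero_add' (ENNReal.summable)]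
  have hp1 : 0 < p - 1 := by have := hp.two_le; omega
  have hp1' : (0 : ℝ) < ((p - 1 : ℕ) : ℝ) := by exact_mod_cast hp1
  have hp0 : (0 : ℝ) < p := by exact_mod_cast hp.pos
  have h1 : ∀ j : ℕ, bB p (j + 1) ≤ ENNReal.ofReal (hB p) * (ENNReal.ofReal (1 / 2)) ^ j := by
    intro j
    unfold bB
    have hpos : (0 : ℝ) < ((p ^ (j + 1 - 1) * (p - 1) : ℕ) : ℝ) := by
      exact_mod_cast Nat.mul_pos (pow_pos hp.pos _) hp1
    rw [if_neg (by omega), ← ENNReal.ofReal_pow (by norm_num), ← ENNReal.ofReal_mul (hB_nonneg p),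
      ← ENNReal.ofReal_natCast, ← ENNReal.ofReal_inv_of_pos hpos,
      ← ENNReal.ofReal_mul (Real.exp_pos _).le]
    apply ENNReal.ofReal_le_ofReal
    simp only [Nat.add_sub_cancel]
    have h2 : Real.exp (3 / 10 * (((j : ℝ) + 1) * yy p) - ((j : ℝ) + Om (p - 1))) =
        Real.exp (3 / 10 * yy p - Om (p - 1)) * (Real.exp (3 / 10 * yy p - 1)) ^ j := by
      rw [← Real.exp_nat_mul, ← Real.exp_add]
      congr 1
      push_cast
      ring
    have h3 : Real.exp (3 / 10 * yy p - 1) ≤ p * (1 / 2) := by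
      have h4 : Real.exp (3 / 10 * yy p - 1) = Real.exp (3 / 10 * yy p) * Real.exp (-1) := by
        rw [← Real.exp_add]; ring_nf
      rw [h4]
      have h5 : Real.exp (3 / 10 * yy p) ≤ p := by
        refine le_trans ?_ (exp_yy_le hp.one_le)
        apply Real.exp_le_exp.mpr
        have := yy_nonneg p
        linarith
      have h6 : Real.exp (-1) ≤ 1 / 2 := by
        have := Real.exp_neg_one_lt_d9
        linarith
      gcongr
    unfold hB
    push_cast
    rw [h2]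
    have h7 : (Real.exp (3 / 10 * yy p - 1)) ^ j ≤ (p * (1 / 2)) ^ j := by gcongr
    rw [mul_pow] at h7
    set A := Real.exp (3 / 10 * yy p - Om (p - 1)) with hA
    have hA0 : 0 < A := Real.exp_pos _
    calc A * Real.exp (3 / 10 * yy p - 1) ^ j * ((p : ℝ) ^ j * ((p - 1 : ℕ) : ℝ))⁻¹
        ≤ A * ((p : ℝ) ^ j * (1 / 2) ^ j) * ((p : ℝ) ^ j * ((p - 1 : ℕ) : ℝ))⁻¹ := by gcongr
      _ = A / ((p - 1 : ℕ) : ℝ) * (1 / 2) ^ j := by field_simp
  have h2 : ∑' j, bB p (j + 1) ≤ ENNReal.ofReal (2 * hB p) := by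
    refine (ENNReal.tsum_le_tsum h1).trans ?_
    rw [ENNReal.tsum_mul_left, ENNReal.tsum_geometric]
    have h3 : (1 - ENNReal.ofReal (1 / 2))⁻¹ = ENNReal.ofReal 2 := by
      have : (1 : ℝ≥0∞) - ENNReal.ofReal (1 / 2) = ENNReal.ofReal (1 / 2) := by
        rw [← ENNReal.ofReal_one, ← ENNReal.ofReal_sub 1 (by norm_num)]
        norm_num
      rw [this, ← ENNReal.ofReal_inv_of_pos (by norm_num)]
      norm_num
    rw [h3, ← ENNReal.ofReal_mul (hB_nonneg p), mul_comm]
  have h0 : bB p 0 = ENNReal.ofReal 1 := by simp [bB]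
  rw [h0]
  refine (add_le_add le_rfl h2).trans ?_
  rw [← ENNReal.ofReal_add zero_le_one (by have := hB_nonneg p; linarith)]
  apply ENNReal.ofReal_le_ofReal
  have := Real.add_one_le_exp (2 * hB p)
  linarith

/-- (b), in the form of a sum over preimages. -/
theorem ws_Sy_large {C0 : ℝ} (hC0 : 0 ≤ C0) (hTS : TSHyp C0) :
    ∃ C : ℝ, 0 ≤ C ∧ ∀ T : ℝ, 0 ≤ T → ∀ X S : ℝ,
      ws (fun n => ((n.totient : ℕ) : ℝ≥0∞)⁻¹) {n | n ∈ Sm (PT T) ∧ (Om n.totient : ℝ) ≤ X ∧ S ≤ Sy n}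
        ≤ ENNReal.ofReal (Real.exp (X - 3 / 10 * S + C)) := by
  obtain ⟨C, hC, hsum⟩ := sum_hB_le hC0 hTS
  refine ⟨2 * C, by positivity, fun T hT X S => ?_⟩
  let f : ℕ → ℝ≥0∞ := fun n => ENNReal.ofReal (Real.exp (3 / 10 * Sy n - Om n.totient)) *
    ((n.totient : ℕ) : ℝ≥0∞)⁻¹
  have h1 : ws f (Sm (PT T)) ≤ ∏ p ∈ PT T, ∑' k, bB p k := by
    apply smooth_sum f bB
    · show ENNReal.ofReal _ * _ ≤ 1
      simp [Sy, Om]
    · intro p k u hp hu hpu
      rcases Nat.eq_zero_or_pos k with rfl | hk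
      · simp [bB]
      · have hcop : Nat.Coprime (p ^ k) u :=
          Nat.Coprime.pow_left k ((Nat.Prime.coprime_iff_not_dvd hp).mpr hpu)
        have hpk : p ^ k ≠ 0 := pow_ne_zero _ hp.ne_zero
        have ht1 : (p ^ k).totient ≠ 0 := (Nat.totient_pos.mpr (Nat.pos_of_ne_zero hpk)).ne'
        have ht2 : u.totient ≠ 0 := (Nat.totient_pos.mpr (Nat.pos_of_ne_zero hu)).ne'
        show ENNReal.ofReal (Real.exp (3 / 10 * Sy (p ^ k * u) - Om (p ^ k * u).totient)) *
          (((p ^ k * u).totient : ℕ) : ℝ≥0∞)⁻¹ ≤ bB p k * (ENNReal.ofReal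
            (Real.exp (3 / 10 * Sy u - Om u.totient)) * ((u.totient : ℕ) : ℝ≥0∞)⁻¹)
        rw [Nat.totient_mul hcop, Om_mul ht1 ht2, Sy_mul hpk hu, Sy_prime_pow hp,
          Om_totient_prime_pow hp hk, inv_mul_nat, Nat.totient_prime_pow hp hk]
        unfold bB
        rw [if_neg hk.ne']
        have e1 : Real.exp (3 / 10 * (k * yy p + Sy u) -
            ((((k - 1) + Om (p - 1)) + Om u.totient : ℕ) : ℝ)) =
            Real.exp (3 / 10 * (k * yy p) - ((k - 1 : ℕ) + Om (p - 1))) *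
              Real.exp (3 / 10 * Sy u - Om u.totient) := by
          rw [← Real.exp_add]
          congr 1
          push_cast
          ring
        rw [e1, ENNReal.ofReal_mul (Real.exp_pos _).le]
        apply le_of_eq
        ring
    · exact fun p hp => prime_of_mem_PT hp
  have h2 : ∏ p ∈ PT T, ∑' k, bB p k ≤ ENNReal.ofReal (Real.exp (2 * C)) := by
    calc ∏ p ∈ PT T, ∑' k, bB p k ≤ ∏ p ∈ PT T, ENNReal.ofReal (Real.exp (2 * hB p)) :=
          Finset.prod_le_prod' fun p hp => tsum_bB_le (prime_of_mem_PT hp)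
      _ = ENNReal.ofReal (Real.exp (∑ p ∈ PT T, 2 * hB p)) := by
          rw [Real.exp_sum, ENNReal.ofReal_prod_of_nonneg fun p _ => (Real.exp_pos _).le]
      _ ≤ _ := by
          apply ENNReal.ofReal_le_ofReal
          apply Real.exp_le_exp.mpr
          rw [← Finset.mul_sum]
          have := hsum T hT
          linarith
  have h3 : ws (fun n => ((n.totient : ℕ) : ℝ≥0∞)⁻¹)
      {n | n ∈ Sm (PT T) ∧ (Om n.totient : ℝ) ≤ X ∧ S ≤ Sy n} ≤
      ENNReal.ofReal (Real.exp (X - 3 / 10 * S)) * ws f (Sm (PT T)) := by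
    unfold ws
    rw [← ENNReal.tsum_mul_left]
    apply ENNReal.tsum_le_tsum
    intro n
    by_cases hn : n ∈ {n | n ∈ Sm (PT T) ∧ (Om n.totient : ℝ) ≤ X ∧ S ≤ Sy n}
    · rw [Set.indicator_of_mem hn, Set.indicator_of_mem hn.1]
      show _ ≤ ENNReal.ofReal (Real.exp (X - 3 / 10 * S)) *
        (ENNReal.ofReal (Real.exp (3 / 10 * Sy n - Om n.totient)) * _)
      rw [← mul_assoc]
      apply le_mul_of_one_le_left (zero_le)
      rw [← ENNReal.ofReal_mul (Real.exp_pos _).le, ENNReal.one_le_ofReal, ← Real.exp_add,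
        Real.one_le_exp_iff]
      have h4 := hn.2.1
      have h5 := hn.2.2
      linarith
    · rw [Set.indicator_of_notMem hn]; exact zero_le
  refine h3.trans ?_
  rw [Real.exp_add, ENNReal.ofReal_mul (Real.exp_pos _).le]
  exact mul_le_mul' le_rfl (h1.trans h2)

/-- (b), distinct values. -/
theorem wt_Sy_large {C0 : ℝ} (hC0 : 0 ≤ C0) (hTS : TSHyp C0) :
    ∃ C : ℝ, 0 ≤ C ∧ ∀ T : ℝ, 0 ≤ T → ∀ X S : ℝ,
      wt {v | ∃ n ∈ Sm (PT T), n.totient = v ∧ (Om v : ℝ) ≤ X ∧ S ≤ Sy n}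
        ≤ ENNReal.ofReal (Real.exp (X - 3 / 10 * S + C)) := by
  obtain ⟨C, hC, h⟩ := ws_Sy_large hC0 hTS
  refine ⟨C, hC, fun T hT X S => le_trans ?_ (h T hT X S)⟩
  unfold wt
  refine (ws_le_tsum_image _ _ (fun n : ℕ => n.totient)
    {n | n ∈ Sm (PT T) ∧ (Om n.totient : ℝ) ≤ X ∧ S ≤ Sy n} ?_).trans le_rfl
  rintro v ⟨n, hn, rfl, h1, h2⟩
  exact ⟨n, ⟨hn, h1, h2⟩, rfl⟩

end Crest.Agent.R020
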