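import Mathlib
import Crest.Agent.R020.LemB

/-!
Row 20 (helper162): squares of large primes, tuples of large primes.
-/

set_option autoImplicit false

open scoped ENNReal
open Crest.NumberTheoryR.TotientScale

noncomputable section

namespace Crest.Agent.R020

/-! ### squares -/

/-- telescoping: `∑_{m > M} 1/(m(m-1)) ≤ 1/M` -/
lemma tsum_inv_mul_pred_le {M : ℕ} (hM : 1 ≤ M) :
    ∑' m : ℕ, ({m : ℕ | M < m}.indicator (fun m : ℕ => ((m * (m - 1) : ℕ) : ℝ≥0∞)⁻¹)) m ≤
      ENNReal.ofReal (1 / M) := by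
  apply ENNReal.tsum_le_of_sum_range_le
  intro n
  have key : ∀ n : ℕ, ∑ m ∈ Finset.range (M + 1 + n),
      ({m : ℕ | M < m}.indicator (fun m : ℕ => ((m * (m - 1) : ℕ) : ℝ≥0∞)⁻¹)) m ≤
      ENNReal.ofReal (1 / M - 1 / (M + n)) := by
    intro n
    induction n with
    | zero =>
      simp only [add_zero]
      rw [Finset.sum_eq_zero]
      · exact zero_le
      · intro m hm
        rw [Set.indicator_of_notMem]
        rw [Finset.mem_range] at hm
        simp only [Set.mem_ofPred_eq, not_lt]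
        omega
    | succ n ih =>
      rw [← add_assoc, Finset.sum_range_succ, Set.indicator_of_mem (by
        simp only [Set.mem_ofPred_eq]; omega)]
      have hMn : (0 : ℝ) < (M : ℝ) + n := by
        have : (1 : ℝ) ≤ M := by exact_mod_cast hM
        positivity
      have h1 : (((M + 1 + n) * (M + 1 + n - 1) : ℕ) : ℝ≥0∞)⁻¹ =
          ENNReal.ofReal (1 / (M + n) - 1 / (M + (n + 1))) := by
        rw [← ENNReal.ofReal_natCast, ← ENNReal.ofReal_inv_of_pos]
        · congr 1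
          rw [show M + 1 + n - 1 = M + n by omega]
          push_cast
          field_simp
          ring
        · rw [show M + 1 + n - 1 = M + n by omega]
          push_cast
          positivity
      rw [h1]
      refine (add_le_add ih le_rfl).trans ?_
      have hM0 : (0 : ℝ) < M := by exact_mod_cast hM
      have hn0 : (0 : ℝ) ≤ n := Nat.cast_nonneg n
      rw [← ENNReal.ofReal_add]
      · apply ENNReal.ofReal_le_ofReal
        push_cast
        linarith
      · rw [sub_nonneg]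
        apply one_div_le_one_div_of_le hM0
        linarith
      · rw [sub_nonneg]
        apply one_div_le_one_div_of_le hMn
        linarith
  calc _ ≤ ∑ m ∈ Finset.range (M + 1 + n),
      ({m : ℕ | M < m}.indicator (fun m : ℕ => ((m * (m - 1) : ℕ) : ℝ≥0∞)⁻¹)) m :=
        Finset.sum_le_sum_of_subset (Finset.range_mono (by omega))
    _ ≤ _ := key n
    _ ≤ _ := by
        apply ENNReal.ofReal_le_ofReal
        have : (0 : ℝ) ≤ 1 / ((M : ℝ) + n) := by positivity
        linarith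

/-- `q (q-1)` divides `φ n` if `q² ∣ n`. -/
lemma mul_pred_dvd_totient {q n : ℕ} (hq : q.Prime) (h : q ^ 2 ∣ n) : q * (q - 1) ∣ n.totient := by
  have h1 : (q ^ 2).totient ∣ n.totient := Nat.totient_dvd_of_dvd h
  rw [Nat.totient_prime_pow hq (by norm_num)] at h1
  simpa using h1

lemma wt_sq_gens_le {w : ℝ} (hw : 0 ≤ w) :
    wt {m | ∃ q : ℕ, q.Prime ∧ w < yy q ∧ m = q * (q - 1)} ≤
      ENNReal.ofReal (2 * Real.exp (-Real.exp w)) := by
  set z := Real.exp (Real.exp w) with hz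
  have hz1 : 2 ≤ z := by
    have h1 : (1 : ℝ) ≤ Real.exp w := Real.one_le_exp hw
    have h2 : Real.exp 1 ≤ z := Real.exp_le_exp.mpr h1
    have h3 := Real.add_one_le_exp (1 : ℝ)
    linarith
  have hM : 1 ≤ ⌊z⌋₊ := Nat.le_floor (by push_cast; linarith)
  refine (ws_le_tsum_image _ _ (fun q : ℕ => q * (q - 1)) {m : ℕ | ⌊z⌋₊ < m} ?_).trans
    ((tsum_inv_mul_pred_le hM).trans ?_)
  · rintro v ⟨q, hq, hwq, rfl⟩
    refine ⟨q, ?_, rfl⟩
    rw [lt_yy_iff hq.two_le hw] at hwq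
    exact (Nat.floor_lt (Real.exp_pos _).le).mpr hwq
  · apply ENNReal.ofReal_le_ofReal
    have h1 : z < (⌊z⌋₊ : ℝ) + 1 := Nat.lt_floor_add_one z
    have h2 : z / 2 ≤ (⌊z⌋₊ : ℝ) := by linarith
    calc (1 : ℝ) / ⌊z⌋₊ ≤ 1 / (z / 2) := by
          apply one_div_le_one_div_of_le (by linarith) h2
      _ = 2 * Real.exp (-Real.exp w) := by
          rw [Real.exp_neg, ← hz]
          field_simp

/-- S0d / X3: preimages divisible by the square of a large prime. -/
theorem wt_sq_le {T w : ℝ} (hT : 0 ≤ T) (hw : 0 ≤ w) :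
    wt {v | ∃ n ∈ Sm (PT T), n.totient = v ∧ ∃ q : ℕ, q.Prime ∧ w < yy q ∧ q ^ 2 ∣ n} ≤
      ENNReal.ofReal (2 * Real.exp (-Real.exp w + T + 32)) := by
  refine (wt_mul_le _ {m | ∃ q : ℕ, q.Prime ∧ w < yy q ∧ m = q * (q - 1)} (Sm (PT T)) ?_).trans ?_
  · rintro v ⟨n, hn, rfl, q, hq, hwq, hqn⟩
    obtain ⟨u, hu⟩ := mul_pred_dvd_totient hq hqn
    refine ⟨q * (q - 1), ⟨q, hq, hwq, rfl⟩, u, ?_, hu.symm⟩
    have hS := totient_mem_Sm hn.1 hT ((mem_Sm_PT hT).mp hn).2
    have hu0 : u ≠ 0 := by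
      rintro rfl
      rw [mul_zero] at hu
      exact hS.1 hu
    refine ⟨hu0, fun p hp => hS.2 p ?_⟩
    exact Nat.primeFactors_mono ⟨q * (q - 1), by rw [hu]; ring⟩ hS.1 hp
  · refine (mul_le_mul' (wt_sq_gens_le hw) (wt_Sm_le hT)).trans ?_
    rw [← ENNReal.ofReal_mul (by positivity), mul_assoc, ← Real.exp_add]
    apply ENNReal.ofReal_le_ofReal
    apply le_of_eq
    ring_nf

/-! ### tuples -/

/-- `q - 1` for primes `q` with `yy q ≤ T` -/
def QT (T : ℝ) : Set ℕ := {m | ∃ q : ℕ, q.Prime ∧ yy q ≤ T ∧ m = q - 1}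

lemma wt_image_pred_le (s : Finset ℕ) (hs : ∀ q ∈ s, q.Prime) :
    wt {m | ∃ q ∈ s, m = q - 1} ≤ ENNReal.ofReal (∑ q ∈ s, 1 / ((q - 1 : ℕ) : ℝ)) := by
  refine (ws_le_tsum_image _ _ (fun q : ℕ => q - 1) (s : Set ℕ) ?_).trans ?_
  · rintro v ⟨q, hq, rfl⟩
    exact ⟨q, hq, rfl⟩
  · rw [tsum_eq_sum (s := s)]
    · rw [ENNReal.ofReal_sum_of_nonneg fun q _ => by positivity]
      apply Finset.sum_le_sum
      intro q hq
      rw [Set.indicator_of_mem (by exact_mod_cast hq)]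
      have h1 : 0 < q - 1 := by have := (hs q hq).two_le; omega
      have h2 : (0 : ℝ) < ((q - 1 : ℕ) : ℝ) := by exact_mod_cast h1
      rw [one_div, ENNReal.ofReal_inv_of_pos h2, ENNReal.ofReal_natCast]
    · intro q hq
      rw [Set.indicator_of_notMem (by exact_mod_cast hq)]

lemma inv_pred_le {q : ℕ} (hq : q.Prime) :
    1 / ((q - 1 : ℕ) : ℝ) ≤ 1 / (q : ℝ) + 2 * (1 / (q : ℝ)) ^ 2 := by
  have h2 : (2 : ℝ) ≤ q := by exact_mod_cast hq.two_le
  rw [Nat.cast_sub hq.one_le, Nat.cast_one]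
  rw [div_le_iff₀ (by linarith)]
  have h3 : (1 / (q : ℝ) + 2 * (1 / (q : ℝ)) ^ 2) * ((q : ℝ) - 1) =
      1 + (1 / (q : ℝ)) * (1 - 2 * (1 / q)) := by
    field_simp
    ring
  rw [h3]
  have h4 : 1 / (q : ℝ) ≤ 1 / 2 := one_div_le_one_div_of_le (by norm_num) h2
  have h5 : 0 ≤ 1 / (q : ℝ) := by positivity
  nlinarith

lemma wt_QT_le {T : ℝ} (hT : 0 ≤ T) : wt (QT T) ≤ ENNReal.ofReal (T + 32) := by
  have h1 : wt (QT T) ≤ wt {m | ∃ q ∈ PT T, m = q - 1} := by
    apply wt_mono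
    rintro m ⟨q, hq, hqT, rfl⟩
    exact ⟨q, (mem_PT hT).mpr ⟨hq, hqT⟩, rfl⟩
  refine h1.trans ((wt_image_pred_le _ fun q hq => prime_of_mem_PT hq).trans ?_)
  apply ENNReal.ofReal_le_ofReal
  calc ∑ q ∈ PT T, 1 / ((q - 1 : ℕ) : ℝ) ≤ ∑ q ∈ PT T, (1 / (q : ℝ) + 2 * (1 / (q : ℝ)) ^ 2) :=
        Finset.sum_le_sum fun q hq => inv_pred_le (prime_of_mem_PT hq)
    _ ≤ T + 32 := by
        rw [Finset.sum_add_distrib, ← Finset.mul_sum]
        have := sum_PT_le hT
        have := sum_inv_sq_le (PT T) fun q hq => prime_of_mem_PT hq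
        linarith

/-- products of `N` elements `q - 1` -/
def BP (T : ℝ) (N : ℕ) : Set ℕ :=
  {m | ∃ L : List ℕ, L.length = N ∧ (∀ q ∈ L, q.Prime ∧ yy q ≤ T) ∧ m = (L.map (· - 1)).prod}

lemma wt_BP_le {T : ℝ} (hT : 0 ≤ T) (N : ℕ) : wt (BP T N) ≤ ENNReal.ofReal (T + 32) ^ N := by
  induction N with
  | zero =>
    rw [pow_zero]
    unfold wt ws
    rw [tsum_eq_single 1]
    · by_cases h : (1 : ℕ) ∈ BP T 0
      · rw [Set.indicator_of_mem h]; simp
      · rw [Set.indicator_of_notMem h]; exact zero_le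
    · intro m hm
      rw [Set.indicator_of_notMem]
      rintro ⟨L, hL, _, rfl⟩
      rw [List.length_eq_zero_iff] at hL
      subst hL
      simp at hm
  | succ N ih =>
    refine (wt_mul_le _ (QT T) (BP T N) ?_).trans ?_
    · rintro m ⟨L, hL, hq, rfl⟩
      rcases L with _ | ⟨q, L⟩
      · simp at hL
      · simp only [List.length_cons, Nat.add_right_cancel_iff] at hL
        refine ⟨q - 1, ⟨q, (hq q (by simp)).1, (hq q (by simp)).2, rfl⟩, (L.map (· - 1)).prod,
          ⟨L, hL, fun x hx => hq x (by simp [hx]), rfl⟩, ?_⟩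
        simp
    · rw [pow_succ, mul_comm]
      exact mul_le_mul' ih (wt_QT_le hT)

/-- products of at most `N` elements `q - 1` -/
def BPle (T : ℝ) (N : ℕ) : Set ℕ :=
  {m | ∃ L : List ℕ, L.length ≤ N ∧ (∀ q ∈ L, q.Prime ∧ yy q ≤ T) ∧ m = (L.map (· - 1)).prod}

lemma wt_BPle_le {T : ℝ} (hT : 0 ≤ T) (N : ℕ) :
    wt (BPle T N) ≤ ENNReal.ofReal ((N + 1) * (T + 32) ^ N) := by
  have h1 : wt (BPle T N) ≤ ∑' i : Fin (N + 1), wt (BP T i) := by
    apply ws_le_tsum
    rintro v ⟨L, hL, hq, rfl⟩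
    exact ⟨⟨L.length, by omega⟩, L, rfl, hq, rfl⟩
  refine h1.trans ?_
  rw [tsum_fintype]
  have h2 : ∀ i : Fin (N + 1), wt (BP T i) ≤ ENNReal.ofReal ((T + 32) ^ N) := by
    intro i
    refine (wt_BP_le hT i).trans ?_
    rw [← ENNReal.ofReal_pow (by linarith)]
    apply ENNReal.ofReal_le_ofReal
    apply pow_le_pow_right₀ (by linarith)
    omega
  calc ∑ i : Fin (N + 1), wt (BP T i) ≤ ∑ i : Fin (N + 1), ENNReal.ofReal ((T + 32) ^ N) :=
        Finset.sum_le_sum fun i _ => h2 i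
    _ = ENNReal.ofReal ((N + 1) * (T + 32) ^ N) := by
        rw [Finset.sum_const, Finset.card_univ, Fintype.card_fin, nsmul_eq_mul,
          ENNReal.ofReal_mul (by positivity)]
        congr 1
        rw [← ENNReal.ofReal_natCast]
        push_cast
        rfl

/-! ### splitting a preimage at a threshold -/

lemma exists_split (w : ℝ) (L : List ℕ) (hL : L.Pairwise (· ≤ ·)) :
    ∃ Ls Lb : List ℕ, L = Ls ++ Lb ∧ (∀ q ∈ Ls, yy q ≤ w) ∧ (∀ q ∈ Lb, w < yy q) := by
  induction L with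
  | nil => exact ⟨[], [], rfl, by simp, by simp⟩
  | cons q L ih =>
    rw [List.pairwise_cons] at hL
    by_cases h : yy q ≤ w
    · obtain ⟨Ls, Lb, rfl, h1, h2⟩ := ih hL.2
      refine ⟨q :: Ls, Lb, rfl, ?_, h2⟩
      intro x hx
      rcases List.mem_cons.mp hx with rfl | hx
      · exact h
      · exact h1 x hx
    · refine ⟨[], q :: L, rfl, by simp, ?_⟩
      intro x hx
      rcases List.mem_cons.mp hx with rfl | hx
      · exact lt_of_not_ge h
      · exact lt_of_lt_of_le (lt_of_not_ge h) (yy_mono (hL.1 x hx))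

lemma totient_prod_nodup (L : List ℕ) (hp : ∀ q ∈ L, q.Prime) (hn : L.Nodup) :
    L.prod.totient = (L.map (· - 1)).prod := by
  induction L with
  | nil => simp
  | cons q L ih =>
    rw [List.nodup_cons] at hn
    have hq := hp q (by simp)
    have hcop : Nat.Coprime q L.prod := by
      rw [Nat.Prime.coprime_iff_not_dvd hq]
      intro hdvd
      obtain ⟨x, hx, hqx⟩ := (Prime.dvd_prod_iff hq.prime).mp hdvd
      have := (Nat.prime_dvd_prime_iff_eq hq (hp x (by simp [hx]))).mp hqx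
      exact hn.1 (this ▸ hx)
    rw [List.prod_cons, Nat.totient_mul hcop, Nat.totient_prime hq,
      ih (fun x hx => hp x (by simp [hx])) hn.2]
    simp

/-- Structure of a preimage: small part, big part. -/
lemma split_preimage {n : ℕ} (hn : n ≠ 0) (w : ℝ) :
    ∃ (m : ℕ) (Lb : List ℕ), m ≠ 0 ∧ n.primeFactorsList = m.primeFactorsList ++ Lb ∧
      (∀ q ∈ m.primeFactorsList, yy q ≤ w) ∧ (∀ q ∈ Lb, q.Prime ∧ w < yy q) ∧
      Lb.Pairwise (· ≤ ·) ∧ (m.primeFactorsList.Pairwise (· ≤ ·)) ∧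
      n.totient = m.totient * Lb.prod.totient ∧
      (¬ Lb.Nodup → ∃ q : ℕ, q.Prime ∧ w < yy q ∧ q ^ 2 ∣ n) := by
  have hsort : n.primeFactorsList.Pairwise (· ≤ ·) := (Nat.primeFactorsList_sorted n).pairwise
  obtain ⟨Ls, Lb, hsplit, h1, h2⟩ := exists_split w _ hsort
  have hprime : ∀ q ∈ Ls ++ Lb, q.Prime := by
    intro q hq
    rw [← hsplit] at hq
    exact Nat.prime_of_mem_primeFactorsList hq
  have hps : ∀ q ∈ Ls, q.Prime := fun q hq => hprime q (List.mem_append_left _ hq)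
  have hpb : ∀ q ∈ Lb, q.Prime := fun q hq => hprime q (List.mem_append_right _ hq)
  rw [hsplit] at hsort
  rw [List.pairwise_append] at hsort
  have hms : Ls.prod ≠ 0 := by
    intro h
    rw [List.prod_eq_zero_iff] at h
    exact Nat.not_prime_zero (hps 0 h)
  have hmb : Lb.prod ≠ 0 := by
    intro h
    rw [List.prod_eq_zero_iff] at h
    exact Nat.not_prime_zero (hpb 0 h)
  have hLs : Ls.prod.primeFactorsList = Ls := by
    have h3 : List.Perm Ls Ls.prod.primeFactorsList := Nat.primeFactorsList_unique rfl hps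
    exact h3.symm.eq_of_pairwise (fun a b _ _ h1 h2 => le_antisymm h1 h2)
      (Nat.primeFactorsList_sorted _).pairwise hsort.1
  have hprod : n = Ls.prod * Lb.prod := by
    rw [← Nat.prod_primeFactorsList hn, hsplit, List.prod_append]
  have hcop : Nat.Coprime Ls.prod Lb.prod := by
    rw [Nat.coprime_iff_gcd_eq_one]
    by_contra hne
    obtain ⟨p, hp, hpd⟩ := Nat.exists_prime_and_dvd hne
    have hp1 := (Nat.dvd_gcd_iff.mp hpd).1
    have hp2 := (Nat.dvd_gcd_iff.mp hpd).2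
    obtain ⟨x, hx, hpx⟩ := (Prime.dvd_prod_iff hp.prime).mp hp1
    obtain ⟨y, hy, hpy⟩ := (Prime.dvd_prod_iff hp.prime).mp hp2
    have e1 := (Nat.prime_dvd_prime_iff_eq hp (hps x hx)).mp hpx
    have e2 := (Nat.prime_dvd_prime_iff_eq hp (hpb y hy)).mp hpy
    have h3 := h1 x hx
    have h4 := h2 y hy
    rw [← e1] at h3
    rw [← e2] at h4
    linarith
  refine ⟨Ls.prod, Lb, hms, ?_, ?_, fun q hq => ⟨hpb q hq, h2 q hq⟩, hsort.2.1, ?_, ?_, ?_⟩
  · rw [hLs, hsplit]
  · rw [hLs]; exact h1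
  · rw [hLs]; exact hsort.1
  · conv_lhs => rw [hprod]
    rw [Nat.totient_mul hcop]
  · intro hnd
    rw [List.nodup_iff_sublist] at hnd
    push Not at hnd
    obtain ⟨q, hq⟩ := hnd
    have hq1 : q ∈ Lb := hq.subset (by simp)
    refine ⟨q, hpb q hq1, h2 q hq1, ?_⟩
    have h3 : [q, q].prod ∣ Lb.prod := hq.prod_dvd_prod
    have h4 : q ^ 2 ∣ Lb.prod := by
      rw [pow_two]
      simpa using h3
    rw [hprod]
    exact Dvd.dvd.mul_left h4 _

end Crest.Agent.R020
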