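import Mathlib
import Crest.Agent.R020.LemC

/-!
Row 20 (helper162): the main part of (U): one pattern of cells, Rankin / Chernoff.
-/

set_option autoImplicit false

open scoped ENNReal
open Crest.NumberTheoryR.TotientScale

noncomputable section

namespace Crest.Agent.R020

/-- `exp(∑_{p | v} a p) / v` -/
def ecm (a : ℕ → ℝ) (v : ℕ) : ℝ≥0∞ := cm (fun p => ENNReal.ofReal (Real.exp (a p) / p)) v

/-- `∑_{p | v} a p`, with multiplicity -/
def La (a : ℕ → ℝ) (v : ℕ) : ℝ := (v.primeFactorsList.map a).sum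

lemma ecm_eq (a : ℕ → ℝ) {v : ℕ} (hv : v ≠ 0) :
    ecm a v = ENNReal.ofReal (Real.exp (La a v)) * (v : ℝ≥0∞)⁻¹ := by
  unfold ecm
  rw [cm_eq_gz (z := fun p => Real.exp (a p)) (fun p _ => (Real.exp_pos _).le) hv]
  have hn0 : (0 : ℝ) < v := by exact_mod_cast Nat.pos_of_ne_zero hv
  rw [div_eq_mul_inv, ENNReal.ofReal_mul (gz_nonneg (fun p _ => (Real.exp_pos _).le) v),
    ENNReal.ofReal_inv_of_pos hn0, ENNReal.ofReal_natCast, gz_apply _ hv]
  congr 2
  unfold La
  have : ∀ l : List ℕ, (l.map fun p => Real.exp (a p)).prod = Real.exp (l.map a).sum := by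
    intro l
    induction l with
    | nil => simp
    | cons x l ih => simp [ih, Real.exp_add]
  exact this _

lemma ecm_mul (a : ℕ → ℝ) {u v : ℕ} (hu : u ≠ 0) (hv : v ≠ 0) :
    ecm a (u * v) = ecm a u * ecm a v := cm_mul _ hu hv

lemma La_nonneg {a : ℕ → ℝ} (ha : ∀ p, 0 ≤ a p) (v : ℕ) : 0 ≤ La a v := by
  unfold La
  apply List.sum_nonneg
  intro x hx
  obtain ⟨p, _, rfl⟩ := List.mem_map.mp hx
  exact ha p

/-- upper Rankin: if `La a v ≥ R` on `A ⊆ Sm s` -/
lemma wt_le_of_ge (a : ℕ → ℝ) (A : Set ℕ) (s : Finset ℕ) (hs : ∀ p ∈ s, p.Prime)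
    (hz : ∀ p ∈ s, Real.exp (a p) / p ≤ 3 / 4) (R : ℝ) (hA : ∀ v ∈ A, v ∈ Sm s ∧ R ≤ La a v) :
    wt A ≤ ENNReal.ofReal (Real.exp (-R +
      ∑ p ∈ s, (Real.exp (a p) / p + 2 * (Real.exp (a p) / p) ^ 2))) := by
  have h1 : wt A ≤ ENNReal.ofReal (Real.exp (-R)) * ws (ecm a) (Sm s) := by
    unfold wt ws
    rw [← ENNReal.tsum_mul_left]
    apply ENNReal.tsum_le_tsum
    intro v
    by_cases hv : v ∈ A
    · obtain ⟨h2, h3⟩ := hA v hv
      rw [Set.indicator_of_mem hv, Set.indicator_of_mem h2, ecm_eq a h2.1, ← mul_assoc]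
      apply le_mul_of_one_le_left (zero_le)
      rw [← ENNReal.ofReal_mul (Real.exp_pos _).le, ENNReal.one_le_ofReal, ← Real.exp_add,
        Real.one_le_exp_iff]
      linarith
    · rw [Set.indicator_of_notMem hv]; exact zero_le
  refine h1.trans ?_
  rw [Real.exp_add, ENNReal.ofReal_mul (Real.exp_pos _).le]
  apply mul_le_mul' le_rfl
  exact rankin (fun p => Real.exp (a p)) s hs fun p hp => ⟨(Real.exp_pos _).le, hz p hp⟩

/-- lower Rankin / Chernoff: if `La a v ≤ R` on `A` -/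
lemma wt_le_of_le (a : ℕ → ℝ) (A : Set ℕ) (hA0 : ∀ v ∈ A, v ≠ 0) {τ : ℝ} (hτ : 0 ≤ τ) (R : ℝ)
    (hA : ∀ v ∈ A, La a v ≤ R) :
    wt A ≤ ENNReal.ofReal (Real.exp (τ * R)) * ws (ecm fun p => -(τ * a p)) A := by
  unfold wt ws
  rw [← ENNReal.tsum_mul_left]
  apply ENNReal.tsum_le_tsum
  intro v
  by_cases hv : v ∈ A
  · rw [Set.indicator_of_mem hv, Set.indicator_of_mem hv, ecm_eq _ (hA0 v hv), ← mul_assoc]
    apply le_mul_of_one_le_left (zero_le)
    rw [← ENNReal.ofReal_mul (Real.exp_pos _).le, ENNReal.one_le_ofReal, ← Real.exp_add,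
      Real.one_le_exp_iff]
    have h1 : La (fun p => -(τ * a p)) v = -(τ * La a v) := by
      unfold La
      have : ∀ l : List ℕ, (l.map fun p => -(τ * a p)).sum = -(τ * (l.map a).sum) := by
        intro l
        induction l with
        | nil => simp
        | cons x l ih =>
          simp only [List.map_cons, List.sum_cons, ih]
          ring
      exact this _
    rw [h1]
    have := mul_le_mul_of_nonneg_left (hA v hv) hτ
    linarith
  · rw [Set.indicator_of_notMem hv]; exact zero_le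

/-! ### prime sums in cells -/

lemma sum_exp_neg_le (c0 u : ℕ) : ∑ κ ∈ Finset.Ioc c0 u, Real.exp (-((κ : ℝ) - 1)) ≤ 8 / 5 := by
  have h1 : ∑ κ ∈ Finset.Ioc c0 u, Real.exp (-((κ : ℝ) - 1)) ≤
      ∑ κ ∈ Finset.Ioc 0 u, Real.exp (-((κ : ℝ) - 1)) := by
    apply Finset.sum_le_sum_of_subset_of_nonneg
    · intro κ hκ
      rw [Finset.mem_Ioc] at hκ ⊢
      omega
    · intro κ _ _
      exact (Real.exp_pos _).le
  have h2 : ∀ n : ℕ, ∑ κ ∈ Finset.Ioc 0 n, Real.exp (-((κ : ℝ) - 1)) ≤ 8 / 5 - Real.exp (-(n : ℝ)) * (8 / 5) := by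
    intro n
    induction n with
    | zero => simp
    | succ n ih =>
      rw [show n + 1 = n.succ from rfl, Finset.sum_Ioc_succ_top (Nat.zero_le n)]
      have h3 : Real.exp (-((n.succ : ℕ) : ℝ)) = Real.exp (-(n : ℝ)) * Real.exp (-1) := by
        rw [← Real.exp_add]; push_cast; ring_nf
      have h4 : Real.exp (-(((n.succ : ℕ) : ℝ) - 1)) = Real.exp (-(n : ℝ)) := by
        push_cast; ring_nf
      rw [h3, h4]
      have h5 : Real.exp (-1) ≤ 3 / 8 := by
        have := Real.exp_neg_one_lt_d9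
        linarith
      have h6 : 0 < Real.exp (-(n : ℝ)) := Real.exp_pos _
      nlinarith
  have h3 := h2 u
  have h4 : 0 < Real.exp (-(u : ℝ)) := Real.exp_pos _
  linarith

lemma sum_cells_le (c0 u : ℕ) (b : ℕ → ℝ) {B : ℝ} (hb : ∀ κ, 0 ≤ b κ ∧ b κ ≤ B) :
    ∑ p ∈ PT u, (if c0 < kap p then b (kap p) else 1) / (p : ℝ) ≤
      c0 + 30 + ∑ κ ∈ Finset.Ioc c0 u, b κ + 29 * B := by
  have hu : (0 : ℝ) ≤ u := Nat.cast_nonneg u
  have hc : (0 : ℝ) ≤ c0 := Nat.cast_nonneg c0
  have hB : 0 ≤ B := (hb 0).1.trans (hb 0).2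
  rw [← Finset.sum_filter_add_sum_filter_not (PT u) (fun p => c0 < kap p)]
  have h1 : ∑ p ∈ (PT u).filter (fun p => ¬ c0 < kap p),
      (if c0 < kap p then b (kap p) else 1) / (p : ℝ) ≤ c0 + 30 := by
    calc ∑ p ∈ (PT u).filter (fun p => ¬ c0 < kap p), (if c0 < kap p then b (kap p) else 1) / (p : ℝ)
        = ∑ p ∈ (PT u).filter (fun p => ¬ c0 < kap p), 1 / (p : ℝ) := by
          apply Finset.sum_congr rfl
          intro p hp
          rw [Finset.mem_filter] at hp
          rw [if_neg hp.2]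
      _ ≤ ∑ p ∈ PT c0, 1 / (p : ℝ) := by
          apply Finset.sum_le_sum_of_subset_of_nonneg
          · intro p hp
            rw [Finset.mem_filter, mem_PT hu] at hp
            rw [mem_PT hc]
            refine ⟨hp.1.1, (yy_le_kap p).trans ?_⟩
            exact_mod_cast (not_lt.mp hp.2)
          · intro p _ _
            positivity
      _ ≤ _ := sum_PT_le hc
  have h2 : ∑ p ∈ (PT u).filter (fun p => c0 < kap p),
      (if c0 < kap p then b (kap p) else 1) / (p : ℝ) ≤ ∑ κ ∈ Finset.Ioc c0 u, b κ + 29 * B := by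
    have hmaps : ∀ p ∈ (PT u).filter (fun p => c0 < kap p), kap p ∈ Finset.Ioc c0 u := by
      intro p hp
      rw [Finset.mem_filter, mem_PT hu] at hp
      rw [Finset.mem_Ioc]
      exact ⟨hp.2, (kap_le_iff p u).mpr hp.1.2⟩
    rw [← Finset.sum_fiberwise_of_maps_to hmaps]
    have h3 : ∀ κ ∈ Finset.Ioc c0 u, ∑ p ∈ ((PT u).filter (fun p => c0 < kap p)).filter
        (fun p => kap p = κ), (if c0 < kap p then b (kap p) else 1) / (p : ℝ) ≤
        b κ + 18 * B * Real.exp (-((κ : ℝ) - 1)) := by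
      intro κ hκ
      rw [Finset.mem_Ioc] at hκ
      obtain ⟨k, rfl⟩ : ∃ k, κ = k + 1 := ⟨κ - 1, by omega⟩
      have h4 : ∑ p ∈ ((PT u).filter (fun p => c0 < kap p)).filter (fun p => kap p = k + 1),
          (if c0 < kap p then b (kap p) else 1) / (p : ℝ) = b (k + 1) *
          ∑ p ∈ ((PT u).filter (fun p => c0 < kap p)).filter (fun p => kap p = k + 1),
            1 / (p : ℝ) := by
        rw [Finset.mul_sum]
        apply Finset.sum_congr rfl
        intro p hp
        rw [Finset.mem_filter, Finset.mem_filter] at hp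
        rw [if_pos hp.1.2, hp.2]
        ring
      rw [h4]
      have h5 := cell_sum_le k (((PT u).filter (fun p => c0 < kap p)).filter
        (fun p => kap p = k + 1)) (fun p hp => by
          rw [Finset.mem_filter, Finset.mem_filter] at hp
          exact ⟨prime_of_mem_PT hp.1.1, hp.2⟩)
      have h6 := hb (k + 1)
      have h7 : -(((k + 1 : ℕ) : ℝ) - 1) = -(k : ℝ) := by push_cast; ring
      rw [h7]
      calc b (k + 1) * ∑ p ∈ ((PT u).filter (fun p => c0 < kap p)).filter (fun p => kap p = k + 1),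
            1 / (p : ℝ) ≤ b (k + 1) * (1 + 18 * Real.exp (-(k : ℝ))) :=
            mul_le_mul_of_nonneg_left h5 h6.1
        _ = b (k + 1) + b (k + 1) * (18 * Real.exp (-(k : ℝ))) := by ring
        _ ≤ b (k + 1) + B * (18 * Real.exp (-(k : ℝ))) := by
            have : 0 < Real.exp (-(k : ℝ)) := Real.exp_pos _
            nlinarith [h6.2]
        _ = _ := by ring
    refine (Finset.sum_le_sum h3).trans ?_
    rw [Finset.sum_add_distrib, ← Finset.mul_sum]
    have h8 := sum_exp_neg_le c0 u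
    have h9 : 18 * B * ∑ κ ∈ Finset.Ioc c0 u, Real.exp (-((κ : ℝ) - 1)) ≤ 18 * B * (8 / 5) := by
      gcongr
    linarith
  linarith

/-! ### double counting -/

lemma sum_map_Ioc (c0 M : ℕ) (f : ℕ → ℝ) (l : List ℕ) (hl : ∀ x ∈ l, x ≤ M + 1) :
    (l.map fun x => ∑ κ ∈ Finset.Ioc c0 (x - 1), f κ).sum =
      ∑ κ ∈ Finset.Ioc c0 M, (cnt l κ : ℝ) * f κ := by
  induction l with
  | nil => simp [cnt_nil]
  | cons x l ih =>
    rw [List.map_cons, List.sum_cons, ih fun y hy => hl y (by simp [hy])]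
    have hx := hl x (by simp)
    have h1 : ∑ κ ∈ Finset.Ioc c0 (x - 1), f κ =
        ∑ κ ∈ Finset.Ioc c0 M, (if κ < x then f κ else 0) := by
      rw [← Finset.sum_filter]
      apply Finset.sum_congr _ fun _ _ => rfl
      ext κ
      simp only [Finset.mem_filter, Finset.mem_Ioc]
      omega
    rw [h1, ← Finset.sum_add_distrib]
    apply Finset.sum_congr rfl
    intro κ _
    rw [cnt_cons]
    split_ifs <;> push_cast <;> ring

/-! ### the product sets -/

/-- `q - 1` for primes in the cell `κ` -/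
def Qk (κ : ℕ) : Set ℕ := {m | ∃ q : ℕ, q.Prime ∧ kap q = κ ∧ m = q - 1}

/-- products of shifted primes with pattern `l` times an element of `U` -/
def PSl (U : Set ℕ) (l : List ℕ) : Set ℕ :=
  {v | ∃ L : List ℕ, (∀ q ∈ L, q.Prime) ∧ L.map kap = l ∧ ∃ u ∈ U, v = (L.map (· - 1)).prod * u}

lemma PSl_ne_zero {U : Set ℕ} (hU : ∀ u ∈ U, u ≠ 0) {l : List ℕ} {v : ℕ} (hv : v ∈ PSl U l) :
    v ≠ 0 := by
  obtain ⟨L, hL, _, u, hu, rfl⟩ := hv
  apply mul_ne_zero _ (hU u hu)
  intro h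
  rw [List.prod_eq_zero_iff] at h
  obtain ⟨q, hq, h0⟩ := List.mem_map.mp h
  have := (hL q hq).two_le
  omega

lemma ws_PSl_le (a : ℕ → ℝ) (U : Set ℕ) (hU : ∀ u ∈ U, u ≠ 0) (l : List ℕ) (bnd : ℕ → ℝ≥0∞)
    (hb : ∀ κ ∈ l, ws (ecm a) (Qk κ) ≤ bnd κ) :
    ws (ecm a) (PSl U l) ≤ (l.map bnd).prod * ws (ecm a) U := by
  induction l with
  | nil =>
    simp only [List.map_nil, List.prod_nil, one_mul]
    apply ws_mono_set
    rintro v ⟨L, hL, hLl, u, hu, rfl⟩
    rw [List.map_eq_nil_iff] at hLl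
    subst hLl
    simpa using hu
  | cons κ l ih =>
    rw [List.map_cons, List.prod_cons, mul_assoc]
    refine (ws_mul_le (ecm a) (PSl U (κ :: l)) (Qk κ) (PSl U l) ?_).trans
      (mul_le_mul' (hb κ (by simp)) (ih fun x hx => hb x (by simp [hx])))
    rintro v ⟨L, hL, hLl, u, hu, rfl⟩
    rcases L with _ | ⟨q, L⟩
    · simp at hLl
    · simp only [List.map_cons, List.cons.injEq] at hLl
      have hq := hL q (by simp)
      have h2 : (L.map (· - 1)).prod * u ∈ PSl U l :=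
        ⟨L, fun x hx => hL x (by simp [hx]), hLl.2, u, hu, rfl⟩
      refine ⟨q - 1, ⟨q, hq, hLl.1, rfl⟩, (L.map (· - 1)).prod * u, h2, ?_, ?_⟩
      · simp [mul_assoc]
      · rw [List.map_cons, List.prod_cons, mul_assoc, ecm_mul a _ (PSl_ne_zero hU h2)]
        have := hq.two_le
        omega

/-- twisted sum over a cell -/
lemma ws_Qk_le {C0 : ℝ} (hTS : TSHyp C0) (a : ℕ → ℝ) (ha : ∀ p, p.Prime → a p ≤ 0) (k : ℕ) :
    ws (ecm a) (Qk (k + 1)) ≤ ENNReal.ofReal (C0 * (1 + k) ^ 2 * Real.exp (-k) *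
      Real.exp (∑ p ∈ PT k, Real.exp (a p) / p)) := by
  have hk : (0 : ℝ) ≤ (k : ℝ) + 1 := by positivity
  set s := (PT ((k : ℝ) + 1)).filter (fun q => kap q = k + 1) with hs
  have h1 : ws (ecm a) (Qk (k + 1)) ≤ ∑ q ∈ s, ecm a (q - 1) := by
    refine (ws_le_tsum_image (ecm a) _ (fun q : ℕ => q - 1) (s : Set ℕ) ?_).trans ?_
    · rintro v ⟨q, hq, hqk, rfl⟩
      refine ⟨q, ?_, rfl⟩
      rw [hs, Finset.coe_filter, Set.mem_ofPred_eq, mem_PT hk]
      refine ⟨⟨hq, ?_⟩, hqk⟩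
      have := yy_le_kap q
      rw [hqk] at this
      exact_mod_cast this
    · rw [tsum_eq_sum (s := s)]
      · apply Finset.sum_le_sum
        intro q hq
        rw [Set.indicator_of_mem (by exact_mod_cast hq)]
      · intro q hq
        rw [Set.indicator_of_notMem (by exact_mod_cast hq)]
  have h2 : ∀ q ∈ s, ecm a (q - 1) =
      ENNReal.ofReal (gz (fun p => Real.exp (a p)) (q - 1) / ((q - 1 : ℕ) : ℝ)) := by
    intro q hq
    rw [hs, Finset.mem_filter] at hq
    have := (prime_of_mem_PT hq.1).two_le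
    unfold ecm
    rw [cm_eq_gz (z := fun p => Real.exp (a p)) (fun p _ => (Real.exp_pos _).le) (by omega)]
  rw [Finset.sum_congr rfl h2, ← ENNReal.ofReal_sum_of_nonneg] at h1
  · refine h1.trans (ENNReal.ofReal_le_ofReal ?_)
    have h3 := hTS (gz fun p => Real.exp (a p)) (fun p hp => by
      rw [gz_prime _ hp]
      refine ⟨(Real.exp_pos _).le, ?_⟩
      have : Real.exp (a p) ≤ Real.exp 0 := Real.exp_le_exp.mpr (ha p hp)
      rw [Real.exp_zero] at this
      linarith) k (Nat.cast_nonneg k) s (fun q hq => by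
        rw [hs, Finset.mem_filter, mem_PT hk] at hq
        refine ⟨hq.1.1, ?_, hq.1.2⟩
        have := kap_lt q
        rw [hq.2] at this
        push_cast at this
        linarith)
    refine h3.trans (le_of_eq ?_)
    congr 2
    apply Finset.sum_congr rfl
    intro p hp
    rw [gz_prime _ (prime_of_mem_PT hp)]
  · intro q _
    exact div_nonneg (gz_nonneg (fun p _ => (Real.exp_pos _).le) _) (Nat.cast_nonneg _)

end Crest.Agent.R020
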