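import Mathlib
import Crest.Agent.R020.LemD

/-!
Row 20 (helper162): the bounds for one pattern `l` of cells.
-/

set_option autoImplicit false

open scoped ENNReal
open Crest.NumberTheoryR.TotientScale

noncomputable section

namespace Crest.Agent.R020

/-- `log max(1, cnt l κ)` -/
def lm (l : List ℕ) (κ : ℕ) : ℝ := Real.log (max 1 (cnt l κ) : ℕ)

lemma lm_nonneg (l : List ℕ) (κ : ℕ) : 0 ≤ lm l κ := by
  unfold lm
  apply Real.log_nonneg
  exact_mod_cast le_max_left 1 (cnt l κ)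

lemma lm_le {l : List ℕ} {N : ℕ} (hN : 1 ≤ N) (hl : l.length ≤ N) (κ : ℕ) :
    lm l κ ≤ Real.log N := by
  unfold lm
  apply Real.log_le_log
  · have : 1 ≤ max 1 (cnt l κ) := le_max_left 1 _
    exact_mod_cast this
  · have h1 := cnt_le_length l κ
    have : max 1 (cnt l κ) ≤ N := max_le hN (h1.trans hl)
    exact_mod_cast this

lemma exp_lm (l : List ℕ) (κ : ℕ) : Real.exp (lm l κ) = (max 1 (cnt l κ) : ℕ) := by
  unfold lm
  apply Real.exp_log
  have : 1 ≤ max 1 (cnt l κ) := le_max_left 1 _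
  exact_mod_cast this

/-- the weight exponent of a prime -/
def aw (c0 : ℕ) (l : List ℕ) (p : ℕ) : ℝ := if c0 < kap p then lm l (kap p) else 0

lemma aw_nonneg (c0 : ℕ) (l : List ℕ) (p : ℕ) : 0 ≤ aw c0 l p := by
  unfold aw
  split_ifs
  · exact lm_nonneg _ _
  · exact le_rfl

/-- `L*` -/
def Lstar (c0 T : ℕ) (l : List ℕ) : ℝ := ∑ κ ∈ Finset.Ioc c0 T, (cnt l κ : ℝ) * lm l κ

lemma cnt_mul_lm (l : List ℕ) (κ : ℕ) : (cnt l κ : ℝ) * lm l κ - cnt l κ = gk (cnt l κ) := by
  unfold gk lm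
  rcases Nat.eq_zero_or_pos (cnt l κ) with h | h
  · rw [h]; simp
  · rw [max_eq_right (show 1 ≤ cnt l κ from h)]

lemma one_le_cnt {l : List ℕ} {κ x : ℕ} (hx : x ∈ l) (h : κ < x) : 1 ≤ cnt l κ := by
  unfold cnt
  rw [Nat.one_le_iff_ne_zero, Ne, List.countP_eq_zero]
  push Not
  exact ⟨x, hx, by simpa using h⟩

lemma exp_neg_le_quad {x : ℝ} (hx : 0 ≤ x) : Real.exp (-x) ≤ 1 - x + x ^ 2 / 2 := by
  have h1 := Real.quadratic_le_exp_of_nonneg hx
  have h2 : Real.exp (-x) ≤ 1 / (1 + x + x ^ 2 / 2) := by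
    rw [Real.exp_neg, ← one_div]
    exact one_div_le_one_div_of_le (by positivity) h1
  refine h2.trans ?_
  rw [div_le_iff₀ (by positivity)]
  nlinarith [pow_nonneg hx 3, pow_nonneg hx 4]

lemma La_nonpos {a : ℕ → ℝ} (ha : ∀ p, a p ≤ 0) (v : ℕ) : La a v ≤ 0 := by
  unfold La
  have : ∀ l : List ℕ, (l.map a).sum ≤ 0 := by
    intro l
    induction l with
    | nil => simp
    | cons x l ih =>
      rw [List.map_cons, List.sum_cons]
      have := ha x
      linarith
  exact this _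

/-- the data of a pattern -/
structure Pat (c0 w T N : ℕ) (l : List ℕ) : Prop where
  sorted : l.Pairwise (· ≤ ·)
  lt : ∀ x ∈ l, w < x
  le : ∀ x ∈ l, x ≤ T
  len : l.length ≤ N
  ne : l ≠ []
  hc : c0 ≤ w
  hN : 1 ≤ N

/-- all primes of an element of `PSl` -/
lemma PSl_mem_Sm {w : ℕ} {l : List ℕ} {M : ℕ} (hM : ∀ x ∈ l, x ≤ M) (hw : w ≤ M) {v : ℕ}
    (hv : v ∈ PSl (Sm (PT w)) l) : v ∈ Sm (PT M) := by
  have hM0 : (0 : ℝ) ≤ M := Nat.cast_nonneg M
  have hw0 : (0 : ℝ) ≤ w := Nat.cast_nonneg w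
  refine ⟨PSl_ne_zero (fun u hu => hu.1) hv, fun p hp => ?_⟩
  obtain ⟨L, hL, hLl, u, hu, rfl⟩ := hv
  have hpp := Nat.prime_of_mem_primeFactors hp
  rw [Finset.mem_coe, mem_PT hM0]
  refine ⟨hpp, ?_⟩
  have hdvd := Nat.dvd_of_mem_primeFactors hp
  rcases (Nat.Prime.dvd_mul hpp).mp hdvd with h | h
  · obtain ⟨y, hy, hpy⟩ := (Prime.dvd_prod_iff hpp.prime).mp h
    obtain ⟨q, hq, rfl⟩ := List.mem_map.mp hy
    have h1 : p ≤ q - 1 := Nat.le_of_dvd (by have := (hL q hq).two_le; omega) hpy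
    have h2 : yy p ≤ yy q := yy_mono (by omega)
    have h3 : kap q ∈ l := by rw [← hLl]; exact List.mem_map.mpr ⟨q, hq, rfl⟩
    have h4 := yy_le_kap q
    have h5 : (kap q : ℝ) ≤ M := by exact_mod_cast hM _ h3
    linarith
  · have h1 : p ∈ u.primeFactors := Nat.mem_primeFactors.mpr ⟨hpp, h, hu.1⟩
    have h2 := ((mem_PT hw0).mp (hu.2 p h1)).2
    have h3 : (w : ℝ) ≤ M := by exact_mod_cast hw
    linarith

/-- Case 1: many prime factors. -/
theorem case1 {c0 w T N : ℕ} {l : List ℕ} (P : Pat c0 w T N l) (F : ℝ)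
    (hbig : (N : ℝ) ^ 2 * (T + 30) ≤ Real.exp (Real.exp c0)) :
    wt {v | v ∈ PSl (Sm (PT w)) l ∧ Lstar c0 T l - F ≤ La (aw c0 l) v} ≤
      ENNReal.ofReal (Real.exp (F - Gl (l.map fun κ : ℕ => (κ : ℝ) - 1 - c0) +
        (c0 + 35 + 29 * N))) := by
  -- the largest entry
  obtain ⟨M, hM, hMmax⟩ : ∃ M ∈ l, ∀ x ∈ l, x ≤ M := by
    have hne := P.ne
    refine ⟨l.getLast hne, List.getLast_mem hne, ?_⟩
    intro x hx
    have h := P.sorted
    rw [List.pairwise_iff_getElem] at h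
    obtain ⟨i, hi, rfl⟩ := List.getElem_of_mem hx
    rw [List.getLast_eq_getElem]
    rcases Nat.lt_or_ge i (l.length - 1) with h1 | h1
    · exact h i (l.length - 1) hi (by omega) h1
    · have : i = l.length - 1 := by omega
      subst this
      exact le_rfl
  have hwM : w < M := P.lt M hM
  have hMT : M ≤ T := P.le M hM
  have hN1 : (1 : ℝ) ≤ N := by exact_mod_cast P.hN
  have hM0 : (0 : ℝ) ≤ M := Nat.cast_nonneg M
  have hT0 : (0 : ℝ) ≤ T := Nat.cast_nonneg T
  set X := Real.exp (Real.exp c0) with hX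
  have hXpos : 0 < X := Real.exp_pos _
  -- facts about primes in high cells
  have hhigh : ∀ p : ℕ, p.Prime → c0 < kap p → X < p := by
    intro p hp h
    have h1 : (c0 : ℝ) < yy p := by
      by_contra h2
      push Not at h2
      have := (kap_le_iff p c0).mpr h2
      omega
    exact (lt_yy_iff hp.two_le (Nat.cast_nonneg c0)).mp h1
  have hea : ∀ p : ℕ, Real.exp (aw c0 l p) =
      if c0 < kap p then ((max 1 (cnt l (kap p)) : ℕ) : ℝ) else 1 := by
    intro p
    unfold aw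
    split_ifs
    · exact exp_lm _ _
    · exact Real.exp_zero
  have hmaxN : ∀ κ, ((max 1 (cnt l κ) : ℕ) : ℝ) ≤ N := by
    intro κ
    have h1 := cnt_le_length l κ
    have : max 1 (cnt l κ) ≤ N := max_le P.hN (h1.trans P.len)
    exact_mod_cast this
  have hNX : (N : ℝ) * (N * (T + 30)) ≤ X := by nlinarith
  -- apply Rankin
  refine (wt_le_of_ge (aw c0 l) _ (PT M) (fun p hp => prime_of_mem_PT hp) ?_
    (Lstar c0 T l - F) ?_).trans ?_
  · intro p hp
    have hpp := prime_of_mem_PT hp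
    have hp2 : (2 : ℝ) ≤ p := by exact_mod_cast hpp.two_le
    rw [hea p]
    split_ifs with h
    · have h1 := hhigh p hpp h
      rw [div_le_iff₀ (by linarith)]
      have h2 := hmaxN (kap p)
      have h3 : (N : ℝ) * 30 ≤ X := by nlinarith
      linarith
    · rw [div_le_iff₀ (by linarith)]
      linarith
  · rintro v ⟨hv, hL⟩
    exact ⟨PSl_mem_Sm hMmax hwM.le hv, hL⟩
  · apply ENNReal.ofReal_le_ofReal
    apply Real.exp_le_exp.mpr
    rw [Finset.sum_add_distrib]
    -- linear part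
    have h1 : ∑ p ∈ PT M, Real.exp (aw c0 l p) / p ≤
        c0 + 30 + ∑ κ ∈ Finset.Ioc c0 M, ((max 1 (cnt l κ) : ℕ) : ℝ) + 29 * N := by
      have h2 := sum_cells_le c0 M (fun κ => ((max 1 (cnt l κ) : ℕ) : ℝ)) (B := N)
        (fun κ => ⟨Nat.cast_nonneg _, hmaxN κ⟩)
      refine le_trans (le_of_eq ?_) h2
      apply Finset.sum_congr rfl
      intro p _
      rw [hea p]
    have h3 : ∑ κ ∈ Finset.Ioc c0 M, ((max 1 (cnt l κ) : ℕ) : ℝ) ≤
        ∑ κ ∈ Finset.Ioc c0 T, (cnt l κ : ℝ) + 1 := by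
      have h4 : ∀ κ ∈ Finset.Ioc c0 M, ((max 1 (cnt l κ) : ℕ) : ℝ) ≤
          (cnt l κ : ℝ) + (if κ = M then 1 else 0) := by
        intro κ hκ
        rw [Finset.mem_Ioc] at hκ
        rcases Nat.lt_or_ge κ M with h5 | h5
        · have h6 := one_le_cnt hM h5
          rw [max_eq_right h6, if_neg (by omega), add_zero]
        · have h7 : κ = M := by omega
          rw [if_pos h7]
          have : max 1 (cnt l κ) ≤ cnt l κ + 1 := max_le (by omega) (by omega)
          exact_mod_cast this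
      refine (Finset.sum_le_sum h4).trans ?_
      rw [Finset.sum_add_distrib, Finset.sum_ite_eq' (Finset.Ioc c0 M) M fun _ => (1 : ℝ)]
      have h5 : ∑ κ ∈ Finset.Ioc c0 M, (cnt l κ : ℝ) ≤ ∑ κ ∈ Finset.Ioc c0 T, (cnt l κ : ℝ) := by
        apply Finset.sum_le_sum_of_subset_of_nonneg
        · intro κ hκ
          rw [Finset.mem_Ioc] at hκ ⊢
          omega
        · intro κ _ _
          exact Nat.cast_nonneg _
      have h6 : (if M ∈ Finset.Ioc c0 M then (1 : ℝ) else 0) ≤ 1 := by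
        split_ifs <;> norm_num
      linarith
    -- quadratic part
    have h5 : ∑ p ∈ PT M, 2 * (Real.exp (aw c0 l p) / p) ^ 2 ≤ 4 := by
      have h6 : ∀ p ∈ PT M, 2 * (Real.exp (aw c0 l p) / p) ^ 2 ≤
          2 * (1 / (p : ℝ)) ^ 2 + 2 / (T + 30) * (1 / p) := by
        intro p hp
        have hpp := prime_of_mem_PT hp
        have hp2 : (2 : ℝ) ≤ p := by exact_mod_cast hpp.two_le
        have hp0 : (0 : ℝ) < p := by linarith
        rw [hea p]
        split_ifs with h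
        · have h7 := hhigh p hpp h
          have h8 := hmaxN (kap p)
          have h9 : (0 : ℝ) ≤ ((max 1 (cnt l (kap p)) : ℕ) : ℝ) := Nat.cast_nonneg _
          have h10 : (((max 1 (cnt l (kap p)) : ℕ) : ℝ)) ^ 2 ≤ (N : ℝ) ^ 2 := by gcongr
          have h11 : ((((max 1 (cnt l (kap p)) : ℕ) : ℝ)) / p) ^ 2 ≤ 1 / (T + 30) * (1 / p) := by
            rw [div_pow, div_mul_div_comm, one_mul, div_le_div_iff₀ (by positivity) (by positivity)]
            calc (((max 1 (cnt l (kap p)) : ℕ) : ℝ)) ^ 2 * ((T + 30) * p)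
                ≤ (N : ℝ) ^ 2 * ((T + 30) * p) := by gcongr
              _ = ((N : ℝ) ^ 2 * (T + 30)) * p := by ring
              _ ≤ X * p := by gcongr
              _ ≤ p * p := by gcongr
              _ = 1 * (p : ℝ) ^ 2 := by ring
          have h12 : 0 ≤ 2 * (1 / (p : ℝ)) ^ 2 := by positivity
          have h13 : 2 / ((T : ℝ) + 30) * (1 / p) = 2 * (1 / (T + 30) * (1 / p)) := by ring
          rw [h13]
          linarith
        · have : 0 ≤ 2 / ((T : ℝ) + 30) * (1 / p) := by positivity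
          linarith
      refine (Finset.sum_le_sum h6).trans ?_
      rw [Finset.sum_add_distrib, ← Finset.mul_sum, ← Finset.mul_sum]
      have h7 := sum_inv_sq_le (PT M) fun p hp => prime_of_mem_PT hp
      have h8 := sum_PT_le hM0
      have h9 : 2 / ((T : ℝ) + 30) * ∑ p ∈ PT M, 1 / (p : ℝ) ≤ 2 := by
        have hMT' : (M : ℝ) ≤ T := by exact_mod_cast hMT
        calc 2 / ((T : ℝ) + 30) * ∑ p ∈ PT M, 1 / (p : ℝ) ≤ 2 / ((T : ℝ) + 30) * (T + 30) := by
              gcongr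
              linarith
          _ = 2 := by field_simp
      linarith
    -- cell sum
    have h6 : Gl (l.map fun κ : ℕ => (κ : ℝ) - 1 - c0) =
        Lstar c0 T l - ∑ κ ∈ Finset.Ioc c0 T, (cnt l κ : ℝ) := by
      rw [← sum_gk_cnt c0 T l P.sorted (fun x hx => ⟨lt_of_le_of_lt P.hc (P.lt x hx),
        (P.le x hx).trans (by omega)⟩)]
      unfold Lstar
      rw [← Finset.sum_sub_distrib]
      apply Finset.sum_congr rfl
      intro κ _
      rw [cnt_mul_lm]
    linarith

/-- Case 2: few prime factors. -/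
theorem case2 {C0 : ℝ} (hC0 : 1 ≤ C0) (hTS : TSHyp C0) {c0 w T N : ℕ} {l : List ℕ}
    (P : Pat c0 w T N l) (F τ S : ℝ) (hτ : 0 ≤ τ) (hS : ((l.map fun κ : ℕ => (κ : ℝ)).sum) ≤ S) :
    wt {v | v ∈ PSl (Sm (PT w)) l ∧ La (aw c0 l) v ≤ Lstar c0 T l - F} ≤
      ENNReal.ofReal (Real.exp (-(τ * F) + τ ^ 2 / 2 * Real.log N ^ 2 * S + (w + 32)) *
        (C0 * (1 + T) ^ 2 * Real.exp 59) ^ N) := by
  have hw0 : (0 : ℝ) ≤ w := Nat.cast_nonneg w
  have hT0 : (0 : ℝ) ≤ T := Nat.cast_nonneg T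
  have hN1 : (1 : ℝ) ≤ N := by exact_mod_cast P.hN
  have hlogN : 0 ≤ Real.log N := Real.log_nonneg hN1
  set a : ℕ → ℝ := fun p => -(τ * aw c0 l p) with ha
  set A := {v | v ∈ PSl (Sm (PT w)) l ∧ La (aw c0 l) v ≤ Lstar c0 T l - F} with hA
  have h1 := wt_le_of_le (aw c0 l) A (fun v hv => PSl_ne_zero (fun u hu => hu.1) hv.1) hτ
    (Lstar c0 T l - F) (fun v hv => hv.2)
  have h2 : ws (ecm a) A ≤ ws (ecm a) (PSl (Sm (PT w)) l) := ws_mono_set _ fun v hv => hv.1
  -- bound for one cell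
  let e : ℕ → ℝ := fun κ => 59 - τ * ∑ κ' ∈ Finset.Ioc c0 (κ - 1), lm l κ' +
    τ ^ 2 / 2 * Real.log N ^ 2 * κ
  let bnd : ℕ → ℝ≥0∞ := fun κ => ENNReal.ofReal (C0 * (1 + T) ^ 2 * Real.exp (e κ))
  have hbnd : ∀ κ ∈ l, ws (ecm a) (Qk κ) ≤ bnd κ := by
    intro κ hκ
    have hκw := P.lt κ hκ
    have hκT := P.le κ hκ
    have hc := P.hc
    obtain ⟨k, rfl⟩ : ∃ k, κ = k + 1 := ⟨κ - 1, by omega⟩
    refine (ws_Qk_le hTS a (fun p _ => ?_) k).trans (ENNReal.ofReal_le_ofReal ?_)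
    · simp only [ha]
      have := mul_nonneg hτ (aw_nonneg c0 l p)
      linarith
    · have h3 : ∑ p ∈ PT k, Real.exp (a p) / p ≤
          c0 + 30 + ∑ κ' ∈ Finset.Ioc c0 k, Real.exp (-(τ * lm l κ')) + 29 * 1 := by
        have h4 := sum_cells_le c0 k (fun κ' => Real.exp (-(τ * lm l κ'))) (B := 1)
          (fun κ' => ⟨(Real.exp_pos _).le, by
            rw [Real.exp_le_one_iff]
            have := mul_nonneg hτ (lm_nonneg l κ')
            linarith⟩)
        refine le_trans (le_of_eq ?_) h4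
        apply Finset.sum_congr rfl
        intro p _
        simp only [ha]
        unfold aw
        split_ifs
        · rfl
        · rw [mul_zero, neg_zero, Real.exp_zero]
      have h4 : ∑ κ' ∈ Finset.Ioc c0 k, Real.exp (-(τ * lm l κ')) ≤
          ((k : ℝ) - c0) - τ * ∑ κ' ∈ Finset.Ioc c0 k, lm l κ' +
            τ ^ 2 / 2 * Real.log N ^ 2 * (k - c0) := by
        have h5 : ∀ κ' ∈ Finset.Ioc c0 k, Real.exp (-(τ * lm l κ')) ≤
            1 - τ * lm l κ' + τ ^ 2 / 2 * Real.log N ^ 2 := by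
          intro κ' _
          have h6 := exp_neg_le_quad (mul_nonneg hτ (lm_nonneg l κ'))
          have h7 := lm_le P.hN P.len κ'
          have h8 := lm_nonneg l κ'
          have h9 : lm l κ' ^ 2 ≤ Real.log N ^ 2 := by gcongr
          have h10 : (τ * lm l κ') ^ 2 / 2 ≤ τ ^ 2 / 2 * Real.log N ^ 2 := by
            rw [mul_pow]
            have : 0 ≤ τ ^ 2 := sq_nonneg τ
            nlinarith
          linarith
        refine (Finset.sum_le_sum h5).trans (le_of_eq ?_)
        rw [Finset.sum_add_distrib, Finset.sum_sub_distrib, Finset.sum_const, Finset.sum_const,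
          Nat.card_Ioc, ← Finset.mul_sum, nsmul_eq_mul, nsmul_eq_mul, Nat.cast_sub (by omega)]
        ring
      have hk0 : (0 : ℝ) ≤ k := Nat.cast_nonneg k
      have hkT : (k : ℝ) + 1 ≤ T := by exact_mod_cast hκT
      calc C0 * (1 + (k : ℝ)) ^ 2 * Real.exp (-k) * Real.exp (∑ p ∈ PT k, Real.exp (a p) / p)
          = C0 * (1 + (k : ℝ)) ^ 2 * Real.exp (-k + ∑ p ∈ PT k, Real.exp (a p) / p) := by
            rw [Real.exp_add]; ring
        _ ≤ C0 * (1 + T) ^ 2 * Real.exp (e (k + 1)) := by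
            apply mul_le_mul
            · gcongr
              linarith
            · apply Real.exp_le_exp.mpr
              simp only [e, Nat.add_sub_cancel]
              have h5 : τ ^ 2 / 2 * Real.log N ^ 2 * ((k : ℝ) - c0) ≤
                  τ ^ 2 / 2 * Real.log N ^ 2 * ((k + 1 : ℕ) : ℝ) := by
                apply mul_le_mul_of_nonneg_left _ (by positivity)
                push_cast
                have : (0 : ℝ) ≤ c0 := Nat.cast_nonneg c0
                linarith
              linarith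
            · exact (Real.exp_pos _).le
            · positivity
  have h3 := ws_PSl_le a (Sm (PT w)) (fun u hu => hu.1) l bnd hbnd
  have h4 : ws (ecm a) (Sm (PT w)) ≤ ENNReal.ofReal (Real.exp (w + 32)) := by
    refine le_trans ?_ (wt_Sm_le hw0)
    apply ws_mono_fun
    intro v hv
    rw [ecm_eq a hv.1]
    apply mul_le_of_le_one_left (zero_le)
    rw [← ENNReal.ofReal_one]
    apply ENNReal.ofReal_le_ofReal
    rw [Real.exp_le_one_iff]
    apply La_nonpos
    intro p
    simp only [ha]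
    have := mul_nonneg hτ (aw_nonneg c0 l p)
    linarith
  have h5 : (l.map bnd).prod ≤ ENNReal.ofReal ((C0 * (1 + T) ^ 2 * Real.exp 59) ^ N *
      Real.exp (-(τ * Lstar c0 T l) + τ ^ 2 / 2 * Real.log N ^ 2 * S)) := by
    have hD1 : 1 ≤ C0 * (1 + (T : ℝ)) ^ 2 * Real.exp 59 := by
      have h6 : 1 ≤ Real.exp 59 := Real.one_le_exp (by norm_num)
      have h7 : 1 ≤ (1 + (T : ℝ)) ^ 2 := by nlinarith
      have h8 : 1 ≤ C0 * (1 + (T : ℝ)) ^ 2 := by nlinarith
      nlinarith
    have h6 : ∀ l' : List ℕ, (l'.map bnd).prod = ENNReal.ofReal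
        ((C0 * (1 + T) ^ 2 * Real.exp 59) ^ l'.length *
          Real.exp (-(τ * (l'.map fun κ => ∑ κ' ∈ Finset.Ioc c0 (κ - 1), lm l κ').sum) +
            τ ^ 2 / 2 * Real.log N ^ 2 * (l'.map fun κ : ℕ => (κ : ℝ)).sum)) := by
      intro l'
      induction l' with
      | nil => simp
      | cons κ l' ih =>
        simp only [List.map_cons, List.prod_cons, List.sum_cons, List.length_cons]
        rw [ih]
        simp only [bnd]
        rw [← ENNReal.ofReal_mul (by positivity)]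
        congr 1
        rw [pow_succ (C0 * (1 + (T : ℝ)) ^ 2 * Real.exp 59) l'.length]
        have e1 : C0 * (1 + (T : ℝ)) ^ 2 * Real.exp (e κ) =
            (C0 * (1 + (T : ℝ)) ^ 2 * Real.exp 59) *
              Real.exp (-(τ * ∑ κ' ∈ Finset.Ioc c0 (κ - 1), lm l κ') +
                τ ^ 2 / 2 * Real.log N ^ 2 * κ) := by
          rw [mul_assoc (C0 * (1 + (T : ℝ)) ^ 2), ← Real.exp_add]
          simp only [e]
          congr 2
          ring
        rw [e1]
        have e2 : Real.exp (-(τ * (∑ κ' ∈ Finset.Ioc c0 (κ - 1), lm l κ' +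
            (l'.map fun κ => ∑ κ' ∈ Finset.Ioc c0 (κ - 1), lm l κ').sum)) +
            τ ^ 2 / 2 * Real.log N ^ 2 * ((κ : ℝ) + (l'.map fun κ : ℕ => (κ : ℝ)).sum)) =
            Real.exp (-(τ * ∑ κ' ∈ Finset.Ioc c0 (κ - 1), lm l κ') +
                τ ^ 2 / 2 * Real.log N ^ 2 * κ) *
            Real.exp (-(τ * (l'.map fun κ => ∑ κ' ∈ Finset.Ioc c0 (κ - 1), lm l κ').sum) +
            τ ^ 2 / 2 * Real.log N ^ 2 * (l'.map fun κ : ℕ => (κ : ℝ)).sum) := by
          rw [← Real.exp_add]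
          congr 1
          ring
        rw [e2]
        ring
    rw [h6 l]
    apply ENNReal.ofReal_le_ofReal
    apply mul_le_mul
    · exact pow_le_pow_right₀ hD1 P.len
    · apply Real.exp_le_exp.mpr
      rw [sum_map_Ioc c0 T (lm l) l (fun x hx => (P.le x hx).trans (by omega))]
      have h7 : τ ^ 2 / 2 * Real.log N ^ 2 * (l.map fun κ : ℕ => (κ : ℝ)).sum ≤
          τ ^ 2 / 2 * Real.log N ^ 2 * S := mul_le_mul_of_nonneg_left hS (by positivity)
      unfold Lstar
      linarith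
    · exact (Real.exp_pos _).le
    · positivity
  calc wt A ≤ ENNReal.ofReal (Real.exp (τ * (Lstar c0 T l - F))) *
        ((ENNReal.ofReal ((C0 * (1 + T) ^ 2 * Real.exp 59) ^ N *
      Real.exp (-(τ * Lstar c0 T l) + τ ^ 2 / 2 * Real.log N ^ 2 * S))) *
        ENNReal.ofReal (Real.exp (w + 32))) :=
        h1.trans (mul_le_mul' le_rfl (h2.trans (h3.trans (mul_le_mul' h5 h4))))
    _ = _ := by
        rw [← ENNReal.ofReal_mul (by positivity), ← ENNReal.ofReal_mul (Real.exp_pos _).le]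
        congr 1
        have e1 : Real.exp (-(τ * F) + τ ^ 2 / 2 * Real.log N ^ 2 * S + (w + 32)) =
            Real.exp (τ * (Lstar c0 T l - F)) *
            Real.exp (-(τ * Lstar c0 T l) + τ ^ 2 / 2 * Real.log N ^ 2 * S) *
            Real.exp (w + 32) := by
          rw [← Real.exp_add, ← Real.exp_add]
          congr 1
          ring
        rw [e1]
        ring

end Crest.Agent.R020
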