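import Mathlib
import Crest.Agent.R020.LemE

/-!
Row 20 (helper162): union over patterns and the non-asymptotic form of (U).
-/

set_option autoImplicit false

open scoped ENNReal
open Crest.NumberTheoryR.TotientScale

noncomputable section

namespace Crest.Agent.R020

/-- pattern with defect at least `E` and total height at most `S` -/
structure PatE (c0 w T N : ℕ) (E S : ℝ) (l : List ℕ) : Prop extends Pat c0 w T N l where
  defect : E ≤ Gl (l.map fun κ : ℕ => (κ : ℝ) - 1 - c0)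
  height : (l.map fun κ : ℕ => (κ : ℝ)).sum ≤ S

theorem wt_PSl_le {C0 : ℝ} (hC0 : 1 ≤ C0) (hTS : TSHyp C0) {c0 w T N : ℕ} {l : List ℕ} {E S : ℝ}
    (P : PatE c0 w T N E S l) (F τ : ℝ) (hτ : 0 ≤ τ)
    (hbig : (N : ℝ) ^ 2 * (T + 30) ≤ Real.exp (Real.exp c0)) :
    wt (PSl (Sm (PT w)) l) ≤ ENNReal.ofReal (Real.exp (F - E + (c0 + 35 + 29 * N))) +
      ENNReal.ofReal (Real.exp (-(τ * F) + τ ^ 2 / 2 * Real.log N ^ 2 * S + (w + 32)) *
        (C0 * (1 + T) ^ 2 * Real.exp 59) ^ N) := by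
  have h1 : PSl (Sm (PT w)) l ⊆
      {v | v ∈ PSl (Sm (PT w)) l ∧ Lstar c0 T l - F ≤ La (aw c0 l) v} ∪
      {v | v ∈ PSl (Sm (PT w)) l ∧ La (aw c0 l) v ≤ Lstar c0 T l - F} := by
    intro v hv
    rcases le_total (Lstar c0 T l - F) (La (aw c0 l) v) with h | h
    · exact Or.inl ⟨hv, h⟩
    · exact Or.inr ⟨hv, h⟩
  refine (wt_mono h1).trans ((wt_union_le _ _).trans (add_le_add ?_ ?_))
  · refine (case1 P.toPat F hbig).trans (ENNReal.ofReal_le_ofReal (Real.exp_le_exp.mpr ?_))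
    have := P.defect
    linarith
  · exact case2 hC0 hTS P.toPat F τ S hτ P.height

/-- pattern from an index -/
def patOf {T N : ℕ} (i : Fin (N + 1)) (f : Fin N → Fin (T + 1)) : List ℕ :=
  ((List.ofFn f).take (i : ℕ)).map fun x : Fin (T + 1) => (x : ℕ)

lemma exists_patOf {T N : ℕ} {l : List ℕ} (hl : l.length ≤ N) (hT : ∀ x ∈ l, x ≤ T) :
    ∃ (i : Fin (N + 1)) (f : Fin N → Fin (T + 1)), patOf i f = l := by
  refine ⟨⟨l.length, by omega⟩, fun j => if h : (j : ℕ) < l.length then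
    ⟨l[(j : ℕ)], by have := hT _ (List.getElem_mem h); omega⟩ else 0, ?_⟩
  unfold patOf
  apply List.ext_getElem
  · simp [hl]
  · intro k h1 h2
    simp only [List.getElem_map, List.getElem_take, List.getElem_ofFn]
    rw [dif_pos h2]

/-- union over patterns -/
theorem wt_patterns_le {C0 : ℝ} (hC0 : 1 ≤ C0) (hTS : TSHyp C0) {c0 w T N : ℕ} {E S : ℝ}
    (F τ : ℝ) (hτ : 0 ≤ τ) (hbig : (N : ℝ) ^ 2 * (T + 30) ≤ Real.exp (Real.exp c0)) :
    wt {v | ∃ l, PatE c0 w T N E S l ∧ v ∈ PSl (Sm (PT w)) l} ≤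
      ENNReal.ofReal ((N + 1) * (T + 1) ^ N) *
      (ENNReal.ofReal (Real.exp (F - E + (c0 + 35 + 29 * N))) +
      ENNReal.ofReal (Real.exp (-(τ * F) + τ ^ 2 / 2 * Real.log N ^ 2 * S + (w + 32)) *
        (C0 * (1 + T) ^ 2 * Real.exp 59) ^ N)) := by
  set b := (ENNReal.ofReal (Real.exp (F - E + (c0 + 35 + 29 * N))) +
      ENNReal.ofReal (Real.exp (-(τ * F) + τ ^ 2 / 2 * Real.log N ^ 2 * S + (w + 32)) *
        (C0 * (1 + T) ^ 2 * Real.exp 59) ^ N)) with hb
  have h1 : wt {v | ∃ l, PatE c0 w T N E S l ∧ v ∈ PSl (Sm (PT w)) l} ≤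
      ∑' i : Fin (N + 1) × (Fin N → Fin (T + 1)),
        wt {v | PatE c0 w T N E S (patOf i.1 i.2) ∧ v ∈ PSl (Sm (PT w)) (patOf i.1 i.2)} := by
    apply ws_le_tsum
    rintro v ⟨l, hl, hv⟩
    obtain ⟨i, f, hif⟩ := exists_patOf hl.len hl.le
    refine ⟨(i, f), ?_⟩
    show PatE c0 w T N E S (patOf i f) ∧ v ∈ PSl (Sm (PT w)) (patOf i f)
    rw [hif]
    exact ⟨hl, hv⟩
  refine h1.trans ?_
  rw [tsum_fintype]
  have h2 : ∀ i ∈ (Finset.univ : Finset (Fin (N + 1) × (Fin N → Fin (T + 1)))),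
      wt {v | PatE c0 w T N E S (patOf i.1 i.2) ∧ v ∈ PSl (Sm (PT w)) (patOf i.1 i.2)} ≤ b := by
    intro i _
    by_cases hP : PatE c0 w T N E S (patOf i.1 i.2)
    · refine le_trans (wt_mono ?_) (wt_PSl_le hC0 hTS hP F τ hτ hbig)
      rintro v ⟨_, hv⟩
      exact hv
    · have : {v | PatE c0 w T N E S (patOf i.1 i.2) ∧ v ∈ PSl (Sm (PT w)) (patOf i.1 i.2)} = ∅ := by
        ext v
        simp [hP]
      rw [this]
      unfold wt ws
      simp
  refine (Finset.sum_le_sum h2).trans ?_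
  rw [Finset.sum_const, Finset.card_univ, nsmul_eq_mul]
  apply mul_le_mul' _ le_rfl
  rw [← ENNReal.ofReal_natCast]
  apply ENNReal.ofReal_le_ofReal
  rw [Fintype.card_prod, Fintype.card_fin, Fintype.card_fun, Fintype.card_fin, Fintype.card_fin]
  push_cast
  exact le_rfl

/-- the set of totients with a preimage of large defect -/
def Ubad (T : ℝ) (E : ℝ) : Set ℕ :=
  {v | ∃ n ∈ Sm (PT T), n.totient = v ∧ E ≤ Gl (n.primeFactorsList.map yy)}

lemma sum_yy_le_Sy_of_split {n m : ℕ} {Lb : List ℕ}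
    (h : n.primeFactorsList = m.primeFactorsList ++ Lb) : Sy n = Sy m + (Lb.map yy).sum := by
  unfold Sy
  rw [h, List.map_append, List.sum_append]

lemma length_mul_le {w : ℝ} (L : List ℕ) (h : ∀ q ∈ L, w < yy q) :
    (L.length : ℝ) * w ≤ (L.map yy).sum := by
  induction L with
  | nil => simp
  | cons q L ih =>
    have h1 := ih fun x hx => h x (by simp [hx])
    have h2 := h q (by simp)
    rw [List.map_cons, List.sum_cons, List.length_cons]
    push_cast
    linarith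

lemma sum_kap_le (L : List ℕ) :
    ((L.map kap).map fun κ : ℕ => (κ : ℝ)).sum ≤ (L.map yy).sum + L.length := by
  induction L with
  | nil => simp
  | cons q L ih =>
    have h2 := kap_lt q
    simp only [List.map_cons, List.sum_cons, List.length_cons]
    push_cast
    linarith

/-- **(U), non-asymptotic form.** -/
theorem U_main {C0 : ℝ} (hC0 : 1 ≤ C0) (hTS : TSHyp C0) {CB : ℝ}
    (hCB : ∀ T : ℝ, 0 ≤ T → ∀ X S : ℝ,
      wt {v | ∃ n ∈ Sm (PT T), n.totient = v ∧ (Om v : ℝ) ≤ X ∧ S ≤ Sy n}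
        ≤ ENNReal.ofReal (Real.exp (X - 3 / 10 * S + CB)))
    {c0 w T N : ℕ} {X E F τ : ℝ} (hc : c0 ≤ w) (hw : 1 ≤ w) (hN : 1 ≤ N) (hNw : 40 * T ≤ N * w)
    (hT : 1 ≤ T) (hτ : 0 ≤ τ) (hbig : (N : ℝ) ^ 2 * (T + 30) ≤ Real.exp (Real.exp c0))
    (hE : 0 < E - Real.log (10 * T + 1 : ℕ) * (4 * X)) :
    wt (Ubad T E) ≤
      ENNReal.ofReal (Real.exp (-(2 / 5 * (10 * T)) + (3 / 2 * T + 50))) +
      (ENNReal.ofReal (Real.exp (10 * T - 3 / 10 * (40 * T) + CB)) +
      (ENNReal.ofReal (2 * Real.exp (-Real.exp w + T + 32)) +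
      (ENNReal.ofReal ((N + 1) * (T + 32) ^ N) *
        ENNReal.ofReal (Real.exp (-(2 / 5 * X) + (3 / 2 * w + 50))) +
      (ENNReal.ofReal ((N + 1) * (T + 32) ^ N) *
        ENNReal.ofReal (Real.exp (X - 3 / 10 * (4 * X) + CB)) +
      ENNReal.ofReal ((N + 1) * (T + 1) ^ N) *
      (ENNReal.ofReal (Real.exp (F - (E - Real.log (10 * T + 1 : ℕ) * (4 * X) -
        (c0 + 1) * (N * Real.log N)) + (c0 + 35 + 29 * N))) +
      ENNReal.ofReal (Real.exp (-(τ * F) + τ ^ 2 / 2 * Real.log N ^ 2 * (40 * T + N) + (w + 32)) *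
        (C0 * (1 + T) ^ 2 * Real.exp 59) ^ N)))))) := by
  have hT0 : (0 : ℝ) ≤ T := Nat.cast_nonneg T
  have hw0 : (0 : ℝ) ≤ w := Nat.cast_nonneg w
  have hN1 : (1 : ℝ) ≤ N := by exact_mod_cast hN
  have hlogN : 0 ≤ Real.log N := Real.log_nonneg hN1
  set E2 := E - Real.log (10 * T + 1 : ℕ) * (4 * X) - (c0 + 1) * (N * Real.log N) with hE2
  -- the exceptional sets
  set X1 : Set ℕ := {v | v ∈ Sm (PT T) ∧ 10 * (T : ℝ) ≤ Om v} with hX1
  set X2 : Set ℕ := {v | ∃ n ∈ Sm (PT T), n.totient = v ∧ (Om v : ℝ) ≤ 10 * T ∧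
    40 * (T : ℝ) ≤ Sy n} with hX2
  set X3 : Set ℕ := {v | ∃ n ∈ Sm (PT T), n.totient = v ∧
    ∃ q : ℕ, q.Prime ∧ (w : ℝ) < yy q ∧ q ^ 2 ∣ n} with hX3
  set U4 : Set ℕ := {u | u ∈ Sm (PT w) ∧ X ≤ Om u} with hU4
  set U5 : Set ℕ := {u | ∃ m ∈ Sm (PT w), m.totient = u ∧ (Om u : ℝ) ≤ X ∧ 4 * X ≤ Sy m} with hU5
  set X4 : Set ℕ := {v | ∃ b ∈ BPle T N, ∃ u ∈ U4, b * u = v} with hX4
  set X5 : Set ℕ := {v | ∃ b ∈ BPle T N, ∃ u ∈ U5, b * u = v} with hX5
  set X6 : Set ℕ := {v | ∃ l, PatE c0 w T N E2 (40 * T + N) l ∧ v ∈ PSl (Sm (PT w)) l} with hX6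
  have hcover : Ubad T E ⊆ X1 ∪ (X2 ∪ (X3 ∪ (X4 ∪ (X5 ∪ X6)))) := by
    rintro v ⟨n, hn, rfl, hG⟩
    have hn0 : n ≠ 0 := hn.1
    have hvS : n.totient ∈ Sm (PT T) := totient_mem_Sm hn0 hT0 ((mem_Sm_PT hT0).mp hn).2
    by_cases h1 : n.totient ∈ X1
    · exact Or.inl h1
    by_cases h2 : n.totient ∈ X2
    · exact Or.inr (Or.inl h2)
    by_cases h3 : n.totient ∈ X3
    · exact Or.inr (Or.inr (Or.inl h3))
    have hOm : (Om n.totient : ℝ) < 10 * T := by
      by_contra h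
      push Not at h
      exact h1 ⟨hvS, h⟩
    have hSy : Sy n < 40 * T := by
      by_contra h
      push Not at h
      exact h2 ⟨n, hn, rfl, hOm.le, h⟩
    obtain ⟨m, Lb, hm0, hsplit, hms, hLb, hLbs, hmss, htot, hsq⟩ := split_preimage hn0 (w : ℝ)
    have hnodup : Lb.Nodup := by
      by_contra h
      obtain ⟨q, hq, hwq, hqn⟩ := hsq h
      exact h3 ⟨n, hn, rfl, q, hq, hwq, hqn⟩
    rw [totient_prod_nodup Lb (fun q hq => (hLb q hq).1) hnodup] at htot
    have hSsplit := sum_yy_le_Sy_of_split hsplit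
    have hSm0 : 0 ≤ Sy m := by
      unfold Sy
      apply List.sum_nonneg
      intro x hx
      obtain ⟨p, _, rfl⟩ := List.mem_map.mp hx
      exact yy_nonneg p
    have hLbsum : (Lb.map yy).sum < 40 * T := by linarith
    have hLblen : Lb.length ≤ N := by
      by_contra h
      push Not at h
      have h4 := length_mul_le Lb (w := (w : ℝ)) fun q hq => (hLb q hq).2
      have h5 : ((N : ℝ)) * w ≤ (Lb.length : ℝ) * w := by
        have : (N : ℝ) ≤ Lb.length := by exact_mod_cast h.le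
        gcongr
      have h6 : (40 : ℝ) * T ≤ N * w := by exact_mod_cast hNw
      linarith
    have hLbT : ∀ q ∈ Lb, yy q ≤ T := by
      intro q hq
      have h4 : q ∈ n.primeFactors := by
        rw [Nat.mem_primeFactors_iff_mem_primeFactorsList, hsplit]
        exact List.mem_append_right _ hq
      exact ((mem_Sm_PT hT0).mp hn).2 q h4
    have hb : (Lb.map (· - 1)).prod ∈ BPle T N :=
      ⟨Lb, hLblen, fun q hq => ⟨(hLb q hq).1, hLbT q hq⟩, rfl⟩
    have hmS : m ∈ Sm (PT w) := by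
      rw [mem_Sm_PT hw0]
      refine ⟨hm0, fun q hq => hms q ?_⟩
      exact Nat.mem_primeFactors_iff_mem_primeFactorsList.mp hq
    have hmtS : m.totient ∈ Sm (PT w) := totient_mem_Sm hm0 hw0 ((mem_Sm_PT hw0).mp hmS).2
    by_cases h4 : X ≤ Om m.totient
    · refine Or.inr (Or.inr (Or.inr (Or.inl ?_)))
      refine ⟨_, hb, m.totient, ⟨hmtS, h4⟩, ?_⟩
      rw [htot]; ring
    push Not at h4
    by_cases h5 : 4 * X ≤ Sy m
    · refine Or.inr (Or.inr (Or.inr (Or.inr (Or.inl ?_))))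
      refine ⟨_, hb, m.totient, ⟨m, hmS, rfl, h4.le, h5⟩, ?_⟩
      rw [htot]; ring
    push Not at h5
    refine Or.inr (Or.inr (Or.inr (Or.inr (Or.inr ?_))))
    -- defect of the big part
    have hOmn : n.primeFactorsList.length ≤ 10 * T + 1 := by
      have h6 := Om_le_Om_totient hn0
      have h7 : Om n.totient < 10 * T := by exact_mod_cast hOm
      show Om n ≤ _
      omega
    have hlogM : 0 ≤ Real.log (10 * T + 1 : ℕ) := by
      apply Real.log_nonneg
      have : 1 ≤ 10 * T + 1 := by omega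
      exact_mod_cast this
    have hGb : E - Real.log (10 * T + 1 : ℕ) * (4 * X) ≤ Gl (Lb.map yy) := by
      rw [hsplit, List.map_append] at hG
      have h6 := Gl_append_le (m.primeFactorsList.map yy) (Lb.map yy) (by
        intro x hx
        obtain ⟨p, _, rfl⟩ := List.mem_map.mp hx
        exact yy_nonneg p) (10 * T + 1) (by
        rw [List.length_map, List.length_map, ← List.length_append, ← hsplit]
        exact hOmn)
      have h7 : Real.log (10 * T + 1 : ℕ) * (m.primeFactorsList.map yy).sum ≤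
          Real.log (10 * T + 1 : ℕ) * (4 * X) := by
        apply mul_le_mul_of_nonneg_left _ hlogM
        exact h5.le
      linarith
    have hLbne : Lb ≠ [] := by
      rintro rfl
      simp only [List.map_nil, Gl_nil] at hGb
      linarith
    have hkapw : ∀ q ∈ Lb, w < kap q := by
      intro q hq
      have h6 := (hLb q hq).2
      have h7 := yy_le_kap q
      have : (w : ℝ) < kap q := by linarith
      exact_mod_cast this
    refine ⟨Lb.map kap, ?_, Lb, fun q hq => (hLb q hq).1, rfl, m.totient, hmtS, ?_⟩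
    · refine ⟨⟨?_, ?_, ?_, ?_, ?_, hc, hN⟩, ?_, ?_⟩
      · rw [List.pairwise_map]
        exact hLbs.imp fun h => kap_mono h
      · intro x hx
        obtain ⟨q, hq, rfl⟩ := List.mem_map.mp hx
        exact hkapw q hq
      · intro x hx
        obtain ⟨q, hq, rfl⟩ := List.mem_map.mp hx
        rw [kap_le_iff]
        exact hLbT q hq
      · rw [List.length_map]
        exact hLblen
      · simpa using hLbne
      · -- defect of the cells
        have h6 := Gl_le_cells c0 Lb yy kap N hLblen (fun q _ => ⟨by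
          have := kap_lt q
          linarith, yy_le_kap q⟩)
        have h7 : ((c0 : ℝ) + 1) * (Lb.length * Real.log N) ≤ ((c0 : ℝ) + 1) * (N * Real.log N) := by
          have : (Lb.length : ℝ) ≤ N := by exact_mod_cast hLblen
          gcongr
        rw [List.map_map]
        have h8 : (List.map ((fun κ : ℕ => (κ : ℝ) - 1 - c0) ∘ kap) Lb) =
            Lb.map fun q : ℕ => (kap q : ℝ) - 1 - c0 := rfl
        rw [h8]
        linarith
      · have h6 := sum_kap_le Lb
        have h7 : (Lb.length : ℝ) ≤ N := by exact_mod_cast hLblen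
        linarith
    · rw [htot]; ring
  refine (wt_mono hcover).trans ?_
  refine (wt_union_le _ _).trans (add_le_add (wt_Om_large_le hT0 _) ?_)
  refine (wt_union_le _ _).trans (add_le_add (hCB T hT0 _ _) ?_)
  refine (wt_union_le _ _).trans (add_le_add (wt_sq_le hT0 hw0) ?_)
  refine (wt_union_le _ _).trans (add_le_add ?_ ?_)
  · refine (wt_mul_le X4 (BPle T N) U4 fun v hv => hv).trans ?_
    exact mul_le_mul' (wt_BPle_le hT0 N) (wt_Om_large_le hw0 X)
  refine (wt_union_le _ _).trans (add_le_add ?_ ?_)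
  · refine (wt_mul_le X5 (BPle T N) U5 fun v hv => hv).trans ?_
    exact mul_le_mul' (wt_BPle_le hT0 N) (hCB w hw0 _ _)
  · exact wt_patterns_le hC0 hTS F τ hτ hbig

end Crest.Agent.R020
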