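import Mathlib
import Crest.Agent.R020.LemF

/-!
Row 20 (helper162): asymptotic form of (U).
-/

set_option autoImplicit false

open scoped ENNReal
open Filter Topology
open Crest.NumberTheoryR.TotientScale

noncomputable section

namespace Crest.Agent.R020

/-- powers with logarithms -/
lemma ev_rpow (a b : ℝ) (h : a < b) (C : ℝ) (k : ℕ) :
    ∀ᶠ t : ℝ in atTop, C * (t ^ a * Real.log t ^ k) ≤ t ^ b := by
  have h1 : (fun t : ℝ => Real.log t ^ (k : ℝ)) =o[atTop] fun t : ℝ => t ^ (b - a) :=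
    isLittleO_log_rpow_rpow_atTop (k : ℝ) (by linarith)
  have h2 := h1.bound (show (0 : ℝ) < 1 / (|C| + 1) by positivity)
  filter_upwards [h2, eventually_gt_atTop 1] with t ht ht1
  have hl : 0 < Real.log t := Real.log_pos ht1
  have ht0 : 0 < t := by linarith
  rw [Real.rpow_natCast, Real.norm_of_nonneg (by positivity), Real.norm_of_nonneg (by positivity),
    div_mul_eq_mul_div, le_div_iff₀ (by positivity), one_mul] at ht
  have h3 : t ^ b = t ^ a * t ^ (b - a) := by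
    rw [← Real.rpow_add ht0]; ring_nf
  rw [h3]
  have h4 : C * (t ^ a * Real.log t ^ k) = t ^ a * (C * Real.log t ^ k) := by ring
  rw [h4]
  apply mul_le_mul_of_nonneg_left _ (by positivity)
  have h5 : C ≤ |C| := le_abs_self C
  have h6 : 0 < Real.log t ^ k := by positivity
  nlinarith

lemma ev_const (b : ℝ) (h : 0 < b) (C : ℝ) : ∀ᶠ t : ℝ in atTop, C ≤ t ^ b :=
  (tendsto_rpow_atTop h).eventually_ge_atTop C

section arith

lemma ar1 {t p35 CB : ℝ} (d1 : p35 ≤ t) (d2 : 50 + CB ≤ t) (h0 : 0 ≤ CB) :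
    -(2 / 5 * (10 * t)) + (3 / 2 * t + 50) ≤ -p35 := by linarith

lemma ar2 {t p35 CB : ℝ} (d1 : p35 ≤ t) (d2 : 50 + CB ≤ t) :
    10 * t - 3 / 10 * (40 * t) + CB ≤ -p35 := by linarith

lemma ar3 {t p35 e e' : ℝ} (d1 : p35 ≤ t) (b9 : 2 * t + 33 ≤ e') (h : e' ≤ e) :
    1 + (-e + t + 32) ≤ -p35 := by linarith

lemma ar4 {A p12 p35 X w CB : ℝ} (d3 : 1000 * A ≤ p35) (d4 : 100 * p35 ≤ X) (hw : w ≤ 2 * p12)
    (hA : p12 ≤ A) (h0 : 0 ≤ CB) (d10 : 50 + CB ≤ p12) (hp : 0 ≤ p35) :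
    200 * A + (-(2 / 5 * X) + (3 / 2 * w + 50)) ≤ -p35 := by linarith

lemma ar5 {A p12 p35 X CB : ℝ} (d3 : 1000 * A ≤ p35) (d4 : 100 * p35 ≤ X)
    (hA : p12 ≤ A) (d10 : 50 + CB ≤ p12) (hp : 0 ≤ p35) :
    200 * A + (X - 3 / 10 * (4 * X) + CB) ≤ -p35 := by linarith

lemma ar6 {A B p12 p35 p45 F LX cN N c0 CB p1920 : ℝ} (d3 : 1000 * A ≤ p35)
    (hA : p12 ≤ A) (hB : p45 ≤ B) (h0 : 0 ≤ CB) (d10 : 50 + CB ≤ p12) (hLX : LX ≤ 8 * B)
    (hcN : cN ≤ 240 * B) (hc0 : c0 ≤ 2 * p12) (hN : N ≤ 80 * p12) (d6 : 1000 * B ≤ F)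
    (d7 : 100 * F ≤ p1920) (d9 : p35 ≤ p45) (hp : 0 ≤ p35) (hF : 0 ≤ F) :
    200 * A + (F - (p1920 / 2 - LX - cN) + (c0 + 35 + 29 * N)) ≤ -p35 := by linarith

lemma ar7 {A B p12 p35 p34 X w CB Q : ℝ} (d3 : 1000 * A ≤ p35) (d4 : 100 * p35 ≤ X)
    (hA : p12 ≤ A) (hB : X ≤ B) (h0 : 0 ≤ CB) (d10 : 50 + CB ≤ p12) (hQ : Q ≤ 21 * B)
    (hw : w ≤ 2 * p12) (d5 : 1000 * B ≤ p34) (hp : 0 ≤ p35) :
    200 * A + ((-p34 + Q + (w + 32)) + 320 * A) ≤ -p35 := by linarith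

end arith

lemma U_key {C0 : ℝ} (hC0 : 1 ≤ C0) : ∀ᶠ t : ℝ in atTop,
    1 ≤ t ∧
    (t ^ (3 / 10 : ℝ) + 1 ≤ 2 * t ^ (3 / 10 : ℝ)) ∧ (t ^ (1 / 2 : ℝ) + 1 ≤ 2 * t ^ (1 / 2 : ℝ)) ∧
    (80 * t ^ (1 / 2 : ℝ) + 1 ≤ t) ∧ (Real.log (10 * t + 1) ≤ 2 * Real.log t) ∧
    (Real.log (t + 32) ≤ 2 * Real.log t) ∧
    (Real.log (C0 * (1 + t) ^ 2 * Real.exp 59) ≤ 4 * Real.log t) ∧
    (6400 * t * (t + 30) ≤ Real.exp (t ^ (3 / 10 : ℝ))) ∧
    (2 * t + 33 ≤ Real.exp (t ^ (1 / 2 : ℝ))) ∧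
    (1 ≤ Real.log t) := by
  have a1 := eventually_ge_atTop (1 : ℝ)
  have a2 := ev_const (3 / 10) (by norm_num) 1
  have a3 := ev_const (1 / 2) (by norm_num) 81
  have a4 := eventually_ge_atTop (100 : ℝ)
  have a5 := eventually_ge_atTop (C0 * Real.exp 59 * 4)
  have a6 : ∀ᶠ t : ℝ in atTop, 6400 * t * (t + 30) ≤ Real.exp (t ^ (3 / 10 : ℝ)) := by
    have h1 : ∀ᶠ s : ℝ in atTop, s ^ 10 ≤ Real.exp s := by
      have := (Real.isLittleO_pow_exp_atTop (n := 10)).bound (show (0:ℝ) < 1 by norm_num)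
      filter_upwards [this, eventually_ge_atTop 0] with s hs hs0
      rw [one_mul, Real.norm_of_nonneg (by positivity), Real.norm_of_nonneg (Real.exp_pos s).le]
        at hs
      exact hs
    have h2 := (tendsto_rpow_atTop (show (0 : ℝ) < 3 / 10 by norm_num)).eventually h1
    filter_upwards [h2, eventually_ge_atTop 10000] with t ht ht1
    have h3 : (t ^ (3 / 10 : ℝ)) ^ 10 = t ^ 3 := by
      rw [← Real.rpow_natCast, ← Real.rpow_mul (by linarith), ← Real.rpow_natCast]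
      norm_num
    rw [h3] at ht
    have h4 : 6400 * (t + 30) ≤ t ^ 2 := by nlinarith
    nlinarith
  have a7 : ∀ᶠ t : ℝ in atTop, 2 * t + 33 ≤ Real.exp (t ^ (1 / 2 : ℝ)) := by
    have h1 : ∀ᶠ s : ℝ in atTop, s ^ 4 ≤ Real.exp s := by
      have := (Real.isLittleO_pow_exp_atTop (n := 4)).bound (show (0:ℝ) < 1 by norm_num)
      filter_upwards [this, eventually_ge_atTop 0] with s hs hs0
      rw [one_mul, Real.norm_of_nonneg (by positivity), Real.norm_of_nonneg (Real.exp_pos s).le]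
        at hs
      exact hs
    have h2 := (tendsto_rpow_atTop (show (0 : ℝ) < 1 / 2 by norm_num)).eventually h1
    filter_upwards [h2, eventually_ge_atTop 100] with t ht ht1
    have h3 : (t ^ (1 / 2 : ℝ)) ^ 4 = t ^ 2 := by
      rw [← Real.rpow_natCast, ← Real.rpow_mul (by linarith), ← Real.rpow_natCast]
      norm_num
    rw [h3] at ht
    nlinarith
  have a8 := (Real.tendsto_log_atTop).eventually_ge_atTop 1
  filter_upwards [a1, a2, a3, a4, a5, a6, a7, a8] with t h1 h2 h3 h4 h5 h6 h7 h8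
  have ht0 : 0 < t := by linarith
  refine ⟨h1, by linarith, by linarith, ?_, ?_, ?_, ?_, h6, h7, h8⟩
  · have h9 : t = t ^ (1 / 2 : ℝ) * t ^ (1 / 2 : ℝ) := by
      rw [← Real.rpow_add ht0]; norm_num
    nlinarith
  · have h9 : 2 * Real.log t = Real.log (t ^ 2) := by rw [Real.log_pow]; norm_num
    rw [h9]
    apply Real.log_le_log (by positivity)
    nlinarith
  · have h9 : 2 * Real.log t = Real.log (t ^ 2) := by rw [Real.log_pow]; norm_num
    rw [h9]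
    apply Real.log_le_log (by positivity)
    nlinarith
  · have h9 : 4 * Real.log t = Real.log (t ^ 4) := by rw [Real.log_pow]; norm_num
    rw [h9]
    apply Real.log_le_log (by positivity)
    have h10 : (1 + t) ^ 2 ≤ 4 * t ^ 2 := by nlinarith
    calc C0 * (1 + t) ^ 2 * Real.exp 59 ≤ C0 * (4 * t ^ 2) * Real.exp 59 := by gcongr
      _ = (C0 * Real.exp 59 * 4) * t ^ 2 := by ring
      _ ≤ t * t ^ 2 := by gcongr
      _ ≤ t ^ 4 := by nlinarith [pow_pos ht0 3]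

lemma U_key2 (CB : ℝ) : ∀ᶠ t : ℝ in atTop,
    (t ^ (3 / 5 : ℝ) ≤ t) ∧ (50 + CB ≤ t) ∧
    (1000 * (t ^ (1 / 2 : ℝ) * Real.log t ^ 1) ≤ t ^ (3 / 5 : ℝ)) ∧
    (100 * (t ^ (3 / 5 : ℝ) * Real.log t ^ 0) ≤ t ^ (7 / 10 : ℝ)) ∧
    (1000 * (t ^ (7 / 10 : ℝ) * Real.log t ^ 2) ≤ t ^ (3 / 4 : ℝ)) ∧
    (1000 * (t ^ (4 / 5 : ℝ) * Real.log t ^ 1) ≤ t ^ (9 / 10 : ℝ)) ∧
    (100 * (t ^ (9 / 10 : ℝ) * Real.log t ^ 0) ≤ t ^ (19 / 20 : ℝ)) ∧
    (1 * (t ^ (7 / 10 : ℝ) * Real.log t ^ 0) ≤ t ^ (4 / 5 : ℝ)) ∧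
    (1 * (t ^ (3 / 5 : ℝ) * Real.log t ^ 0) ≤ t ^ (4 / 5 : ℝ)) ∧
    (50 + CB ≤ t ^ (1 / 2 : ℝ)) ∧ (t ^ (1 / 2 : ℝ) + 3 ≤ t ^ (3 / 5 : ℝ)) := by
  have a1 : ∀ᶠ t : ℝ in atTop, t ^ (3 / 5 : ℝ) ≤ t := by
    filter_upwards [eventually_ge_atTop 1] with t ht
    calc t ^ (3 / 5 : ℝ) ≤ t ^ (1 : ℝ) := Real.rpow_le_rpow_of_exponent_le ht (by norm_num)
      _ = t := Real.rpow_one t
  have a2 := eventually_ge_atTop (50 + CB)
  have a3 := ev_rpow (1 / 2) (3 / 5) (by norm_num) 1000 1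
  have a4 := ev_rpow (3 / 5) (7 / 10) (by norm_num) 100 0
  have a5 := ev_rpow (7 / 10) (3 / 4) (by norm_num) 1000 2
  have a6 := ev_rpow (4 / 5) (9 / 10) (by norm_num) 1000 1
  have a7 := ev_rpow (9 / 10) (19 / 20) (by norm_num) 100 0
  have a8 := ev_rpow (7 / 10) (4 / 5) (by norm_num) 1 0
  have a9 := ev_rpow (3 / 5) (4 / 5) (by norm_num) 1 0
  have a10 := ev_const (1 / 2) (by norm_num) (50 + CB)
  have a11 : ∀ᶠ t : ℝ in atTop, t ^ (1 / 2 : ℝ) + 3 ≤ t ^ (3 / 5 : ℝ) := by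
    filter_upwards [ev_rpow (1 / 2) (3 / 5) (by norm_num) 2 0, ev_const (1 / 2) (by norm_num) 3]
      with t h1 h2
    rw [pow_zero, mul_one] at h1
    linarith
  filter_upwards [a1, a2, a3, a4, a5, a6, a7, a8, a9, a10, a11] with t h1 h2 h3 h4 h5 h6 h7 h8 h9
    h10 h11
  exact ⟨h1, h2, h3, h4, h5, h6, h7, h8, h9, h10, h11⟩

set_option maxHeartbeats 4000000 in
/-- (U) at integer scales. -/
theorem U_nat {C0 : ℝ} (hC0 : 1 ≤ C0) (hTS : TSHyp C0) :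
    ∀ᶠ T : ℕ in atTop, wt (Ubad T ((T : ℝ) ^ (19 / 20 : ℝ) / 2)) ≤
      ENNReal.ofReal (Real.exp (-(T : ℝ) ^ (1 / 2 : ℝ))) := by
  obtain ⟨CB, hCB0, hCB⟩ := wt_Sy_large (by linarith) hTS
  have hnat : Tendsto (fun T : ℕ => (T : ℝ)) atTop atTop := tendsto_natCast_atTop_atTop
  filter_upwards [hnat.eventually (U_key hC0), hnat.eventually (U_key2 CB)] with T hk hk2
  obtain ⟨b1, b2, b3, b4, b5, b6, b7, b8, b9, b10⟩ := hk
  obtain ⟨d1, d2, d3, d4, d5, d6, d7, d8, d9, d10, d11⟩ := hk2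
  simp only [pow_zero, mul_one, pow_one, one_mul] at d3 d4 d6 d7 d8 d9
  set t : ℝ := (T : ℝ) with ht
  have ht0 : 0 < t := by linarith
  set w : ℕ := ⌈t ^ (1 / 2 : ℝ)⌉₊ with hw
  set c0 : ℕ := ⌈t ^ (3 / 10 : ℝ)⌉₊ with hc0
  have hwle : (w : ℝ) ≤ 2 * t ^ (1 / 2 : ℝ) := by
    have := Nat.ceil_lt_add_one (show 0 ≤ t ^ (1 / 2 : ℝ) by positivity)
    linarith
  have hwge : t ^ (1 / 2 : ℝ) ≤ w := Nat.le_ceil _
  have hc0le : (c0 : ℝ) ≤ 2 * t ^ (3 / 10 : ℝ) := by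
    have := Nat.ceil_lt_add_one (show 0 ≤ t ^ (3 / 10 : ℝ) by positivity)
    linarith
  have hc0ge : t ^ (3 / 10 : ℝ) ≤ c0 := Nat.le_ceil _
  have hcw : c0 ≤ w := by
    apply Nat.ceil_le_ceil
    exact Real.rpow_le_rpow_of_exponent_le b1 (by norm_num)
  have h12 : 1 ≤ t ^ (1 / 2 : ℝ) := Real.one_le_rpow b1 (by norm_num)
  have hw1 : 1 ≤ w := by
    have : (1 : ℝ) ≤ w := h12.trans hwge
    exact_mod_cast this
  set N : ℕ := 40 * w with hN
  have hN1 : 1 ≤ N := by omega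
  have hNr : (N : ℝ) = 40 * w := by rw [hN]; push_cast; ring
  have hNle : (N : ℝ) ≤ 80 * t ^ (1 / 2 : ℝ) := by rw [hNr]; linarith
  have hN1r : (1 : ℝ) ≤ N := by exact_mod_cast hN1
  have htt : t = t ^ (1 / 2 : ℝ) * t ^ (1 / 2 : ℝ) := by
    rw [← Real.rpow_add ht0]; norm_num
  have hNw : 40 * T ≤ N * w := by
    have : (40 : ℝ) * (T : ℝ) ≤ (N : ℝ) * (w : ℝ) := by
      rw [← ht, hNr]
      nlinarith
    exact_mod_cast this
  have hT1 : 1 ≤ T := by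
    have : (1 : ℝ) ≤ (T : ℝ) := by rw [← ht]; exact b1
    exact_mod_cast this
  have hlogN : Real.log N ≤ Real.log t := by
    apply Real.log_le_log (by linarith)
    linarith
  have hlogN0 : 0 ≤ Real.log N := Real.log_nonneg hN1r
  have hl0 : 0 ≤ Real.log t := by linarith
  have hlogM : Real.log (10 * T + 1 : ℕ) ≤ 2 * Real.log t := by
    push_cast
    exact b5
  have hlogM0 : 0 ≤ Real.log (10 * T + 1 : ℕ) := by
    apply Real.log_nonneg
    have : 1 ≤ 10 * T + 1 := by omega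
    exact_mod_cast this
  have hbig : (N : ℝ) ^ 2 * (T + 30) ≤ Real.exp (Real.exp c0) := by
    have h1 : (N : ℝ) ^ 2 ≤ 6400 * t := by
      calc (N : ℝ) ^ 2 ≤ (80 * t ^ (1 / 2 : ℝ)) ^ 2 := by gcongr
        _ = 6400 * (t ^ (1 / 2 : ℝ) * t ^ (1 / 2 : ℝ)) := by ring
        _ = 6400 * t := by rw [← htt]
    calc (N : ℝ) ^ 2 * (T + 30) ≤ 6400 * t * (t + 30) := by
          rw [← ht]
          gcongr
      _ ≤ Real.exp (t ^ (3 / 10 : ℝ)) := b8
      _ ≤ Real.exp c0 := Real.exp_le_exp.mpr hc0ge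
      _ ≤ Real.exp (Real.exp c0) := by
          apply Real.exp_le_exp.mpr
          have := Real.add_one_le_exp (c0 : ℝ)
          linarith
  set X : ℝ := t ^ (7 / 10 : ℝ) with hX
  set E : ℝ := t ^ (19 / 20 : ℝ) / 2 with hE
  set F : ℝ := t ^ (9 / 10 : ℝ) with hF
  set τ : ℝ := t ^ (-(3 / 20) : ℝ) with hτ
  have hX0 : 0 ≤ X := by positivity
  have hτ0 : 0 ≤ τ := by positivity
  have hp8 : t ^ (3 / 10 : ℝ) * t ^ (1 / 2 : ℝ) = t ^ (4 / 5 : ℝ) := by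
    rw [← Real.rpow_add ht0]; norm_num
  -- error terms
  have hXl : Real.log (10 * T + 1 : ℕ) * (4 * X) ≤ 8 * (t ^ (4 / 5 : ℝ) * Real.log t) := by
    calc Real.log (10 * T + 1 : ℕ) * (4 * X) ≤ (2 * Real.log t) * (4 * t ^ (4 / 5 : ℝ)) := by
          gcongr
      _ = 8 * (t ^ (4 / 5 : ℝ) * Real.log t) := by ring
  have hcN : ((c0 : ℝ) + 1) * (N * Real.log N) ≤ 240 * (t ^ (4 / 5 : ℝ) * Real.log t) := by
    have h1 : (c0 : ℝ) + 1 ≤ 3 * t ^ (3 / 10 : ℝ) := by linarith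
    calc ((c0 : ℝ) + 1) * (N * Real.log N) ≤ (3 * t ^ (3 / 10 : ℝ)) *
          ((80 * t ^ (1 / 2 : ℝ)) * Real.log t) := by gcongr
      _ = 240 * (t ^ (3 / 10 : ℝ) * t ^ (1 / 2 : ℝ) * Real.log t) := by ring
      _ = _ := by rw [hp8]
  have hEpos : 0 < E - Real.log (10 * T + 1 : ℕ) * (4 * X) := by
    have h1 : 0 < t ^ (9 / 10 : ℝ) := by positivity
    have : 0 ≤ t ^ (4 / 5 : ℝ) * Real.log t := by positivity
    linarith
  have hmain := U_main hC0 hTS hCB (c0 := c0) (w := w) (T := T) (N := N) (X := X) (E := E)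
    (F := F) (τ := τ) hcw hw1 hN1 hNw hT1 hτ0 hbig hEpos
  refine hmain.trans ?_
  -- common bound
  set R : ℝ≥0∞ := ENNReal.ofReal (Real.exp (-t ^ (3 / 5 : ℝ))) with hR
  have hcount : ((N : ℝ) + 1) * (t + 32) ^ N ≤ Real.exp (200 * (t ^ (1 / 2 : ℝ) * Real.log t)) := by
    have h1 : (N : ℝ) + 1 ≤ t + 32 := by linarith
    have h2 : ((N : ℝ) + 1) * (t + 32) ^ N ≤ (t + 32) ^ (N + 1) := by
      rw [pow_succ, mul_comm]
      gcongr
    refine h2.trans ?_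
    have h3 : (t + 32) ^ (N + 1) = Real.exp (((N + 1 : ℕ) : ℝ) * Real.log (t + 32)) := by
      rw [Real.exp_nat_mul, Real.exp_log (by linarith)]
    rw [h3]
    apply Real.exp_le_exp.mpr
    have h4 : ((N + 1 : ℕ) : ℝ) ≤ 100 * t ^ (1 / 2 : ℝ) := by push_cast; linarith
    calc ((N + 1 : ℕ) : ℝ) * Real.log (t + 32) ≤ (100 * t ^ (1 / 2 : ℝ)) * (2 * Real.log t) := by
          gcongr
          apply Real.log_nonneg
          linarith
      _ = _ := by ring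
  have hcount2 : ((N : ℝ) + 1) * (t + 1) ^ N ≤ Real.exp (200 * (t ^ (1 / 2 : ℝ) * Real.log t)) := by
    refine le_trans ?_ hcount
    gcongr
    linarith
  have hpl : 0 ≤ t ^ (1 / 2 : ℝ) * Real.log t := by positivity
  have hp6 : 0 < t ^ (3 / 5 : ℝ) := by positivity
  have hp7 : 0 < t ^ (7 / 10 : ℝ) := by positivity
  have hp9 : 0 < t ^ (9 / 10 : ℝ) := by positivity
  have hA12 : t ^ (1 / 2 : ℝ) ≤ t ^ (1 / 2 : ℝ) * Real.log t :=
    le_mul_of_one_le_right (by positivity) b10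
  have hA45 : t ^ (4 / 5 : ℝ) ≤ t ^ (4 / 5 : ℝ) * Real.log t :=
    le_mul_of_one_le_right (by positivity) b10
  have hA7 : t ^ (7 / 10 : ℝ) ≤ t ^ (7 / 10 : ℝ) * Real.log t ^ 2 :=
    le_mul_of_one_le_right (by positivity) (one_le_pow₀ b10)
  have T1 : ENNReal.ofReal (Real.exp (-(2 / 5 * (10 * t)) + (3 / 2 * t + 50))) ≤ R := by
    apply ENNReal.ofReal_le_ofReal
    apply Real.exp_le_exp.mpr
    exact ar1 d1 d2 hCB0
  have T2 : ENNReal.ofReal (Real.exp (10 * t - 3 / 10 * (40 * t) + CB)) ≤ R := by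
    apply ENNReal.ofReal_le_ofReal
    apply Real.exp_le_exp.mpr
    exact ar2 d1 d2
  have T3 : ENNReal.ofReal (2 * Real.exp (-Real.exp w + t + 32)) ≤ R := by
    apply ENNReal.ofReal_le_ofReal
    have h1 : Real.exp (t ^ (1 / 2 : ℝ)) ≤ Real.exp w := Real.exp_le_exp.mpr hwge
    have h2 : (2 : ℝ) ≤ Real.exp 1 := by
      have := Real.add_one_le_exp (1 : ℝ)
      linarith
    calc 2 * Real.exp (-Real.exp w + t + 32) ≤ Real.exp 1 * Real.exp (-Real.exp w + t + 32) := by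
          gcongr
      _ = Real.exp (1 + (-Real.exp w + t + 32)) := (Real.exp_add _ _).symm
      _ ≤ _ := by
          apply Real.exp_le_exp.mpr
          exact ar3 d1 b9 h1
  have T4 : ENNReal.ofReal ((N + 1) * (t + 32) ^ N) *
        ENNReal.ofReal (Real.exp (-(2 / 5 * X) + (3 / 2 * w + 50))) ≤ R := by
    rw [← ENNReal.ofReal_mul (by positivity)]
    apply ENNReal.ofReal_le_ofReal
    calc ((N : ℝ) + 1) * (t + 32) ^ N * Real.exp (-(2 / 5 * X) + (3 / 2 * w + 50))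
        ≤ Real.exp (200 * (t ^ (1 / 2 : ℝ) * Real.log t)) *
          Real.exp (-(2 / 5 * X) + (3 / 2 * w + 50)) := by gcongr
      _ = Real.exp (200 * (t ^ (1 / 2 : ℝ) * Real.log t) + (-(2 / 5 * X) + (3 / 2 * w + 50))) :=
          (Real.exp_add _ _).symm
      _ ≤ _ := by
          apply Real.exp_le_exp.mpr
          exact ar4 d3 d4 hwle hA12 hCB0 d10 hp6.le
  have T5 : ENNReal.ofReal ((N + 1) * (t + 32) ^ N) *
        ENNReal.ofReal (Real.exp (X - 3 / 10 * (4 * X) + CB)) ≤ R := by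
    rw [← ENNReal.ofReal_mul (by positivity)]
    apply ENNReal.ofReal_le_ofReal
    calc ((N : ℝ) + 1) * (t + 32) ^ N * Real.exp (X - 3 / 10 * (4 * X) + CB)
        ≤ Real.exp (200 * (t ^ (1 / 2 : ℝ) * Real.log t)) *
          Real.exp (X - 3 / 10 * (4 * X) + CB) := by gcongr
      _ = Real.exp (200 * (t ^ (1 / 2 : ℝ) * Real.log t) + (X - 3 / 10 * (4 * X) + CB)) :=
          (Real.exp_add _ _).symm
      _ ≤ _ := by
          apply Real.exp_le_exp.mpr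
          exact ar5 d3 d4 hA12 d10 hp6.le
  have T6a : ENNReal.ofReal ((N + 1) * (t + 1) ^ N) *
      ENNReal.ofReal (Real.exp (F - (E - Real.log (10 * T + 1 : ℕ) * (4 * X) -
        (c0 + 1) * (N * Real.log N)) + (c0 + 35 + 29 * N))) ≤ R := by
    rw [← ENNReal.ofReal_mul (by positivity)]
    apply ENNReal.ofReal_le_ofReal
    calc ((N : ℝ) + 1) * (t + 1) ^ N * Real.exp (F - (E - Real.log (10 * T + 1 : ℕ) * (4 * X) -
        (c0 + 1) * (N * Real.log N)) + (c0 + 35 + 29 * N))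
        ≤ Real.exp (200 * (t ^ (1 / 2 : ℝ) * Real.log t)) *
          Real.exp (F - (E - Real.log (10 * T + 1 : ℕ) * (4 * X) -
        (c0 + 1) * (N * Real.log N)) + (c0 + 35 + 29 * N)) := by gcongr
      _ = Real.exp (200 * (t ^ (1 / 2 : ℝ) * Real.log t) + (F -
          (E - Real.log (10 * T + 1 : ℕ) * (4 * X) -
        (c0 + 1) * (N * Real.log N)) + (c0 + 35 + 29 * N))) :=
          (Real.exp_add _ _).symm
      _ ≤ _ := by
          apply Real.exp_le_exp.mpr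
          have h1 : (c0 : ℝ) ≤ 2 * t ^ (1 / 2 : ℝ) := by
            have : (c0 : ℝ) ≤ w := by exact_mod_cast hcw
            exact this.trans hwle
          exact ar6 d3 hA12 hA45 hCB0 d10 hXl hcN h1 hNle d6 d7 d9 hp6.le hp9.le
  have hτF : τ * F = t ^ (3 / 4 : ℝ) := by
    rw [hτ, hF, ← Real.rpow_add ht0]; norm_num
  have hτ2 : τ ^ 2 / 2 * Real.log N ^ 2 * (40 * t + N) ≤ 21 * (t ^ (7 / 10 : ℝ) * Real.log t ^ 2) := by
    have h1 : τ ^ 2 * t = t ^ (7 / 10 : ℝ) := by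
      rw [hτ, ← Real.rpow_natCast, ← Real.rpow_mul ht0.le]
      nth_rewrite 2 [← Real.rpow_one t]
      rw [← Real.rpow_add ht0]
      norm_num
    have h2 : 40 * t + (N : ℝ) ≤ 42 * t := by linarith
    calc τ ^ 2 / 2 * Real.log N ^ 2 * (40 * t + N) ≤ τ ^ 2 / 2 * Real.log t ^ 2 * (42 * t) := by
          gcongr
      _ = 21 * ((τ ^ 2 * t) * Real.log t ^ 2) := by ring
      _ = _ := by rw [h1]
  have hDN : (C0 * (1 + t) ^ 2 * Real.exp 59) ^ N ≤ Real.exp (320 * (t ^ (1 / 2 : ℝ) * Real.log t)) := by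
    have hpos : 0 < C0 * (1 + t) ^ 2 * Real.exp 59 := by positivity
    have h3 : (C0 * (1 + t) ^ 2 * Real.exp 59) ^ N =
        Real.exp ((N : ℝ) * Real.log (C0 * (1 + t) ^ 2 * Real.exp 59)) := by
      rw [Real.exp_nat_mul, Real.exp_log hpos]
    rw [h3]
    apply Real.exp_le_exp.mpr
    calc (N : ℝ) * Real.log (C0 * (1 + t) ^ 2 * Real.exp 59) ≤ (N : ℝ) * (4 * Real.log t) := by
          gcongr
      _ ≤ (80 * t ^ (1 / 2 : ℝ)) * (4 * Real.log t) := by gcongr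
      _ = _ := by ring
  have T6b : ENNReal.ofReal ((N + 1) * (t + 1) ^ N) *
      ENNReal.ofReal (Real.exp (-(τ * F) + τ ^ 2 / 2 * Real.log N ^ 2 * (40 * t + N) + (w + 32)) *
        (C0 * (1 + t) ^ 2 * Real.exp 59) ^ N) ≤ R := by
    rw [← ENNReal.ofReal_mul (by positivity)]
    apply ENNReal.ofReal_le_ofReal
    calc ((N : ℝ) + 1) * (t + 1) ^ N *
        (Real.exp (-(τ * F) + τ ^ 2 / 2 * Real.log N ^ 2 * (40 * t + N) + (w + 32)) *
        (C0 * (1 + t) ^ 2 * Real.exp 59) ^ N)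
        ≤ Real.exp (200 * (t ^ (1 / 2 : ℝ) * Real.log t)) *
          (Real.exp (-(τ * F) + τ ^ 2 / 2 * Real.log N ^ 2 * (40 * t + N) + (w + 32)) *
          Real.exp (320 * (t ^ (1 / 2 : ℝ) * Real.log t))) := by gcongr
      _ = Real.exp (200 * (t ^ (1 / 2 : ℝ) * Real.log t) +
          ((-(τ * F) + τ ^ 2 / 2 * Real.log N ^ 2 * (40 * t + N) + (w + 32)) +
          320 * (t ^ (1 / 2 : ℝ) * Real.log t))) := by
          rw [← Real.exp_add, ← Real.exp_add]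
      _ ≤ _ := by
          apply Real.exp_le_exp.mpr
          rw [hτF]
          exact ar7 d3 d4 hA12 hA7 hCB0 d10 hτ2 hwle d5 hp6.le
  rw [mul_add]
  have hsum : R + (R + (R + (R + (R + (R + R))))) ≤
      ENNReal.ofReal (Real.exp (-t ^ (1 / 2 : ℝ))) := by
    have h7 : R + (R + (R + (R + (R + (R + R))))) = ENNReal.ofReal (7 * Real.exp (-t ^ (3 / 5 : ℝ))) := by
      rw [ENNReal.ofReal_mul (by norm_num), ← hR]
      have : ENNReal.ofReal 7 = 7 := by norm_num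
      rw [this]
      ring
    rw [h7]
    apply ENNReal.ofReal_le_ofReal
    have h8 : (7 : ℝ) ≤ Real.exp 3 := by
      have h9 := Real.add_one_le_exp (1 : ℝ)
      have h10 : Real.exp 3 = Real.exp 1 ^ 3 := by rw [← Real.exp_nat_mul]; norm_num
      rw [h10]
      have h11 : (2 : ℝ) ^ 3 ≤ Real.exp 1 ^ 3 := by
        gcongr
        linarith
      linarith
    calc 7 * Real.exp (-t ^ (3 / 5 : ℝ)) ≤ Real.exp 3 * Real.exp (-t ^ (3 / 5 : ℝ)) := by gcongr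
      _ = Real.exp (3 + -t ^ (3 / 5 : ℝ)) := (Real.exp_add _ _).symm
      _ ≤ _ := by
          apply Real.exp_le_exp.mpr
          linarith
  refine le_trans ?_ hsum
  exact add_le_add T1 (add_le_add T2 (add_le_add T3 (add_le_add T4 (add_le_add T5
    (add_le_add T6a T6b)))))

end Crest.Agent.R020
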