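import Mathlib
import Crest.Agent.R020.LemG
import Crest.Agent.R020.Stmt
import Crest.Agent.R020.Abn4

/-!
Row 20 (helper162): the statement (U).
-/

set_option autoImplicit false

open scoped ENNReal
open Filter Topology
open Crest.NumberTheoryR.TotientScale

noncomputable section

namespace Crest.Agent.R020

/-- the twisted sum hypothesis holds -/
theorem exists_TSHyp : ∃ C0 : ℝ, 1 ≤ C0 ∧ TSHyp C0 := by
  obtain ⟨C, hC, h⟩ := twisted_sum_le
  refine ⟨max 1 C, le_max_left _ _, ?_⟩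
  intro g hg u hu S hS
  have h1 := h g hg u hu S hS
  have h2 : ∑ q ∈ S, g (q - 1) / ((q - 1 : ℕ) : ℝ) = ∑ q ∈ S, g (q - 1) / ((q : ℝ) - 1) := by
    apply Finset.sum_congr rfl
    intro q hq
    have : 1 ≤ q := (hS q hq).1.one_le
    rw [Nat.cast_sub this, Nat.cast_one]
  have h3 : PL u = PT u := rfl
  rw [h2]
  refine h1.trans ?_
  rw [h3]
  gcongr
  exact le_max_right _ _

lemma FL_append_single (c : ℕ → ℝ) (l : List ℕ) (p : ℕ) :
    FL c (l ++ [p]) = FL c l + c l.length * yy p := by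
  induction l generalizing c with
  | nil => simp [FL_cons]
  | cons x l ih =>
    rw [List.cons_append, FL_cons, FL_cons, ih, List.length_cons]
    ring

lemma FL_reverse_eq_Gl (l : List ℕ) : FL aCoef l.reverse = Gl (l.map yy) := by
  induction l with
  | nil => simp
  | cons x l ih =>
    rw [List.reverse_cons, FL_append_single, ih, List.map_cons, Gl_cons, List.length_reverse,
      List.length_map]

lemma Gl_rr {v : ℕ} (hv : IsTot v) (hsq : ¬ Sq v) :
    Gl ((rr v).primeFactorsList.map yy) = FF aa (tl v) - y1 v := by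
  have h1 : v ≠ 1 := by
    rintro rfl
    apply hsq
    unfold Sq
    rw [rr_one]
    simp [Pm]
  rw [← FL_reverse_eq_Gl]
  have h2 := FF_decomp aCoef hv h1 hsq
  have h3 : FL aCoef (rr v).primeFactorsList.reverse = FF aCoef v := rfl
  rw [h3, h2, aCoef_zero]
  have h4 : (fun i => aCoef (i + 1)) = aa := rfl
  rw [h4]
  ring

lemma rr_mem_Sm {v : ℕ} {T : ℝ} (hT : 0 ≤ T) (hy : y1 v ≤ T) : rr v ∈ Sm (PT T) := by
  refine ⟨(rr_pos v).ne', fun p hp => ?_⟩
  rw [Finset.mem_coe, mem_PT hT]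
  have hp' := Nat.prime_of_mem_primeFactors hp
  refine ⟨hp', le_trans (yy_mono ?_) hy⟩
  have hP : 1 ≤ Pm (rr v) := by
    unfold Pm
    rcases hd : dl (rr v) with _ | ⟨q, l⟩
    · simp
    · rw [List.headD_cons]
      exact (prime_of_mem_dl (n := rr v) (by rw [hd]; simp)).one_le
  exact (Pm_le_iff (rr_pos v).ne' hP).mp le_rfl p hp' (Nat.dvd_of_mem_primeFactors hp)

theorem stmtU : StmtU := by
  obtain ⟨C0, hC0, hTS⟩ := exists_TSHyp
  have h := U_nat hC0 hTS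
  rw [eventually_atTop] at h
  obtain ⟨N0, hN0⟩ := h
  refine ⟨1 / 2, max 2 N0, by norm_num, fun Y hY => ?_⟩
  have hY2 : 2 ≤ Y := le_trans (le_max_left _ _) hY
  have hYN : (N0 : ℝ) ≤ Y := le_trans (le_max_right _ _) hY
  have hYT : Y ≤ ⌈Y⌉₊ := Nat.le_ceil Y
  have hTN : N0 ≤ ⌈Y⌉₊ := by
    have : (N0 : ℝ) ≤ (⌈Y⌉₊ : ℝ) := hYN.trans hYT
    exact_mod_cast this
  have hT2 : (⌈Y⌉₊ : ℝ) ≤ 2 * Y := by
    have := Nat.ceil_lt_add_one (show 0 ≤ Y by linarith)
    linarith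
  have h1 := hN0 _ hTN
  refine le_trans ?_ (h1.trans ?_)
  · apply wt_mono
    rintro v ⟨hv, hsq, hy, hF⟩
    refine ⟨rr v, rr_mem_Sm (by positivity) (hy.trans hYT), totient_rr hv, ?_⟩
    rw [Gl_rr hv hsq]
    have h2 : (⌈Y⌉₊ : ℝ) ^ (19 / 20 : ℝ) / 2 ≤ Y ^ (19 / 20 : ℝ) := by
      have h3 : (⌈Y⌉₊ : ℝ) ^ (19 / 20 : ℝ) ≤ (2 * Y) ^ (19 / 20 : ℝ) :=
        Real.rpow_le_rpow (by positivity) hT2 (by norm_num)
      rw [Real.mul_rpow (by norm_num) (by linarith)] at h3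
      have h4 : (2 : ℝ) ^ (19 / 20 : ℝ) ≤ 2 := by
        calc (2 : ℝ) ^ (19 / 20 : ℝ) ≤ 2 ^ (1 : ℝ) :=
              Real.rpow_le_rpow_of_exponent_le (by norm_num) (by norm_num)
          _ = 2 := Real.rpow_one 2
      have h5 : 0 ≤ Y ^ (19 / 20 : ℝ) := by positivity
      nlinarith
    linarith
  · apply ENNReal.ofReal_le_ofReal
    apply Real.exp_le_exp.mpr
    have : Y ^ (1 / 2 : ℝ) ≤ (⌈Y⌉₊ : ℝ) ^ (1 / 2 : ℝ) :=
      Real.rpow_le_rpow (by linarith) hYT (by norm_num)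
    linarith

end Crest.Agent.R020
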