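import Crest.Agent.R020.Sq
import Crest.Agent.R020.TopBasic

/-!
Row 20 (helper688): the crude bound `StmtZ` from `StmtU` (and `StmtSq`, prime sums).
-/

set_option autoImplicit false

open scoped ENNReal Topology
open MeasureTheory Filter

noncomputable section

namespace Crest.Agent.R020.LemZ

/-- shifted primes of scale `≤ Y` -/
def Qs (Y : ℝ) : Set ℕ := {b | ∃ q : ℕ, q.Prime ∧ yy q ≤ Y ∧ b = q - 1}

/-- totients of scale `≤ Y` -/
def Zs (Y : ℝ) : Set ℕ := {v | IsTot v ∧ y1 v ≤ Y}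

lemma wt_Qs_le {Y : ℝ} (hY : 0 ≤ Y) : wt (Qs Y) ≤ ENNReal.ofReal (Y + 27) := by
  classical
  have h1 : wt (Qs Y) ≤ ∑' q : ℕ, ({q : ℕ | q.Prime ∧ yy q ≤ Y} : Set ℕ).indicator
      (fun q => ((q - 1 : ℕ) : ℝ≥0∞)⁻¹) q := by
    apply ws_le_tsum_image (fun v => (v : ℝ≥0∞)⁻¹) _ (fun q : ℕ => q - 1)
    rintro v ⟨q, hq, hqY, rfl⟩
    exact ⟨q, ⟨hq, hqY⟩, rfl⟩
  refine h1.trans ?_
  have hanti : Antitone (fun u : ℝ => if u ≤ Y then (1 : ℝ≥0∞) else 0) := by
    intro a b hab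
    by_cases hb : b ≤ Y
    · simp [hb, hab.trans hb]
    · simp [hb]
  have h2 := psUp _ hanti 0
  have h3 : (∑' q : ℕ, ({q : ℕ | q.Prime ∧ yy q ≤ Y} : Set ℕ).indicator
      (fun q => ((q - 1 : ℕ) : ℝ≥0∞)⁻¹) q) ≤
      ∑' q : ℕ, (if q.Prime ∧ (0 : ℝ) ≤ yy q then
        (if yy q ≤ Y then (1 : ℝ≥0∞) else 0) * ((q - 1 : ℕ) : ℝ≥0∞)⁻¹ else 0) := by
    apply ENNReal.tsum_le_tsum
    intro q
    by_cases hq : q ∈ {q : ℕ | q.Prime ∧ yy q ≤ Y}
    · rw [Set.indicator_of_mem hq, if_pos ⟨hq.1, yy_nonneg q⟩, if_pos hq.2, one_mul]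
    · rw [Set.indicator_of_notMem hq]
      exact zero_le
  refine h3.trans (h2.trans ?_)
  have h4 : (fun u : ℝ => if u ≤ Y then (1 : ℝ≥0∞) else 0) = (Set.Iic Y).indicator 1 := by
    ext u
    by_cases hu : u ≤ Y
    · rw [if_pos hu, Set.indicator_of_mem (Set.mem_Iic.2 hu)]; rfl
    · rw [if_neg hu, Set.indicator_of_notMem (by simpa using hu)]
  rw [h4, lintegral_indicator_one measurableSet_Iic, Measure.restrict_apply measurableSet_Iic]
  have h5 : Set.Iic Y ∩ Set.Ioi ((0 : ℝ) - 27) = Set.Ioc (-27) Y := by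
    ext u
    simp only [Set.mem_inter_iff, Set.mem_Iic, Set.mem_Ioi, Set.mem_Ioc]
    constructor
    · rintro ⟨h1, h2⟩
      exact ⟨by linarith, h1⟩
    · rintro ⟨h1, h2⟩
      exact ⟨h2, by linarith⟩
  rw [h5, Real.volume_Ioc]
  apply ENNReal.ofReal_le_ofReal
  linarith

/-- decomposition step -/
lemma step {CS : ℝ} (hCS : wt {v | IsTot v ∧ Sq v} ≤ ENNReal.ofReal CS) {Y : ℝ} (hY : 0 ≤ Y)
    (A D : Set ℕ) (hA : ∀ v ∈ A, IsTot v ∧ y1 v ≤ Y)
    (hD : ∀ v ∈ A, v ≠ 1 → ¬ Sq v → tl v ∈ D) :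
    wt A ≤ 1 + ENNReal.ofReal CS + ENNReal.ofReal (Y + 27) * wt D := by
  classical
  have h1 : A ⊆ ({1} ∪ {v | IsTot v ∧ Sq v}) ∪ {v | v ∈ A ∧ v ≠ 1 ∧ ¬ Sq v} := by
    intro v hv
    by_cases h1 : v = 1
    · left; left; exact h1
    · by_cases h2 : Sq v
      · left; right; exact ⟨(hA v hv).1, h2⟩
      · right; exact ⟨hv, h1, h2⟩
  refine (wt_mono h1).trans ((wt_union_le _ _).trans ?_)
  apply add_le_add
  · refine (wt_union_le _ _).trans (add_le_add ?_ hCS)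
    rw [wt_singleton]
    simp
  · refine (wt_mul_le _ (Qs Y) D ?_).trans (mul_le_mul' (wt_Qs_le hY) le_rfl)
    rintro v ⟨hv, h1, h2⟩
    obtain ⟨hp, ht, hvv, hr, hlt, hdl⟩ := totient_decomp (hA v hv).1 h1 h2
    exact ⟨Pm (rr v) - 1, ⟨Pm (rr v), hp, (hA v hv).2, rfl⟩, tl v, hD v hv h1 h2, hvv.symm⟩

/-- crude bound -/
lemma crude {Y : ℝ} (hY : 0 ≤ Y) : wt (Zs Y) ≤ ENNReal.ofReal (Real.exp (Y + 32)) := by
  refine (wt_mono ?_).trans (wt_Sm_le hY)
  rintro v ⟨hv, hvY⟩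
  have hr := (rr_pos v).ne'
  rw [← totient_rr hv]
  apply totient_mem_Sm hr hY
  intro q hq
  have hqp := Nat.prime_of_mem_primeFactors hq
  have h2 : q ≤ Pm (rr v) :=
    (Pm_le_iff hr (by
      unfold Pm
      rcases hdl : dl (rr v) with _ | ⟨p, l⟩
      · simp
      · simp only [List.headD_cons]
        exact (prime_of_mem_dl (n := rr v) (by rw [hdl]; simp)).one_le)).1 le_rfl q hqp
        (Nat.dvd_of_mem_primeFactors hq)
  exact (yy_mono h2).trans hvY

lemma one_le_Z {Y : ℝ} (hY : 0 ≤ Y) : 1 ≤ wt (Zs Y) := by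
  have h1 : wt {1} ≤ wt (Zs Y) := by
    apply wt_mono
    rintro v rfl
    exact ⟨isTot_one, by rw [y1_one]; exact hY⟩
  rw [wt_singleton] at h1
  simpa using h1

lemma second {d : ℕ} (hd : IsTot d) (h1 : d ≠ 1) (h2 : ¬ Sq d) :
    1.29 * y1 (tl d) ≤ FF aa d := by
  have h3 := FF_decomp aa hd h1 h2
  obtain ⟨hp, ht, hvv, hr, hlt, hdl⟩ := totient_decomp hd h1 h2
  have h4 : y1 (tl d) ≤ y1 d := yy_mono hlt.le
  have h5 := mul_y1_le_FF (c := fun i => aa (i + 1)) (fun i => Top.aa_nonneg _) (tl d)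
  have h6 := Top.aa_zero_add_one
  have h7 := Top.aa_nonneg 0
  have h8 := y1_nonneg (tl d)
  simp only [zero_add] at h5
  rw [h3]
  nlinarith

/-- the recursion -/
lemma recursion (hU : StmtU) : ∃ K Y1 : ℝ, 1 ≤ K ∧ 2 ≤ Y1 ∧ ∀ Y : ℝ, Y1 ≤ Y →
    wt (Zs Y) ≤ ENNReal.ofReal (K * (Y + 28) ^ 2) * wt (Zs (4 / 5 * Y)) := by
  classical
  obtain ⟨CS, hCS0, hCS⟩ := stmtSq
  obtain ⟨c0, Y0, hc0, hU⟩ := hU
  have hE : ∀ᶠ Y : ℝ in atTop, Y ^ (19 / 20 : ℝ) ≤ 0.032 * Y := by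
    have h1 : Tendsto (fun B : ℝ => B ^ (1 / 20 : ℝ)) atTop atTop :=
      tendsto_rpow_atTop (by norm_num)
    filter_upwards [h1.eventually_ge_atTop 100, eventually_ge_atTop (1 : ℝ)] with Y hY hY1
    have hY0 : 0 < Y := by linarith
    have h2 : Y ^ (19 / 20 : ℝ) * Y ^ (1 / 20 : ℝ) = Y := by
      rw [← Real.rpow_add hY0]
      norm_num
    have h3 : 0 ≤ Y ^ (19 / 20 : ℝ) := by positivity
    nlinarith
  obtain ⟨Y2, hY2⟩ := eventually_atTop.1 hE
  refine ⟨2 + CS, max (max Y0 Y2) 2, by linarith, le_max_right _ _, fun Y hY => ?_⟩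
  have hYY0 : Y0 ≤ Y := (le_max_left _ _).trans ((le_max_left _ _).trans hY)
  have hYY2 : Y2 ≤ Y := (le_max_right _ _).trans ((le_max_left _ _).trans hY)
  have hYt : 2 ≤ Y := (le_max_right _ _).trans hY
  have hYpos : 0 ≤ Y := by linarith
  have hEY := hY2 Y hYY2
  set Zw := wt (Zs (4 / 5 * Y)) with hZw
  have hZ1 : 1 ≤ Zw := one_le_Z (by linarith)
  -- good second level
  set D : Set ℕ := {d | IsTot d ∧ y1 d ≤ Y ∧ FF aa d ≤ Y + Y ^ (19 / 20 : ℝ)} with hD
  have hDle : wt D ≤ 1 + ENNReal.ofReal CS + ENNReal.ofReal (Y + 27) * Zw := by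
    apply step hCS hYpos D (Zs (4 / 5 * Y)) (fun v hv => ⟨hv.1, hv.2.1⟩)
    intro v hv h1 h2
    obtain ⟨hp, ht, -, -, -, -⟩ := totient_decomp hv.1 h1 h2
    refine ⟨ht, ?_⟩
    have h3 := second hv.1 h1 h2
    have h4 := hv.2.2
    linarith
  -- first level
  set Bad : Set ℕ := {v | IsTot v ∧ ¬ Sq v ∧ y1 v ≤ Y ∧ y1 v + Y ^ (19 / 20 : ℝ) < FF aa (tl v)}
    with hBad
  have hBadle : wt Bad ≤ 1 := by
    refine (hU Y hYY0).trans ?_
    rw [ENNReal.ofReal_le_one]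
    apply Real.exp_le_one_iff.2
    have : 0 ≤ Y ^ c0 := by positivity
    linarith
  have hgood : wt (Zs Y \ Bad) ≤ 1 + ENNReal.ofReal CS + ENNReal.ofReal (Y + 27) * wt D := by
    apply step hCS hYpos _ D (fun v hv => ⟨hv.1.1, hv.1.2⟩)
    rintro v ⟨hv, hvb⟩ h1 h2
    obtain ⟨hp, ht, -, -, hlt, -⟩ := totient_decomp hv.1 h1 h2
    have h3 : y1 (tl v) ≤ y1 v := yy_mono hlt.le
    refine ⟨ht, h3.trans hv.2, ?_⟩
    by_contra h4
    rw [not_le] at h4
    apply hvb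
    refine ⟨hv.1, h2, hv.2, ?_⟩
    have := hv.2
    linarith
  have htot : wt (Zs Y) ≤ 1 + (1 + ENNReal.ofReal CS + ENNReal.ofReal (Y + 27) * wt D) := by
    refine (wt_mono (B := Bad ∪ (Zs Y \ Bad)) ?_).trans
      ((wt_union_le _ _).trans (add_le_add hBadle hgood))
    intro v hv
    by_cases h : v ∈ Bad
    · exact Or.inl h
    · exact Or.inr ⟨hv, h⟩
  refine htot.trans ?_
  set a := ENNReal.ofReal CS with ha
  set b := ENNReal.ofReal (Y + 27) with hb
  have e1 : 1 + (1 + a + b * wt D) ≤ (1 + (1 + a + b * (1 + a + b))) * Zw := by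
    calc 1 + (1 + a + b * wt D) ≤ 1 + (1 + a + b * (1 + a + b * Zw)) := by gcongr
      _ ≤ 1 * Zw + (1 * Zw + a * Zw + b * (1 * Zw + a * Zw + b * Zw)) := by
          have i1 : (1 : ℝ≥0∞) ≤ 1 * Zw := by rw [one_mul]; exact hZ1
          have i2 : a ≤ a * Zw := le_mul_of_one_le_right (zero_le) hZ1
          gcongr
      _ = (1 + (1 + a + b * (1 + a + b))) * Zw := by ring
  refine e1.trans (mul_le_mul' ?_ le_rfl)
  have hC1 : (0 : ℝ) ≤ 1 + CS := by linarith
  have hY27 : (0 : ℝ) ≤ Y + 27 := by linarith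
  have hin : ENNReal.ofReal (1 + CS) = 1 + a := by
    rw [ENNReal.ofReal_add zero_le_one hCS0.le, ENNReal.ofReal_one]
  have hin2 : ENNReal.ofReal (1 + CS + (Y + 27)) = 1 + a + b := by
    rw [ENNReal.ofReal_add hC1 hY27, hin]
  have hin3 : ENNReal.ofReal ((Y + 27) * (1 + CS + (Y + 27))) = b * (1 + a + b) := by
    rw [ENNReal.ofReal_mul hY27, hin2]
  have hprod : (0 : ℝ) ≤ (Y + 27) * (1 + CS + (Y + 27)) := mul_nonneg hY27 (by linarith)
  have e2 : (1 + (1 + a + b * (1 + a + b))) =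
      ENNReal.ofReal (1 + (1 + CS + (Y + 27) * (1 + CS + (Y + 27)))) := by
    rw [ENNReal.ofReal_add zero_le_one (by linarith), ENNReal.ofReal_add hC1 hprod, hin, hin3,
      ENNReal.ofReal_one]
  rw [e2]
  apply ENNReal.ofReal_le_ofReal
  have h7 : 0 ≤ (Y + 27) * (3 + CS) := mul_nonneg hY27 (by linarith)
  have h8 : 0 ≤ (Y + 27) ^ 2 * (1 + CS) := mul_nonneg (sq_nonneg _) hC1
  have h9 : (2 + CS) * (Y + 28) ^ 2 - (1 + (1 + CS + (Y + 27) * (1 + CS + (Y + 27)))) =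
      (Y + 27) * (3 + CS) + (Y + 27) ^ 2 * (1 + CS) := by ring
  linarith

end Crest.Agent.R020.LemZ

namespace Crest.Agent.R020

/-- (Z) crude bound. -/
theorem stmtZ (hU : StmtU) : StmtZ := by
  obtain ⟨K, Y1, hK, hY1, hrec⟩ := LemZ.recursion hU
  have hlogK : 0 ≤ Real.log K := Real.log_nonneg hK
  have hlog14 : 0 ≤ Real.log 14 := Real.log_nonneg (by norm_num)
  set C : ℝ := (Real.log K + 2 * Real.log 14 + 2) / 0.19 + (Y1 + 32) / 0.48 with hC
  have hC1 : Real.log K + 2 * Real.log 14 + 2 ≤ 0.19 * C := by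
    rw [hC, mul_add, mul_div_cancel₀ _ (by norm_num)]
    have : 0 ≤ (0.19 : ℝ) * ((Y1 + 32) / 0.48) := by positivity
    linarith
  have hC2 : Y1 + 32 ≤ 0.48 * C := by
    rw [hC, mul_add, mul_div_cancel₀ (Y1 + 32) (by norm_num)]
    have : 0 ≤ (0.48 : ℝ) * ((Real.log K + 2 * Real.log 14 + 2) / 0.19) := by positivity
    linarith
  have hCpos : 0 < C := by rw [hC]; positivity
  refine ⟨C, hCpos, ?_⟩
  have key : ∀ n : ℕ, ∀ Y : ℝ, 0 ≤ Y → Y ≤ Y1 * (5 / 4 : ℝ) ^ n →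
      wt (LemZ.Zs Y) ≤ ENNReal.ofReal (Real.exp (C * Real.log (Y + 2) ^ 2)) := by
    intro n
    induction n with
    | zero =>
      intro Y hY0 hY
      rw [pow_zero, mul_one] at hY
      refine (LemZ.crude hY0).trans (ENNReal.ofReal_le_ofReal (Real.exp_le_exp.2 ?_))
      have h1 : Real.log 2 ≤ Real.log (Y + 2) := Real.log_le_log (by norm_num) (by linarith)
      have h2 := Real.log_two_gt_d9
      have h3 : 0.48 ≤ Real.log (Y + 2) ^ 2 := by nlinarith
      nlinarith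
    | succ n ih =>
      intro Y hY0 hY
      by_cases hle : Y ≤ Y1 * (5 / 4 : ℝ) ^ n
      · exact ih Y hY0 hle
      · rw [not_le] at hle
        have hpow : (1 : ℝ) ≤ (5 / 4 : ℝ) ^ n := one_le_pow₀ (by norm_num)
        have hY1Y : Y1 ≤ Y := by nlinarith
        have hYt : 2 ≤ Y := hY1.trans hY1Y
        have h1 := ih (4 / 5 * Y) (by linarith) (by rw [pow_succ] at hY; linarith)
        refine (hrec Y hY1Y).trans ((mul_le_mul' le_rfl h1).trans ?_)
        rw [← ENNReal.ofReal_mul (by positivity)]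
        apply ENNReal.ofReal_le_ofReal
        set L := Real.log (Y + 2) with hL
        have hL1 : 1 ≤ L := by
          rw [hL, Real.le_log_iff_exp_le (by linarith)]
          have := Real.exp_one_lt_d9
          linarith
        have hl0 : 0 ≤ Real.log (4 / 5 * Y + 2) := Real.log_nonneg (by linarith)
        have hl : Real.log (4 / 5 * Y + 2) ≤ L - 0.1 := by
          have h2 : Real.log (4 / 5 * Y + 2) ≤ Real.log (0.9 * (Y + 2)) :=
            Real.log_le_log (by linarith) (by linarith)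
          rw [Real.log_mul (by norm_num) (by linarith)] at h2
          have h3 : Real.log 0.9 ≤ 0.9 - 1 := Real.log_le_sub_one_of_pos (by norm_num)
          linarith
        have hsq : Real.log (4 / 5 * Y + 2) ^ 2 ≤ (L - 0.1) ^ 2 := by
          apply pow_le_pow_left₀ hl0 hl
        have hK' : K * (Y + 28) ^ 2 ≤ Real.exp (Real.log K + 2 * Real.log 14 + 2 * L) := by
          have hY2 : 0 < Y + 2 := by linarith
          have e1 : Real.exp (Real.log K + 2 * Real.log 14 + 2 * L) = K * (14 * (Y + 2)) ^ 2 := by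
            rw [Real.exp_add, Real.exp_add, Real.exp_log (by linarith), two_mul, Real.exp_add,
              Real.exp_log (by norm_num), two_mul, Real.exp_add, hL, Real.exp_log hY2]
            ring
          rw [e1]
          have h2 : (Y + 28) ^ 2 ≤ (14 * (Y + 2)) ^ 2 := by
            apply pow_le_pow_left₀ (by linarith)
            linarith
          exact mul_le_mul_of_nonneg_left h2 (by linarith)
        calc K * (Y + 28) ^ 2 * Real.exp (C * Real.log (4 / 5 * Y + 2) ^ 2)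
            ≤ Real.exp (Real.log K + 2 * Real.log 14 + 2 * L) * Real.exp (C * (L - 0.1) ^ 2) := by
              apply mul_le_mul hK' _ (Real.exp_pos _).le (Real.exp_pos _).le
              exact Real.exp_le_exp.2 (mul_le_mul_of_nonneg_left hsq hCpos.le)
          _ = Real.exp (Real.log K + 2 * Real.log 14 + 2 * L + C * (L - 0.1) ^ 2) := by
              rw [← Real.exp_add]
          _ ≤ Real.exp (C * L ^ 2) := by
              apply Real.exp_le_exp.2
              have h5 : Real.log K + 2 * Real.log 14 + 2 * L ≤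
                  (Real.log K + 2 * Real.log 14 + 2) * L := by nlinarith
              have h6 : (Real.log K + 2 * Real.log 14 + 2) * L ≤ 0.19 * C * L :=
                mul_le_mul_of_nonneg_right hC1 (by linarith)
              nlinarith
  intro Y hY
  obtain ⟨n, hn⟩ := pow_unbounded_of_one_lt (Y / Y1) (show (1 : ℝ) < 5 / 4 by norm_num)
  have hY1p : 0 < Y1 := by linarith
  rw [div_lt_iff₀ hY1p] at hn
  exact key n Y hY (by linarith)

end Crest.Agent.R020
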