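import Crest.Agent.R020.LaplaceLim
import Crest.Agent.R020.ScalePhase

/-!
Row 20 (S0026, S0027), module G2 (helper826): the limit of the sums
`S_{m-r}^± = ∑ w (B ± Δ - T_{m-r})_+^{m-r} / ((m-r)! g_1 ⋯ g_{m-r})` divided by `scaleG`.
-/

set_option autoImplicit false

noncomputable section

open Finset Filter Topology
open Crest.NumberTheoryR.TotientScale

namespace Crest.Agent.R020

variable {V : Type*} {w H : V → ℝ}

/-- `∑ w (X - T)_+^k / (k! g_1 ⋯ g_k)`. -/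
def Ssum (w T : V → ℝ) (k : ℕ) (X : ℝ) : ℝ :=
  ∑' v, w v * ((max 0 (X - T v)) ^ k / ((k.factorial : ℝ) * ∏ i ∈ range k, gSeq (i + 1)))

theorem Ssum_eq (w T : V → ℝ) (k : ℕ) {X : ℝ} (hX : 0 < X) :
    Ssum w T k X = scaleAt X k * ∑' v, w v * (max 0 (1 - T v / X)) ^ k := by
  rw [Ssum, ← tsum_mul_left]
  refine tsum_congr fun v => ?_
  have h1 : max 0 (X - T v) = X * max 0 (1 - T v / X) := by
    rw [mul_max_of_nonneg _ _ hX.le, mul_zero, mul_sub, mul_one, mul_div_cancel₀ _ hX.ne']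
  rw [h1, mul_pow, scaleAt]
  ring

/-- the profile `A_r(θ) = ∏_{s<r} (z(θ) ρ^s) · D(z(θ) ρ^r)`. -/
def Aprof (ρ μ : ℝ) (w H : V → ℝ) (r : ℕ) (θ : ℝ) : ℝ :=
  (∏ s ∈ range r, (zPhase ρ μ θ * ρ ^ s)) * Laplace.D w H (zPhase ρ μ θ * ρ ^ r)

section

variable {ρ : ℝ} (hρ0 : 0 < ρ) (hρ1 : ρ < 1)

include hρ0 hρ1

theorem zPhase_bounds {μ : ℝ} (hμ : 0 < μ) {θ : ℝ} (hθ : θ ∈ Set.Ico (0 : ℝ) 1) :
    μ * ρ / lam ρ ≤ zPhase ρ μ θ ∧ zPhase ρ μ θ ≤ μ / lam ρ := by
  have hl := lam_pos hρ0 hρ1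
  rw [zPhase]
  constructor
  · refine div_le_div_of_nonneg_right ?_ hl.le
    refine mul_le_mul_of_nonneg_left ?_ hμ.le
    refine (exp_neg_lam hρ0 hρ1).symm.le.trans (Real.exp_le_exp.2 ?_)
    have := mul_le_mul_of_nonneg_left hθ.2.le hl.le
    linarith
  · refine div_le_div_of_nonneg_right ?_ hl.le
    refine mul_le_of_le_one_right hμ.le ?_
    rw [Real.exp_le_one_iff]
    have := mul_nonneg hl.le hθ.1
    linarith

theorem zPhase_pos {μ : ℝ} (hμ : 0 < μ) (θ : ℝ) : 0 < zPhase ρ μ θ := by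
  have hl := lam_pos hρ0 hρ1
  rw [zPhase]; positivity

/-- `A_r` is bounded between positive constants on `[0,1)`. -/
theorem Aprof_bounds (hD : Laplace.Data w H) {μ : ℝ} (hμ : 0 < μ) (r : ℕ) :
    ∃ c₁ c₂ : ℝ, 0 < c₁ ∧ ∀ θ ∈ Set.Ico (0 : ℝ) 1,
      c₁ ≤ Aprof ρ μ w H r θ ∧ Aprof ρ μ w H r θ ≤ c₂ := by
  have hl := lam_pos hρ0 hρ1
  set z0 : ℝ := μ * ρ / lam ρ with hz0
  set z1 : ℝ := μ / lam ρ with hz1
  have hz0pos : 0 < z0 := by positivity
  have hz1pos : 0 < z1 := by positivity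
  refine ⟨(∏ s ∈ range r, (z0 * ρ ^ s)) * Laplace.D w H (z1 * ρ ^ r),
    (∏ s ∈ range r, (z1 * ρ ^ s)) * Laplace.D w H (z0 * ρ ^ r), ?_, fun θ hθ => ?_⟩
  · exact mul_pos (Finset.prod_pos fun s _ => by positivity) (hD.D_pos (by positivity))
  · obtain ⟨h1, h2⟩ := zPhase_bounds hρ0 hρ1 hμ hθ
    have hz := zPhase_pos hρ0 hρ1 hμ θ
    rw [Aprof]
    constructor
    · refine mul_le_mul (Finset.prod_le_prod (fun s _ => by positivity) fun s _ =>
        mul_le_mul_of_nonneg_right h1 (by positivity)) (hD.D_anti (by positivity)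
        (mul_le_mul_of_nonneg_right h2 (by positivity))) (hD.D_pos (by positivity)).le
        (Finset.prod_nonneg fun s _ => by positivity)
    · refine mul_le_mul (Finset.prod_le_prod (fun s _ => by positivity) fun s _ =>
        mul_le_mul_of_nonneg_right h2 (by positivity)) (hD.D_anti (by positivity)
        (mul_le_mul_of_nonneg_right h1 (by positivity))) (hD.D_pos (by positivity)).le
        (Finset.prod_nonneg fun s _ => by positivity)

/-- The Laplace limit at level `m - r`. -/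
theorem tendsto_laplace_phase (hD : Laplace.Data w H) {T : ℕ → V → ℝ} {μ C q : ℝ} (hμ : 0 < μ)
    (hq0 : 0 < q) (hq1 : q < 1) (hg : Tendsto (fun n : ℕ => gSeq n * ρ ^ n) atTop (𝓝 μ))
    (hT : ∀ k v, |T k v * ρ ^ k - μ * H v| ≤ C * q ^ k * H v) (r : ℕ) {Bp : ℝ → ℝ}
    (hBp : Tendsto (fun x => Bp x / bigB x) atTop (𝓝 1)) :
    Tendsto (fun x => ∑' v, w v * (max 0 (1 - T (mIndex ρ x - r) v / Bp x)) ^ (mIndex ρ x - r)
      - Laplace.D w H (zPhase ρ μ (phase ρ x) * ρ ^ r)) atTop (𝓝 0) := by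
  have hl := lam_pos hρ0 hρ1
  have hB := tendsto_bigB
  have hk : Tendsto (fun x => mIndex ρ x - r) atTop atTop :=
    (tendsto_sub_atTop_nat r).comp (tendsto_mIndex hρ0 hρ1)
  have hBp0 : ∀ᶠ x in atTop, 0 < Bp x := by
    filter_upwards [hBp.eventually (lt_mem_nhds (show (0 : ℝ) < 1 by norm_num)),
      hB.eventually_gt_atTop 0] with x h1 h2
    exact (div_pos_iff_of_pos_right h2).1 h1
  refine hD.tendsto_laplace (l := atTop) (k := fun x => mIndex ρ x - r) (B := Bp)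
    (κ := fun x => μ * (ρ ^ (mIndex ρ x - r))⁻¹)
    (ε := fun x => C * q ^ (mIndex ρ x - r) / μ)
    (η := fun x => zPhase ρ μ (phase ρ x) * ρ ^ r)
    (T := fun x => T (mIndex ρ x - r))
    (η₀ := μ * ρ / lam ρ * ρ ^ r) (η₁ := μ / lam ρ * ρ ^ r) (by positivity) hk hBp0 ?_ ?_ ?_ ?_ ?_
  · exact Eventually.of_forall fun x => by positivity
  · have h1 : Tendsto (fun n : ℕ => q ^ n) atTop (𝓝 0) :=
      tendsto_pow_atTop_nhds_zero_of_lt_one hq0.le hq1
    have h2 := ((h1.comp hk).const_mul C).div_const μ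
    simpa using h2
  · filter_upwards [eventually_phase_mem hρ0 hρ1] with x hx
    obtain ⟨h1, h2⟩ := zPhase_bounds hρ0 hρ1 hμ hx
    exact ⟨mul_le_mul_of_nonneg_right h1 (by positivity),
      mul_le_mul_of_nonneg_right h2 (by positivity)⟩
  · refine Eventually.of_forall fun x v => ?_
    have hp : 0 < ρ ^ (mIndex ρ x - r) := by positivity
    have h1 := hT (mIndex ρ x - r) v
    have e1 : T (mIndex ρ x - r) v - μ * (ρ ^ (mIndex ρ x - r))⁻¹ * H v
        = (T (mIndex ρ x - r) v * ρ ^ (mIndex ρ x - r) - μ * H v)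
          * (ρ ^ (mIndex ρ x - r))⁻¹ := by
      field_simp
    rw [e1, abs_mul, abs_of_pos (inv_pos.2 hp)]
    refine (mul_le_mul_of_nonneg_right h1 (inv_pos.2 hp).le).trans (le_of_eq ?_)
    field_simp
  · -- the limit of `k κ / Bp - η`
    have ha := tendsto_mul_gSeq_div hρ0 hρ1 hg r
    have hb : Tendsto (fun x => μ / (gSeq (mIndex ρ x - r) * ρ ^ (mIndex ρ x - r))) atTop
        (𝓝 1) := by
      have := ((hg.comp hk).inv₀ hμ.ne').const_mul μ
      rw [mul_inv_cancel₀ hμ.ne'] at this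
      exact this.congr fun x => by simp [div_eq_mul_inv]
    have hc : Tendsto (fun x => bigB x / Bp x) atTop (𝓝 1) := by
      have := hBp.inv₀ one_ne_zero
      simpa [inv_div] using this
    have hbc : Tendsto (fun x => μ / (gSeq (mIndex ρ x - r) * ρ ^ (mIndex ρ x - r))
        * (bigB x / Bp x)) atTop (𝓝 1) := by
      simpa using hb.mul hc
    have h1 : Tendsto (fun x => (((mIndex ρ x - r : ℕ) : ℝ) * gSeq (mIndex ρ x - r) / bigB x
        - zPhase ρ μ (phase ρ x) * ρ ^ r)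
        * (μ / (gSeq (mIndex ρ x - r) * ρ ^ (mIndex ρ x - r)) * (bigB x / Bp x)))
        atTop (𝓝 0) := by
      simpa using ha.mul hbc
    have h2 : Tendsto (fun x => (zPhase ρ μ (phase ρ x) * ρ ^ r)
        * (μ / (gSeq (mIndex ρ x - r) * ρ ^ (mIndex ρ x - r)) * (bigB x / Bp x) - 1))
        atTop (𝓝 0) := by
      have h3 : Tendsto (fun x => (μ / lam ρ) * ‖μ / (gSeq (mIndex ρ x - r)
          * ρ ^ (mIndex ρ x - r)) * (bigB x / Bp x) - 1‖) atTop (𝓝 0) := by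
        have := (hbc.sub_const 1).norm.const_mul (μ / lam ρ)
        simpa using this
      refine squeeze_zero_norm' ?_ h3
      filter_upwards [eventually_phase_mem hρ0 hρ1] with x hx
      have h4 := zPhase_bounds hρ0 hρ1 hμ hx
      have h5 := zPhase_pos hρ0 hρ1 hμ (phase ρ x)
      rw [norm_mul]
      refine mul_le_mul_of_nonneg_right ?_ (norm_nonneg _)
      rw [Real.norm_of_nonneg (by positivity)]
      exact (mul_le_of_le_one_right h5.le (pow_le_one₀ hρ0.le hρ1.le)).trans h4.2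
    have h3 := h1.add h2
    rw [add_zero] at h3
    refine h3.congr' ?_
    filter_upwards [hB.eventually_gt_atTop 0, hBp0] with x hx1 hx2
    have hgp := gSeq_pos (mIndex ρ x - r)
    have hp : 0 < ρ ^ (mIndex ρ x - r) := by positivity
    have e1 : ((mIndex ρ x - r : ℕ) : ℝ) * (μ * (ρ ^ (mIndex ρ x - r))⁻¹) / Bp x
        = (((mIndex ρ x - r : ℕ) : ℝ) * gSeq (mIndex ρ x - r) / bigB x)
          * (μ / (gSeq (mIndex ρ x - r) * ρ ^ (mIndex ρ x - r)) * (bigB x / Bp x)) := by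
      field_simp
    rw [e1]
    ring

/-- `scaleAt (B) (m-r) * (…)/ scaleG → A_r` in the form of a difference. -/
theorem tendsto_scale_mul (hD : Laplace.Data w H) {T : ℕ → V → ℝ} {μ C q : ℝ} (hμ : 0 < μ)
    (hq0 : 0 < q) (hq1 : q < 1) (hg : Tendsto (fun n : ℕ => gSeq n * ρ ^ n) atTop (𝓝 μ))
    (hT : ∀ k v, |T k v * ρ ^ k - μ * H v| ≤ C * q ^ k * H v) (r : ℕ) {Bp : ℝ → ℝ}
    (hBp : Tendsto (fun x => Bp x / bigB x) atTop (𝓝 1)) :
    Tendsto (fun x => (scaleAt (bigB x) (mIndex ρ x - r) / scaleG ρ x) *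
      (∑' v, w v * (max 0 (1 - T (mIndex ρ x - r) v / Bp x)) ^ (mIndex ρ x - r))
      - Aprof ρ μ w H r (phase ρ x)) atTop (𝓝 0) := by
  have h1 := tendsto_laplace_phase hρ0 hρ1 hD hμ hq0 hq1 hg hT r hBp
  have h2 := tendsto_scaleAt_div hρ0 hρ1 hg hμ.le r
  have hl := lam_pos hρ0 hρ1
  -- bounds
  set M : ℝ := Laplace.D w H (μ * ρ / lam ρ * ρ ^ r) with hM
  have hMpos : 0 < M := hD.D_pos (by positivity)
  have hDb : ∀ᶠ x in atTop, ‖Laplace.D w H (zPhase ρ μ (phase ρ x) * ρ ^ r)‖ ≤ M := by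
    filter_upwards [eventually_phase_mem hρ0 hρ1] with x hx
    have h3 := zPhase_bounds hρ0 hρ1 hμ hx
    have h4 := zPhase_pos hρ0 hρ1 hμ (phase ρ x)
    rw [Real.norm_of_nonneg (hD.D_pos (by positivity)).le]
    exact hD.D_anti (by positivity) (mul_le_mul_of_nonneg_right h3.1 (by positivity))
  have hSb : ∀ᶠ x in atTop, ‖scaleAt (bigB x) (mIndex ρ x - r) / scaleG ρ x‖
      ≤ (∏ s ∈ range r, (μ / lam ρ * ρ ^ s)) + 1 := by
    filter_upwards [eventually_phase_mem hρ0 hρ1,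
      (tendsto_zero_iff_norm_tendsto_zero.1 h2).eventually (gt_mem_nhds one_pos)] with x hx h5
    have h3 := zPhase_bounds hρ0 hρ1 hμ hx
    have h4 := zPhase_pos hρ0 hρ1 hμ (phase ρ x)
    have h6 : ‖∏ s ∈ range r, (zPhase ρ μ (phase ρ x) * ρ ^ s)‖
        ≤ ∏ s ∈ range r, (μ / lam ρ * ρ ^ s) := by
      rw [Real.norm_of_nonneg (Finset.prod_nonneg fun s _ => by positivity)]
      exact Finset.prod_le_prod (fun s _ => by positivity) fun s _ =>
        mul_le_mul_of_nonneg_right h3.2 (by positivity)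
    have h7 := norm_add_le (scaleAt (bigB x) (mIndex ρ x - r) / scaleG ρ x
      - ∏ s ∈ range r, (zPhase ρ μ (phase ρ x) * ρ ^ s))
      (∏ s ∈ range r, (zPhase ρ μ (phase ρ x) * ρ ^ s))
    rw [sub_add_cancel] at h7
    linarith
  have t1 : Tendsto (fun x => (scaleAt (bigB x) (mIndex ρ x - r) / scaleG ρ x) *
      (∑' v, w v * (max 0 (1 - T (mIndex ρ x - r) v / Bp x)) ^ (mIndex ρ x - r)
      - Laplace.D w H (zPhase ρ μ (phase ρ x) * ρ ^ r))) atTop (𝓝 0) := by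
    have h3 := (tendsto_zero_iff_norm_tendsto_zero.1 h1).const_mul
      ((∏ s ∈ range r, (μ / lam ρ * ρ ^ s)) + 1)
    rw [mul_zero] at h3
    refine squeeze_zero_norm' ?_ h3
    filter_upwards [hSb] with x hx
    rw [norm_mul]
    exact mul_le_mul_of_nonneg_right hx (norm_nonneg _)
  have t2 : Tendsto (fun x => (scaleAt (bigB x) (mIndex ρ x - r) / scaleG ρ x
      - ∏ s ∈ range r, (zPhase ρ μ (phase ρ x) * ρ ^ s))
      * Laplace.D w H (zPhase ρ μ (phase ρ x) * ρ ^ r)) atTop (𝓝 0) := by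
    have h3 := (tendsto_zero_iff_norm_tendsto_zero.1 h2).mul_const M
    rw [zero_mul] at h3
    refine squeeze_zero_norm' ?_ h3
    filter_upwards [hDb] with x hx
    rw [norm_mul]
    exact mul_le_mul_of_nonneg_left hx (norm_nonneg _)
  have t3 := t1.add t2
  rw [add_zero] at t3
  refine t3.congr fun x => ?_
  rw [Aprof]
  ring

/-- **Asymptotics of `S_{m-r}^±`.** `Δ ≥ 0`, `Δ/B → 0` and `(m-r) Δ / B ≤ t`. -/
theorem Ssum_asymp (hD : Laplace.Data w H) {T : ℕ → V → ℝ} {μ C q : ℝ} (hμ : 0 < μ)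
    (hq0 : 0 < q) (hq1 : q < 1) (hg : Tendsto (fun n : ℕ => gSeq n * ρ ^ n) atTop (𝓝 μ))
    (hT : ∀ k v, |T k v * ρ ^ k - μ * H v| ≤ C * q ^ k * H v) (r : ℕ) {Δ : ℝ → ℝ} {t : ℝ}
    (hΔ0 : ∀ᶠ x in atTop, 0 ≤ Δ x) (hΔB : Tendsto (fun x => Δ x / bigB x) atTop (𝓝 0))
    (hΔt : ∀ᶠ x in atTop, ((mIndex ρ x - r : ℕ) : ℝ) * Δ x / bigB x ≤ t) {ε : ℝ} (hε : 0 < ε)
    (hε1 : ε ≤ 1) :
    (∀ᶠ x in atTop, (1 - ε) * Aprof ρ μ w H r (phase ρ x) * scaleG ρ x
        ≤ Ssum w (T (mIndex ρ x - r)) (mIndex ρ x - r) (bigB x + Δ x) ∧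
      Ssum w (T (mIndex ρ x - r)) (mIndex ρ x - r) (bigB x + Δ x)
        ≤ (1 + ε) * Real.exp t * Aprof ρ μ w H r (phase ρ x) * scaleG ρ x) ∧
    (∀ᶠ x in atTop, (1 - ε) * (1 - t) * Aprof ρ μ w H r (phase ρ x) * scaleG ρ x
        ≤ Ssum w (T (mIndex ρ x - r)) (mIndex ρ x - r) (bigB x - Δ x) ∧
      Ssum w (T (mIndex ρ x - r)) (mIndex ρ x - r) (bigB x - Δ x)
        ≤ (1 + ε) * Aprof ρ μ w H r (phase ρ x) * scaleG ρ x) := by
  have hB := tendsto_bigB
  have hgood : ∀ᶠ x in atTop, 0 < bigB x := hB.eventually_gt_atTop 0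
  -- the two limits
  have hp : Tendsto (fun x => (bigB x + Δ x) / bigB x) atTop (𝓝 1) := by
    have h1 : Tendsto (fun x => 1 + Δ x / bigB x) atTop (𝓝 1) := by simpa using hΔB.const_add 1
    refine h1.congr' ?_
    filter_upwards [hgood] with x hx
    rw [add_div, div_self hx.ne']
  have hm : Tendsto (fun x => (bigB x - Δ x) / bigB x) atTop (𝓝 1) := by
    have h1 : Tendsto (fun x => 1 - Δ x / bigB x) atTop (𝓝 1) := by
      simpa using hΔB.const_sub 1
    refine h1.congr' ?_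
    filter_upwards [hgood] with x hx
    rw [sub_div, div_self hx.ne']
  have lp := tendsto_scale_mul hρ0 hρ1 hD hμ hq0 hq1 hg hT r hp
  have lm := tendsto_scale_mul hρ0 hρ1 hD hμ hq0 hq1 hg hT r hm
  obtain ⟨c₁, c₂, hc₁, hc⟩ := Aprof_bounds hρ0 hρ1 hD hμ r
  have hεc : 0 < ε * c₁ := by positivity
  have hG : ∀ᶠ x in atTop, 0 < scaleG ρ x := by
    filter_upwards [hgood] with x hx
    rw [scaleG_eq]; exact scaleAt_pos hx _
  -- comparison of `scaleAt (B ± Δ) k` with `scaleAt B k`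
  have hsc : ∀ (X B : ℝ) (k : ℕ), 0 < B → scaleAt X k = scaleAt B k * (X / B) ^ k := by
    intro X B k hB0
    rw [scaleAt, scaleAt, div_pow]
    field_simp
  have hcore : ∀ (Bp : ℝ → ℝ), Tendsto (fun x => (scaleAt (bigB x) (mIndex ρ x - r) / scaleG ρ x) *
      (∑' v, w v * (max 0 (1 - T (mIndex ρ x - r) v / Bp x)) ^ (mIndex ρ x - r))
      - Aprof ρ μ w H r (phase ρ x)) atTop (𝓝 0) →
      ∀ᶠ x in atTop, (1 - ε) * Aprof ρ μ w H r (phase ρ x) * scaleG ρ x
        ≤ scaleAt (bigB x) (mIndex ρ x - r) *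
          (∑' v, w v * (max 0 (1 - T (mIndex ρ x - r) v / Bp x)) ^ (mIndex ρ x - r)) ∧
        scaleAt (bigB x) (mIndex ρ x - r) *
          (∑' v, w v * (max 0 (1 - T (mIndex ρ x - r) v / Bp x)) ^ (mIndex ρ x - r))
        ≤ (1 + ε) * Aprof ρ μ w H r (phase ρ x) * scaleG ρ x := by
    intro Bp hl
    filter_upwards [(tendsto_zero_iff_norm_tendsto_zero.1 hl).eventually (gt_mem_nhds hεc), hG,
      eventually_phase_mem hρ0 hρ1] with x h1 h2 h3
    have h4 := (hc _ h3).1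
    rw [Real.norm_eq_abs, abs_lt] at h1
    have h5 : ε * c₁ ≤ ε * Aprof ρ μ w H r (phase ρ x) := mul_le_mul_of_nonneg_left h4 hε.le
    set S := ∑' v, w v * (max 0 (1 - T (mIndex ρ x - r) v / Bp x)) ^ (mIndex ρ x - r) with hS
    have e1 : scaleAt (bigB x) (mIndex ρ x - r) * S
        = (scaleAt (bigB x) (mIndex ρ x - r) / scaleG ρ x * S) * scaleG ρ x := by
      field_simp
    rw [e1]
    constructor
    · refine mul_le_mul_of_nonneg_right ?_ h2.le
      linarith [h1.1]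
    · refine mul_le_mul_of_nonneg_right ?_ h2.le
      linarith [h1.2]
  have hSnn : ∀ (Bp : ℝ → ℝ) (x : ℝ), 0 ≤ ∑' v, w v *
      (max 0 (1 - T (mIndex ρ x - r) v / Bp x)) ^ (mIndex ρ x - r) := fun Bp x =>
    tsum_nonneg fun v => mul_nonneg (hD.w_nonneg v) (pow_nonneg (le_max_left _ _) _)
  have hsmall : ∀ᶠ x in atTop, Δ x / bigB x < 1 :=
    hΔB.eventually (gt_mem_nhds one_pos)
  constructor
  · filter_upwards [hcore _ lp, hΔ0, hΔt, hgood, hG, eventually_phase_mem hρ0 hρ1]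
      with x h1 h2 h3 h4 h5 h6
    have hX : 0 < bigB x + Δ x := by linarith
    rw [Ssum_eq w _ _ hX, hsc _ (bigB x) _ h4]
    have hy : (bigB x + Δ x) / bigB x = 1 + Δ x / bigB x := by
      rw [add_div, div_self h4.ne']
    have hy0 : 0 ≤ Δ x / bigB x := div_nonneg h2 h4.le
    have g1 : 1 ≤ ((bigB x + Δ x) / bigB x) ^ (mIndex ρ x - r) :=
      one_le_pow₀ (by rw [hy]; linarith)
    have g2 : ((bigB x + Δ x) / bigB x) ^ (mIndex ρ x - r) ≤ Real.exp t := by
      calc ((bigB x + Δ x) / bigB x) ^ (mIndex ρ x - r)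
          ≤ (Real.exp (Δ x / bigB x)) ^ (mIndex ρ x - r) := by
            refine pow_le_pow_left₀ (by positivity) ?_ _
            rw [hy]
            have := Real.add_one_le_exp (Δ x / bigB x)
            linarith
        _ = Real.exp (((mIndex ρ x - r : ℕ) : ℝ) * Δ x / bigB x) := by
            rw [← Real.exp_nat_mul]; congr 1; ring
        _ ≤ Real.exp t := Real.exp_le_exp.2 h3
    have hA : 0 < Aprof ρ μ w H r (phase ρ x) := hc₁.trans_le (hc _ h6).1
    have hSc : 0 ≤ scaleAt (bigB x) (mIndex ρ x - r) *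
        ∑' v, w v * (max 0 (1 - T (mIndex ρ x - r) v / (bigB x + Δ x))) ^ (mIndex ρ x - r) :=
      mul_nonneg (scaleAt_pos h4 _).le (hSnn (fun x => bigB x + Δ x) x)
    set P := scaleAt (bigB x) (mIndex ρ x - r) *
        ∑' v, w v * (max 0 (1 - T (mIndex ρ x - r) v / (bigB x + Δ x))) ^ (mIndex ρ x - r)
      with hP
    have e2 : scaleAt (bigB x) (mIndex ρ x - r) * ((bigB x + Δ x) / bigB x) ^ (mIndex ρ x - r) *
        ∑' v, w v * (max 0 (1 - T (mIndex ρ x - r) v / (bigB x + Δ x))) ^ (mIndex ρ x - r)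
        = P * ((bigB x + Δ x) / bigB x) ^ (mIndex ρ x - r) := by rw [hP]; ring
    rw [e2]
    constructor
    · refine h1.1.trans ?_
      exact le_mul_of_one_le_right hSc g1
    · calc P * ((bigB x + Δ x) / bigB x) ^ (mIndex ρ x - r)
          ≤ ((1 + ε) * Aprof ρ μ w H r (phase ρ x) * scaleG ρ x) * Real.exp t :=
            mul_le_mul h1.2 g2 (by positivity) (by positivity)
        _ = _ := by ring
  · filter_upwards [hcore _ lm, hΔ0, hΔt, hgood, hG, eventually_phase_mem hρ0 hρ1, hsmall]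
      with x h1 h2 h3 h4 h5 h6 h7
    have hX : 0 < bigB x - Δ x := by
      rw [div_lt_one h4] at h7; linarith
    rw [Ssum_eq w _ _ hX, hsc _ (bigB x) _ h4]
    have hy : (bigB x - Δ x) / bigB x = 1 - Δ x / bigB x := by
      rw [sub_div, div_self h4.ne']
    have hy0 : 0 ≤ Δ x / bigB x := div_nonneg h2 h4.le
    have g1 : ((bigB x - Δ x) / bigB x) ^ (mIndex ρ x - r) ≤ 1 :=
      pow_le_one₀ (by rw [hy]; linarith) (by rw [hy]; linarith)
    have g2 : 1 - t ≤ ((bigB x - Δ x) / bigB x) ^ (mIndex ρ x - r) := by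
      have h8 := one_add_mul_le_pow (show (-2 : ℝ) ≤ -(Δ x / bigB x) by linarith)
        (mIndex ρ x - r)
      rw [hy]
      have e : (1 : ℝ) + -(Δ x / bigB x) = 1 - Δ x / bigB x := by ring
      rw [e] at h8
      have e2 : ((mIndex ρ x - r : ℕ) : ℝ) * -(Δ x / bigB x)
          = -(((mIndex ρ x - r : ℕ) : ℝ) * Δ x / bigB x) := by ring
      rw [e2] at h8
      linarith
    have hA : 0 < Aprof ρ μ w H r (phase ρ x) := hc₁.trans_le (hc _ h6).1
    have hSc : 0 ≤ scaleAt (bigB x) (mIndex ρ x - r) *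
        ∑' v, w v * (max 0 (1 - T (mIndex ρ x - r) v / (bigB x - Δ x))) ^ (mIndex ρ x - r) :=
      mul_nonneg (scaleAt_pos h4 _).le (hSnn (fun x => bigB x - Δ x) x)
    set P := scaleAt (bigB x) (mIndex ρ x - r) *
        ∑' v, w v * (max 0 (1 - T (mIndex ρ x - r) v / (bigB x - Δ x))) ^ (mIndex ρ x - r)
      with hP
    have e2 : scaleAt (bigB x) (mIndex ρ x - r) * ((bigB x - Δ x) / bigB x) ^ (mIndex ρ x - r) *
        ∑' v, w v * (max 0 (1 - T (mIndex ρ x - r) v / (bigB x - Δ x))) ^ (mIndex ρ x - r)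
        = P * ((bigB x - Δ x) / bigB x) ^ (mIndex ρ x - r) := by rw [hP]; ring
    rw [e2]
    have hpow0 : 0 ≤ ((bigB x - Δ x) / bigB x) ^ (mIndex ρ x - r) :=
      pow_nonneg (div_nonneg hX.le h4.le) _
    constructor
    · have he : 0 ≤ 1 - ε := by linarith
      · calc (1 - ε) * (1 - t) * Aprof ρ μ w H r (phase ρ x) * scaleG ρ x
            = ((1 - ε) * Aprof ρ μ w H r (phase ρ x) * scaleG ρ x) * (1 - t) := by ring
          _ ≤ ((1 - ε) * Aprof ρ μ w H r (phase ρ x) * scaleG ρ x) *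
              ((bigB x - Δ x) / bigB x) ^ (mIndex ρ x - r) :=
            mul_le_mul_of_nonneg_left g2 (by positivity)
          _ ≤ P * ((bigB x - Δ x) / bigB x) ^ (mIndex ρ x - r) :=
            mul_le_mul_of_nonneg_right h1.1 hpow0
    · calc P * ((bigB x - Δ x) / bigB x) ^ (mIndex ρ x - r) ≤ P * 1 :=
            mul_le_mul_of_nonneg_left g1 hSc
        _ = P := mul_one _
        _ ≤ _ := h1.2

end

end Crest.Agent.R020
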