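import Crest.Agent.R020.OneStep0

/-!
Row 20 (helper688): the one-step lemma (F-up), (F-low), abstract part.
-/

set_option autoImplicit false

open scoped ENNReal
open MeasureTheory

noncomputable section

namespace Crest.Agent.R020

/-! ### generalities -/

lemma os_ws_const_mul (a : ℝ≥0∞) (g : ℕ → ℝ≥0∞) (A : Set ℕ) :
    ws (fun v => a * g v) A = a * ws g A := by
  unfold ws
  rw [← ENNReal.tsum_mul_left]
  congr 1
  ext v
  by_cases hv : v ∈ A
  · rw [Set.indicator_of_mem hv, Set.indicator_of_mem hv]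
  · rw [Set.indicator_of_notMem hv, Set.indicator_of_notMem hv, mul_zero]

lemma os_ws_inv_mul_le {f : ℕ → ℝ≥0∞} {a : ℝ≥0∞} {A : Set ℕ} (h : ∀ v ∈ A, f v ≤ a) :
    ws (fun v => f v * (v : ℝ≥0∞)⁻¹) A ≤ wt A * a := by
  have h1 : ws (fun v => f v * (v : ℝ≥0∞)⁻¹) A ≤ ws (fun v => a * (v : ℝ≥0∞)⁻¹) A :=
    ws_mono_fun (fun v hv => by gcongr; exact h v hv)
  rw [os_ws_const_mul] at h1
  rw [mul_comm]
  exact h1

lemma os_ws_add_fun (f g : ℕ → ℝ≥0∞) (A : Set ℕ) :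
    ws (fun v => f v + g v) A = ws f A + ws g A := by
  unfold ws
  rw [← ENNReal.tsum_add]
  congr 1
  ext v
  by_cases hv : v ∈ A
  · rw [Set.indicator_of_mem hv, Set.indicator_of_mem hv, Set.indicator_of_mem hv]
  · rw [Set.indicator_of_notMem hv, Set.indicator_of_notMem hv, Set.indicator_of_notMem hv,
      add_zero]

/-- sums over an injective family -/
lemma os_tsum_indicator_le_ws {ι : Type*} (f : ι → ℕ) (I : Set ι) (hf : Set.InjOn f I)
    (g : ℕ → ℝ≥0∞) (B : Set ℕ) (hB : ∀ i ∈ I, f i ∈ B) :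
    ∑' i, I.indicator (fun i => g (f i)) i ≤ ws g B := by
  classical
  unfold ws
  rw [← tsum_subtype I (fun i => g (f i)), ← tsum_subtype B g]
  have hinj : Function.Injective (fun i : I => (⟨f i, hB i i.2⟩ : B)) := by
    intro i j hij
    apply Subtype.ext
    exact hf i.2 j.2 (by simpa using hij)
  exact ENNReal.tsum_comp_le_tsum_of_injective hinj (fun v : B => g v)

/-- affine change of variables -/
lemma os_lintegral_affine (ψ : ℝ → ℝ≥0∞) {a : ℝ} (ha : 0 < a) (s t : ℝ) :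
    ∫⁻ u in Set.Ioi t, ψ (a * u + s)
      = (ENNReal.ofReal a)⁻¹ * ∫⁻ w in Set.Ioi (a * t + s), ψ w := by
  have himg : (fun u : ℝ => a * u + s) '' Set.Ioi t = Set.Ioi (a * t + s) := by
    ext w
    simp only [Set.mem_image, Set.mem_Ioi]
    constructor
    · rintro ⟨u, hu, rfl⟩
      have := mul_lt_mul_of_pos_left hu ha
      linarith
    · intro hw
      refine ⟨(w - s) / a, ?_, by field_simp; ring⟩
      rw [lt_div_iff₀ ha]
      linarith
  have hinj : Set.InjOn (fun u : ℝ => a * u + s) (Set.Ioi t) := by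
    intro u _ w _ h
    simp only [add_left_inj] at h
    exact mul_left_cancel₀ ha.ne' h
  have h := lintegral_image_eq_lintegral_abs_deriv_mul (s := Set.Ioi t)
    (f := fun u : ℝ => a * u + s) (f' := fun _ => a) measurableSet_Ioi
    (fun x _ => by
      have : HasDerivAt (fun u : ℝ => a * u + s) (a * 1) x :=
        ((hasDerivAt_id x).const_mul a).add_const s
      rw [mul_one] at this
      exact this.hasDerivWithinAt) hinj ψ
  rw [himg] at h
  rw [h, abs_of_pos ha, lintegral_const_mul' _ _ ENNReal.ofReal_ne_top, ← mul_assoc,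
    ENNReal.inv_mul_cancel (by simpa using ha) ENNReal.ofReal_ne_top, one_mul]

lemma PsiI_anti (ψ : ℝ → ℝ≥0∞) : Antitone (PsiI ψ) := by
  intro s t hst
  unfold PsiI
  exact lintegral_mono_set (Set.Ioi_subset_Ioi hst)

lemma FF_TT (c e : ℕ → ℝ) (d : ℕ) :
    FF (TT e c) d = c 0 * FF e d + FF (fun i => c (i + 1)) d := by
  unfold TT
  rw [FF_add (fun i => c 0 * e i) (fun i => c (i + 1)), FF_smul]

/-! ### upper bound -/

/-- **(F-up)**, abstract form. -/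
theorem one_step_up {C : ℝ} (hPS : PSup C) {c e : ℕ → ℝ} (hc0 : 0 < c 0)
    (hc : ∀ i, 0 ≤ c i) {ψ : ℝ → ℝ≥0∞} (hψ : Antitone ψ) {A Exc D : Set ℕ} {E Y H : ℝ}
    (hA : A ⊆ Tot) (hH : c 0 * (E + C) ≤ H)
    (hav : ∀ v ∈ A, v ≠ 1 → ¬ Pm (rr v) ^ 2 ∣ rr v → y1 v ≤ Y → v ∉ Exc →
      tl v ∈ D ∧ FF e (tl v) - E ≤ y1 v) :
    WW c ψ A ≤ (ENNReal.ofReal (c 0))⁻¹ *
        ws (fun d => PsiI ψ (FF (TT e c) d - H) * (d : ℝ≥0∞)⁻¹) {d | IsTot d ∧ d ∈ D}
      + (1 + wt Exc + wt {v | IsTot v ∧ v ≠ 1 ∧ Pm (rr v) ^ 2 ∣ rr v ∧ y1 v ≤ Y}) * ψ 0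
      + ws (fun v => ψ (c 0 * y1 v) * (v : ℝ≥0∞)⁻¹) {v | IsTot v ∧ Y < y1 v} := by
  classical
  set Sq : Set ℕ := {v | IsTot v ∧ v ≠ 1 ∧ Pm (rr v) ^ 2 ∣ rr v ∧ y1 v ≤ Y} with hSq
  set TD : Set ℕ := {d | IsTot d ∧ d ∈ D} with hTD
  set Big : Set ℕ := {v | IsTot v ∧ Y < y1 v} with hBig
  set G : Set ℕ := {v | v ∈ A ∧ v ≠ 1 ∧ ¬ Pm (rr v) ^ 2 ∣ rr v ∧ y1 v ≤ Y ∧ v ∉ Exc} with hG
  have hcov : A ⊆ G ∪ (({1} ∪ Exc ∪ Sq) ∪ Big) := by
    intro v hv
    by_cases h1 : v = 1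
    · right; left; left; left; exact h1
    by_cases h2 : v ∈ Exc
    · right; left; left; right; exact h2
    by_cases h3 : Y < y1 v
    · right; right; exact ⟨hA hv, h3⟩
    by_cases h4 : Pm (rr v) ^ 2 ∣ rr v
    · right; left; right; exact ⟨hA hv, h1, h4, not_lt.mp h3⟩
    left
    exact ⟨hv, h1, h4, not_lt.mp h3, h2⟩
  have hψ0 : ∀ v : ℕ, ψ (FF c v) ≤ ψ 0 := fun v => hψ (FF_nonneg hc v)
  set g : ℕ → ℝ≥0∞ := fun v => ψ (FF c v) * (v : ℝ≥0∞)⁻¹ with hg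
  -- the exceptional parts
  have hex : ws g ({1} ∪ Exc ∪ Sq) ≤ (1 + wt Exc + wt Sq) * ψ 0 := by
    have h1 : ws g ({1} ∪ Exc ∪ Sq) ≤ wt ({1} ∪ Exc ∪ Sq) * ψ 0 :=
      os_ws_inv_mul_le (fun v _ => hψ0 v)
    refine h1.trans ?_
    gcongr
    refine (wt_union_le _ _).trans ?_
    gcongr
    refine (wt_union_le _ _).trans ?_
    gcongr
    unfold wt ws
    rw [tsum_eq_single 1]
    · simp
    · intro b hb
      rw [Set.indicator_of_notMem]
      simpa using hb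
  have hbig : ws g Big ≤ ws (fun v => ψ (c 0 * y1 v) * (v : ℝ≥0∞)⁻¹) Big := by
    apply ws_mono_fun
    intro v _
    simp only [hg]
    gcongr
    exact hψ (mul_y1_le_FF hc v)
  -- the main part
  have hmain : ws g G ≤ (ENNReal.ofReal (c 0))⁻¹ *
      ws (fun d => PsiI ψ (FF (TT e c) d - H) * (d : ℝ≥0∞)⁻¹) TD := by
    set I : Set (ℕ × ℕ) := {p | p.1.Prime ∧ p.2 ∈ TD ∧ FF e p.2 - E ≤ yy p.1 ∧
      FF c ((p.1 - 1) * p.2) = c 0 * yy p.1 + FF (fun i => c (i + 1)) p.2} with hI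
    have h1 := ws_le_tsum_image g G (fun p : ℕ × ℕ => (p.1 - 1) * p.2) I (by
      rintro v ⟨hvA, hv1, hvs, hvY, hvE⟩
      have hvT : IsTot v := hA hvA
      obtain ⟨hP, htl, hv, -, -, -⟩ := totient_decomp hvT hv1 hvs
      obtain ⟨hav1, hav2⟩ := hav v hvA hv1 hvs hvY hvE
      refine ⟨(Pm (rr v), tl v), ⟨hP, ⟨htl, hav1⟩, hav2, ?_⟩, hv.symm⟩
      simp only
      rw [← hv, FF_decomp c hvT hv1 hvs]
      rfl)
    refine h1.trans ?_
    have h2 : ∀ p : ℕ × ℕ, I.indicator (fun p : ℕ × ℕ => g ((p.1 - 1) * p.2)) p ≤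
        TD.indicator (fun d : ℕ => (d : ℝ≥0∞)⁻¹) p.2 *
          (if p.1.Prime ∧ FF e p.2 - E ≤ yy p.1 then
            ψ (c 0 * yy p.1 + FF (fun i => c (i + 1)) p.2) * ((p.1 - 1 : ℕ) : ℝ≥0∞)⁻¹ else 0) := by
      intro p
      by_cases hp : p ∈ I
      · obtain ⟨hp1, hp2, hp3, hp4⟩ := hp
        rw [Set.indicator_of_mem (show p ∈ I from ⟨hp1, hp2, hp3, hp4⟩),
          Set.indicator_of_mem (show p.2 ∈ TD from hp2), if_pos ⟨hp1, hp3⟩]
        simp only [hg]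
        rw [hp4, inv_mul_nat]
        apply le_of_eq
        ring
      · rw [Set.indicator_of_notMem hp]
        exact zero_le
    refine (ENNReal.tsum_le_tsum h2).trans ?_
    rw [ENNReal.tsum_prod (f := fun a b => TD.indicator (fun d : ℕ => (d : ℝ≥0∞)⁻¹) b *
          (if a.Prime ∧ FF e b - E ≤ yy a then
            ψ (c 0 * yy a + FF (fun i => c (i + 1)) b) * ((a - 1 : ℕ) : ℝ≥0∞)⁻¹ else 0)),
      ENNReal.tsum_comm]
    simp_rw [ENNReal.tsum_mul_left]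
    unfold ws
    rw [← ENNReal.tsum_mul_left]
    apply ENNReal.tsum_le_tsum
    intro d
    by_cases hd : d ∈ TD
    · rw [Set.indicator_of_mem hd, Set.indicator_of_mem hd]
      have hf : Antitone (fun y : ℝ => ψ (c 0 * y + FF (fun i => c (i + 1)) d)) := by
        intro y z hyz
        apply hψ
        have := mul_le_mul_of_nonneg_left hyz hc0.le
        linarith
      have h3 := hPS _ hf (FF e d - E)
      have h4 : (∑' q : ℕ, if q.Prime ∧ FF e d - E ≤ yy q then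
            ψ (c 0 * yy q + FF (fun i => c (i + 1)) d) * ((q - 1 : ℕ) : ℝ≥0∞)⁻¹ else 0) ≤
          (ENNReal.ofReal (c 0))⁻¹ * PsiI ψ (FF (TT e c) d - H) := by
        refine le_trans (le_of_eq ?_) (h3.trans ?_)
        · congr 1
        · rw [os_lintegral_affine ψ hc0]
          gcongr
          change PsiI ψ _ ≤ _
          apply PsiI_anti
          rw [FF_TT]
          nlinarith
      calc (d : ℝ≥0∞)⁻¹ * _ ≤ (d : ℝ≥0∞)⁻¹ *
          ((ENNReal.ofReal (c 0))⁻¹ * PsiI ψ (FF (TT e c) d - H)) := by gcongr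
        _ = _ := by ring
    · rw [Set.indicator_of_notMem hd, zero_mul]
      exact zero_le
  calc WW c ψ A ≤ ws g (G ∪ (({1} ∪ Exc ∪ Sq) ∪ Big)) := ws_mono_set _ hcov
    _ ≤ ws g G + ws g (({1} ∪ Exc ∪ Sq) ∪ Big) := ws_union_le _ _ _
    _ ≤ ws g G + (ws g ({1} ∪ Exc ∪ Sq) + ws g Big) := by gcongr; exact ws_union_le _ _ _
    _ ≤ _ := by
      rw [← add_assoc]
      gcongr

/-! ### lower bound -/

/-- The noncanonical pairs `(q, d)`. -/
def NC (e : ℕ → ℝ) (E Y : ℝ) : Set (ℕ × ℕ) :=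
  {p | p.1.Prime ∧ IsTot p.2 ∧ Pm (rr p.2) < p.1 ∧ yy p.1 ≤ Y ∧ FF e p.2 + E ≤ yy p.1 ∧
    rr ((p.1 - 1) * p.2) ≠ p.1 * rr p.2}

/-- **(F-low)**, abstract form. -/
theorem one_step_low {C : ℝ} (hC : 0 ≤ C) (hPS : PSlow C) {c e : ℕ → ℝ} (hc0 : 0 < c 0)
    (hc : ∀ i, 0 ≤ c i) (he : ∀ i, 0 ≤ e i) {ψ : ℝ → ℝ≥0∞} (hψ : Antitone ψ) {E Y H : ℝ}
    {D : Set ℕ} (hE0 : 0 < E) (hH : c 0 * (E + C) ≤ H) :
    (ENNReal.ofReal (c 0))⁻¹ *
        ws (fun d => PsiI ψ (FF (TT e c) d + H) * (d : ℝ≥0∞)⁻¹) {d | IsTot d ∧ d ∈ D}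
      ≤ WW c ψ {v | IsTot v ∧ v ≠ 1 ∧ ¬ Pm (rr v) ^ 2 ∣ rr v ∧ tl v ∈ D}
        + (ENNReal.ofReal (c 0))⁻¹ *
          ws (fun d => PsiI ψ (FF (TT e c) d) * (d : ℝ≥0∞)⁻¹)
            {d | IsTot d ∧ d ∈ D ∧ FF e d < y1 d}
        + wt2 (NC e E Y) * ψ 0
        + (ENNReal.ofReal (c 0))⁻¹ *
          ws (fun d => PsiI ψ (c 0 * max Y (y1 d)) * (d : ℝ≥0∞)⁻¹) Tot := by
  classical
  have hH0 : 0 ≤ H := le_trans (by positivity) hH
  set TD : Set ℕ := {d | IsTot d ∧ d ∈ D} with hTD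
  set VD : Set ℕ := {v | IsTot v ∧ v ≠ 1 ∧ ¬ Pm (rr v) ^ 2 ∣ rr v ∧ tl v ∈ D} with hVD
  set Gd : Set ℕ := {d | IsTot d ∧ d ∈ D ∧ y1 d ≤ FF e d} with hGd
  set Vi : Set ℕ := {d | IsTot d ∧ d ∈ D ∧ FF e d < y1 d} with hVi
  set K : ℝ≥0∞ := (ENNReal.ofReal (c 0))⁻¹ with hK
  have hcov : TD ⊆ Vi ∪ Gd := by
    intro d hd
    rcases lt_or_ge (FF e d) (y1 d) with h | h
    · left; exact ⟨hd.1, hd.2, h⟩
    · right; exact ⟨hd.1, hd.2, h⟩
  have hVi' : ws (fun d => PsiI ψ (FF (TT e c) d + H) * (d : ℝ≥0∞)⁻¹) Vi ≤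
      ws (fun d => PsiI ψ (FF (TT e c) d) * (d : ℝ≥0∞)⁻¹) Vi := by
    apply ws_mono_fun
    intro d _
    gcongr
    apply PsiI_anti
    linarith
  set S : ℕ → ℝ := fun d => FF (fun i => c (i + 1)) d with hS
  have hS0 : ∀ d, 0 ≤ S d := fun d => FF_nonneg (fun i => hc _) d
  -- pointwise for good `d`
  have hpt : ∀ d ∈ Gd, K * PsiI ψ (FF (TT e c) d + H) ≤
      (∑' q : ℕ, if q.Prime ∧ FF e d + E ≤ yy q ∧ yy q ≤ Y then
        ψ (c 0 * yy q + S d) * ((q - 1 : ℕ) : ℝ≥0∞)⁻¹ else 0)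
      + K * PsiI ψ (c 0 * max Y (y1 d)) := by
    intro d hd
    have hf : Antitone (fun y : ℝ => ψ (c 0 * y + S d)) := by
      intro y z hyz
      apply hψ
      have := mul_le_mul_of_nonneg_left hyz hc0.le
      linarith
    have hFe : 0 ≤ FF e d := FF_nonneg he d
    have h3 := hPS _ hf (FF e d + E) Y (by linarith)
    have h4 : K * PsiI ψ (FF (TT e c) d + H) ≤
        ∫⁻ u in Set.Ioi (FF e d + E + C), ψ (c 0 * u + S d) := by
      rw [os_lintegral_affine ψ hc0]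
      gcongr
      change _ ≤ PsiI ψ _
      apply PsiI_anti
      rw [FF_TT]
      simp only [hS]
      nlinarith
    refine h4.trans ?_
    have hsub : Set.Ioi (FF e d + E + C) ⊆
        Set.Ioc (FF e d + E + C) Y ∪ Set.Ioi (max Y (y1 d)) := by
      intro u hu
      by_cases hu2 : u ≤ Y
      · left; exact ⟨hu, hu2⟩
      · right
        rw [Set.mem_Ioi] at hu ⊢
        apply max_lt (not_le.mp hu2)
        have := hd.2.2
        linarith
    refine (lintegral_mono_set hsub).trans ((lintegral_union_le _ _ _).trans ?_)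
    refine add_le_add ?_ ?_
    · refine h3.trans (le_of_eq ?_)
      congr 1
    · rw [os_lintegral_affine ψ hc0]
      gcongr
      change PsiI ψ _ ≤ _
      apply PsiI_anti
      have := hS0 d
      linarith
  -- the double sum over pairs
  have hpairs : ws (fun d => (∑' q : ℕ, if q.Prime ∧ FF e d + E ≤ yy q ∧ yy q ≤ Y then
        ψ (c 0 * yy q + S d) * ((q - 1 : ℕ) : ℝ≥0∞)⁻¹ else 0) * (d : ℝ≥0∞)⁻¹) Gd ≤
      WW c ψ VD + wt2 (NC e E Y) * ψ 0 := by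
    set J : Set (ℕ × ℕ) := {p | p.1.Prime ∧ p.2 ∈ TD ∧ Pm (rr p.2) < p.1 ∧
      rr ((p.1 - 1) * p.2) = p.1 * rr p.2} with hJ
    have hcan : ∑' p, J.indicator (fun p : ℕ × ℕ =>
        (fun v => ψ (FF c v) * (v : ℝ≥0∞)⁻¹) ((p.1 - 1) * p.2)) p ≤ WW c ψ VD := by
      unfold WW
      apply os_tsum_indicator_le_ws (fun p : ℕ × ℕ => (p.1 - 1) * p.2) J
      · rintro ⟨q, d⟩ ⟨hq, hd, hP, hr⟩ ⟨q', d'⟩ ⟨hq', hd', hP', hr'⟩ heq
        simp only at hq hd hP hr hq' hd' hP' hr' heq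
        obtain ⟨-, -, hPm⟩ := FF_of_canonical c hq hP hr
        obtain ⟨-, -, hPm'⟩ := FF_of_canonical c hq' hP' hr'
        rw [heq, hPm'] at hPm
        subst hPm
        rw [heq, hr'] at hr
        have hrr : rr d' = rr d := Nat.eq_of_mul_eq_mul_left hq'.pos hr
        have : d' = d := by rw [← totient_rr hd'.1, ← totient_rr hd.1, hrr]
        rw [this]
      · rintro ⟨q, d⟩ ⟨hq, hd, hP, hr⟩
        simp only at hq hd hP hr
        have hP2 := (Pm_lt_iff (rr_pos d).ne' hq.two_le).mp hP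
        have hnd : ¬ q ∣ rr d := fun hd => lt_irrefl _ (hP2 q hq hd)
        have hcop : Nat.Coprime q (rr d) := (Nat.Prime.coprime_iff_not_dvd hq).mpr hnd
        obtain ⟨-, -, hPm⟩ := FF_of_canonical c hq hP hr
        refine ⟨⟨q * rr d, Nat.mul_pos hq.pos (rr_pos d), ?_⟩, ?_, ?_, ?_⟩
        · rw [Nat.totient_mul hcop, Nat.totient_prime hq, totient_rr hd.1]
        · intro h1
          simp only at h1
          rw [h1, rr_one] at hr
          have h2 := Nat.le_mul_of_pos_right q (rr_pos d)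
          have := hq.two_le
          omega
        · simp only
          rw [hPm, hr, pow_two]
          intro h3
          exact hnd (Nat.dvd_of_mul_dvd_mul_left hq.pos h3)
        · simp only
          have h3 : tl ((q - 1) * d) = d := by
            unfold tl
            rw [hPm, hr, Nat.mul_div_cancel_left _ hq.pos, totient_rr hd.1]
          rw [h3]
          exact hd.2
    have hlhs : ws (fun d => (∑' q : ℕ, if q.Prime ∧ FF e d + E ≤ yy q ∧ yy q ≤ Y then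
        ψ (c 0 * yy q + S d) * ((q - 1 : ℕ) : ℝ≥0∞)⁻¹ else 0) * (d : ℝ≥0∞)⁻¹) Gd
        = ∑' p : ℕ × ℕ, Gd.indicator (fun d : ℕ => (d : ℝ≥0∞)⁻¹) p.2 *
          (if p.1.Prime ∧ FF e p.2 + E ≤ yy p.1 ∧ yy p.1 ≤ Y then
            ψ (c 0 * yy p.1 + S p.2) * ((p.1 - 1 : ℕ) : ℝ≥0∞)⁻¹ else 0) := by
      rw [ENNReal.tsum_prod (f := fun a b => Gd.indicator (fun d : ℕ => (d : ℝ≥0∞)⁻¹) b *
          (if a.Prime ∧ FF e b + E ≤ yy a ∧ yy a ≤ Y then
            ψ (c 0 * yy a + S b) * ((a - 1 : ℕ) : ℝ≥0∞)⁻¹ else 0)), ENNReal.tsum_comm]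
      simp_rw [ENNReal.tsum_mul_left]
      unfold ws
      congr 1
      ext d
      by_cases hd : d ∈ Gd
      · rw [Set.indicator_of_mem hd, Set.indicator_of_mem hd, mul_comm]
      · rw [Set.indicator_of_notMem hd, Set.indicator_of_notMem hd, zero_mul]
    rw [hlhs]
    have hterm : ∀ p : ℕ × ℕ, Gd.indicator (fun d : ℕ => (d : ℝ≥0∞)⁻¹) p.2 *
          (if p.1.Prime ∧ FF e p.2 + E ≤ yy p.1 ∧ yy p.1 ≤ Y then
            ψ (c 0 * yy p.1 + S p.2) * ((p.1 - 1 : ℕ) : ℝ≥0∞)⁻¹ else 0) ≤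
        J.indicator (fun p : ℕ × ℕ =>
          (fun v => ψ (FF c v) * (v : ℝ≥0∞)⁻¹) ((p.1 - 1) * p.2)) p +
        (NC e E Y).indicator (fun p => (((p.1 - 1) * p.2 : ℕ) : ℝ≥0∞)⁻¹) p * ψ 0 := by
      rintro ⟨q, d⟩
      simp only
      by_cases hd : d ∈ Gd
      · rw [Set.indicator_of_mem hd]
        split_ifs with hq
        · obtain ⟨hq1, hq2, hq3⟩ := hq
          have hP : Pm (rr d) < q := by
            by_contra hlt
            rw [not_lt] at hlt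
            have h5 := yy_mono hlt
            have h6 : y1 d ≤ FF e d := hd.2.2
            unfold y1 at h6
            linarith
          by_cases hr : rr ((q - 1) * d) = q * rr d
          · have hmem : (q, d) ∈ J := ⟨hq1, ⟨hd.1, hd.2.1⟩, hP, hr⟩
            rw [Set.indicator_of_mem hmem]
            simp only
            obtain ⟨h7, -, -⟩ := FF_of_canonical c hq1 hP hr
            rw [h7, inv_mul_nat]
            refine le_trans (le_of_eq ?_) le_self_add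
            simp only [hS]
            ring
          · have hmem : (q, d) ∈ NC e E Y := ⟨hq1, hd.1, hP, hq3, hq2, hr⟩
            rw [Set.indicator_of_mem hmem]
            simp only
            rw [inv_mul_nat]
            refine le_trans ?_ le_add_self
            have h8 : ψ (c 0 * yy q + S d) ≤ ψ 0 := by
              apply hψ
              have := mul_nonneg hc0.le (yy_nonneg q)
              have := hS0 d
              linarith
            calc (d : ℝ≥0∞)⁻¹ * (ψ (c 0 * yy q + S d) * ((q - 1 : ℕ) : ℝ≥0∞)⁻¹)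
                ≤ (d : ℝ≥0∞)⁻¹ * (ψ 0 * ((q - 1 : ℕ) : ℝ≥0∞)⁻¹) := by gcongr
              _ = _ := by ring
        · rw [mul_zero]
          exact zero_le
      · rw [Set.indicator_of_notMem hd, zero_mul]
        exact zero_le
    refine (ENNReal.tsum_le_tsum hterm).trans ?_
    rw [ENNReal.tsum_add, ENNReal.tsum_mul_right]
    unfold wt2
    gcongr
  have hGd' : K * ws (fun d => PsiI ψ (FF (TT e c) d + H) * (d : ℝ≥0∞)⁻¹) Gd ≤
      WW c ψ VD + wt2 (NC e E Y) * ψ 0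
      + K * ws (fun d => PsiI ψ (c 0 * max Y (y1 d)) * (d : ℝ≥0∞)⁻¹) Tot := by
    rw [← os_ws_const_mul]
    have h5 : ws (fun d => K * (PsiI ψ (FF (TT e c) d + H) * (d : ℝ≥0∞)⁻¹)) Gd ≤
        ws (fun d => (∑' q : ℕ, if q.Prime ∧ FF e d + E ≤ yy q ∧ yy q ≤ Y then
          ψ (c 0 * yy q + S d) * ((q - 1 : ℕ) : ℝ≥0∞)⁻¹ else 0) * (d : ℝ≥0∞)⁻¹
          + K * (PsiI ψ (c 0 * max Y (y1 d)) * (d : ℝ≥0∞)⁻¹)) Gd := by
      apply ws_mono_fun
      intro d hd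
      rw [← mul_assoc, ← mul_assoc, ← add_mul]
      gcongr
      exact hpt d hd
    refine h5.trans ?_
    rw [os_ws_add_fun]
    refine add_le_add hpairs ?_
    rw [os_ws_const_mul]
    gcongr
    apply ws_mono_set
    intro d hd
    exact hd.1
  calc K * ws (fun d => PsiI ψ (FF (TT e c) d + H) * (d : ℝ≥0∞)⁻¹) TD
      ≤ K * (ws (fun d => PsiI ψ (FF (TT e c) d + H) * (d : ℝ≥0∞)⁻¹) Vi
        + ws (fun d => PsiI ψ (FF (TT e c) d + H) * (d : ℝ≥0∞)⁻¹) Gd) := by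
        gcongr
        exact (ws_mono_set _ hcov).trans (ws_union_le _ _ _)
    _ ≤ K * ws (fun d => PsiI ψ (FF (TT e c) d) * (d : ℝ≥0∞)⁻¹) Vi
        + (WW c ψ VD + wt2 (NC e E Y) * ψ 0
      + K * ws (fun d => PsiI ψ (c 0 * max Y (y1 d)) * (d : ℝ≥0∞)⁻¹) Tot) := by
        rw [mul_add]
        gcongr
    _ = _ := by ring

end Crest.Agent.R020
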