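import Crest.Agent.R020.Stmt

/-!
Row 20 (helper688): shapes of the inputs (PS), (Tail) and notation for the one-step lemma.
-/

set_option autoImplicit false

open scoped ENNReal
open MeasureTheory

noncomputable section

namespace Crest.Agent.R020

/-- (PS), upper half: `∑_{q prime, y_q ≥ t} f(y_q)/(q-1) ≤ ∫_{u > t-C} f(u) du`. -/
def PSup (C : ℝ) : Prop := ∀ f : ℝ → ℝ≥0∞, Antitone f → ∀ t : ℝ,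
  (∑' q : ℕ, open Classical in
    if q.Prime ∧ t ≤ yy q then f (yy q) * ((q - 1 : ℕ) : ℝ≥0∞)⁻¹ else 0)
    ≤ ∫⁻ u in Set.Ioi (t - C), f u

/-- (PS), lower half: `∫_{t+C < u ≤ Y} f(u) du ≤ ∑_{q prime, t ≤ y_q ≤ Y} f(y_q)/(q-1)`. -/
def PSlow (C : ℝ) : Prop := ∀ f : ℝ → ℝ≥0∞, Antitone f → ∀ t Y : ℝ, 0 ≤ t →
  ∫⁻ u in Set.Ioc (t + C) Y, f u ≤
    ∑' q : ℕ, open Classical in
      if q.Prime ∧ t ≤ yy q ∧ yy q ≤ Y then f (yy q) * ((q - 1 : ℕ) : ℝ≥0∞)⁻¹ else 0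

/-- (Tail): the totients of scale `> Ys^{1.01}` with weight `exp(-y_1/(3 Ys))/v`. -/
def StmtTail : Prop := ∃ Y0 : ℝ, ∀ Ys ≥ Y0,
  ws (fun v => ENNReal.ofReal (Real.exp (-(y1 v) / (3 * Ys))) * (v : ℝ≥0∞)⁻¹)
    {v | IsTot v ∧ Ys ^ (1.01 : ℝ) < y1 v} ≤ ENNReal.ofReal (1 / Ys)

/-- `∑_{v ∈ A} ψ(F_c(v)) / v`. -/
def WW (c : ℕ → ℝ) (ψ : ℝ → ℝ≥0∞) (A : Set ℕ) : ℝ≥0∞ :=
  ws (fun v => ψ (FF c v) * (v : ℝ≥0∞)⁻¹) A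

/-- The tail integral `Ψ(t) = ∫_{u > t} ψ(u) du`. -/
def PsiI (ψ : ℝ → ℝ≥0∞) (t : ℝ) : ℝ≥0∞ := ∫⁻ u in Set.Ioi t, ψ u

/-- `T_a c = c_0 a + S c` (0-indexed coefficients). -/
def TT (e c : ℕ → ℝ) : ℕ → ℝ := fun i => c 0 * e i + c (i + 1)

end Crest.Agent.R020
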