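import Mathlib
import Crest.Agent.R020.Yy
import Crest.Agent.Lib.HallTenWt

/-!
Row 20 (helper702), module (Uc), part 2: the Rankin count over integers `v ≤ x` with weights
attached to the integer cells `kap p`.
-/

set_option autoImplicit false

open scoped ENNReal

noncomputable section

namespace Crest.Agent.R020.Uc

open Crest.Agent.R020 Crest.Agent.Lib

/-- the weight function with value `k c` on the cell `c`, `c0 < c ≤ C1`, and `1` elsewhere -/
def zz (k : ℕ → ℝ) (c0 C1 : ℕ) (p : ℕ) : ℝ := if c0 < kap p ∧ kap p ≤ C1 then k (kap p) else 1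

lemma zz_of_mem {k : ℕ → ℝ} {c0 C1 p : ℕ} (h : c0 < kap p ∧ kap p ≤ C1) :
    zz k c0 C1 p = k (kap p) := by unfold zz; rw [if_pos h]

lemma zz_of_not_mem {k : ℕ → ℝ} {c0 C1 p : ℕ} (h : ¬ (c0 < kap p ∧ kap p ≤ C1)) :
    zz k c0 C1 p = 1 := by unfold zz; rw [if_neg h]

lemma exp_exp_lt_of_lt_kap {c p : ℕ} (hp : p.Prime) (h : c < kap p) :
    Real.exp (Real.exp c) < (p : ℝ) := by
  rw [← lt_yy_iff hp.two_le (Nat.cast_nonneg c)]
  by_contra h'
  push Not at h'
  have := (kap_le_iff p c).mpr h'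
  omega

lemma primesLE_subset_PT {x : ℝ} (hx : 3 ≤ x) {N : ℕ} (hN : (N : ℝ) ≤ x) :
    Nat.primesLE N ⊆ PT (Real.log (Real.log x)) := by
  intro p hp
  have hpp := Nat.prime_of_mem_primesLE hp
  have hpN : p ≤ N := Nat.le_of_mem_primesLE hp
  have hlx : 1 ≤ Real.log x := by
    rw [Real.le_log_iff_exp_le (by linarith)]
    have := Real.exp_one_lt_d9
    linarith
  have hB : 0 ≤ Real.log (Real.log x) := Real.log_nonneg hlx
  rw [mem_PT hB]
  refine ⟨hpp, ?_⟩
  rw [yy_le_iff hpp.two_le hB, Real.exp_log (by linarith), Real.exp_log (by linarith)]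
  have : (p : ℝ) ≤ N := by exact_mod_cast hpN
  linarith

/-- the sum over one range of cells -/
lemma sum_cells_le (s : Finset ℕ) (hs : ∀ p ∈ s, p.Prime) (c0 C1 : ℕ) (w : ℕ → ℝ)
    (hw : ∀ c, 0 ≤ w c) :
    ∑ p ∈ s with (c0 < kap p ∧ kap p ≤ C1), w (kap p) / (p : ℝ) ≤
      ∑ c ∈ Finset.Ioc c0 C1, w c * (1 + 18 * Real.exp (-((c : ℝ) - 1))) := by
  classical
  have h1 : ∑ p ∈ s with (c0 < kap p ∧ kap p ≤ C1), w (kap p) / (p : ℝ) =
      ∑ c ∈ Finset.Ioc c0 C1, ∑ p ∈ (s.filter fun p => c0 < kap p ∧ kap p ≤ C1) with kap p = c,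
        w (kap p) / (p : ℝ) := by
    rw [Finset.sum_fiberwise_of_maps_to]
    intro p hp
    rw [Finset.mem_filter] at hp
    exact Finset.mem_Ioc.mpr hp.2
  rw [h1]
  apply Finset.sum_le_sum
  intro c hc
  rw [Finset.mem_Ioc] at hc
  obtain ⟨k, rfl⟩ : ∃ k, c = k + 1 := ⟨c - 1, by omega⟩
  have h2 : ∑ p ∈ (s.filter fun p => c0 < kap p ∧ kap p ≤ C1) with kap p = k + 1,
      w (kap p) / (p : ℝ) =
      w (k + 1) * ∑ p ∈ (s.filter fun p => c0 < kap p ∧ kap p ≤ C1) with kap p = k + 1,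
        1 / (p : ℝ) := by
    rw [Finset.mul_sum]
    apply Finset.sum_congr rfl
    intro p hp
    rw [Finset.mem_filter] at hp
    rw [hp.2]
    ring
  rw [h2]
  apply mul_le_mul_of_nonneg_left _ (hw _)
  have := cell_sum_le k ((s.filter fun p => c0 < kap p ∧ kap p ≤ C1).filter fun p => kap p = k + 1)
    (fun p hp => by
      rw [Finset.mem_filter, Finset.mem_filter] at hp
      exact ⟨hs p hp.1.1, hp.2⟩)
  refine this.trans (le_of_eq ?_)
  push_cast
  ring_nf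

lemma sum_exp_neg_Ioc_le (c0 C1 : ℕ) :
    ∑ c ∈ Finset.Ioc c0 C1, Real.exp (-((c : ℝ) - 1)) ≤ 2 * Real.exp (-(c0 : ℝ)) := by
  have hr : Real.exp (-1) < 1 / 2 := by
    have := Real.exp_neg_one_lt_d9
    linarith
  have key : ∀ n : ℕ, ∑ c ∈ Finset.Ioc c0 (c0 + n), Real.exp (-((c : ℝ) - 1)) ≤
      2 * Real.exp (-(c0 : ℝ)) - 2 * Real.exp (-((c0 + n : ℕ) : ℝ)) := by
    intro n
    induction n with
    | zero => simp
    | succ n ih =>
      rw [← add_assoc, Finset.sum_Ioc_succ_top (by omega)]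
      have e1 : Real.exp (-(((c0 + n + 1 : ℕ) : ℝ) - 1)) = Real.exp (-((c0 + n : ℕ) : ℝ)) := by
        congr 1
        push_cast
        ring
      have e2 : Real.exp (-((c0 + n + 1 : ℕ) : ℝ)) =
          Real.exp (-((c0 + n : ℕ) : ℝ)) * Real.exp (-1) := by
        rw [← Real.exp_add]
        congr 1
        push_cast
        ring
      rw [e1, e2]
      have h3 : 0 < Real.exp (-((c0 + n : ℕ) : ℝ)) := Real.exp_pos _
      nlinarith
  rcases le_total C1 c0 with h | h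
  · rw [Finset.Ioc_eq_empty (by omega), Finset.sum_empty]
    positivity
  · obtain ⟨n, rfl⟩ := Nat.exists_eq_add_of_le h
    have h1 := key n
    have h2 : 0 < Real.exp (-((c0 + n : ℕ) : ℝ)) := Real.exp_pos _
    linarith

/-- The Rankin sum. -/
theorem sum_wt_zz_le (k : ℕ → ℝ) (c0 C1 : ℕ) {K : ℝ} (hk1 : ∀ c, 1 ≤ k c) (hkK : ∀ c, k c ≤ K)
    {x : ℝ} (hx : 3 ≤ x) (hK1 : K ^ 2 * (Real.log (Real.log x) + 30) ≤ Real.exp (Real.exp c0))
    (hK2 : 36 * K ≤ Real.exp c0) {N : ℕ} (hN : (N : ℝ) ≤ x) :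
    (∑ n ∈ Finset.Icc 1 N, HallTen.wt (zz k c0 C1) n) * Real.log N ≤
      (1 + 2 * K + 40 * K ^ 2) * N *
        Real.exp (Real.log (Real.log x) + 36 + ∑ c ∈ Finset.Ioc c0 C1, (k c - 1)) := by
  have hK : 1 ≤ K := (hk1 0).trans (hkK 0)
  have hlx : 1 ≤ Real.log x := by
    rw [Real.le_log_iff_exp_le (by linarith)]
    have := Real.exp_one_lt_d9
    linarith
  have hB : 0 ≤ Real.log (Real.log x) := Real.log_nonneg hlx
  set B := Real.log (Real.log x) with hBdef
  have hz0 : ∀ p, 0 ≤ zz k c0 C1 p := by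
    intro p
    unfold zz
    split_ifs
    · linarith [hk1 (kap p)]
    · exact zero_le_one
  have hKp : ∀ p : ℕ, p.Prime → c0 < kap p → K ^ 2 * (B + 30) < p := by
    intro p hp h
    exact lt_of_le_of_lt hK1 (exp_exp_lt_of_lt_kap hp h)
  have hz : ∀ p : ℕ, p.Prime → zz k c0 C1 p ≤ 3 / 4 * p := by
    intro p hp
    have h2 : (2 : ℝ) ≤ p := by exact_mod_cast hp.two_le
    by_cases h : c0 < kap p ∧ kap p ≤ C1
    · rw [zz_of_mem h]
      have h1 := hKp p hp h.1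
      have h3 := hkK (kap p)
      have h4 : K ^ 2 * 30 ≤ K ^ 2 * (B + 30) := by gcongr; linarith
      nlinarith
    · rw [zz_of_not_mem h]
      linarith
  have hZ : ∀ p : ℕ, p.Prime → zz k c0 C1 p ≤ K := by
    intro p _
    unfold zz
    split_ifs
    · exact hkK _
    · exact hK
  refine (HallTen.sum_wt_le hz0 hz hZ N).trans ?_
  apply mul_le_mul_of_nonneg_left _ (by positivity)
  apply Real.exp_le_exp.mpr
  have hsub := primesLE_subset_PT hx hN
  have hsP : ∀ p ∈ Nat.primesLE N, p.Prime := fun p hp => Nat.prime_of_mem_primesLE hp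
  -- first order terms
  have h1 : ∑ p ∈ Nat.primesLE N, zz k c0 C1 p / (p : ℝ) ≤
      (B + 30) + ∑ c ∈ Finset.Ioc c0 C1, (k c - 1) * (1 + 18 * Real.exp (-((c : ℝ) - 1))) := by
    have e1 : ∀ p ∈ Nat.primesLE N, zz k c0 C1 p / (p : ℝ) = 1 / (p : ℝ) +
        (if c0 < kap p ∧ kap p ≤ C1 then (k (kap p) - 1) / (p : ℝ) else 0) := by
      intro p _
      unfold zz
      split_ifs <;> ring
    rw [Finset.sum_congr rfl e1, Finset.sum_add_distrib, ← Finset.sum_filter]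
    apply add_le_add
    · refine le_trans ?_ (sum_PT_le hB)
      exact Finset.sum_le_sum_of_subset_of_nonneg hsub fun p _ _ => by positivity
    · exact sum_cells_le _ hsP c0 C1 (fun c => k c - 1) (fun c => by linarith [hk1 c])
  -- error in the cells
  have h2 : ∑ c ∈ Finset.Ioc c0 C1, (k c - 1) * (1 + 18 * Real.exp (-((c : ℝ) - 1))) ≤
      ∑ c ∈ Finset.Ioc c0 C1, (k c - 1) + 1 := by
    have e2 : ∀ c ∈ Finset.Ioc c0 C1, (k c - 1) * (1 + 18 * Real.exp (-((c : ℝ) - 1))) ≤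
        (k c - 1) + 18 * K * Real.exp (-((c : ℝ) - 1)) := by
      intro c _
      have := hkK c
      have h3 : 0 < Real.exp (-((c : ℝ) - 1)) := Real.exp_pos _
      nlinarith
    refine (Finset.sum_le_sum e2).trans ?_
    rw [Finset.sum_add_distrib, ← Finset.mul_sum]
    have h4 := sum_exp_neg_Ioc_le c0 C1
    have h5 : 18 * K * ∑ c ∈ Finset.Ioc c0 C1, Real.exp (-((c : ℝ) - 1)) ≤ 1 := by
      calc 18 * K * ∑ c ∈ Finset.Ioc c0 C1, Real.exp (-((c : ℝ) - 1))
          ≤ 18 * K * (2 * Real.exp (-(c0 : ℝ))) := by gcongr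
        _ = (36 * K) * Real.exp (-(c0 : ℝ)) := by ring
        _ ≤ Real.exp c0 * Real.exp (-(c0 : ℝ)) := by gcongr
        _ = 1 := by rw [← Real.exp_add]; simp
    linarith
  -- second order terms
  have h3 : ∑ p ∈ Nat.primesLE N, 2 * (zz k c0 C1 p / (p : ℝ)) ^ 2 ≤ 4 := by
    have e3 : ∀ p ∈ Nat.primesLE N, 2 * (zz k c0 C1 p / (p : ℝ)) ^ 2 ≤
        2 * (1 / (p : ℝ)) ^ 2 + 2 / (B + 30) * (1 / (p : ℝ)) := by
      intro p hp
      have hpp := hsP p hp
      have hp0 : (0 : ℝ) < p := by exact_mod_cast hpp.pos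
      by_cases h : c0 < kap p ∧ kap p ≤ C1
      · rw [zz_of_mem h]
        have h1 := hKp p hpp h.1
        have h6 : k (kap p) ^ 2 ≤ K ^ 2 := by
          have := hk1 (kap p)
          have := hkK (kap p)
          nlinarith
        have h7 : (k (kap p) / (p : ℝ)) ^ 2 ≤ 1 / (B + 30) * (1 / (p : ℝ)) := by
          rw [div_pow, div_mul_div_comm, one_mul, div_le_div_iff₀ (by positivity) (by positivity)]
          have h8 : k (kap p) ^ 2 * (B + 30) ≤ p := by
            have : k (kap p) ^ 2 * (B + 30) ≤ K ^ 2 * (B + 30) := by gcongr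
            linarith
          calc k (kap p) ^ 2 * ((B + 30) * (p : ℝ)) = (k (kap p) ^ 2 * (B + 30)) * (p : ℝ) := by
                ring
            _ ≤ (p : ℝ) * (p : ℝ) := by gcongr
            _ = 1 * (p : ℝ) ^ 2 := by ring
        have h9 : 0 ≤ 2 * (1 / (p : ℝ)) ^ 2 := by positivity
        calc 2 * (k (kap p) / (p : ℝ)) ^ 2 ≤ 2 * (1 / (B + 30) * (1 / (p : ℝ))) := by gcongr
          _ = 2 / (B + 30) * (1 / (p : ℝ)) := by ring
          _ ≤ _ := by linarith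
      · rw [zz_of_not_mem h]
        have h9 : 0 ≤ 2 / (B + 30) * (1 / (p : ℝ)) := by positivity
        linarith
    refine (Finset.sum_le_sum e3).trans ?_
    rw [Finset.sum_add_distrib, ← Finset.mul_sum, ← Finset.mul_sum]
    have h10 := Crest.Agent.R020.sum_inv_sq_le (Nat.primesLE N) hsP
    have h11 : ∑ p ∈ Nat.primesLE N, 1 / (p : ℝ) ≤ B + 30 := by
      refine le_trans ?_ (sum_PT_le hB)
      exact Finset.sum_le_sum_of_subset_of_nonneg hsub fun p _ _ => by positivity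
    have h12 : 2 / (B + 30) * ∑ p ∈ Nat.primesLE N, 1 / (p : ℝ) ≤ 2 := by
      calc 2 / (B + 30) * ∑ p ∈ Nat.primesLE N, 1 / (p : ℝ) ≤ 2 / (B + 30) * (B + 30) := by gcongr
        _ = 2 := by field_simp
    linarith
  rw [Finset.sum_add_distrib]
  linarith

/-- The Rankin count. -/
theorem card_le (k : ℕ → ℝ) (c0 C1 : ℕ) {K : ℝ} (hk1 : ∀ c, 1 ≤ k c) (hkK : ∀ c, k c ≤ K)
    {x : ℝ} (hx : 4 ≤ x) (hK1 : K ^ 2 * (Real.log (Real.log x) + 30) ≤ Real.exp (Real.exp c0))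
    (hK2 : 36 * K ≤ Real.exp c0) (A : ℝ) (s : Finset ℕ)
    (hs : ∀ v ∈ s, 1 ≤ v ∧ (v : ℝ) ≤ x ∧ Real.exp A ≤ HallTen.wt (zz k c0 C1) v) :
    (s.card : ℝ) ≤ x / Real.log x * (86 * K ^ 2) *
      Real.exp (Real.log (Real.log x) + 36 + ∑ c ∈ Finset.Ioc c0 C1, (k c - 1) - A) := by
  have hK : 1 ≤ K := (hk1 0).trans (hkK 0)
  have hx0 : (0 : ℝ) ≤ x := by linarith
  set N := ⌊x⌋₊ with hNdef
  have hNx : (N : ℝ) ≤ x := Nat.floor_le hx0
  have hxN : x < N + 1 := Nat.lt_floor_add_one x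
  have hN4 : 4 ≤ N := Nat.le_floor (by exact_mod_cast hx)
  have hN4' : (4 : ℝ) ≤ N := by exact_mod_cast hN4
  have h1 := sum_wt_zz_le k c0 C1 hk1 hkK (by linarith) hK1 hK2 hNx
  have hwt0 : ∀ n, 0 ≤ HallTen.wt (zz k c0 C1) n := by
    intro n
    apply HallTen.wt_nonneg
    intro p
    unfold zz
    split_ifs
    · linarith [hk1 (kap p)]
    · exact zero_le_one
  have hsub : s ⊆ Finset.Icc 1 N := by
    intro v hv
    obtain ⟨h2, h3, _⟩ := hs v hv
    rw [Finset.mem_Icc]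
    exact ⟨h2, Nat.le_floor h3⟩
  have h2 : (s.card : ℝ) * Real.exp A ≤ ∑ n ∈ Finset.Icc 1 N, HallTen.wt (zz k c0 C1) n := by
    calc (s.card : ℝ) * Real.exp A = ∑ _v ∈ s, Real.exp A := by
          rw [Finset.sum_const, nsmul_eq_mul]
      _ ≤ ∑ v ∈ s, HallTen.wt (zz k c0 C1) v := Finset.sum_le_sum fun v hv => (hs v hv).2.2
      _ ≤ _ := Finset.sum_le_sum_of_subset_of_nonneg hsub fun v _ _ => hwt0 v
  have hlogx : 0 < Real.log x := Real.log_pos (by linarith)
  have hlogN : Real.log x / 2 ≤ Real.log N := by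
    have h3 : x ≤ (N : ℝ) ^ 2 := by nlinarith
    have h4 : Real.log x ≤ Real.log ((N : ℝ) ^ 2) := Real.log_le_log (by linarith) h3
    rw [Real.log_pow] at h4
    push_cast at h4
    linarith
  set Ex := Real.exp (Real.log (Real.log x) + 36 + ∑ c ∈ Finset.Ioc c0 C1, (k c - 1)) with hEx
  have h5 : (s.card : ℝ) * Real.exp A * (Real.log x / 2) ≤ (43 * K ^ 2) * x * Ex := by
    calc (s.card : ℝ) * Real.exp A * (Real.log x / 2)
        ≤ (∑ n ∈ Finset.Icc 1 N, HallTen.wt (zz k c0 C1) n) * Real.log N := by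
          apply mul_le_mul h2 hlogN (by positivity)
          exact Finset.sum_nonneg fun v _ => hwt0 v
      _ ≤ _ := h1
      _ ≤ (43 * K ^ 2) * x * Ex := by
          have : 1 + 2 * K + 40 * K ^ 2 ≤ 43 * K ^ 2 := by nlinarith
          gcongr
  have e1 : Real.exp (Real.log (Real.log x) + 36 + ∑ c ∈ Finset.Ioc c0 C1, (k c - 1) - A) =
      Ex * Real.exp (-A) := by
    rw [hEx, ← Real.exp_add]
    ring_nf
  rw [e1]
  have e2 : Real.exp A * Real.exp (-A) = 1 := by rw [← Real.exp_add]; simp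
  calc (s.card : ℝ) = ((s.card : ℝ) * Real.exp A * (Real.log x / 2)) *
        (2 / Real.log x * Real.exp (-A)) := by
        field_simp
        rw [mul_assoc, e2, mul_one]
    _ ≤ ((43 * K ^ 2) * x * Ex) * (2 / Real.log x * Real.exp (-A)) := by
        gcongr
    _ = _ := by ring

end Crest.Agent.R020.Uc
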