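import Mathlib
import Crest.Agent.R020.Stmt
import Crest.Agent.R020.PreU
import Crest.Agent.R020.LCrude
import Crest.Agent.R020.UcRankin
import Crest.Agent.R020.LeftCount2

/-!
Row 20 (helper702), module (Uc): parameters, decomposition structure and the four statements
`StmtDec`, `StmtBad`, `StmtLow`, `StmtHigh` from which `StmtUc` follows (`Union`).

`B = log log x` throughout; cells are `kap p = ⌈yy p⌉₊` (`kap p - 1 < yy p ≤ kap p`).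
-/

set_option autoImplicit false

open scoped ENNReal

noncomputable section

namespace Crest.Agent.R020.Uc

open Crest.Agent.R020 Crest.Agent.Lib

/-- threshold for big primes, `≈ √B` -/
def pw (B : ℝ) : ℕ := ⌊√(B + 1)⌋₊
/-- first cell of the statistic, `≈ B^0.3` -/
def pc0 (B : ℝ) : ℕ := ⌊B ^ (3 / 10 : ℝ)⌋₊
/-- last cell of the statistic, `≈ B - log (30 B) - 2` -/
def pC1 (B : ℝ) : ℕ := ⌊B - Real.log (30 * B) - 2⌋₊
/-- upper bound for all cells -/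
def pM (B : ℝ) : ℕ := ⌈B⌉₊ + 2
/-- bound for the number of big primes -/
def pS (B : ℝ) : ℕ := ⌈210 * √(B + 1)⌉₊
/-- bound for the small part -/
def pX (B : ℝ) : ℝ := B ^ (4 / 5 : ℝ)
/-- deviation of the statistic -/
def pF (B : ℝ) : ℝ := B ^ (9 / 10 : ℝ)

/-- multiplicities of the profile `κ` (the top prime `q0` is counted by the `1`) -/
def mult {s : ℕ} (κ : Fin s → ℕ) (c : ℕ) : ℕ := 1 + (Finset.univ.filter fun a => c < κ a).card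

/-- real version of `mult` -/
def multR {s : ℕ} (κ : Fin s → ℕ) (c : ℕ) : ℝ := (mult κ c : ℝ)

/-- the threshold `∑ k_c log k_c - F` for the statistic `log wt` -/
def pA (B : ℝ) {s : ℕ} (κ : Fin s → ℕ) : ℝ :=
  ∑ c ∈ Finset.Ioc (pc0 B) (pC1 B), multR κ c * Real.log (multR κ c) - pF B

/-- bad values of the small part -/
def Rbad (B : ℝ) : Set ℕ :=
  {r | r ∈ Sm (PT (pw B)) ∧ pX B ≤ Om r} ∪
    {r | ∃ n ∈ LCrude.bigSy (pw B) (pX B) (4 * pX B), n.totient = r}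

/-- admissible profiles -/
structure Prof (B : ℝ) (s : ℕ) (κ : Fin s → ℕ) : Prop where
  hs : s ≤ pS B
  hM : ∀ a, κ a ≤ pM B
  hw : ∀ a, pw B < κ a
  hsum : ((∑ a, κ a : ℕ) : ℝ) ≤ 420 * (B + 1)

/-- decomposition `v = (q0 - 1) ∏ (q a - 1) r` with profile `κ` -/
structure Dec (x : ℝ) (s : ℕ) (κ : Fin s → ℕ) (v q0 : ℕ) (q : Fin s → ℕ) (r : ℕ) : Prop where
  hq0 : q0.Prime
  hq : ∀ a, (q a).Prime ∧ kap (q a) = κ a
  hr : r ∈ Sm (PT (pw (Real.log (Real.log x))))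
  hv : v = (q0 - 1) * ((∏ a, (q a - 1)) * r)
  hx : (v : ℝ) ≤ x
  h2 : 2 ≤ x / ((∏ a, ((q a - 1 : ℕ) : ℝ)) * r)
  hlam : Real.log x ≤ (30 * Real.log (Real.log x)) *
    Real.log (x / ((∏ a, ((q a - 1 : ℕ) : ℝ)) * r))

/-- structure of the relevant totients -/
def StmtDec : Prop := ∃ B0 : ℝ, ∀ x : ℝ, 3 ≤ x → ∀ B : ℝ, B = Real.log (Real.log x) → B0 ≤ B →
  ∀ v : ℕ, IsTot v → ¬ Sq v → (v : ℝ) ≤ x → x / Real.log x ^ 2 < v →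
    (Om v : ℝ) ≤ 20 * (B + 1) → Sy (rr v) ≤ 200 * (B + 1) →
    (∀ p : ℕ, p.Prime → (pw B : ℝ) < yy p → ¬ p ^ 2 ∣ rr v) →
    B + B ^ (19 / 20 : ℝ) < FF aa (tl v) →
    ∃ (s : ℕ) (κ : Fin s → ℕ) (q0 : ℕ) (q : Fin s → ℕ) (r : ℕ), Prof B s κ ∧
      Dec x s κ v q0 q r ∧
      (r ∈ Rbad B ∨
        B ^ (19 / 20 : ℝ) / 2 ≤ ∑ c ∈ Finset.Ioc (pc0 B) (pC1 B), gk (mult κ c))

/-- bad small part -/
def StmtBad : Prop := ∃ B0 : ℝ, ∀ x : ℝ, 3 ≤ x → ∀ B : ℝ, B = Real.log (Real.log x) → B0 ≤ B →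
  ∀ (s : ℕ) (κ : Fin s → ℕ), Prof B s κ → ∀ D : Finset ℕ,
    (∀ v ∈ D, ∃ (q0 : ℕ) (q : Fin s → ℕ) (r : ℕ), Dec x s κ v q0 q r ∧ r ∈ Rbad B) →
    (D.card : ℝ) ≤ x / Real.log x * Real.exp (-B ^ (3 / 4 : ℝ))

/-- statistic too small (Chernoff over tuples) -/
def StmtLow : Prop := ∃ B0 : ℝ, ∀ x : ℝ, 3 ≤ x → ∀ B : ℝ, B = Real.log (Real.log x) → B0 ≤ B →
  ∀ (s : ℕ) (κ : Fin s → ℕ), Prof B s κ → ∀ D : Finset ℕ,
    (∀ v ∈ D, (∃ (q0 : ℕ) (q : Fin s → ℕ) (r : ℕ), Dec x s κ v q0 q r) ∧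
      HallTen.wt (zz (multR κ) (pc0 B) (pC1 B)) v < Real.exp (pA B κ)) →
    (D.card : ℝ) ≤ x / Real.log x * Real.exp (-B ^ (3 / 4 : ℝ))

/-- statistic not small (Rankin over the values `v`) -/
def StmtHigh : Prop := ∃ B0 : ℝ, ∀ x : ℝ, 3 ≤ x → ∀ B : ℝ, B = Real.log (Real.log x) → B0 ≤ B →
  ∀ (s : ℕ) (κ : Fin s → ℕ), Prof B s κ →
    B ^ (19 / 20 : ℝ) / 2 ≤ ∑ c ∈ Finset.Ioc (pc0 B) (pC1 B), gk (mult κ c) →
    ∀ D : Finset ℕ, (∀ v ∈ D, 1 ≤ v ∧ (v : ℝ) ≤ x ∧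
      Real.exp (pA B κ) ≤ HallTen.wt (zz (multR κ) (pc0 B) (pC1 B)) v) →
    (D.card : ℝ) ≤ x / Real.log x * Real.exp (-B ^ (3 / 4 : ℝ))

/-- assembly -/
def StmtUnion : Prop := StmtDec → StmtBad → StmtLow → StmtHigh → StmtUc

end Crest.Agent.R020.Uc
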