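import Mathlib
import Crest.Agent.R020.UcDefs

/-!
Row 20 (helper881), module (Uc): the count of totients whose small part is bad (`StmtBad`).
-/

set_option autoImplicit false

open scoped ENNReal

noncomputable section

namespace Crest.Agent.R020.Uc

open Crest.Agent.R020 Crest.Agent.Lib

namespace Bad

/-- total weight of the bad small parts -/
lemma wt_Rbad_le : ∃ C : ℝ, 0 ≤ C ∧ ∀ B : ℝ, wt (Rbad B) ≤
    ENNReal.ofReal (Real.exp (-(2 / 5 * pX B) + (3 / 2 * (pw B : ℝ) + 50)) +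
      Real.exp (-(1 / 5 * pX B) + C)) := by
  obtain ⟨C, hC, h⟩ := LCrude.exists_bigSy_le
  refine ⟨C, hC, fun B => ?_⟩
  rw [ENNReal.ofReal_add (Real.exp_pos _).le (Real.exp_pos _).le]
  refine (wt_union_le _ _).trans (add_le_add ?_ ?_)
  · exact wt_Om_large_le (Nat.cast_nonneg _) _
  · have h1 : wt {r | ∃ n ∈ LCrude.bigSy (pw B) (pX B) (4 * pX B), n.totient = r} ≤
        ws (fun n => (n.totient : ℝ≥0∞)⁻¹) (LCrude.bigSy (pw B) (pX B) (4 * pX B)) := by
      generalize LCrude.bigSy (pw B) (pX B) (4 * pX B) = S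
      exact ws_le_tsum_image (fun v => (v : ℝ≥0∞)⁻¹) {r | ∃ n ∈ S, n.totient = r}
        (fun n : ℕ => n.totient) S (fun v hv => hv)
    refine h1.trans ((h _ _ _).trans (ENNReal.ofReal_le_ofReal (Real.exp_le_exp.2 ?_)))
    linarith

/-- finite real sums are bounded by the total weight -/
lemma sum_inv_le {A : Set ℕ} {t : ℝ} (ht : 0 ≤ t) (h : wt A ≤ ENNReal.ofReal t) (R : Finset ℕ)
    (hR : ∀ r ∈ R, r ∈ A ∧ r ≠ 0) : ∑ r ∈ R, (1 : ℝ) / r ≤ t := by
  have h1 : ENNReal.ofReal (∑ r ∈ R, (1 : ℝ) / r) ≤ wt A := by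
    rw [ENNReal.ofReal_sum_of_nonneg fun r _ => by positivity]
    refine le_trans ?_ (ENNReal.sum_le_tsum R)
    refine Finset.sum_le_sum fun r hr => ?_
    obtain ⟨h2, h3⟩ := hR r hr
    have h4 : (0 : ℝ) < r := by exact_mod_cast Nat.pos_of_ne_zero h3
    rw [Set.indicator_of_mem h2, one_div, ENNReal.ofReal_inv_of_pos h4, ENNReal.ofReal_natCast]
  exact (ENNReal.ofReal_le_ofReal_iff ht).mp (h1.trans h)

/-- the asymptotic comparison -/
lemma asym (C C' : ℝ) (hC : 0 < C) (hC' : 0 ≤ C') : ∃ B0 : ℝ, 100 ≤ B0 ∧ ∀ B : ℝ, B0 ≤ B → ∀ s : ℕ,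
    s ≤ pS B →
    C * (1 + B) ^ 2 * (30 * B) ^ 2 *
      (Real.exp (-(2 / 5 * pX B) + (3 / 2 * (pw B : ℝ) + 50)) + Real.exp (-(1 / 5 * pX B) + C')) *
      (C * (1 + (pM B : ℝ)) ^ 2) ^ s ≤ Real.exp (-B ^ (3 / 4 : ℝ)) := by
  have hlog : ∀ᶠ B : ℝ in Filter.atTop, Real.log B ≤ 1 / 2 * B ^ (1 / 10 : ℝ) := by
    have h := (isLittleO_log_rpow_atTop (show (0 : ℝ) < 1 / 10 by norm_num)).bound
      (show (0 : ℝ) < 1 / 2 by norm_num)
    filter_upwards [h, Filter.eventually_ge_atTop 1] with B h1 h2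
    rw [Real.norm_of_nonneg (Real.log_nonneg h2),
      Real.norm_of_nonneg (Real.rpow_nonneg (by linarith) _)] at h1
    exact h1
  have h20 : ∀ᶠ B : ℝ in Filter.atTop, 10 ≤ B ^ (1 / 20 : ℝ) :=
    (tendsto_rpow_atTop (by norm_num)).eventually_ge_atTop _
  set K : ℝ := 422 * C + C' + 908 with hK
  have h5 : ∀ᶠ B : ℝ in Filter.atTop, 10 * K ≤ B ^ (1 / 5 : ℝ) :=
    (tendsto_rpow_atTop (by norm_num)).eventually_ge_atTop _
  obtain ⟨B0, hB0⟩ := Filter.eventually_atTop.mp (hlog.and (h20.and h5))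
  refine ⟨max 100 B0, le_max_left _ _, ?_⟩
  intro B hB s hs
  have hB100 : 100 ≤ B := (le_max_left _ _).trans hB
  obtain ⟨e1, e2, e3⟩ := hB0 B ((le_max_right _ _).trans hB)
  have hBpos : 0 < B := by linarith
  set E : ℝ := B ^ (1 / 10 : ℝ) with hE
  set G : ℝ := B ^ (3 / 5 : ℝ) with hG
  set Q : ℝ := √B with hQ
  have hE1 : 1 ≤ E := Real.one_le_rpow (by linarith) (by norm_num)
  have hG1 : 1 ≤ G := Real.one_le_rpow (by linarith) (by norm_num)
  have hQ1 : 1 ≤ Q := by rw [hQ, Real.one_le_sqrt]; linarith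
  have hQE : Q * E = G := by
    rw [hQ, hE, hG, Real.sqrt_eq_rpow, ← Real.rpow_add hBpos]
    norm_num
  have hQG : Q ≤ G := by nlinarith
  have hEG : E ≤ G := by nlinarith
  have hGX : 10 * K * G ≤ pX B := by
    have : pX B = B ^ (1 / 5 : ℝ) * G := by
      rw [pX, hG, ← Real.rpow_add hBpos]; norm_num
    rw [this]
    exact mul_le_mul_of_nonneg_right e3 (by linarith)
  have h34 : 10 * B ^ (3 / 4 : ℝ) ≤ pX B := by
    have : pX B = B ^ (1 / 20 : ℝ) * B ^ (3 / 4 : ℝ) := by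
      rw [pX, ← Real.rpow_add hBpos]; norm_num
    rw [this]
    exact mul_le_mul_of_nonneg_right e2 (by positivity)
  have hX0 : 0 ≤ pX B := Real.rpow_nonneg hBpos.le _
  -- elementary bounds
  have b4 : B + 4 ≤ Real.exp E := by
    have h1 : B + 4 ≤ B ^ 2 := by nlinarith
    have h2 : Real.exp (2 * Real.log B) = B ^ 2 := by
      rw [two_mul, Real.exp_add, Real.exp_log hBpos]; ring
    rw [← h2] at h1
    exact h1.trans (Real.exp_le_exp.2 (by linarith))
  have b1 : (1 + B) ^ 2 ≤ Real.exp (2 * E) := by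
    have : Real.exp (2 * E) = Real.exp E ^ 2 := by rw [two_mul, Real.exp_add]; ring
    rw [this]
    exact pow_le_pow_left₀ (by linarith) (by linarith) 2
  have b30 : (30 * B) ^ 2 ≤ Real.exp (8 + 2 * E) := by
    have h1 : Real.exp (8 + 2 * E) = (Real.exp 4 * Real.exp E) ^ 2 := by
      rw [mul_pow, ← Real.exp_nat_mul, ← Real.exp_nat_mul, ← Real.exp_add]
      norm_num
    rw [h1]
    refine pow_le_pow_left₀ (by linarith) ?_ 2
    have h2 : (30 : ℝ) ≤ Real.exp 4 := by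
      have h3 : Real.exp 4 = Real.exp 1 ^ 4 := by rw [← Real.exp_nat_mul]; norm_num
      have h4 := Real.exp_one_gt_d9
      rw [h3]
      have h5 : (2.7 : ℝ) ≤ Real.exp 1 := by linarith
      calc (30 : ℝ) ≤ 2.7 ^ 4 := by norm_num
        _ ≤ _ := pow_le_pow_left₀ (by norm_num) h5 4
    exact mul_le_mul h2 (by linarith) hBpos.le (Real.exp_pos _).le
  have bC : C ≤ Real.exp C := by have := Real.add_one_le_exp C; linarith
  have hsq : √(B + 1) ≤ 2 * Q := by
    rw [Real.sqrt_le_left (by linarith)]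
    have : (2 * Q) ^ 2 = 4 * B := by rw [mul_pow, hQ, Real.sq_sqrt hBpos.le]; norm_num
    rw [this]; linarith
  have hw : (pw B : ℝ) ≤ 2 * Q := (Nat.floor_le (Real.sqrt_nonneg _)).trans hsq
  have hsS : (s : ℝ) ≤ 421 * Q := by
    have h1 : (s : ℝ) ≤ pS B := by exact_mod_cast hs
    have h2 : (pS B : ℝ) < 210 * √(B + 1) + 1 := Nat.ceil_lt_add_one (by positivity)
    linarith
  have bM : C * (1 + (pM B : ℝ)) ^ 2 ≤ Real.exp (C + 2 * E) := by
    have h1 : (pM B : ℝ) ≤ B + 3 := by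
      unfold pM
      push_cast
      have := Nat.ceil_lt_add_one hBpos.le
      linarith
    have h2 : (1 + (pM B : ℝ)) ^ 2 ≤ Real.exp (2 * E) := by
      have : Real.exp (2 * E) = Real.exp E ^ 2 := by rw [two_mul, Real.exp_add]; ring
      rw [this]
      exact pow_le_pow_left₀ (by positivity) (by linarith) 2
    rw [Real.exp_add]
    exact mul_le_mul bC h2 (by positivity) (Real.exp_pos _).le
  have bMs : (C * (1 + (pM B : ℝ)) ^ 2) ^ s ≤ Real.exp (421 * Q * (C + 2 * E)) := by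
    calc (C * (1 + (pM B : ℝ)) ^ 2) ^ s ≤ Real.exp (C + 2 * E) ^ s :=
          pow_le_pow_left₀ (by positivity) bM s
      _ = Real.exp (s * (C + 2 * E)) := (Real.exp_nat_mul _ _).symm
      _ ≤ _ := Real.exp_le_exp.2 (mul_le_mul_of_nonneg_right hsS (by linarith))
  have bS : Real.exp (-(2 / 5 * pX B) + (3 / 2 * (pw B : ℝ) + 50)) +
      Real.exp (-(1 / 5 * pX B) + C') ≤ Real.exp (1 + (-(1 / 5 * pX B) + 3 * Q + 50 + C')) := by
    have h1 : Real.exp (-(2 / 5 * pX B) + (3 / 2 * (pw B : ℝ) + 50)) ≤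
        Real.exp (-(1 / 5 * pX B) + 3 * Q + 50 + C') := Real.exp_le_exp.2 (by linarith)
    have h2 : Real.exp (-(1 / 5 * pX B) + C') ≤
        Real.exp (-(1 / 5 * pX B) + 3 * Q + 50 + C') := Real.exp_le_exp.2 (by linarith)
    rw [Real.exp_add 1]
    have h3 := Real.exp_one_gt_d9
    have h4 := Real.exp_pos (-(1 / 5 * pX B) + 3 * Q + 50 + C')
    nlinarith
  calc C * (1 + B) ^ 2 * (30 * B) ^ 2 *
      (Real.exp (-(2 / 5 * pX B) + (3 / 2 * (pw B : ℝ) + 50)) + Real.exp (-(1 / 5 * pX B) + C')) *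
      (C * (1 + (pM B : ℝ)) ^ 2) ^ s
      ≤ Real.exp C * Real.exp (2 * E) * Real.exp (8 + 2 * E) *
        Real.exp (1 + (-(1 / 5 * pX B) + 3 * Q + 50 + C')) *
        Real.exp (421 * Q * (C + 2 * E)) := by
        gcongr
    _ = Real.exp (C + 2 * E + (8 + 2 * E) + (1 + (-(1 / 5 * pX B) + 3 * Q + 50 + C')) +
        421 * Q * (C + 2 * E)) := by
        rw [← Real.exp_add, ← Real.exp_add, ← Real.exp_add, ← Real.exp_add]
    _ ≤ _ := by
        refine Real.exp_le_exp.2 ?_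
        have h1 : 421 * Q * (C + 2 * E) = 421 * C * Q + 842 * G := by rw [← hQE]; ring
        rw [h1]
        have h2 : C * Q ≤ C * G := mul_le_mul_of_nonneg_left hQG hC.le
        have h3 : C ≤ C * G := le_mul_of_one_le_right hC.le hG1
        have h4 : C' ≤ C' * G := le_mul_of_one_le_right hC' hG1
        have h5 : K * G = 422 * (C * G) + C' * G + 908 * G := by rw [hK]; ring
        have h6 : 10 * K * G = 10 * (K * G) := by ring
        rw [h6, h5] at hGX
        linarith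

end Bad

theorem stmtBad : StmtBad := by
  classical
  obtain ⟨C', hC', hR⟩ := Bad.wt_Rbad_le
  obtain ⟨C, hC, hT⟩ := LS.count_tilt
  obtain ⟨B0, hB0, hA⟩ := Bad.asym C C' hC hC'
  refine ⟨B0, ?_⟩
  intro x hx B hB hBB s κ hP D hD
  have hB100 : 100 ≤ B := hB0.trans hBB
  have hl1 : 1 < Real.log x := by
    by_contra hcon
    push Not at hcon
    have h1 : Real.log x ≤ 1 := hcon
    have h2 : Real.log (Real.log x) ≤ 0 := by
      apply Real.log_nonpos _ h1
      exact Real.log_nonneg (by linarith)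
    linarith
  have hx16 : 16 ≤ x := by
    have h1 : Real.exp B = Real.log x := by rw [hB, Real.exp_log (by linarith)]
    have h2 := Real.add_one_le_exp B
    have h3 : 100 ≤ Real.log x := by linarith
    have h4 : Real.exp (Real.log x) = x := Real.exp_log (by linarith)
    have h5 := Real.add_one_le_exp (Real.log x)
    linarith
  choose! q0 q r hdec hbad using hD
  set R : Finset ℕ := D.image r with hRdef
  set D' : Finset (ℕ × (Fin s → ℕ) × ℕ) := D.image fun v => (q0 v, q v, r v) with hD'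
  have hcard : D'.card = D.card := by
    rw [hD']
    apply Finset.card_image_of_injOn
    intro v hv v' hv' h
    simp only [Prod.mk.injEq] at h
    obtain ⟨h1, h2, h3⟩ := h
    rw [(hdec v hv).hv, (hdec v' hv').hv, h1, h2, h3]
  have hr0 : ∀ ρ ∈ R, ρ ∈ Rbad B ∧ ρ ≠ 0 := by
    intro ρ hρ
    rw [hRdef, Finset.mem_image] at hρ
    obtain ⟨v, hv, rfl⟩ := hρ
    exact ⟨hbad v hv, (hdec v hv).hr.1⟩
  have hκ1 : ∀ a, (1 : ℝ) ≤ κ a := fun a => by
    have := hP.hw a
    exact_mod_cast (show 1 ≤ κ a by omega)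
  have hsum := Bad.sum_inv_le (by positivity) (hR B) R hr0
  have key := hT (ι := Fin s) (fun _ => 0) 0 0 (fun p _ => ⟨le_rfl, le_rfl⟩)
    (fun p _ => by norm_num) (fun a => (κ a : ℝ) - 1) (fun a => by linarith [hκ1 a]) (pM B)
    (fun a => by
      have : (κ a : ℝ) ≤ pM B := by exact_mod_cast hP.hM a
      linarith)
    x (30 * B) 0 _ hx16 (by linarith) le_rfl R (fun ρ hρ => (hr0 ρ hρ).2) D' (by
      intro d hd
      rw [hD', Finset.mem_image] at hd
      obtain ⟨v, hv, rfl⟩ := hd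
      have h := hdec v hv
      have hq1 : 1 ≤ q0 v := h.hq0.one_lt.le
      refine ⟨⟨h.hq0, ?_, ?_, ?_, h.h2, ?_⟩, ?_⟩
      · intro a
        obtain ⟨h3, h4⟩ := h.hq a
        have h5 := yy_le_kap (q v a)
        have h6 := kap_lt (q v a)
        rw [h4] at h5 h6
        exact ⟨h3, by simp only; linarith, by simp only; linarith⟩
      · exact Finset.mem_image_of_mem _ hv
      · have h7 := h.hx
        rw [h.hv] at h7
        push_cast [Nat.cast_sub hq1] at h7 ⊢
        exact h7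
      · rw [hB]; exact h.hlam
      · simp)
  rw [hcard, ← hB] at key
  refine key.trans ?_
  have hxl : 0 ≤ x / Real.log x := by positivity
  have h8 := hA B hBB s hP.hs
  rw [Fintype.card_fin]
  simp only [zero_mul, neg_zero, add_zero, ne_eq, OfNat.ofNat_ne_zero, not_false_eq_true,
    zero_pow, Real.exp_zero, mul_one]
  calc C * (1 + B) ^ 2 * (30 * B) ^ 2 * (x / Real.log x) * (∑ r ∈ R, (1 : ℝ) / r) *
        (C * (1 + (pM B : ℝ)) ^ 2) ^ s
      = x / Real.log x * (C * (1 + B) ^ 2 * (30 * B) ^ 2 * (∑ r ∈ R, (1 : ℝ) / r) *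
        (C * (1 + (pM B : ℝ)) ^ 2) ^ s) := by ring
    _ ≤ x / Real.log x * (C * (1 + B) ^ 2 * (30 * B) ^ 2 *
      (Real.exp (-(2 / 5 * pX B) + (3 / 2 * (pw B : ℝ) + 50)) + Real.exp (-(1 / 5 * pX B) + C')) *
      (C * (1 + (pM B : ℝ)) ^ 2) ^ s) := by
        refine mul_le_mul_of_nonneg_left ?_ hxl
        refine mul_le_mul_of_nonneg_right ?_ (by positivity)
        exact mul_le_mul_of_nonneg_left hsum (by positivity)
    _ ≤ _ := mul_le_mul_of_nonneg_left h8 hxl

end Crest.Agent.R020.Uc
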