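import Mathlib
import Crest.Agent.R020.UcDefs
import Crest.Agent.R020.LCrude2

/-!
Row 20 (helper702), module (Uc): structure of the relevant totients, deterministic part.
-/

set_option autoImplicit false

open scoped ENNReal
open Crest.NumberTheoryR.TotientScale

noncomputable section

namespace Crest.Agent.R020.Uc

open Crest.Agent.R020 Crest.Agent.Lib

/-! ### Lists -/

/-- `FL` with coefficients `aCoef`, `0`-indexed, on the reversed list is `Gl`. -/
lemma FL_append_singleton (c : ℕ → ℝ) (l : List ℕ) (p : ℕ) :
    FL c (l ++ [p]) = FL c l + c l.length * yy p := by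
  induction l generalizing c with
  | nil => simp [FL_cons]
  | cons q l ih =>
    rw [List.cons_append, FL_cons, FL_cons, ih, List.length_cons]
    ring

lemma Gl_map_yy (l : List ℕ) : Gl (l.map yy) = FL (fun i => aCoef i) l.reverse := by
  induction l with
  | nil => simp
  | cons p l ih =>
    rw [List.map_cons, Gl_cons, ih, List.reverse_cons, FL_append_singleton, List.length_map,
      List.length_reverse]

lemma Gl_primeFactorsList (n : ℕ) :
    Gl (n.primeFactorsList.map yy) = FL (fun i => aCoef i) (dl n) := Gl_map_yy _

/-- splitting of a sorted list at a threshold -/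
lemma sorted_split (l : List ℕ) (hl : l.Pairwise (· ≤ ·)) (t : ℝ) :
    l = l.filter (fun p => decide (yy p ≤ t)) ++ l.filter (fun p => decide (t < yy p)) := by
  induction l with
  | nil => simp
  | cons p l ih =>
    rw [List.pairwise_cons] at hl
    by_cases h : yy p ≤ t
    · rw [List.filter_cons_of_pos (by simpa using h), List.filter_cons_of_neg (by simpa using h),
        List.cons_append, ← ih hl.2]
    · have h' : t < yy p := not_le.mp h
      have hall : ∀ q ∈ l, t < yy q := fun q hq => h'.trans_le (yy_mono (hl.1 q hq))
      have h1 : l.filter (fun p => decide (yy p ≤ t)) = [] := by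
        rw [List.filter_eq_nil_iff]
        intro q hq
        simpa using hall q hq
      have h2 : l.filter (fun p => decide (t < yy p)) = l := by
        rw [List.filter_eq_self]
        intro q hq
        simpa using hall q hq
      rw [List.filter_cons_of_neg (by simpa using h'), List.filter_cons_of_pos (by simpa using h'),
        h1, h2, List.nil_append]

/-- totient of a product of distinct primes and a coprime number -/
lemma totient_prod_mul (l : List ℕ) (hp : ∀ p ∈ l, p.Prime) (hnd : l.Nodup) (t : ℕ)
    (ht : ∀ p ∈ l, ¬ p ∣ t) :
    Nat.totient (l.prod * t) = (l.map fun p => p - 1).prod * Nat.totient t := by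
  induction l with
  | nil => simp
  | cons p l ih =>
    rw [List.nodup_cons] at hnd
    have hpp := hp p (by simp)
    have hcop : Nat.Coprime p (l.prod * t) := by
      rw [Nat.Prime.coprime_iff_not_dvd hpp, Nat.Prime.dvd_mul hpp]
      rintro (h | h)
      · obtain ⟨q, hq, hpq⟩ := (Prime.dvd_prod_iff hpp.prime).mp h
        have hqp := hp q (by simp [hq])
        rw [Nat.prime_dvd_prime_iff_eq hpp hqp] at hpq
        exact hnd.1 (hpq ▸ hq)
      · exact ht p (by simp) h
    rw [List.prod_cons, mul_assoc, Nat.totient_mul hcop, Nat.totient_prime hpp,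
      ih (fun q hq => hp q (by simp [hq])) hnd.2 (fun q hq => ht q (by simp [hq])),
      List.map_cons, List.prod_cons, mul_assoc]

/-- a multiple element of a list of primes gives a square divisor -/
lemma nodup_of_sq (l : List ℕ) (hl : l.Pairwise (· ≤ ·)) (n : ℕ) (hn : l.prod ∣ n)
    (h : ∀ p ∈ l, ¬ p ^ 2 ∣ n) : l.Nodup := by
  induction l with
  | nil => simp
  | cons p l ih =>
    rw [List.pairwise_cons] at hl
    rw [List.nodup_cons]
    refine ⟨?_, ih hl.2 ((dvd_mul_left _ _).trans (by rwa [List.prod_cons] at hn))
      (fun q hq => h q (by simp [hq]))⟩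
    intro hpl
    apply h p (by simp)
    refine dvd_trans ?_ hn
    rw [List.prod_cons, pow_two]
    exact Nat.mul_dvd_mul_left p (List.dvd_prod hpl)

lemma cnt_append (l l' : List ℕ) (c : ℕ) : cnt (l ++ l') c = cnt l c + cnt l' c := by
  unfold cnt
  rw [List.countP_append]

lemma cnt_map_get (l : List ℕ) (f : ℕ → ℕ) (c : ℕ) :
    cnt (l.map f) c = (Finset.univ.filter fun a : Fin l.length => c < f (l.get a)).card := by
  induction l with
  | nil => simp [cnt_nil]
  | cons p l ih =>
    rw [Finset.card_filter] at ih
    rw [List.map_cons, cnt_cons, ih, Finset.card_filter]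
    simp only [List.length_cons]
    rw [Fin.sum_univ_succ, add_comm]
    congr 1

lemma sum_get {M : Type*} [AddCommMonoid M] (l : List ℕ) (f : ℕ → M) :
    ∑ a : Fin l.length, f (l.get a) = (l.map f).sum := by
  induction l with
  | nil => simp
  | cons p l ih =>
    simp only [List.length_cons]
    rw [Fin.sum_univ_succ, List.map_cons, List.sum_cons, ← ih]
    simp

lemma prod_get {M : Type*} [CommMonoid M] (l : List ℕ) (f : ℕ → M) :
    ∏ a : Fin l.length, f (l.get a) = (l.map f).prod := by
  induction l with
  | nil => simp
  | cons p l ih =>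
    simp only [List.length_cons]
    rw [Fin.prod_univ_succ, List.map_cons, List.prod_cons, ← ih]
    simp

/-- the counting function times the threshold is at most the sum -/
lemma cnt_mul_le (l : List ℕ) (c : ℕ) : cnt l c * c ≤ l.sum := by
  induction l with
  | nil => simp [cnt_nil]
  | cons x l ih =>
    rw [cnt_cons, List.sum_cons]
    split_ifs with h
    · rw [add_mul, one_mul]; omega
    · rw [add_zero]; omega

end Crest.Agent.R020.Uc
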