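import Mathlib
import Crest.Agent.R020.UcDec1

/-!
Row 20 (helper702), module (Uc): structure of the relevant totients (`StmtDec`) from a list of
numerical inequalities.
-/

set_option autoImplicit false

open scoped ENNReal
open Crest.NumberTheoryR.TotientScale

noncomputable section

namespace Crest.Agent.R020.Uc

open Crest.Agent.R020 Crest.Agent.Lib

/-- the numerical inequalities used in `StmtDec` -/
structure NumB (B : ℝ) : Prop where
  h1 : 1000 ≤ B
  h2 : Real.exp B / (30 * B) + 1 ≤ (Real.exp B - 2 * B) / (20 * B + 21)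
  h3 : 1 ≤ Real.exp B / (30 * B)
  h4 : B / 2 ≤ (pC1 B : ℝ)
  h5 : pc0 B ≤ pw B
  h6 : 200 * (B + 1) ≤ 210 * √(B + 1) * pw B
  h7 : B ^ (19 / 20 : ℝ) / 2 ≤ B ^ (19 / 20 : ℝ) - 1 - Real.log (20 * B + 21) * (4 * pX B) -
    ((pc0 B : ℝ) + 1) * (((pS B : ℝ) + 1) * Real.log (20 * B + 21)) -
    ((pM B : ℝ) - pC1 B) * 1000000

lemma gk_le {k : ℕ} (hk : k ≤ 900) : gk k ≤ 1000000 := by
  unfold gk
  have h1 : Real.log k ≤ k := by
    rcases Nat.eq_zero_or_pos k with rfl | h
    · simp
    · have := Real.log_le_sub_one_of_pos (show (0 : ℝ) < k by exact_mod_cast h)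
      linarith
  have h2 : (k : ℝ) ≤ 900 := by exact_mod_cast hk
  have h3 : (0 : ℝ) ≤ k := Nat.cast_nonneg k
  nlinarith

lemma pfl_of_dl {n q : ℕ} {m : ℕ} (h : dl n = q :: dl m) :
    n.primeFactorsList = m.primeFactorsList ++ [q] := by
  have h1 : n.primeFactorsList = (dl n).reverse := by unfold dl; rw [List.reverse_reverse]
  rw [h1, h, List.reverse_cons]
  unfold dl
  rw [List.reverse_reverse]

lemma log_le_Om_mul {n q : ℕ} (hn : n ≠ 0) (hq : ∀ p ∈ n.primeFactorsList, p ≤ q) (hq1 : 1 ≤ q) :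
    Real.log n ≤ (Om n : ℝ) * Real.log q := by
  have h1 : n ≤ q ^ Om n := by
    conv_lhs => rw [← Nat.prod_primeFactorsList hn]
    exact List.prod_le_pow_card _ _ hq
  have h2 : (n : ℝ) ≤ (q : ℝ) ^ Om n := by exact_mod_cast h1
  have h3 : Real.log n ≤ Real.log ((q : ℝ) ^ Om n) :=
    Real.log_le_log (by exact_mod_cast Nat.pos_of_ne_zero hn) h2
  rwa [Real.log_pow] at h3

theorem dec_of {x B : ℝ} (hx : 3 ≤ x) (hB : B = Real.log (Real.log x)) (hN : NumB B)
    {v : ℕ} (hv : IsTot v) (hsq : ¬ Sq v) (hvx : (v : ℝ) ≤ x) (hlow : x / Real.log x ^ 2 < v)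
    (hOm : (Om v : ℝ) ≤ 20 * (B + 1)) (hSy : Sy (rr v) ≤ 200 * (B + 1))
    (hnosq : ∀ p : ℕ, p.Prime → (pw B : ℝ) < yy p → ¬ p ^ 2 ∣ rr v)
    (hFF : B + B ^ (19 / 20 : ℝ) < FF aa (tl v)) :
    ∃ (s : ℕ) (κ : Fin s → ℕ) (q0 : ℕ) (q : Fin s → ℕ) (r : ℕ), Prof B s κ ∧
      Dec x s κ v q0 q r ∧
      (r ∈ Rbad B ∨
        B ^ (19 / 20 : ℝ) / 2 ≤ ∑ c ∈ Finset.Ioc (pc0 B) (pC1 B), gk (mult κ c)) := by
  obtain ⟨hB1, hn2, hn3, hn4, hn5, hn6, hn7⟩ := hN
  have hv1 : v ≠ 1 := by
    rintro rfl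
    apply hsq
    unfold Sq
    rw [rr_one]
    simp [Pm]
  obtain ⟨hq0, htl, hveq, hrr, hPlt, hdl⟩ := totient_decomp hv hv1 hsq
  set n := rr v with hn
  set q0 := Pm n with hq0def
  set d := tl v with hd
  set m := rr d with hm
  have hn0 : n ≠ 0 := (rr_pos v).ne'
  have hm0 : m ≠ 0 := (rr_pos d).ne'
  have hd0 : 0 < d := htl.pos
  have hφm : Nat.totient m = d := totient_rr htl
  have hpfl : n.primeFactorsList = m.primeFactorsList ++ [q0] := pfl_of_dl hdl
  have hlx : 1 ≤ Real.log x := by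
    rw [Real.le_log_iff_exp_le (by linarith)]
    have := Real.exp_one_lt_d9
    linarith
  have hB0 : 0 ≤ Real.log (Real.log x) := Real.log_nonneg hlx
  have hexpB : Real.exp B = Real.log x := by rw [hB, Real.exp_log (by linarith)]
  -- the split of the list
  set t : ℝ := (pw B : ℝ) with ht
  have ht0 : 0 ≤ t := Nat.cast_nonneg _
  set Ls := m.primeFactorsList.filter (fun p => decide (yy p ≤ t)) with hLs
  set Lb := m.primeFactorsList.filter (fun p => decide (t < yy p)) with hLb
  have hsort : m.primeFactorsList.Pairwise (· ≤ ·) := Nat.primeFactorsList_sorted m |>.pairwise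
  have hsplit : m.primeFactorsList = Ls ++ Lb := sorted_split _ hsort t
  have hLbp : ∀ p ∈ Lb, p.Prime := fun p hp =>
    Nat.prime_of_mem_primeFactorsList (List.mem_of_mem_filter hp)
  have hLsp : ∀ p ∈ Ls, p.Prime := fun p hp =>
    Nat.prime_of_mem_primeFactorsList (List.mem_of_mem_filter hp)
  have hLby : ∀ p ∈ Lb, t < yy p := fun p hp => by
    have := (List.mem_filter.mp hp).2
    simpa using this
  have hLsy : ∀ p ∈ Ls, yy p ≤ t := fun p hp => by
    have := (List.mem_filter.mp hp).2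
    simpa using this
  have hLbsort : Lb.Pairwise (· ≤ ·) := hsort.filter _
  have hmprod : m = Lb.prod * Ls.prod := by
    conv_lhs => rw [← Nat.prod_primeFactorsList hm0, hsplit, List.prod_append, mul_comm]
  have hmn : m ∣ n := by rw [hrr]; exact dvd_mul_left m q0
  have hLbn : Lb.prod ∣ n := (dvd_trans ⟨Ls.prod, hmprod⟩ hmn)
  have hnd : Lb.Nodup := nodup_of_sq Lb hLbsort n hLbn
    (fun p hp => hnosq p (hLbp p hp) (hLby p hp))
  have hLsne : Ls.prod ≠ 0 := by
    intro h
    rw [h, mul_zero] at hmprod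
    exact hm0 hmprod
  have hLsdvd : ∀ p : ℕ, p.Prime → p ∣ Ls.prod → p ∈ Ls := by
    intro p hp hd
    obtain ⟨a, ha, hpa⟩ := (Prime.dvd_prod_iff hp.prime).mp hd
    rw [Nat.prime_dvd_prime_iff_eq hp (hLsp a ha)] at hpa
    rwa [hpa]
  have hφ : d = (Lb.map fun p => p - 1).prod * Nat.totient Ls.prod := by
    rw [← hφm]
    conv_lhs => rw [hmprod]
    apply totient_prod_mul Lb hLbp hnd
    intro p hp hdvd
    have h1 := hLsy p (hLsdvd p (hLbp p hp) hdvd)
    have h2 := hLby p hp
    linarith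
  -- data
  set r := Nat.totient Ls.prod with hr
  have hrSm : r ∈ Sm (PT (pw B)) := by
    apply totient_mem_Sm hLsne ht0
    intro q hq
    exact hLsy q (hLsdvd q (Nat.prime_of_mem_primeFactors hq) (Nat.dvd_of_mem_primeFactors hq))
  have hveq2 : v = (q0 - 1) * ((∏ a : Fin Lb.length, (Lb.get a - 1)) * r) := by
    rw [prod_get Lb (fun p => p - 1), ← hφ]
    exact hveq
  -- sums of `yy`
  have hSyn : (Ls.map yy).sum + (Lb.map yy).sum + yy q0 = Sy n := by
    unfold Sy
    rw [hpfl, hsplit, List.map_append, List.map_append, List.sum_append, List.sum_append]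
    simp
  have hLs0 : 0 ≤ (Ls.map yy).sum := List.sum_nonneg (by
    intro a ha
    rw [List.mem_map] at ha
    obtain ⟨p, _, rfl⟩ := ha
    exact yy_nonneg p)
  have hq0y : 0 ≤ yy q0 := yy_nonneg q0
  have hLbsum : (Lb.map yy).sum ≤ 200 * (B + 1) := by linarith
  have hlen : (Lb.length : ℝ) * t ≤ (Lb.map yy).sum := by
    have : ∀ l : List ℕ, (∀ p ∈ l, t < yy p) → (l.length : ℝ) * t ≤ (l.map yy).sum := by
      intro l
      induction l with
      | nil => simp
      | cons p l ih =>
        intro h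
        have h1 := ih (fun q hq => h q (by simp [hq]))
        have h2 := h p (by simp)
        rw [List.length_cons, List.map_cons, List.sum_cons]
        push_cast
        linarith
    exact this Lb hLby
  have hpw0 : 0 < t := by
    have h1 : 0 < 200 * (B + 1) := by linarith
    have h2 : 0 < 210 * √(B + 1) := by
      have : 0 < √(B + 1) := Real.sqrt_pos.mpr (by linarith)
      linarith
    by_contra h
    have h3 : t = 0 := le_antisymm (not_lt.mp h) ht0
    have h4 : 210 * √(B + 1) * (pw B : ℝ) = 0 := by rw [← ht, h3, mul_zero]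
    linarith
  have hsS : Lb.length ≤ pS B := by
    have h1 : (Lb.length : ℝ) * t ≤ 210 * √(B + 1) * t := by linarith
    have h2 : (Lb.length : ℝ) ≤ 210 * √(B + 1) := le_of_mul_le_mul_right h1 hpw0
    have h3 : (Lb.length : ℝ) ≤ (pS B : ℝ) := h2.trans (Nat.le_ceil _)
    exact_mod_cast h3
  have hS2 : (pS B : ℝ) ≤ 210 * (B + 1) := by
    have h1 : (pS B : ℝ) < 210 * √(B + 1) + 1 := Nat.ceil_lt_add_one (by positivity)
    have h2 : √(B + 1) * 30 ≤ B + 1 := by
      have h3 : √(B + 1) * √(B + 1) = B + 1 := Real.mul_self_sqrt (by linarith)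
      have h4 : 30 ≤ √(B + 1) := by
        apply Real.le_sqrt_of_sq_le
        linarith
      nlinarith
    linarith
  -- all primes of `n` are at most `q0`
  have hle : ∀ p ∈ n.primeFactorsList, p ≤ q0 := by
    intro p hp
    rw [hpfl, List.mem_append] at hp
    rcases hp with hp | hp
    · have h1 : p ∈ dl m := mem_dl.mpr hp
      have h2 : (q0 :: dl m).Pairwise (· ≥ ·) := hdl ▸ dl_sorted n
      exact (List.pairwise_cons.mp h2).1 p h1
    · rw [List.mem_singleton] at hp
      exact hp.le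
  have hyq0 : yy q0 ≤ B + 1 := by
    rw [hB]
    apply LCrude.yy_le_of_le hx hq0 hd0 _ hB0
    rw [← hveq]
    exact hvx
  have hkap_le : ∀ p : ℕ, yy p ≤ B + 1 → kap p ≤ pM B := by
    intro p hp
    rw [kap_le_iff]
    unfold pM
    push_cast
    have := Nat.le_ceil B
    linarith
  have hLbM : ∀ p ∈ Lb, kap p ≤ pM B := by
    intro p hp
    apply hkap_le
    have h1 : p ≤ q0 := hle p (by
      rw [hpfl, List.mem_append]
      left
      exact List.mem_of_mem_filter hp)
    exact (yy_mono h1).trans hyq0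
  have hLbw : ∀ p ∈ Lb, pw B < kap p := by
    intro p hp
    by_contra h
    push Not at h
    rw [kap_le_iff] at h
    have := hLby p hp
    linarith
  have hkapsum : ((Lb.map kap).sum : ℝ) ≤ (Lb.map yy).sum + Lb.length := by
    have : ∀ l : List ℕ, ((l.map kap).sum : ℝ) ≤ (l.map yy).sum + l.length := by
      intro l
      induction l with
      | nil => simp
      | cons p l ih =>
        rw [List.map_cons, List.sum_cons, List.map_cons, List.sum_cons, List.length_cons]
        push_cast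
        have := (kap_lt p).le
        push_cast at ih
        linarith
    exact this Lb
  have hsum : ((∑ a : Fin Lb.length, kap (Lb.get a) : ℕ) : ℝ) ≤ 420 * (B + 1) := by
    rw [sum_get Lb kap]
    have h1 : (Lb.length : ℝ) ≤ pS B := by exact_mod_cast hsS
    linarith
  -- size of `q0`
  have hOmn : (Om n : ℝ) ≤ 20 * B + 21 := by
    have h1 := Om_le_Om_totient hn0
    rw [hn, totient_rr hv] at h1
    have h2 : (Om (rr v) : ℝ) ≤ Om v + 1 := by exact_mod_cast h1
    rw [hn]
    linarith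
  have hOmn1 : 1 ≤ Om n := by
    unfold Om
    rw [hpfl]
    simp
  have hlogn : Real.log x - 2 * B ≤ Real.log n := by
    have h1 : v ≤ n := by
      have := Nat.totient_le n
      rw [hn, totient_rr hv] at this
      rw [hn]; exact this
    have h2 : x / Real.log x ^ 2 ≤ (n : ℝ) := by
      have : (v : ℝ) ≤ n := by exact_mod_cast h1
      linarith
    have h3 : Real.log (x / Real.log x ^ 2) ≤ Real.log n := by
      apply Real.log_le_log _ h2
      positivity
    rw [Real.log_div (by linarith) (by positivity), Real.log_pow, ← hB] at h3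
    push_cast at h3
    linarith
  have hlogq0 : (Real.exp B - 2 * B) / (20 * B + 21) ≤ Real.log q0 := by
    have h1 := log_le_Om_mul hn0 hle hq0.one_le
    have h2 : 0 ≤ Real.log q0 := Real.log_nonneg (by exact_mod_cast hq0.one_le)
    have h3 : (Om n : ℝ) * Real.log q0 ≤ (20 * B + 21) * Real.log q0 := by gcongr
    rw [div_le_iff₀ (by linarith), hexpB]
    linarith
  have hlogq1 : Real.exp B / (30 * B) ≤ Real.log ((q0 - 1 : ℕ) : ℝ) := by
    have h2 := hq0.two_le
    have h3 : ((q0 : ℝ)) / 2 ≤ ((q0 - 1 : ℕ) : ℝ) := by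
      rw [Nat.cast_sub (by omega)]
      have : (2 : ℝ) ≤ q0 := by exact_mod_cast h2
      push_cast
      linarith
    have h4 : Real.log ((q0 : ℝ) / 2) ≤ Real.log ((q0 - 1 : ℕ) : ℝ) := by
      apply Real.log_le_log _ h3
      have : (0 : ℝ) < q0 := by exact_mod_cast hq0.pos
      positivity
    rw [Real.log_div (by exact_mod_cast hq0.ne_zero) (by norm_num)] at h4
    have h5 := Real.log_two_lt_d9
    linarith
  have hD : ((∏ a : Fin Lb.length, ((Lb.get a - 1 : ℕ) : ℝ)) * (r : ℝ)) = (d : ℝ) := by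
    rw [prod_get Lb (fun p => ((p - 1 : ℕ) : ℝ)), hφ]
    push_cast
    rw [List.map_map]
    rfl
  have hxd : ((q0 - 1 : ℕ) : ℝ) ≤ x / (d : ℝ) := by
    have hd0' : (0 : ℝ) < d := by exact_mod_cast hd0
    rw [le_div_iff₀ hd0']
    have h1 : (((q0 - 1) * d : ℕ) : ℝ) ≤ x := by rw [← hveq]; exact hvx
    push_cast at h1 ⊢
    exact h1
  have hq1pos : (0 : ℝ) < ((q0 - 1 : ℕ) : ℝ) := by
    have := hq0.two_le
    exact_mod_cast (by omega : 0 < q0 - 1)
  have hlogxd : Real.exp B / (30 * B) ≤ Real.log (x / (d : ℝ)) :=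
    hlogq1.trans (Real.log_le_log hq1pos hxd)
  have hDec : Dec x Lb.length (fun a => kap (Lb.get a)) v q0 Lb.get r := by
    refine ⟨hq0, fun a => ⟨hLbp _ (List.get_mem _ _), rfl⟩, ?_, hveq2, hvx, ?_, ?_⟩
    · rw [← hB]; exact hrSm
    · rw [hD]
      have h1 : 1 ≤ Real.log (x / (d : ℝ)) := hn3.trans hlogxd
      have h2 : 0 < x / (d : ℝ) := lt_of_lt_of_le hq1pos hxd
      rw [Real.le_log_iff_exp_le h2] at h1
      have := Real.add_one_le_exp (1 : ℝ)
      linarith
    · rw [hD, ← hB, ← hexpB]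
      have h1 : 0 < 30 * B := by linarith
      calc Real.exp B = (30 * B) * (Real.exp B / (30 * B)) := by field_simp
        _ ≤ _ := by gcongr
  refine ⟨Lb.length, fun a => kap (Lb.get a), q0, Lb.get, r,
    ⟨hsS, fun a => hLbM _ (List.get_mem _ _), fun a => hLbw _ (List.get_mem _ _), hsum⟩,
    hDec, ?_⟩
  -- the dichotomy
  by_cases hX1 : pX B ≤ Om r
  · left; left; exact ⟨hrSm, hX1⟩
  push Not at hX1
  by_cases hX2 : 4 * pX B ≤ Sy Ls.prod
  · left; right
    refine ⟨Ls.prod, ⟨?_, hX1.le, hX2⟩, rfl⟩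
    rw [mem_Sm_PT ht0]
    exact ⟨hLsne, fun q hq => hLsy q (hLsdvd q (Nat.prime_of_mem_primeFactors hq)
      (Nat.dvd_of_mem_primeFactors hq))⟩
  push Not at hX2
  right
  -- `Sy` of the small part
  have hSyLs : (Ls.map yy).sum ≤ 4 * pX B := by
    have h1 : List.Perm Ls (Ls.prod).primeFactorsList := Nat.primeFactorsList_unique rfl hLsp
    have h2 : (Ls.map yy).sum = Sy Ls.prod := by
      unfold Sy
      exact (h1.map yy).sum_eq
    linarith
  -- `Gl`
  have hG0 : Gl (n.primeFactorsList.map yy) = FF aa d - yy q0 := by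
    rw [Gl_primeFactorsList, hdl, FL_cons, aCoef_zero]
    unfold FF
    rw [← hm]
    have : (fun i => aCoef (i + 1)) = aa := rfl
    rw [this]
    ring
  set M0 := Om n with hM0
  have hG1 : Gl (n.primeFactorsList.map yy) ≤
      Gl ((Lb ++ [q0]).map yy) + Real.log M0 * (Ls.map yy).sum := by
    have h1 : n.primeFactorsList.map yy = Ls.map yy ++ (Lb ++ [q0]).map yy := by
      rw [hpfl, hsplit, List.append_assoc, List.map_append]
    rw [h1]
    apply Gl_append_le
    · intro a ha
      rw [List.mem_map] at ha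
      obtain ⟨p, _, rfl⟩ := ha
      exact yy_nonneg p
    · rw [hM0]
      unfold Om
      rw [hpfl, hsplit]
      simp only [List.length_map, List.length_append, List.length_cons, List.length_nil]
      omega
  have hG2 := Gl_le_cells (pc0 B) (Lb ++ [q0]) yy kap M0 (by
      rw [hM0]
      unfold Om
      rw [hpfl, hsplit]
      simp only [List.length_append, List.length_cons, List.length_nil]
      omega)
    (fun q _ => ⟨by have := (kap_lt q).le; linarith, yy_le_kap q⟩)
  -- `q0` is above all cells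
  have hyq0' : B - Real.log (30 * B) ≤ yy q0 := by
    have h1 : Real.exp B / (30 * B) ≤ Real.log q0 := by
      have := hn2.trans hlogq0
      linarith
    have h2 : Real.log (Real.exp B / (30 * B)) ≤ Real.log (Real.log q0) := by
      apply Real.log_le_log _ h1
      have := Real.exp_pos B
      have : 0 < 30 * B := by linarith
      positivity
    rw [Real.log_div (Real.exp_pos B).ne' (by linarith), Real.log_exp] at h2
    exact h2.trans (log_log_le_yy q0)
  have hC1 : (pC1 B : ℝ) ≤ B - Real.log (30 * B) - 2 := by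
    unfold pC1
    apply Nat.floor_le
    by_contra h
    push Not at h
    have h1 : pC1 B = 0 := by
      unfold pC1
      rw [Nat.floor_eq_zero]
      linarith
    rw [h1] at hn4
    push_cast at hn4
    linarith
  have hC1q0 : pC1 B < kap q0 := by
    by_contra h
    push Not at h
    rw [kap_le_iff] at h
    linarith
  have hc0C1 : pc0 B ≤ pC1 B := by
    -- `pc0 ≤ pw ≤ √(B+1) ≤ B/2 ≤ pC1`
    have h1 : (pw B : ℝ) ≤ √(B + 1) := Nat.floor_le (Real.sqrt_nonneg _)
    have h2 : √(B + 1) ≤ B / 2 := by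
      rw [Real.sqrt_le_left (by linarith)]
      nlinarith
    have h3 : (pc0 B : ℝ) ≤ pw B := by exact_mod_cast hn5
    have h4 : (pc0 B : ℝ) ≤ pC1 B := by linarith
    exact_mod_cast h4
  have hlk : ∀ a ∈ (Lb ++ [q0]).map kap, pc0 B < a ∧ a ≤ (pM B - 1) + 1 := by
    intro a ha
    have hpM1 : (pM B - 1) + 1 = pM B := by unfold pM; omega
    rw [hpM1]
    rw [List.mem_map] at ha
    obtain ⟨p, hp, rfl⟩ := ha
    rw [List.mem_append, List.mem_singleton] at hp
    rcases hp with hp | rfl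
    · exact ⟨lt_of_le_of_lt hn5 (hLbw p hp), hLbM p hp⟩
    · exact ⟨lt_of_le_of_lt hc0C1 hC1q0, hkap_le _ hyq0⟩
  have hsortk : ((Lb ++ [q0]).map kap).Pairwise (· ≤ ·) := by
    rw [List.pairwise_map]
    have h1 : (Lb ++ [q0]).Pairwise (· ≤ ·) := by
      rw [List.pairwise_append]
      refine ⟨hLbsort, List.pairwise_singleton _ _, ?_⟩
      intro a ha b hb
      rw [List.mem_singleton] at hb
      subst hb
      apply hle
      rw [hpfl, List.mem_append]
      left
      exact List.mem_of_mem_filter ha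
    exact h1.imp fun h => kap_mono h
  have hG3 := sum_gk_cnt (pc0 B) (pM B - 1) _ hsortk hlk
  rw [List.map_map] at hG3
  have hG3' : (List.map ((fun κ : ℕ => (κ : ℝ) - 1 - (pc0 B : ℝ)) ∘ kap) (Lb ++ [q0])) =
      (Lb ++ [q0]).map (fun q : ℕ => (kap q : ℝ) - 1 - (pc0 B : ℝ)) := rfl
  rw [hG3'] at hG3
  -- split of the cell sum
  have hC1M : pC1 B ≤ pM B - 1 := by
    have h1 : (pC1 B : ℝ) ≤ (pM B - 1 : ℕ) := by
      have h2 : B ≤ (pM B - 1 : ℕ) := by
        unfold pM
        have : ⌈B⌉₊ + 2 - 1 = ⌈B⌉₊ + 1 := by omega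
        rw [this]
        push_cast
        have := Nat.le_ceil B
        linarith
      have h3 : 0 ≤ Real.log (30 * B) := Real.log_nonneg (by linarith)
      linarith
    exact_mod_cast h1
  rw [← Finset.sum_Ioc_consecutive _ hc0C1 hC1M] at hG3
  have hlow1 : ∑ c ∈ Finset.Ioc (pc0 B) (pC1 B), gk (cnt ((Lb ++ [q0]).map kap) c) =
      ∑ c ∈ Finset.Ioc (pc0 B) (pC1 B), gk (mult (fun a => kap (Lb.get a)) c) := by
    apply Finset.sum_congr rfl
    intro c hc
    rw [Finset.mem_Ioc] at hc
    congr 1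
    unfold mult
    rw [List.map_append, cnt_append, cnt_map_get, List.map_singleton, cnt_cons, cnt_nil,
      if_pos (lt_of_le_of_lt hc.2 hC1q0)]
    beta_reduce
    omega
  have hhigh : ∑ c ∈ Finset.Ioc (pC1 B) (pM B - 1), gk (cnt ((Lb ++ [q0]).map kap) c) ≤
      ((pM B : ℝ) - pC1 B) * 1000000 := by
    have h1 : ∀ c ∈ Finset.Ioc (pC1 B) (pM B - 1), gk (cnt ((Lb ++ [q0]).map kap) c) ≤ 1000000 := by
      intro c hc
      rw [Finset.mem_Ioc] at hc
      apply gk_le
      have h2 := cnt_mul_le ((Lb ++ [q0]).map kap) c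
      have h3 : (((Lb ++ [q0]).map kap).sum : ℝ) ≤ 420 * (B + 1) := by
        rw [List.map_append, List.sum_append, List.map_singleton, List.sum_singleton]
        push_cast
        have h4 : (Lb.length : ℝ) ≤ pS B := by exact_mod_cast hsS
        have h5 := (kap_lt q0).le
        have h6 : (Lb.map yy).sum + yy q0 ≤ 200 * (B + 1) := by linarith
        have h7 : ((Lb.map kap).sum : ℝ) ≤ (Lb.map yy).sum + Lb.length := hkapsum
        push_cast at h7
        linarith
      have h4 : ((cnt ((Lb ++ [q0]).map kap) c : ℕ) : ℝ) * c ≤ 420 * (B + 1) := by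
        refine le_trans ?_ h3
        exact_mod_cast h2
      have h5 : B / 2 ≤ (c : ℝ) := by
        have : (pC1 B : ℝ) ≤ c := by exact_mod_cast hc.1.le
        linarith
      have h6 : ((cnt ((Lb ++ [q0]).map kap) c : ℕ) : ℝ) ≤ 900 := by
        by_contra h
        push Not at h
        have h7 : 900 * (B / 2) ≤ ((cnt ((Lb ++ [q0]).map kap) c : ℕ) : ℝ) * c := by
          apply mul_le_mul h.le h5 (by linarith)
          linarith
        linarith
      exact_mod_cast h6
    refine (Finset.sum_le_sum h1).trans ?_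
    rw [Finset.sum_const, nsmul_eq_mul, Nat.card_Ioc]
    have h2 : ((pM B - 1 - pC1 B : ℕ) : ℝ) ≤ (pM B : ℝ) - pC1 B := by
      have h3 : (pM B - 1 - pC1 B : ℕ) + pC1 B ≤ pM B := by omega
      have h4 : (((pM B - 1 - pC1 B : ℕ) + pC1 B : ℕ) : ℝ) ≤ (pM B : ℝ) := by exact_mod_cast h3
      push_cast at h4
      linarith
    exact mul_le_mul_of_nonneg_right h2 (by norm_num)
  -- final inequality
  have hlogM : Real.log M0 ≤ Real.log (20 * B + 21) := by
    apply Real.log_le_log
    · exact_mod_cast hOmn1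
    · exact hOmn
  have hlogM0 : 0 ≤ Real.log (20 * B + 21) := Real.log_nonneg (by linarith)
  have e1 : Real.log M0 * (Ls.map yy).sum ≤ Real.log (20 * B + 21) * (4 * pX B) := by
    apply mul_le_mul hlogM hSyLs hLs0 hlogM0
  have e2 : ((pc0 B : ℝ) + 1) * (((Lb ++ [q0]).length : ℝ) * Real.log M0) ≤
      ((pc0 B : ℝ) + 1) * (((pS B : ℝ) + 1) * Real.log (20 * B + 21)) := by
    have h1 : ((Lb ++ [q0]).length : ℝ) ≤ (pS B : ℝ) + 1 := by
      rw [List.length_append, List.length_singleton]
      push_cast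
      have : (Lb.length : ℝ) ≤ pS B := by exact_mod_cast hsS
      linarith
    have h2 : 0 ≤ Real.log M0 := Real.log_natCast_nonneg _
    gcongr
  rw [← hlow1]
  linarith

end Crest.Agent.R020.Uc
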