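import Mathlib
import Crest.Agent.R020.UcDec2

/-!
Row 20 (helper702), module (Uc): `StmtDec`.
-/

set_option autoImplicit false

open Filter Topology

noncomputable section

namespace Crest.Agent.R020.Uc

open Crest.Agent.R020 Crest.Agent.Lib

lemma eventually_two_log_le : ∀ᶠ B : ℝ in atTop, 2 * Real.log B ≤ B ^ (1 / 100 : ℝ) := by
  have h := (isLittleO_log_rpow_atTop (show (0 : ℝ) < 1 / 100 by norm_num)).bound
    (show (0 : ℝ) < 1 / 2 by norm_num)
  filter_upwards [h, eventually_ge_atTop 1] with B hB h1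
  rw [Real.norm_eq_abs, Real.norm_eq_abs, abs_of_nonneg (Real.log_nonneg h1),
    abs_of_nonneg (Real.rpow_nonneg (by linarith) _)] at hB
  linarith

theorem eventually_numB : ∀ᶠ B : ℝ in atTop, NumB B := by
  have hpow : ∀ᶠ B : ℝ in atTop, (100000000 : ℝ) ≤ B ^ (14 / 100 : ℝ) :=
    (tendsto_rpow_atTop (by norm_num : (0 : ℝ) < 14 / 100)).eventually_ge_atTop _
  filter_upwards [eventually_ge_atTop 1000, eventually_two_log_le, hpow] with B hB hlog hp
  have hB0 : 0 < B := by linarith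
  have hexp : 1 + B + B ^ 2 / 2 ≤ Real.exp B := Real.quadratic_le_exp_of_nonneg hB0.le
  have hsq : 1000 * B ≤ B ^ 2 := by nlinarith
  have hlogs : 2 * Real.log B = Real.log (B ^ 2) := by rw [Real.log_pow]; push_cast; ring
  have hL1 : Real.log (20 * B + 21) ≤ B ^ (1 / 100 : ℝ) := by
    refine le_trans (Real.log_le_log (by linarith) ?_) (hlogs ▸ hlog)
    nlinarith
  have hL2 : Real.log (30 * B) ≤ B ^ (1 / 100 : ℝ) := by
    refine le_trans (Real.log_le_log (by linarith) ?_) (hlogs ▸ hlog)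
    nlinarith
  have hL10 : 0 ≤ Real.log (20 * B + 21) := Real.log_nonneg (by linarith)
  have hL20 : 0 ≤ Real.log (30 * B) := Real.log_nonneg (by linarith)
  -- comparison of powers
  set P := B ^ (81 / 100 : ℝ) with hP
  have hP1 : 1 ≤ P := Real.one_le_rpow (by linarith) (by norm_num)
  have hb001 : B ^ (1 / 100 : ℝ) ≤ P := Real.rpow_le_rpow_of_exponent_le (by linarith) (by norm_num)
  have hB95 : B ^ (19 / 20 : ℝ) = P * B ^ (14 / 100 : ℝ) := by
    rw [hP, ← Real.rpow_add hB0]; norm_num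
  have hB95' : 100000000 * P ≤ B ^ (19 / 20 : ℝ) := by
    rw [hB95]
    nlinarith
  have hPB : P ≤ B / 10 := by
    have h1 : B = P * B ^ (19 / 100 : ℝ) := by
      rw [hP, ← Real.rpow_add hB0]; norm_num
    have h2 : B ^ (14 / 100 : ℝ) ≤ B ^ (19 / 100 : ℝ) :=
      Real.rpow_le_rpow_of_exponent_le (by linarith) (by norm_num)
    have h3 : 10 * P ≤ P * B ^ (19 / 100 : ℝ) := by nlinarith
    linarith
  have hsqrt : √(B + 1) * √(B + 1) = B + 1 := Real.mul_self_sqrt (by linarith)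
  have hsqrt30 : 30 ≤ √(B + 1) := by
    apply Real.le_sqrt_of_sq_le
    linarith
  have hfl : B - Real.log (30 * B) - 3 < (pC1 B : ℝ) := by
    have := Nat.lt_floor_add_one (B - Real.log (30 * B) - 2)
    unfold pC1
    linarith
  refine ⟨hB, ?_, ?_, ?_, ?_, ?_, ?_⟩
  · -- h2
    rw [div_add_one (by positivity), div_le_div_iff₀ (by positivity) (by positivity)]
    nlinarith
  · rw [le_div_iff₀ (by positivity)]
    nlinarith
  · linarith
  · -- h5
    unfold pc0 pw
    apply Nat.floor_le_floor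
    calc B ^ (3 / 10 : ℝ) ≤ B ^ (1 / 2 : ℝ) :=
          Real.rpow_le_rpow_of_exponent_le (by linarith) (by norm_num)
      _ = √B := by rw [Real.sqrt_eq_rpow]
      _ ≤ √(B + 1) := Real.sqrt_le_sqrt (by linarith)
  · -- h6
    have h1 : √(B + 1) - 1 ≤ (pw B : ℝ) := by
      have := Nat.lt_floor_add_one (√(B + 1))
      unfold pw
      linarith
    have h2 : 210 * √(B + 1) * (√(B + 1) - 1) ≤ 210 * √(B + 1) * (pw B : ℝ) := by
      apply mul_le_mul_of_nonneg_left h1
      positivity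
    nlinarith
  · -- h7
    have e1 : Real.log (20 * B + 21) * (4 * pX B) ≤ 4 * P := by
      have h1 : B ^ (1 / 100 : ℝ) * pX B = P := by
        unfold pX
        rw [← Real.rpow_add hB0, hP]
        norm_num
      have h2 : 0 ≤ pX B := Real.rpow_nonneg hB0.le _
      calc Real.log (20 * B + 21) * (4 * pX B) ≤ B ^ (1 / 100 : ℝ) * (4 * pX B) := by gcongr
        _ = 4 * (B ^ (1 / 100 : ℝ) * pX B) := by ring
        _ = 4 * P := by rw [h1]
    have e2 : ((pc0 B : ℝ) + 1) * (((pS B : ℝ) + 1) * Real.log (20 * B + 21)) ≤ 860 * P := by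
      have h1 : (pc0 B : ℝ) + 1 ≤ 2 * B ^ (3 / 10 : ℝ) := by
        have h2 : (pc0 B : ℝ) ≤ B ^ (3 / 10 : ℝ) := Nat.floor_le (Real.rpow_nonneg hB0.le _)
        have h3 : 1 ≤ B ^ (3 / 10 : ℝ) := Real.one_le_rpow (by linarith) (by norm_num)
        linarith
      have h4 : (pS B : ℝ) + 1 ≤ 430 * B ^ (1 / 2 : ℝ) := by
        have h5 : (pS B : ℝ) < 210 * √(B + 1) + 1 := Nat.ceil_lt_add_one (by positivity)
        have h6 : √(B + 1) ≤ 2 * √B := by
          rw [Real.sqrt_le_left (by positivity), mul_pow, Real.sq_sqrt hB0.le]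
          linarith
        have h7 : 1 ≤ √B := by
          apply Real.le_sqrt_of_sq_le
          linarith
        rw [← Real.sqrt_eq_rpow]
        linarith
      have h8 : B ^ (3 / 10 : ℝ) * (B ^ (1 / 2 : ℝ) * B ^ (1 / 100 : ℝ)) = P := by
        rw [← Real.rpow_add hB0, ← Real.rpow_add hB0, hP]
        norm_num
      calc ((pc0 B : ℝ) + 1) * (((pS B : ℝ) + 1) * Real.log (20 * B + 21))
          ≤ (2 * B ^ (3 / 10 : ℝ)) * ((430 * B ^ (1 / 2 : ℝ)) * B ^ (1 / 100 : ℝ)) := by
            gcongr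
        _ = 860 * (B ^ (3 / 10 : ℝ) * (B ^ (1 / 2 : ℝ) * B ^ (1 / 100 : ℝ))) := by ring
        _ = 860 * P := by rw [h8]
    have e3 : (pM B : ℝ) - pC1 B ≤ 7 * P := by
      have h1 : (pM B : ℝ) < B + 3 := by
        unfold pM
        push_cast
        have := Nat.ceil_lt_add_one hB0.le
        linarith
      linarith
    have e4 : ((pM B : ℝ) - pC1 B) * 1000000 ≤ 7000000 * P := by linarith
    linarith

theorem stmtDec : StmtDec := by
  obtain ⟨B0, hB0⟩ := eventually_atTop.mp eventually_numB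
  exact ⟨B0, fun x hx B hB hB0' v hv hsq hvx hlow hOm hSy hnosq hFF =>
    dec_of hx hB (hB0 B hB0') hv hsq hvx hlow hOm hSy hnosq hFF⟩

end Crest.Agent.R020.Uc
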