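import Mathlib
import Crest.Agent.R020.UcDefs

/-!
Row 20 (helper984), module (Uc): `StmtHigh` from the Rankin count.
-/

set_option autoImplicit false

open scoped ENNReal

noncomputable section

namespace Crest.Agent.R020.Uc

open Crest.Agent.R020 Crest.Agent.Lib Filter

lemma pS_le {B : ℝ} (hB : 3 ≤ B) : (1 + (pS B : ℝ)) ≤ 212 * B := by
  unfold pS
  have h1 : √(B + 1) ≤ B - 1 := by
    rw [Real.sqrt_le_left (by linarith)]
    nlinarith
  have h2 := Nat.ceil_lt_add_one (show 0 ≤ 210 * √(B + 1) by positivity)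
  linarith

lemma le_pS_sq {B : ℝ} (hB : 0 ≤ B) : B + 1 ≤ (1 + (pS B : ℝ)) ^ 2 := by
  unfold pS
  have h1 : 210 * √(B + 1) ≤ (⌈210 * √(B + 1)⌉₊ : ℝ) := Nat.le_ceil _
  have h2 : 0 ≤ √(B + 1) := Real.sqrt_nonneg _
  have h3 : √(B + 1) ≤ 1 + (⌈210 * √(B + 1)⌉₊ : ℝ) := by linarith
  calc B + 1 = √(B + 1) ^ 2 := by rw [Real.sq_sqrt (by linarith)]
    _ ≤ _ := pow_le_pow_left₀ h2 h3 2

lemma eventually_params : ∀ᶠ B : ℝ in atTop, 100 ≤ B ∧ 11 + Real.log B ≤ B ^ (3 / 10 : ℝ) ∧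
    130 ≤ B ^ (1 / 20 : ℝ) := by
  have h1 : ∀ᶠ B : ℝ in atTop, Real.log B ≤ 1 / 2 * B ^ (3 / 10 : ℝ) := by
    have := (isLittleO_log_rpow_atTop (show (0:ℝ) < 3 / 10 by norm_num)).bound
      (show (0:ℝ) < 1 / 2 by norm_num)
    filter_upwards [this, eventually_ge_atTop (1:ℝ)] with B hB hB1
    rw [Real.norm_of_nonneg (Real.log_nonneg hB1),
      Real.norm_of_nonneg (Real.rpow_nonneg (by linarith) _)] at hB
    exact hB
  have h2 : ∀ᶠ B : ℝ in atTop, (22:ℝ) ≤ B ^ (3 / 10 : ℝ) :=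
    (tendsto_rpow_atTop (by norm_num)).eventually_ge_atTop 22
  have h3 : ∀ᶠ B : ℝ in atTop, (130:ℝ) ≤ B ^ (1 / 20 : ℝ) :=
    (tendsto_rpow_atTop (by norm_num)).eventually_ge_atTop 130
  filter_upwards [h1, h2, h3, eventually_ge_atTop (100:ℝ)] with B a b c d
  exact ⟨d, by linarith, c⟩

theorem stmtHigh : StmtHigh := by
  obtain ⟨B0, hB0⟩ := eventually_atTop.1 eventually_params
  refine ⟨B0, ?_⟩
  intro x hx B hB hBB s κ hprof hgk D hD
  obtain ⟨hB100, hlogB, hB20⟩ := hB0 B hBB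
  have hBpos : 0 < B := by linarith
  have hlx : 1 ≤ Real.log x := by
    rw [Real.le_log_iff_exp_le (by linarith)]
    have := Real.exp_one_lt_d9
    linarith
  have hlx4 : 2 ≤ Real.log x := by
    have h1 : B ≤ Real.log x := by
      rw [hB]
      have := Real.log_le_sub_one_of_pos (show 0 < Real.log x by linarith)
      linarith
    linarith
  have hx4 : 4 ≤ x := by
    have h1 : Real.exp 2 ≤ x := by
      rw [← Real.le_log_iff_exp_le (by linarith)]; exact hlx4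
    have h2 := Real.add_one_le_exp (1:ℝ)
    have h3 : Real.exp 2 = Real.exp 1 * Real.exp 1 := by rw [← Real.exp_add]; norm_num
    nlinarith [Real.exp_pos 1]
  set K : ℝ := 1 + (pS B : ℝ) with hK
  have hK1 : 1 ≤ K := by rw [hK]; have : (0:ℝ) ≤ pS B := Nat.cast_nonneg _; linarith
  have hKle : K ≤ 212 * B := pS_le (by linarith)
  have hKsq : B + 1 ≤ K ^ 2 := le_pS_sq hBpos.le
  -- `c0`
  have hc0 : B ^ (3 / 10 : ℝ) - 1 ≤ (pc0 B : ℝ) := by
    unfold pc0
    have := Nat.lt_floor_add_one (B ^ (3 / 10 : ℝ))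
    linarith
  have hc0' : (pc0 B : ℝ) ≤ B ^ (3 / 10 : ℝ) := by
    unfold pc0
    exact Nat.floor_le (Real.rpow_nonneg hBpos.le _)
  have hlog2 := Real.log_two_lt_d9
  have hlog7 : Real.log 7632 ≤ 10 := by
    have h1 : Real.log 7632 ≤ Real.log (2 ^ 13) := Real.log_le_log (by norm_num) (by norm_num)
    rw [Real.log_pow] at h1
    push_cast at h1
    linarith
  have h36 : 36 * K ≤ Real.exp (pc0 B : ℝ) := by
    have h1 : 36 * K ≤ 7632 * B := by linarith
    refine h1.trans ?_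
    rw [← Real.log_le_iff_le_exp (by positivity), Real.log_mul (by norm_num) hBpos.ne']
    linarith
  have hKK : K ^ 2 * (Real.log (Real.log x) + 30) ≤ Real.exp (Real.exp (pc0 B : ℝ)) := by
    rw [← hB]
    have h10 : (10:ℝ) ≤ pc0 B := by
      have := Real.log_nonneg (show (1:ℝ) ≤ B by linarith)
      linarith
    have h1 : 4 * (pc0 B : ℝ) ≤ Real.exp (pc0 B : ℝ) := by
      have h2 := Real.quadratic_le_exp_of_nonneg (show (0:ℝ) ≤ pc0 B by linarith)
      nlinarith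
    have h3 : Real.exp (pc0 B : ℝ) ^ 4 ≤ Real.exp (Real.exp (pc0 B : ℝ)) := by
      rw [← Real.exp_nat_mul]
      apply Real.exp_le_exp.2
      push_cast
      linarith
    refine le_trans ?_ h3
    have h4 : (36 * K) ^ 4 ≤ Real.exp (pc0 B : ℝ) ^ 4 := pow_le_pow_left₀ (by linarith) h36 4
    refine le_trans ?_ h4
    have h5 : B + 30 ≤ 36 ^ 4 * K ^ 2 := by nlinarith
    calc K ^ 2 * (B + 30) ≤ K ^ 2 * (36 ^ 4 * K ^ 2) := mul_le_mul_of_nonneg_left h5 (by positivity)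
      _ = (36 * K) ^ 4 := by ring
  have hk1 : ∀ c, 1 ≤ multR κ c := by
    intro c
    unfold multR mult
    push_cast
    have : (0:ℝ) ≤ ((Finset.univ.filter fun a => c < κ a).card : ℝ) := Nat.cast_nonneg _
    linarith
  have hkK : ∀ c, multR κ c ≤ K := by
    intro c
    unfold multR mult
    push_cast
    have h1 : (Finset.univ.filter fun a => c < κ a).card ≤ s := by
      refine (Finset.card_filter_le _ _).trans ?_
      simp
    have h2 : ((Finset.univ.filter fun a => c < κ a).card : ℝ) ≤ (pS B : ℝ) := by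
      exact_mod_cast h1.trans hprof.hs
    rw [hK]
    linarith
  have hmain := card_le (multR κ) (pc0 B) (pC1 B) hk1 hkK hx4 hKK h36 (pA B κ) D hD
  refine hmain.trans ?_
  rw [← hB]
  -- the exponent
  have hC1 : B - Real.log (30 * B) - 3 ≤ (pC1 B : ℝ) := by
    unfold pC1
    have := Nat.lt_floor_add_one (B - Real.log (30 * B) - 2)
    linarith
  have hcard : (pC1 B : ℝ) - (pc0 B : ℝ) ≤ ((Finset.Ioc (pc0 B) (pC1 B)).card : ℝ) := by
    rw [Nat.card_Ioc]
    have : pC1 B ≤ (pC1 B - pc0 B) + pc0 B := by omega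
    have h : (pC1 B : ℝ) ≤ ((pC1 B - pc0 B : ℕ) : ℝ) + (pc0 B : ℝ) := by exact_mod_cast this
    linarith
  have hsumgk : ∑ c ∈ Finset.Ioc (pc0 B) (pC1 B), (multR κ c - 1) - pA B κ =
      pF B - ((Finset.Ioc (pc0 B) (pC1 B)).card : ℝ) -
        ∑ c ∈ Finset.Ioc (pc0 B) (pC1 B), gk (mult κ c) := by
    unfold pA gk multR
    rw [Finset.sum_sub_distrib, Finset.sum_sub_distrib, Finset.sum_const, nsmul_eq_mul]
    ring
  have hlog30 : Real.log (30 * B) ≤ 4 + Real.log B := by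
    rw [Real.log_mul (by norm_num) hBpos.ne']
    have h1 : Real.log 30 ≤ Real.log (2 ^ 5) := Real.log_le_log (by norm_num) (by norm_num)
    rw [Real.log_pow] at h1
    push_cast at h1
    linarith
  have hlogK : Real.log (86 * K ^ 2) ≤ 17 + 2 * Real.log B := by
    have h1 : 86 * K ^ 2 ≤ 3865184 * B ^ 2 := by nlinarith
    have h2 : Real.log (86 * K ^ 2) ≤ Real.log (3865184 * B ^ 2) :=
      Real.log_le_log (by positivity) h1
    have h4 : Real.log (3865184 * B ^ 2) = Real.log 3865184 + 2 * Real.log B := by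
      rw [Real.log_mul (by norm_num) (by positivity), Real.log_pow]
      push_cast
      ring
    have h3 : Real.log 3865184 ≤ Real.log (2 ^ 22) := Real.log_le_log (by norm_num) (by norm_num)
    rw [Real.log_pow] at h3
    push_cast at h3
    linarith
  -- powers of `B`
  have hB1 : (1:ℝ) ≤ B := by linarith
  have p3 : B ^ (3 / 10 : ℝ) ≤ B ^ (9 / 10 : ℝ) := Real.rpow_le_rpow_of_exponent_le hB1 (by norm_num)
  have p4 : B ^ (3 / 4 : ℝ) ≤ B ^ (9 / 10 : ℝ) := Real.rpow_le_rpow_of_exponent_le hB1 (by norm_num)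
  have p9 : 1 ≤ B ^ (9 / 10 : ℝ) := Real.one_le_rpow hB1 (by norm_num)
  have p95 : B ^ (19 / 20 : ℝ) = B ^ (9 / 10 : ℝ) * B ^ (1 / 20 : ℝ) := by
    rw [← Real.rpow_add hBpos]; norm_num
  have hexp : B + 36 + ∑ c ∈ Finset.Ioc (pc0 B) (pC1 B), (multR κ c - 1) - pA B κ ≤
      -B ^ (3 / 4 : ℝ) - Real.log (86 * K ^ 2) := by
    have e1 : B + 36 + ∑ c ∈ Finset.Ioc (pc0 B) (pC1 B), (multR κ c - 1) - pA B κ =
        B + 36 + (∑ c ∈ Finset.Ioc (pc0 B) (pC1 B), (multR κ c - 1) - pA B κ) := by ring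
    rw [e1, hsumgk]
    have hF : pF B = B ^ (9 / 10 : ℝ) := rfl
    rw [hF]
    have h130 : 130 * B ^ (9 / 10 : ℝ) ≤ B ^ (19 / 20 : ℝ) := by
      rw [p95]; nlinarith
    have hlb : Real.log B ≤ B ^ (9 / 10 : ℝ) := by linarith
    linarith
  have hK86 : 0 < 86 * K ^ 2 := by positivity
  have hxl : 0 ≤ x / Real.log x := by positivity
  calc x / Real.log x * (86 * K ^ 2) *
        Real.exp (B + 36 + ∑ c ∈ Finset.Ioc (pc0 B) (pC1 B), (multR κ c - 1) - pA B κ)
      ≤ x / Real.log x * (86 * K ^ 2) * Real.exp (-B ^ (3 / 4 : ℝ) - Real.log (86 * K ^ 2)) := by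
        gcongr
    _ = x / Real.log x * Real.exp (-B ^ (3 / 4 : ℝ)) := by
        rw [Real.exp_sub, Real.exp_log hK86]
        field_simp

end Crest.Agent.R020.Uc
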