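import Mathlib
import Crest.Agent.R020.UcRankin
import Crest.Agent.R020.Abn4

/-!
Row 20 (helper702), module (Uc), part 3: twisted sums over shifted primes for weights `≤ 1`
attached to the integer cells `kap p`.
-/

set_option autoImplicit false

open scoped ENNReal

noncomputable section

namespace Crest.Agent.R020.Uc

open Crest.Agent.R020 Crest.Agent.Lib

/-- Mertens on one cell, lower bound. -/
lemma cell_sum_ge (k : ℕ) (s : Finset ℕ) (hs : ∀ p : ℕ, p.Prime → kap p = k + 1 → p ∈ s) :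
    1 - 18 * Real.exp (-(k : ℝ)) ≤ ∑ p ∈ s with kap p = k + 1, (1 : ℝ) / p := by
  set a : ℝ := Real.exp (Real.exp k) with ha
  set b : ℝ := Real.exp (Real.exp (k + 1)) with hb
  have ha2 : 2 ≤ a := by
    have h1 : (1 : ℝ) ≤ Real.exp k := Real.one_le_exp (Nat.cast_nonneg k)
    have h2 : Real.exp 1 ≤ a := Real.exp_le_exp.mpr h1
    have h3 := Real.add_one_le_exp (1 : ℝ)
    linarith
  have hab : a ≤ b := by
    rw [ha, hb]
    apply Real.exp_le_exp.mpr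
    apply Real.exp_le_exp.mpr
    linarith
  have hM := Lib.Mertens.mertens_two a b ha2 hab
  have hla : Real.log a = Real.exp k := by rw [ha, Real.log_exp]
  have hlb : Real.log b = Real.exp (k + 1) := by rw [hb, Real.log_exp]
  rw [hla, hlb, Real.log_exp, Real.log_exp] at hM
  have hsub : Lib.Mertens.pr a b ⊆ s.filter (fun p => kap p = k + 1) := by
    intro p hp
    rw [Lib.Mertens.mem_pr (by linarith) (by linarith)] at hp
    obtain ⟨⟨h1, h2⟩, hpp⟩ := hp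
    have h3 : yy p ≤ (k : ℝ) + 1 := (yy_le_iff hpp.two_le (by positivity)).mpr h2
    have h4 : (k : ℝ) < yy p := (lt_yy_iff hpp.two_le (Nat.cast_nonneg k)).mpr h1
    have h5 : kap p ≤ k + 1 := (kap_le_iff p (k + 1)).mpr (by push_cast; exact h3)
    have h6 : ¬ kap p ≤ k := by
      rw [kap_le_iff]
      linarith
    have h7 : kap p = k + 1 := by omega
    rw [Finset.mem_filter]
    exact ⟨hs p hpp h7, h7⟩
  have h5 : ∑ p ∈ Lib.Mertens.pr a b, (1 : ℝ) / p ≤ ∑ p ∈ s with kap p = k + 1, (1 : ℝ) / p :=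
    Finset.sum_le_sum_of_subset_of_nonneg hsub fun p _ _ => by positivity
  have h6 := (abs_le.mp hM).1
  have h7 : 18 / Real.exp (k : ℝ) = 18 * Real.exp (-(k : ℝ)) := by
    rw [Real.exp_neg]; ring
  rw [h7] at h6
  linarith

/-- weights `≤ 1` on cells -/
lemma sum_zz_le (φ : ℕ → ℝ) (hφ0 : ∀ c, 0 ≤ φ c) (hφ1 : ∀ c, φ c ≤ 1) (c0 C1 C' : ℕ)
    (hC : C' ≤ C1) (s : Finset ℕ) (hs : ∀ p ∈ s, p.Prime)
    (hfull : ∀ p : ℕ, p.Prime → c0 < kap p → kap p ≤ C' → p ∈ s) {U : ℝ}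
    (hU : ∑ p ∈ s, (1 : ℝ) / p ≤ U) :
    ∑ p ∈ s, zz φ c0 C1 p / (p : ℝ) ≤ U + 36 + ∑ c ∈ Finset.Ioc c0 C', (φ c - 1) := by
  classical
  -- drop the cells above `C'`
  have e1 : ∀ p ∈ s, zz φ c0 C1 p / (p : ℝ) ≤ 1 / (p : ℝ) +
      (if c0 < kap p ∧ kap p ≤ C' then (φ (kap p) - 1) / (p : ℝ) else 0) := by
    intro p hp
    have hp0 : (0 : ℝ) < p := by exact_mod_cast (hs p hp).pos
    by_cases h : c0 < kap p ∧ kap p ≤ C'
    · rw [if_pos h, zz_of_mem ⟨h.1, h.2.trans hC⟩]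
      apply le_of_eq
      ring
    · rw [if_neg h, add_zero]
      gcongr
      unfold zz
      split_ifs
      · exact hφ1 _
      · exact le_rfl
  refine (Finset.sum_le_sum e1).trans ?_
  rw [Finset.sum_add_distrib, ← Finset.sum_filter]
  have h1 : ∑ p ∈ s with (c0 < kap p ∧ kap p ≤ C'), (φ (kap p) - 1) / (p : ℝ) =
      ∑ c ∈ Finset.Ioc c0 C', ∑ p ∈ (s.filter fun p => c0 < kap p ∧ kap p ≤ C') with kap p = c,
        (φ (kap p) - 1) / (p : ℝ) := by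
    rw [Finset.sum_fiberwise_of_maps_to]
    intro p hp
    rw [Finset.mem_filter] at hp
    exact Finset.mem_Ioc.mpr hp.2
  rw [h1]
  have h2 : ∀ c ∈ Finset.Ioc c0 C',
      ∑ p ∈ (s.filter fun p => c0 < kap p ∧ kap p ≤ C') with kap p = c,
        (φ (kap p) - 1) / (p : ℝ) ≤ (φ c - 1) + 18 * Real.exp (-((c : ℝ) - 1)) := by
    intro c hc
    rw [Finset.mem_Ioc] at hc
    obtain ⟨k, rfl⟩ : ∃ k, c = k + 1 := ⟨c - 1, by omega⟩
    have h2 : ∑ p ∈ (s.filter fun p => c0 < kap p ∧ kap p ≤ C') with kap p = k + 1,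
        (φ (kap p) - 1) / (p : ℝ) =
        (φ (k + 1) - 1) * ∑ p ∈ (s.filter fun p => c0 < kap p ∧ kap p ≤ C') with kap p = k + 1,
          1 / (p : ℝ) := by
      rw [Finset.mul_sum]
      apply Finset.sum_congr rfl
      intro p hp
      rw [Finset.mem_filter] at hp
      rw [hp.2]
      ring
    rw [h2]
    have h3 := cell_sum_ge k (s.filter fun p => c0 < kap p ∧ kap p ≤ C') (fun p hp hk => by
      rw [Finset.mem_filter]
      exact ⟨hfull p hp (by omega) (by omega), by omega, by omega⟩)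
    have h4 := hφ1 (k + 1)
    have h5 := hφ0 (k + 1)
    have e2 : Real.exp (-(((k + 1 : ℕ) : ℝ) - 1)) = Real.exp (-(k : ℝ)) := by
      congr 1
      push_cast
      ring
    rw [e2]
    have h6 : 0 < Real.exp (-(k : ℝ)) := Real.exp_pos _
    calc (φ (k + 1) - 1) * ∑ p ∈ (s.filter fun p => c0 < kap p ∧ kap p ≤ C') with kap p = k + 1,
          1 / (p : ℝ) ≤ (φ (k + 1) - 1) * (1 - 18 * Real.exp (-(k : ℝ))) :=
          mul_le_mul_of_nonpos_left h3 (by linarith)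
      _ ≤ _ := by nlinarith
  have h3 := Finset.sum_le_sum h2
  rw [Finset.sum_add_distrib, ← Finset.mul_sum] at h3
  have h4 := sum_exp_neg_Ioc_le c0 C'
  have h5 : Real.exp (-(c0 : ℝ)) ≤ 1 := Real.exp_le_one_iff.mpr (by simp)
  linarith

/-- (TS1) for cell weights `≤ 1`. -/
theorem shifted_cells_le : ∃ C : ℝ, 0 < C ∧ ∀ (g : ℕ →*₀ ℝ) (φ : ℕ → ℝ) (c0 C1 : ℕ),
    (∀ c, 0 ≤ φ c) → (∀ c, φ c ≤ 1) → (∀ p : ℕ, p.Prime → g p = zz φ c0 C1 p) →
    ∀ z : ℝ, 3 ≤ z → Real.exp (Real.exp C1) ≤ z → ∀ A : Finset ℕ,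
    (∀ q ∈ A, q.Prime ∧ (q : ℝ) ≤ z) →
    ∑ q ∈ A, g (q - 1) ≤ C * (1 + Real.log (Real.log z)) ^ 2 * (z / Real.log z) *
      Real.exp (∑ c ∈ Finset.Ioc c0 C1, (φ c - 1)) := by
  obtain ⟨C, hC, hTS⟩ := shifted_sum_le
  refine ⟨C * Real.exp 66, by positivity, ?_⟩
  intro g φ c0 C1 hφ0 hφ1 hg z hz hz1 A hA
  have hlz : 1 ≤ Real.log z := by
    rw [Real.le_log_iff_exp_le (by linarith)]
    have := Real.exp_one_lt_d9
    linarith
  have hB : 0 ≤ Real.log (Real.log z) := Real.log_nonneg hlz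
  have hz01 : ∀ p, 0 ≤ zz φ c0 C1 p ∧ zz φ c0 C1 p ≤ 1 := by
    intro p
    unfold zz
    split_ifs
    · exact ⟨hφ0 _, hφ1 _⟩
    · exact ⟨zero_le_one, le_rfl⟩
  have h1 := hTS g (fun p hp => by
    rw [hg p hp]
    exact ⟨(hz01 p).1, (hz01 p).2.trans (by norm_num)⟩) z (by linarith) A hA
  have e1 : LLx z = 1 + Real.log (Real.log z) := by
    unfold LLx
    rw [max_eq_right hB]
  rw [e1] at h1
  refine h1.trans ?_
  set s := (Finset.range (⌊z⌋₊ + 1)).filter Nat.Prime with hs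
  have hsub : s ⊆ PT (Real.log (Real.log z)) := by
    intro p hp
    rw [hs, Finset.mem_filter, Finset.mem_range] at hp
    rw [mem_PT hB]
    refine ⟨hp.2, ?_⟩
    rw [yy_le_iff hp.2.two_le hB, Real.exp_log (by linarith), Real.exp_log (by linarith)]
    exact (Nat.le_floor_iff (by linarith)).mp (by omega)
  have h2 := sum_zz_le φ hφ0 hφ1 c0 C1 C1 le_rfl s
    (fun p hp => (Finset.mem_filter.mp hp).2) (fun p hp _ h => by
      rw [hs, Finset.mem_filter, Finset.mem_range]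
      refine ⟨?_, hp⟩
      have h3 : yy p ≤ C1 := (kap_le_iff p C1).mp h
      rw [yy_le_iff hp.two_le (Nat.cast_nonneg C1)] at h3
      have := Nat.le_floor (h3.trans hz1)
      omega)
    (U := Real.log (Real.log z) + 30)
    ((Finset.sum_le_sum_of_subset_of_nonneg hsub fun p _ _ => by positivity).trans (sum_PT_le hB))
  have h3 : ∑ p ∈ s, g p / (p : ℝ) = ∑ p ∈ s, zz φ c0 C1 p / (p : ℝ) := by
    apply Finset.sum_congr rfl
    intro p hp
    rw [hg p (Finset.mem_filter.mp hp).2]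
  rw [h3]
  have h4 : Real.exp (∑ p ∈ s, zz φ c0 C1 p / (p : ℝ)) ≤
      Real.log z * (Real.exp 66 * Real.exp (∑ c ∈ Finset.Ioc c0 C1, (φ c - 1))) := by
    have h5 := Real.exp_le_exp.mpr h2
    refine h5.trans (le_of_eq ?_)
    rw [← Real.exp_add]
    nth_rewrite 2 [← Real.exp_log (show 0 < Real.log z by linarith)]
    rw [← Real.exp_add]
    ring_nf
  calc C * (1 + Real.log (Real.log z)) ^ 2 * (z / Real.log z ^ 2) *
        Real.exp (∑ p ∈ s, zz φ c0 C1 p / (p : ℝ))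
      ≤ C * (1 + Real.log (Real.log z)) ^ 2 * (z / Real.log z ^ 2) *
        (Real.log z * (Real.exp 66 * Real.exp (∑ c ∈ Finset.Ioc c0 C1, (φ c - 1)))) := by
        gcongr
    _ = _ := by
        have : Real.log z ≠ 0 := by linarith
        field_simp

/-- (TS2) for cell weights `≤ 1`, on the cell `κ ≥ 1`. -/
theorem twisted_cells_le : ∃ C : ℝ, 0 < C ∧ ∀ (g : ℕ →*₀ ℝ) (φ : ℕ → ℝ) (c0 C1 : ℕ),
    (∀ c, 0 ≤ φ c) → (∀ c, φ c ≤ 1) → (∀ p : ℕ, p.Prime → g p = zz φ c0 C1 p) →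
    ∀ κ : ℕ, 1 ≤ κ → ∀ T : Finset ℕ, (∀ q ∈ T, q.Prime ∧ kap q = κ) →
    ∑ q ∈ T, g (q - 1) / ((q : ℝ) - 1) ≤ C * (κ : ℝ) ^ 2 *
      Real.exp (∑ c ∈ Finset.Ioc c0 (min C1 (κ - 1)), (φ c - 1)) := by
  obtain ⟨C, hC, hTS⟩ := twisted_sum_le
  refine ⟨C * Real.exp 66, by positivity, ?_⟩
  intro g φ c0 C1 hφ0 hφ1 hg κ hκ T hT
  have hz01 : ∀ p, 0 ≤ zz φ c0 C1 p ∧ zz φ c0 C1 p ≤ 1 := by
    intro p
    unfold zz
    split_ifs
    · exact ⟨hφ0 _, hφ1 _⟩
    · exact ⟨zero_le_one, le_rfl⟩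
  obtain ⟨u, rfl⟩ : ∃ u, κ = u + 1 := ⟨κ - 1, by omega⟩
  have hu0 : (0 : ℝ) ≤ u := Nat.cast_nonneg u
  have h1 := hTS g (fun p hp => by
    rw [hg p hp]
    exact ⟨(hz01 p).1, (hz01 p).2.trans (by norm_num)⟩) u hu0 T (fun q hq => by
      obtain ⟨hq1, hq2⟩ := hT q hq
      refine ⟨hq1, ?_, ?_⟩
      · have h : ¬ kap q ≤ u := by omega
        rw [kap_le_iff] at h
        linarith
      · have := yy_le_kap q
        rw [hq2] at this
        push_cast at this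
        exact this)
  refine h1.trans ?_
  have h2 := sum_zz_le φ hφ0 hφ1 c0 C1 (min C1 u) (min_le_left _ _) (PL u)
    (fun p hp => ((mem_PL hu0).mp hp).1) (fun p hp _ h => by
      rw [mem_PL hu0]
      refine ⟨hp, ?_⟩
      exact (kap_le_iff p u).mp (h.trans (min_le_right _ _)))
    (U := u + 30) (by
      have hsub : PL (u : ℝ) ⊆ PT (u : ℝ) := by
        intro p hp
        rw [mem_PT hu0]
        exact (mem_PL hu0).mp hp
      exact (Finset.sum_le_sum_of_subset_of_nonneg hsub fun p _ _ => by positivity).trans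
        (sum_PT_le hu0))
  have h3 : ∑ p ∈ PL (u : ℝ), g p / (p : ℝ) = ∑ p ∈ PL (u : ℝ), zz φ c0 C1 p / (p : ℝ) := by
    apply Finset.sum_congr rfl
    intro p hp
    rw [hg p ((mem_PL hu0).mp hp).1]
  rw [h3, Nat.add_sub_cancel]
  have h4 := Real.exp_le_exp.mpr h2
  calc C * (1 + (u : ℝ)) ^ 2 * Real.exp (-(u : ℝ)) *
        Real.exp (∑ p ∈ PL (u : ℝ), zz φ c0 C1 p / (p : ℝ))
      ≤ C * (1 + (u : ℝ)) ^ 2 * Real.exp (-(u : ℝ)) *
        Real.exp (u + 30 + 36 + ∑ c ∈ Finset.Ioc c0 (min C1 u), (φ c - 1)) := by gcongr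
    _ = C * (1 + (u : ℝ)) ^ 2 * (Real.exp (-(u : ℝ)) *
        Real.exp (u + 30 + 36 + ∑ c ∈ Finset.Ioc c0 (min C1 u), (φ c - 1))) := by ring
    _ = C * (1 + (u : ℝ)) ^ 2 * (Real.exp 66 *
        Real.exp (∑ c ∈ Finset.Ioc c0 (min C1 u), (φ c - 1))) := by
        rw [← Real.exp_add, ← Real.exp_add]
        ring_nf
    _ = _ := by push_cast; ring

end Crest.Agent.R020.Uc
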