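import Mathlib
import Crest.Agent.R020.UcDefs
import Crest.Agent.R020.UcShift

/-!
Row 20 (helper185), module (Uc): `stmtLow`, the statistic is rarely too small
(Chernoff over tuples of primes, counting version).
-/

set_option autoImplicit false

open scoped ENNReal

noncomputable section

namespace Crest.Agent.R020.Uc.Low

open Crest.Agent.R020 Crest.Agent.Lib Crest.Agent.R020.LS Crest.Agent.R020.Uc

/-! ### the weight as an exponential of a statistic -/

lemma wt_eq_exp_St {z : ℕ → ℝ} (hz : ∀ p : ℕ, 0 < z p) {n : ℕ} (hn : n ≠ 0) :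
    HallTen.wt z n = Real.exp (St (fun p => Real.log (z p)) n) := by
  revert hn
  induction n using induction_on_primes with
  | zero => intro h; exact absurd rfl h
  | one => intro _; rw [HallTen.wt_one, St_one, Real.exp_zero]
  | prime_mul p a hp ih =>
    intro h
    have ha : a ≠ 0 := right_ne_zero_of_mul h
    rw [HallTen.wt_mul, HallTen.wt_prime z hp, ih ha, St_mul _ hp.ne_zero ha, St_prime _ hp,
      Real.exp_add, Real.exp_log (hz p)]

/-! ### lower bound for the mean -/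

lemma M_ge {k : ℕ → ℝ} (hk : ∀ c, 1 ≤ k c) {c0 C1 C' : ℕ} (hC : C' ≤ C1) {u : ℝ} (hu : 0 ≤ u)
    (hfull : ∀ p : ℕ, p.Prime → kap p ≤ C' → p ∈ PL u) :
    ∑ c ∈ Finset.Ioc c0 C', Real.log (k c) * (1 - 18 * Real.exp (-((c : ℝ) - 1))) ≤
      LS.M (fun p => Real.log (zz k c0 C1 p)) u := by
  classical
  have h0 : ∀ p, 0 ≤ Real.log (zz k c0 C1 p) := by
    intro p
    unfold zz
    split_ifs
    · exact Real.log_nonneg (hk _)
    · simp
  have h1 : ∑ p ∈ PL u with (c0 < kap p ∧ kap p ≤ C'), Real.log (k (kap p)) / (p : ℝ) ≤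
      LS.M (fun p => Real.log (zz k c0 C1 p)) u := by
    unfold LS.M
    rw [Finset.sum_filter]
    apply Finset.sum_le_sum
    intro p hp
    split_ifs with h
    · show Real.log (k (kap p)) / (p : ℝ) ≤ Real.log (zz k c0 C1 p) / (p : ℝ)
      rw [zz_of_mem ⟨h.1, h.2.trans hC⟩]
    · exact div_nonneg (h0 p) (Nat.cast_nonneg p)
  refine le_trans ?_ h1
  have h2 : ∑ p ∈ PL u with (c0 < kap p ∧ kap p ≤ C'), Real.log (k (kap p)) / (p : ℝ) =
      ∑ c ∈ Finset.Ioc c0 C',
        ∑ p ∈ ((PL u).filter fun p => c0 < kap p ∧ kap p ≤ C') with kap p = c,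
        Real.log (k (kap p)) / (p : ℝ) := by
    rw [Finset.sum_fiberwise_of_maps_to]
    intro p hp
    rw [Finset.mem_filter] at hp
    exact Finset.mem_Ioc.mpr hp.2
  rw [h2]
  apply Finset.sum_le_sum
  intro c hc
  rw [Finset.mem_Ioc] at hc
  obtain ⟨j, rfl⟩ : ∃ j, c = j + 1 := ⟨c - 1, by omega⟩
  have h3 : ∑ p ∈ ((PL u).filter fun p => c0 < kap p ∧ kap p ≤ C') with kap p = j + 1,
      Real.log (k (kap p)) / (p : ℝ) =
      Real.log (k (j + 1)) *
        ∑ p ∈ ((PL u).filter fun p => c0 < kap p ∧ kap p ≤ C') with kap p = j + 1,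
        1 / (p : ℝ) := by
    rw [Finset.mul_sum]
    apply Finset.sum_congr rfl
    intro p hp
    rw [Finset.mem_filter] at hp
    rw [hp.2]
    ring
  rw [h3]
  apply mul_le_mul_of_nonneg_left _ (Real.log_nonneg (hk _))
  have := cell_sum_ge j ((PL u).filter fun p => c0 < kap p ∧ kap p ≤ C') (fun p hp hk' => by
    rw [Finset.mem_filter]
    exact ⟨hfull p hp (by omega), by omega, by omega⟩)
  refine le_trans (le_of_eq ?_) this
  push_cast
  ring_nf

lemma mult_eq {s : ℕ} (κ : Fin s → ℕ) (c : ℕ) :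
    multR κ c = 1 + ∑ a : Fin s, (if c < κ a then (1 : ℝ) else 0) := by
  unfold multR mult
  rw [Finset.sum_boole]
  push_cast
  rfl

/-- total mean -/
lemma mean_ge {s : ℕ} (κ : Fin s → ℕ) (hκ : ∀ a, 1 ≤ κ a) {c0 C1 : ℕ} {B : ℝ} (hB : 0 ≤ B)
    (hC1 : (C1 : ℝ) ≤ B) {K : ℝ} (hK : ∀ c, multR κ c ≤ K)
    (hE : 36 * (K * Real.log K) ≤ Real.exp c0) :
    ∑ c ∈ Finset.Ioc c0 C1, multR κ c * Real.log (multR κ c) - 1 ≤
      LS.M (fun p => Real.log (zz (multR κ) c0 C1 p)) B +
        ∑ a, LS.M (fun p => Real.log (zz (multR κ) c0 C1 p)) ((κ a : ℝ) - 1) := by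
  classical
  have hk1 : ∀ c, 1 ≤ multR κ c := by
    intro c
    unfold multR mult
    push_cast
    have : (0 : ℝ) ≤ ((Finset.univ.filter fun a => c < κ a).card : ℝ) := Nat.cast_nonneg _
    linarith
  have hK1 : 1 ≤ K := (hk1 0).trans (hK 0)
  set e : ℕ → ℝ := fun c => 1 - 18 * Real.exp (-((c : ℝ) - 1)) with he
  have h1 : ∑ c ∈ Finset.Ioc c0 C1, Real.log (multR κ c) * e c ≤
      LS.M (fun p => Real.log (zz (multR κ) c0 C1 p)) B := by
    apply M_ge hk1 le_rfl hB
    intro p hp h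
    rw [mem_PL hB]
    refine ⟨hp, ?_⟩
    have h2 := (kap_le_iff p C1).mp h
    linarith
  have h2 : ∀ a, ∑ c ∈ Finset.Ioc c0 C1, (if c < κ a then (1 : ℝ) else 0) *
      (Real.log (multR κ c) * e c) ≤
      LS.M (fun p => Real.log (zz (multR κ) c0 C1 p)) ((κ a : ℝ) - 1) := by
    intro a
    have hκa := hκ a
    have hu : (0 : ℝ) ≤ (κ a : ℝ) - 1 := by
      have : (1 : ℝ) ≤ κ a := by exact_mod_cast hκa
      linarith
    have h3 := M_ge (k := multR κ) hk1 (c0 := c0) (C1 := C1) (C' := min C1 (κ a - 1))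
      (min_le_left _ _) hu (fun p hp h => by
        rw [mem_PL hu]
        refine ⟨hp, ?_⟩
        have h4 : kap p ≤ κ a - 1 := h.trans (min_le_right _ _)
        have h5 := (kap_le_iff p (κ a - 1)).mp h4
        rw [Nat.cast_sub hκa] at h5
        simpa using h5)
    refine le_trans (le_of_eq ?_) h3
    have h6 : Finset.Ioc c0 (min C1 (κ a - 1)) = (Finset.Ioc c0 C1).filter (fun c => c < κ a) := by
      ext c
      simp only [Finset.mem_Ioc, Finset.mem_filter, le_min_iff]
      omega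
    rw [h6, Finset.sum_filter]
    apply Finset.sum_congr rfl
    intro c _
    split_ifs
    · rw [one_mul]
    · rw [zero_mul]
  have h3 : ∑ a : Fin s, ∑ c ∈ Finset.Ioc c0 C1, (if c < κ a then (1 : ℝ) else 0) *
      (Real.log (multR κ c) * e c) = ∑ c ∈ Finset.Ioc c0 C1, (multR κ c - 1) *
      (Real.log (multR κ c) * e c) := by
    rw [Finset.sum_comm]
    apply Finset.sum_congr rfl
    intro c _
    rw [← Finset.sum_mul]
    congr 1
    rw [mult_eq]
    ring
  have h4 : ∑ c ∈ Finset.Ioc c0 C1, multR κ c * (Real.log (multR κ c) * e c) ≤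
      LS.M (fun p => Real.log (zz (multR κ) c0 C1 p)) B +
        ∑ a, LS.M (fun p => Real.log (zz (multR κ) c0 C1 p)) ((κ a : ℝ) - 1) := by
    have h5 := Finset.sum_le_sum (fun a (_ : a ∈ (Finset.univ : Finset (Fin s))) => h2 a)
    rw [h3] at h5
    have h6 : ∑ c ∈ Finset.Ioc c0 C1, multR κ c * (Real.log (multR κ c) * e c) =
        ∑ c ∈ Finset.Ioc c0 C1, Real.log (multR κ c) * e c +
        ∑ c ∈ Finset.Ioc c0 C1, (multR κ c - 1) * (Real.log (multR κ c) * e c) := by
      rw [← Finset.sum_add_distrib]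
      apply Finset.sum_congr rfl
      intro c _
      ring
    rw [h6]
    linarith
  refine le_trans ?_ h4
  have h5 : ∀ c ∈ Finset.Ioc c0 C1, multR κ c * Real.log (multR κ c) -
      18 * (K * Real.log K) * Real.exp (-((c : ℝ) - 1)) ≤
      multR κ c * (Real.log (multR κ c) * e c) := by
    intro c _
    have h6 := hk1 c
    have h7 := hK c
    have h8 : multR κ c * Real.log (multR κ c) ≤ K * Real.log K := by
      have h9 := Real.log_nonneg h6
      have h10 := Real.log_le_log (by linarith) h7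
      exact mul_le_mul h7 h10 h9 (by linarith)
    have h11 : 0 < Real.exp (-((c : ℝ) - 1)) := Real.exp_pos _
    have h12 : multR κ c * (Real.log (multR κ c) * e c) =
        multR κ c * Real.log (multR κ c) -
        18 * (multR κ c * Real.log (multR κ c)) * Real.exp (-((c : ℝ) - 1)) := by
      rw [he]
      ring
    rw [h12]
    nlinarith [mul_le_mul_of_nonneg_right h8 h11.le]
  have h6 := Finset.sum_le_sum h5
  rw [Finset.sum_sub_distrib, ← Finset.mul_sum] at h6
  have h7 := sum_exp_neg_Ioc_le c0 C1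
  have h8 : 18 * (K * Real.log K) * ∑ c ∈ Finset.Ioc c0 C1, Real.exp (-((c : ℝ) - 1)) ≤ 1 := by
    have h9 : 0 ≤ K * Real.log K := mul_nonneg (by linarith) (Real.log_nonneg hK1)
    calc 18 * (K * Real.log K) * ∑ c ∈ Finset.Ioc c0 C1, Real.exp (-((c : ℝ) - 1))
        ≤ 18 * (K * Real.log K) * (2 * Real.exp (-(c0 : ℝ))) := by gcongr
      _ = (36 * (K * Real.log K)) * Real.exp (-(c0 : ℝ)) := by ring
      _ ≤ Real.exp c0 * Real.exp (-(c0 : ℝ)) := by gcongr
      _ = 1 := by rw [← Real.exp_add]; simp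
  linarith

/-- harmonic sum over smooth numbers -/
lemma sum_inv_Sm_le {T : ℝ} (hT : 0 ≤ T) (R : Finset ℕ) (hR : ∀ r ∈ R, r ∈ Sm (PT T)) :
    ∑ r ∈ R, (1 : ℝ) / r ≤ Real.exp (T + 32) := by
  have h1 : ENNReal.ofReal (∑ r ∈ R, (1 : ℝ) / r) ≤ wt (Sm (PT T)) := by
    rw [ENNReal.ofReal_sum_of_nonneg (fun r _ => by positivity)]
    unfold wt ws
    calc ∑ r ∈ R, ENNReal.ofReal ((1 : ℝ) / r)
        = ∑ r ∈ R, (Sm (PT T)).indicator (fun v : ℕ => (v : ℝ≥0∞)⁻¹) r := by
          apply Finset.sum_congr rfl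
          intro r hr
          have h2 := hR r hr
          rw [Set.indicator_of_mem h2]
          have h3 : (0 : ℝ) < r := by
            have := h2.1
            positivity
          rw [one_div, ENNReal.ofReal_inv_of_pos h3, ENNReal.ofReal_natCast]
      _ ≤ ∑' v : ℕ, (Sm (PT T)).indicator (fun v : ℕ => (v : ℝ≥0∞)⁻¹) v := ENNReal.sum_le_tsum R
  have h2 := h1.trans (wt_Sm_le hT)
  exact (ENNReal.ofReal_le_ofReal_iff (Real.exp_pos _).le).mp h2

/-! ### asymptotics, `t = B ^ (1/100)` -/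

/-- the parameters in terms of `t = B ^ (1/100)` -/
structure Par (B t : ℝ) : Prop where
  ht : (200000 : ℝ) ≤ t
  hB : B = t ^ 100
  hlog : Real.log B ≤ t

lemma exists_par (C : ℝ) : ∃ B0 : ℝ, ∀ B, B0 ≤ B → ∃ t, Par B t ∧ C ≤ t := by
  have h1 : ∀ᶠ B : ℝ in Filter.atTop, Real.log B ≤ B ^ (1 / 100 : ℝ) := by
    have := (isLittleO_log_rpow_atTop (r := 1 / 100) (by norm_num)).bound (c := 1) (by norm_num)
    filter_upwards [this, Filter.eventually_ge_atTop 1] with B hB hB1
    rw [Real.norm_eq_abs, Real.norm_eq_abs, one_mul, abs_of_nonneg (Real.log_nonneg hB1),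
      abs_of_nonneg (by positivity)] at hB
    exact hB
  have h2 : ∀ᶠ B : ℝ in Filter.atTop, max C 200000 ≤ B ^ (1 / 100 : ℝ) :=
    (tendsto_rpow_atTop (by norm_num)).eventually_ge_atTop _
  obtain ⟨B0, hB0⟩ := (((h1.and h2).and (Filter.eventually_ge_atTop 1))).exists_forall_of_atTop
  refine ⟨B0, fun B hB => ⟨B ^ (1 / 100 : ℝ), ?_, ?_⟩⟩
  · obtain ⟨⟨h3, h4⟩, h5⟩ := hB0 B hB
    refine ⟨(le_max_right _ _).trans h4, ?_, h3⟩
    rw [← Real.rpow_natCast, ← Real.rpow_mul (by linarith)]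
    norm_num
  · exact (le_max_left _ _).trans (hB0 B hB).1.2

namespace Par

variable {B t : ℝ}

lemma one_le (h : Par B t) : 1 ≤ t := by linarith [h.ht]

lemma B_ge (h : Par B t) : t ≤ B := by
  rw [h.hB]
  have := h.one_le
  exact le_self_pow₀ this (by norm_num)

lemma rpow (h : Par B t) (n : ℕ) {r : ℝ} (hr : r = n / 100) : B ^ r = t ^ n := by
  have ht : 0 ≤ t := by linarith [h.one_le]
  rw [h.hB, ← Real.rpow_natCast t 100, ← Real.rpow_mul ht, ← Real.rpow_natCast t n, hr]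
  congr 1
  push_cast
  ring

lemma sqrt_le (h : Par B t) : √(B + 1) ≤ 2 * t ^ 50 := by
  have h1 := h.one_le
  rw [Real.sqrt_le_left (by positivity)]
  have h2 : B = (t ^ 50) ^ 2 := by rw [h.hB]; ring
  have h3 : 1 ≤ t ^ 50 := one_le_pow₀ h1
  nlinarith

lemma pS_le (h : Par B t) : (pS B : ℝ) ≤ 421 * t ^ 50 := by
  unfold pS
  have h1 : (⌈210 * √(B + 1)⌉₊ : ℝ) < 210 * √(B + 1) + 1 := Nat.ceil_lt_add_one (by positivity)
  have h2 := h.sqrt_le
  have h3 : 1 ≤ t ^ 50 := one_le_pow₀ h.one_le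
  linarith

lemma K_le (h : Par B t) : 1 + (pS B : ℝ) ≤ B := by
  have h1 := h.pS_le
  have h3 : 1 ≤ t ^ 50 := one_le_pow₀ h.one_le
  have h4 : 200000 * t ^ 50 ≤ t ^ 100 := by
    calc 200000 * t ^ 50 ≤ t * t ^ 50 := by
          have := h.ht
          gcongr
      _ ≤ t ^ 50 * t ^ 50 := by
          have : t ≤ t ^ 50 := le_self_pow₀ h.one_le (by norm_num)
          gcongr
      _ = t ^ 100 := by ring
  have h5 := h.hB
  linarith

lemma exp_ge (h : Par B t) {K : ℝ} (hK1 : 1 ≤ K) (hK : K ≤ B) :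
    36 * (K * Real.log K) ≤ Real.exp (pc0 B) := by
  have ht := h.ht
  have h1 := h.one_le
  have h2 : Real.log K ≤ t := (Real.log_le_log (by linarith) hK).trans h.hlog
  have h0 : 0 ≤ Real.log K := Real.log_nonneg hK1
  have hB0 : 0 < B := by linarith
  have h3 : (t ^ 30 - 1 : ℝ) ≤ pc0 B := by
    unfold pc0
    rw [h.rpow 30 (by norm_num)]
    have := Nat.lt_floor_add_one (t ^ 30)
    linarith
  have h4 : t ^ 2 ≤ t ^ 30 := pow_le_pow_right₀ h1 (by norm_num)
  have h5 : 3 * t ≤ (pc0 B : ℝ) := by nlinarith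
  calc 36 * (K * Real.log K) ≤ 36 * (B * t) := by gcongr
    _ = 36 * t * B := by ring
    _ ≤ Real.exp t * Real.exp t * Real.exp t := by
        have h6 : 36 * t ≤ Real.exp t * Real.exp t := by
          have h7 := Real.add_one_le_exp t
          nlinarith
        have h8 : B ≤ Real.exp t := by
          rw [← Real.log_le_iff_le_exp hB0]
          exact h.hlog
        exact mul_le_mul h6 h8 hB0.le (by positivity)
    _ = Real.exp (3 * t) := by rw [← Real.exp_add, ← Real.exp_add]; ring_nf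
    _ ≤ _ := Real.exp_le_exp.mpr h5

lemma final (h : Par B t) {C : ℝ} (hC0 : 0 < C) (hC : C ≤ t) {s : ℕ} (hs : s ≤ pS B) :
    C * (1 + B) ^ 2 * (30 * B) ^ 2 * Real.exp (pw B + 32) * (C * (1 + (B + 3)) ^ 2) ^ s *
      Real.exp (-((pF B - 1) ^ 2 / (4 * Real.log (1 + (pS B : ℝ)) ^ 2 * (6000 * (B + 1))))) ≤
      Real.exp (-B ^ (3 / 4 : ℝ)) := by
  have ht := h.ht
  have h1 := h.one_le
  have hBt := h.B_ge
  have hB0 : 0 < B := by linarith
  have hBexp : ∀ n : ℕ, B ^ n ≤ Real.exp (n * t) := by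
    intro n
    have h8 : B ≤ Real.exp t := by
      rw [← Real.log_le_iff_le_exp hB0]
      exact h.hlog
    calc B ^ n ≤ Real.exp t ^ n := by gcongr
      _ = Real.exp (n * t) := by rw [← Real.exp_nat_mul]
  have e1 : C * (1 + B) ^ 2 * (30 * B) ^ 2 ≤ Real.exp (6 * t) := by
    calc C * (1 + B) ^ 2 * (30 * B) ^ 2 ≤ B * (2 * B) ^ 2 * (30 * B) ^ 2 := by
          have : C ≤ B := hC.trans hBt
          gcongr
          linarith
      _ = 3600 * B ^ 5 := by ring
      _ ≤ B * B ^ 5 := by gcongr; linarith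
      _ = B ^ 6 := by ring
      _ ≤ Real.exp ((6 : ℕ) * t) := hBexp 6
      _ = _ := by norm_num
  have hpw : (pw B : ℝ) ≤ 2 * t ^ 50 := by
    unfold pw
    exact (Nat.floor_le (Real.sqrt_nonneg _)).trans h.sqrt_le
  have e2 : Real.exp (pw B + 32) ≤ Real.exp (2 * t ^ 50 + 32) := by
    apply Real.exp_le_exp.mpr
    linarith
  have e3 : (C * (1 + (B + 3)) ^ 2) ^ s ≤ Real.exp (4 * (421 * t ^ 50) * t) := by
    have h3 : C * (1 + (B + 3)) ^ 2 ≤ Real.exp (4 * t) := by
      calc C * (1 + (B + 3)) ^ 2 ≤ B * (2 * B) ^ 2 := by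
            have : C ≤ B := hC.trans hBt
            gcongr
            linarith
        _ = 4 * B ^ 3 := by ring
        _ ≤ B * B ^ 3 := by gcongr; linarith
        _ = B ^ 4 := by ring
        _ ≤ Real.exp ((4 : ℕ) * t) := hBexp 4
        _ = _ := by norm_num
    calc (C * (1 + (B + 3)) ^ 2) ^ s ≤ Real.exp (4 * t) ^ s := by gcongr
      _ = Real.exp (s * (4 * t)) := by rw [← Real.exp_nat_mul]
      _ ≤ _ := by
        apply Real.exp_le_exp.mpr
        have h4 : (s : ℝ) ≤ 421 * t ^ 50 := by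
          have : (s : ℝ) ≤ pS B := by exact_mod_cast hs
          exact this.trans h.pS_le
        nlinarith
  have hS1 : (1 : ℝ) ≤ pS B := by
    unfold pS
    have : 0 < ⌈210 * √(B + 1)⌉₊ := Nat.ceil_pos.mpr (by positivity)
    exact_mod_cast this
  have e4 : t ^ 77 ≤ (pF B - 1) ^ 2 /
      (4 * Real.log (1 + (pS B : ℝ)) ^ 2 * (6000 * (B + 1))) := by
    have hL0 : 0 < Real.log (1 + (pS B : ℝ)) := Real.log_pos (by linarith)
    have hL1 : Real.log (1 + (pS B : ℝ)) ≤ t :=
      (Real.log_le_log (by linarith) h.K_le).trans h.hlog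
    rw [le_div_iff₀ (by positivity)]
    have h3 : pF B = t ^ 90 := by
      unfold pF
      exact h.rpow 90 (by norm_num)
    have h4 : t ^ 90 / 2 ≤ pF B - 1 := by
      rw [h3]
      have : t ≤ t ^ 90 := le_self_pow₀ h1 (by norm_num)
      linarith
    calc t ^ 77 * (4 * Real.log (1 + (pS B : ℝ)) ^ 2 * (6000 * (B + 1)))
        ≤ t ^ 77 * (4 * t ^ 2 * (6000 * (2 * B))) := by
          gcongr
          linarith
      _ = 48000 * t ^ 179 := by rw [h.hB]; ring
      _ ≤ (t / 4) * t ^ 179 := by gcongr; linarith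
      _ = (t ^ 90 / 2) ^ 2 := by ring
      _ ≤ (pF B - 1) ^ 2 := by gcongr
  have e5 : Real.exp (-((pF B - 1) ^ 2 /
      (4 * Real.log (1 + (pS B : ℝ)) ^ 2 * (6000 * (B + 1))))) ≤ Real.exp (-t ^ 77) :=
    Real.exp_le_exp.mpr (by linarith)
  calc C * (1 + B) ^ 2 * (30 * B) ^ 2 * Real.exp (pw B + 32) * (C * (1 + (B + 3)) ^ 2) ^ s *
      Real.exp (-((pF B - 1) ^ 2 / (4 * Real.log (1 + (pS B : ℝ)) ^ 2 * (6000 * (B + 1)))))
      ≤ Real.exp (6 * t) * Real.exp (2 * t ^ 50 + 32) * Real.exp (4 * (421 * t ^ 50) * t) *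
        Real.exp (-t ^ 77) := by gcongr
    _ = Real.exp (6 * t + (2 * t ^ 50 + 32) + 4 * (421 * t ^ 50) * t + -t ^ 77) := by
        rw [← Real.exp_add, ← Real.exp_add, ← Real.exp_add]
    _ ≤ _ := by
        apply Real.exp_le_exp.mpr
        rw [h.rpow 75 (by norm_num)]
        have p1 : t ≤ t ^ 51 := le_self_pow₀ h1 (by norm_num)
        have p2 : t ^ 50 ≤ t ^ 51 := pow_le_pow_right₀ h1 (by norm_num)
        have p3 : (1 : ℝ) ≤ t ^ 51 := one_le_pow₀ h1
        have p4 : 200000 * t ^ 51 ≤ t ^ 52 := by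
          calc 200000 * t ^ 51 ≤ t * t ^ 51 := by gcongr
            _ = t ^ 52 := by ring
        have p5 : t ^ 52 ≤ t ^ 75 := pow_le_pow_right₀ h1 (by norm_num)
        have p6 : 200000 * t ^ 75 ≤ t ^ 76 := by
          calc 200000 * t ^ 75 ≤ t * t ^ 75 := by gcongr
            _ = t ^ 76 := by ring
        have p7 : t ^ 76 ≤ t ^ 77 := pow_le_pow_right₀ h1 (by norm_num)
        have p8 : 4 * (421 * t ^ 50) * t = 1684 * t ^ 51 := by ring
        have p9 : (1 : ℝ) ≤ t ^ 75 := one_le_pow₀ h1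
        rw [p8]
        linarith

end Par

end Crest.Agent.R020.Uc.Low

namespace Crest.Agent.R020.Uc

open Crest.Agent.R020 Crest.Agent.Lib Crest.Agent.R020.Uc.Low

/-- the statistic is rarely too small -/
theorem stmtLow : StmtLow := by
  classical
  obtain ⟨C, hC, hT⟩ := LS.count_lower
  obtain ⟨B0, hB0⟩ := Low.exists_par C
  refine ⟨max B0 2, ?_⟩
  intro x hx B hBx hB s κ hP D hD
  obtain ⟨t, hpar, hCt⟩ := hB0 B ((le_max_left _ _).trans hB)
  have ht := hpar.ht
  have hBt := hpar.B_ge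
  have hB0' : 0 < B := by linarith
  -- size of `x`
  have hlx : Real.log x = Real.exp B := by
    rw [hBx, Real.exp_log (Real.log_pos (by linarith))]
  have hx16 : 16 ≤ x := by
    have h1 : Real.exp (Real.exp B) = x := by rw [← hlx, Real.exp_log (by linarith)]
    rw [← h1]
    have h2 := Real.add_one_le_exp B
    have h3 := Real.add_one_le_exp (Real.exp B)
    linarith
  -- choose decompositions
  have hD1 : ∀ v ∈ D, ∃ d : ℕ × (Fin s → ℕ) × ℕ, Dec x s κ v d.1 d.2.1 d.2.2 := by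
    intro v hv
    obtain ⟨⟨q0, q, r, h⟩, _⟩ := hD v hv
    exact ⟨(q0, q, r), h⟩
  choose! f hf using hD1
  have hinj : Set.InjOn f D := by
    intro v hv v' hv' he
    have h1 := (hf v hv).hv
    have h2 := (hf v' hv').hv
    rw [he] at h1
    exact h1.trans h2.symm
  set R : Finset ℕ := D.image fun v => (f v).2.2 with hR
  set z : ℕ → ℝ := zz (multR κ) (pc0 B) (pC1 B) with hz
  set ℓ : ℕ → ℝ := fun p => Real.log (z p) with hℓ
  set L : ℝ := Real.log (1 + (pS B : ℝ)) with hL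
  have hk1 : ∀ c, 1 ≤ multR κ c := by
    intro c
    unfold multR mult
    push_cast
    have : (0 : ℝ) ≤ ((Finset.univ.filter fun a => c < κ a).card : ℝ) := Nat.cast_nonneg _
    linarith
  have hkK : ∀ c, multR κ c ≤ 1 + (pS B : ℝ) := by
    intro c
    unfold multR mult
    push_cast
    have h1 : (Finset.univ.filter fun a => c < κ a).card ≤ pS B := by
      refine (Finset.card_le_univ _).trans ?_
      rw [Fintype.card_fin]
      exact hP.hs
    have : ((Finset.univ.filter fun a => c < κ a).card : ℝ) ≤ pS B := by exact_mod_cast h1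
    linarith
  have hS1 : (1 : ℝ) ≤ pS B := by
    unfold pS
    have : 0 < ⌈210 * √(B + 1)⌉₊ := Nat.ceil_pos.mpr (by positivity)
    exact_mod_cast this
  have hz1 : ∀ p, 1 ≤ z p ∧ z p ≤ 1 + (pS B : ℝ) := by
    intro p
    rw [hz]
    unfold zz
    split_ifs
    · exact ⟨hk1 _, hkK _⟩
    · exact ⟨le_rfl, by linarith⟩
  have hℓb : ∀ p : ℕ, p.Prime → 0 ≤ ℓ p ∧ ℓ p ≤ L := by
    intro p _
    have := hz1 p
    exact ⟨Real.log_nonneg this.1, Real.log_le_log (by linarith) this.2⟩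
  have hL0 : 0 < L := Real.log_pos (by linarith)
  have hκ1 : ∀ a, 1 ≤ κ a := fun a => by have := hP.hw a; omega
  have hpF : pF B = t ^ 90 := by
    unfold pF
    exact hpar.rpow 90 (by norm_num)
  have hpF1 : 1 ≤ pF B := by rw [hpF]; exact one_le_pow₀ hpar.one_le
  have hC1 : (pC1 B : ℝ) ≤ B := by
    unfold pC1
    rcases le_or_gt (B - Real.log (30 * B) - 2) 0 with h | h
    · rw [Nat.floor_eq_zero.mpr (by linarith)]
      simpa using hB0'.le
    · refine (Nat.floor_le h.le).trans ?_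
      have : 0 ≤ Real.log (30 * B) := Real.log_nonneg (by linarith)
      linarith
  have hmean := Low.mean_ge κ hκ1 (c0 := pc0 B) (C1 := pC1 B) hB0'.le hC1 hkK
    (hpar.exp_ge (by linarith) hpar.K_le)
  rw [← hz] at hmean
  -- sizes
  have hsR : (s : ℝ) ≤ 210 * √(B + 1) + 1 := by
    have h1 : (s : ℝ) ≤ pS B := by exact_mod_cast hP.hs
    refine h1.trans ?_
    unfold pS
    exact (Nat.ceil_lt_add_one (by positivity)).le
  have hsB : (s : ℝ) ≤ 211 * (B + 1) := by
    have h1 : √(B + 1) ≤ B + 1 := by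
      rw [Real.sqrt_le_left (by linarith)]
      nlinarith
    linarith
  have hV : (Real.log (Real.log x) + 27) + ∑ a, (((κ a : ℝ) - 1) + 27) ≤ 6000 * (B + 1) := by
    rw [← hBx, Finset.sum_add_distrib, Finset.sum_sub_distrib]
    have h1 := hP.hsum
    push_cast at h1
    simp only [Finset.sum_const, Finset.card_univ, Fintype.card_fin, nsmul_eq_mul, mul_one]
    linarith
  have hR0 : ∀ r ∈ R, r ∈ Sm (PT (pw B)) := by
    intro r hr
    rw [hR, Finset.mem_image] at hr
    obtain ⟨v, hv, rfl⟩ := hr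
    have := (hf v hv).hr
    rwa [← hBx] at this
  have hcard : ((D.image f).card : ℝ) ≤ C * (1 + Real.log (Real.log x)) ^ 2 * (30 * B) ^ 2 *
      (x / Real.log x) * (∑ r ∈ R, (1 : ℝ) / r) * (C * (1 + (B + 3)) ^ 2) ^ (Fintype.card (Fin s)) *
      Real.exp (-((pF B - 1) ^ 2 / (4 * L ^ 2 * (6000 * (B + 1))))) := by
    apply hT ℓ L hL0 hℓb (fun a => (κ a : ℝ) - 1) (fun a => by
        have : (1 : ℝ) ≤ κ a := by exact_mod_cast hκ1 a
        linarith) (B + 3) (fun a => by
        have h1 : (κ a : ℝ) ≤ pM B := by exact_mod_cast hP.hM a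
        have h2 : (pM B : ℝ) ≤ B + 3 := by
          unfold pM
          push_cast
          have := Nat.ceil_lt_add_one hB0'.le
          linarith
        linarith) x (30 * B) (6000 * (B + 1)) (pF B - 1) hx16 (by linarith) hV (by linarith)
        (by linarith) R (fun r hr => (hR0 r hr).1)
    intro d hd
    rw [Finset.mem_image] at hd
    obtain ⟨v, hv, rfl⟩ := hd
    have hdec := hf v hv
    have hq1 : ∀ a, (f v).2.1 a - 1 ≠ 0 := by
      intro a
      have := (hdec.hq a).1.two_le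
      omega
    have hq01 : (f v).1 - 1 ≠ 0 := by
      have := hdec.hq0.two_le
      omega
    have hprod : ∏ a, ((f v).2.1 a - 1) ≠ 0 := Finset.prod_ne_zero_iff.mpr fun a _ => hq1 a
    have hr0 : (f v).2.2 ≠ 0 := hdec.hr.1
    have hv0 : v ≠ 0 := by
      rw [hdec.hv]
      exact mul_ne_zero hq01 (mul_ne_zero hprod hr0)
    refine ⟨⟨hdec.hq0, ?_, ?_, ?_, ?_, ?_⟩, ?_⟩
    · intro a
      obtain ⟨h1, h2⟩ := hdec.hq a
      refine ⟨h1, ?_, ?_⟩
      · have := kap_lt ((f v).2.1 a)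
        rw [h2] at this
        show (κ a : ℝ) - 1 ≤ _
        linarith
      · have := yy_le_kap ((f v).2.1 a)
        rw [h2] at this
        show yy ((f v).2.1 a) ≤ (κ a : ℝ) - 1 + 1
        linarith
    · rw [hR, Finset.mem_image]
      exact ⟨v, hv, rfl⟩
    · have h1 := hdec.hx
      rw [hdec.hv] at h1
      push_cast at h1
      rw [LS.cast_prime_sub_one hdec.hq0] at h1
      exact h1
    · exact hdec.h2
    · have := hdec.hlam
      rwa [← hBx] at this
    · -- the statistic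
      have h1 := (hD v hv).2
      rw [Low.wt_eq_exp_St (fun p => by linarith [(hz1 p).1]) hv0, Real.exp_lt_exp] at h1
      have h2 : LS.St ℓ v = LS.St ℓ ((f v).1 - 1) + (∑ a, LS.St ℓ ((f v).2.1 a - 1) +
          LS.St ℓ (f v).2.2) := by
        conv_lhs => rw [hdec.hv]
        rw [LS.St_mul ℓ hq01 (mul_ne_zero hprod hr0), LS.St_mul ℓ hprod hr0]
        congr 2
        have key : ∀ S : Finset (Fin s), LS.St ℓ (∏ a ∈ S, ((f v).2.1 a - 1)) =
            ∑ a ∈ S, LS.St ℓ ((f v).2.1 a - 1) := by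
          intro S
          induction S using Finset.induction_on with
          | empty => simp [LS.St_one]
          | insert a S ha ih =>
            rw [Finset.prod_insert ha, Finset.sum_insert ha, LS.St_mul ℓ (hq1 a)
              (Finset.prod_ne_zero_iff.mpr fun a _ => hq1 a), ih]
        exact key Finset.univ
      have h3 : 0 ≤ LS.St ℓ (f v).2.2 := LS.St_nonneg (fun p hp => (hℓb p hp).1) _
      change LS.St ℓ v < pA B κ at h1
      unfold pA at h1
      rw [← hBx]
      linarith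
  rw [Finset.card_image_of_injOn hinj, ← hBx, Fintype.card_fin] at hcard
  refine hcard.trans ?_
  have hsum := Low.sum_inv_Sm_le (T := (pw B : ℝ)) (Nat.cast_nonneg _) R hR0
  have hfin := hpar.final hC hCt hP.hs
  have hlx0 : 0 < x / Real.log x := by
    rw [hlx]
    have := Real.exp_pos B
    positivity
  calc C * (1 + B) ^ 2 * (30 * B) ^ 2 *
      (x / Real.log x) * (∑ r ∈ R, (1 : ℝ) / r) * (C * (1 + (B + 3)) ^ 2) ^ s *
      Real.exp (-((pF B - 1) ^ 2 / (4 * L ^ 2 * (6000 * (B + 1)))))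
      ≤ C * (1 + B) ^ 2 * (30 * B) ^ 2 *
      (x / Real.log x) * Real.exp (pw B + 32) * (C * (1 + (B + 3)) ^ 2) ^ s *
      Real.exp (-((pF B - 1) ^ 2 / (4 * L ^ 2 * (6000 * (B + 1))))) := by gcongr
    _ = (x / Real.log x) * (C * (1 + B) ^ 2 * (30 * B) ^ 2 * Real.exp (pw B + 32) *
      (C * (1 + (B + 3)) ^ 2) ^ s *
      Real.exp (-((pF B - 1) ^ 2 / (4 * L ^ 2 * (6000 * (B + 1)))))) := by ring
    _ ≤ _ := by gcongr

end Crest.Agent.R020.Uc
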