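import Mathlib
import Crest.Agent.R020.UcDefs
import Crest.Agent.R020.LCrude2

/-!
Row 20 (helper369): assembly of (Uc): crude removals and union over the profiles,
`StmtDec → StmtBad → StmtLow → StmtHigh → StmtUc`.
-/

set_option autoImplicit false

open scoped ENNReal
open Filter

noncomputable section

namespace Crest.Agent.R020.Uc

open Crest.Agent.R020 Crest.Agent.Lib Crest.Agent.R020.LCrude

/-- the numeric comparison of the union bound -/
private theorem union_numeric : ∃ B0 : ℝ, ∀ B : ℝ, B0 ≤ B →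
    3 * Real.exp (-B) + ((pS B + 1 : ℕ) : ℝ) * ((pM B + 1 : ℕ) : ℝ) ^ (pS B) *
      (3 * Real.exp (-B ^ (3 / 4 : ℝ))) ≤ Real.exp (-B ^ (1 / 2 : ℝ)) := by
  have h1 : ∀ᶠ B : ℝ in atTop, 604 * Real.log B ≤ B ^ (1 / 4 : ℝ) := by
    have h := (isLittleO_log_rpow_atTop (r := 1 / 4) (by norm_num)).bound
      (c := 1 / 604) (by norm_num)
    filter_upwards [h, eventually_ge_atTop (1 : ℝ)] with B hB h1
    rw [Real.norm_eq_abs, Real.norm_eq_abs, abs_of_nonneg (Real.log_nonneg h1),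
      abs_of_nonneg (by positivity)] at hB
    linarith
  obtain ⟨B0, hB0⟩ := eventually_atTop.1 h1
  refine ⟨max B0 100, fun B hB => ?_⟩
  have hB1 : B0 ≤ B := (le_max_left _ _).trans hB
  have hB2 : (100 : ℝ) ≤ B := (le_max_right _ _).trans hB
  have hlog := hB0 B hB1
  have hBpos : 0 < B := by linarith
  set s := √B with hs
  have hs10 : 10 ≤ s := by
    rw [hs, show (10 : ℝ) = √100 by
      rw [show (100 : ℝ) = 10 ^ 2 by norm_num, Real.sqrt_sq (by norm_num)]]
    exact Real.sqrt_le_sqrt hB2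
  have hss : s * s = B := Real.mul_self_sqrt (by linarith)
  have hrp : B ^ (1 / 2 : ℝ) = s := by rw [hs, Real.sqrt_eq_rpow]
  have hr34 : B ^ (3 / 4 : ℝ) = s * B ^ (1 / 4 : ℝ) := by
    rw [← hrp, ← Real.rpow_add hBpos]; norm_num
  have hlB : 2 ≤ Real.log B := by
    rw [Real.le_log_iff_exp_le hBpos]
    have h5 := Real.exp_one_lt_d9
    have h6 : Real.exp 2 = Real.exp 1 * Real.exp 1 := by rw [← Real.exp_add]; norm_num
    rw [h6]
    have h7 := Real.exp_pos 1
    nlinarith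
  have hsq1 : √(B + 1) ≤ s + 1 := by
    rw [show s + 1 = √((s + 1) ^ 2) by rw [Real.sqrt_sq (by linarith)]]
    apply Real.sqrt_le_sqrt
    nlinarith
  have hpS : (pS B : ℝ) ≤ 300 * s := by
    have h2 : (pS B : ℝ) < 210 * √(B + 1) + 1 := by
      unfold pS
      exact Nat.ceil_lt_add_one (by positivity)
    linarith
  have hpM : ((pM B + 1 : ℕ) : ℝ) ≤ B ^ 2 := by
    have h2 : (⌈B⌉₊ : ℝ) < B + 1 := Nat.ceil_lt_add_one (by linarith)
    unfold pM
    push_cast
    nlinarith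
  have hpS1 : ((pS B + 1 : ℕ) : ℝ) ≤ B ^ 2 := by
    push_cast
    have h3 : 300 * s + 1 ≤ B ^ 2 := by
      rw [← hss]
      nlinarith [mul_pos (show (0:ℝ) < s by linarith) (show (0:ℝ) < s by linarith),
        pow_le_pow_left₀ (by norm_num) hs10 3]
    linarith
  have hMpos : (0 : ℝ) < ((pM B + 1 : ℕ) : ℝ) := by positivity
  have h2 : ((pM B + 1 : ℕ) : ℝ) ^ (pS B) ≤ Real.exp (600 * s * Real.log B) := by
    rw [← Real.exp_log hMpos, ← Real.exp_nat_mul]
    apply Real.exp_le_exp.2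
    have h3 : Real.log ((pM B + 1 : ℕ) : ℝ) ≤ 2 * Real.log B := by
      calc Real.log ((pM B + 1 : ℕ) : ℝ) ≤ Real.log (B ^ 2) := Real.log_le_log hMpos hpM
        _ = 2 * Real.log B := by rw [Real.log_pow]; norm_num
    calc (pS B : ℝ) * Real.log ((pM B + 1 : ℕ) : ℝ) ≤ (300 * s) * (2 * Real.log B) := by
          refine mul_le_mul hpS h3 (Real.log_nonneg ?_) (by positivity)
          push_cast
          have : (0 : ℝ) ≤ (pM B : ℝ) := Nat.cast_nonneg _
          linarith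
      _ = 600 * s * Real.log B := by ring
  have h4 : ((pS B + 1 : ℕ) : ℝ) ≤ Real.exp (2 * Real.log B) := by
    rw [two_mul, Real.exp_add, Real.exp_log hBpos]
    nlinarith
  have h6 : (6 : ℝ) ≤ Real.exp 2 := by
    have h5 := Real.exp_one_gt_d9
    have h6 : Real.exp 2 = Real.exp 1 * Real.exp 1 := by rw [← Real.exp_add]; norm_num
    rw [h6]; nlinarith
  have h7 : ((pS B + 1 : ℕ) : ℝ) * ((pM B + 1 : ℕ) : ℝ) ^ (pS B) *
      (3 * Real.exp (-B ^ (3 / 4 : ℝ))) ≤ 1 / 2 * Real.exp (-s) := by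
    calc ((pS B + 1 : ℕ) : ℝ) * ((pM B + 1 : ℕ) : ℝ) ^ (pS B) *
          (3 * Real.exp (-B ^ (3 / 4 : ℝ)))
        ≤ Real.exp (2 * Real.log B) * Real.exp (600 * s * Real.log B) *
          (1 / 2 * Real.exp 2 * Real.exp (-B ^ (3 / 4 : ℝ))) := by
          have h8 : (3 : ℝ) ≤ 1 / 2 * Real.exp 2 := by linarith
          gcongr
      _ = 1 / 2 * Real.exp (2 * Real.log B + 600 * s * Real.log B + 2 - B ^ (3 / 4 : ℝ)) := by
          rw [Real.exp_sub, Real.exp_add, Real.exp_add, Real.exp_neg]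
          field_simp
      _ ≤ 1 / 2 * Real.exp (-s) := by
          refine mul_le_mul_of_nonneg_left (Real.exp_le_exp.2 ?_) (by norm_num)
          rw [hr34]
          have h9 : s * (604 * Real.log B) ≤ s * B ^ (1 / 4 : ℝ) :=
            mul_le_mul_of_nonneg_left hlog (by linarith)
          have h10 : 2 * Real.log B ≤ s * Real.log B := by nlinarith
          have h11 : s ≤ s * Real.log B := by nlinarith
          have h12 : 2 ≤ s := by linarith
          nlinarith
  have h8 : 3 * Real.exp (-B) ≤ 1 / 2 * Real.exp (-s) := by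
    have h9 : Real.exp (-B) ≤ Real.exp (-s - 2) := Real.exp_le_exp.2 (by nlinarith)
    rw [Real.exp_sub] at h9
    have h10 : Real.exp (-s) / Real.exp 2 ≤ Real.exp (-s) / 6 :=
      div_le_div_of_nonneg_left (Real.exp_pos _).le (by norm_num) h6
    linarith
  rw [hrp]
  linarith

/-- counting through pairs -/
private theorem card_le_tsum_pairs (D : Finset ℕ) (A : Set (ℕ × ℕ))
    (h : ∀ v ∈ D, v = (Pm (rr v) - 1) * tl v ∧ (Pm (rr v), tl v) ∈ A) :
    (D.card : ℝ≥0∞) ≤ ∑' p : ℕ × ℕ, A.indicator (fun _ => (1 : ℝ≥0∞)) p := by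
  classical
  have hinj : Set.InjOn (fun v : ℕ => (Pm (rr v), tl v)) (D : Set ℕ) := by
    intro v hv v' hv' hvv
    simp only [Prod.mk.injEq] at hvv
    rw [(h v hv).1, (h v' hv').1, hvv.1, hvv.2]
  calc (D.card : ℝ≥0∞) = ∑ v ∈ D, A.indicator (fun _ => (1 : ℝ≥0∞)) (Pm (rr v), tl v) := by
        rw [Finset.sum_congr rfl (fun v hv => Set.indicator_of_mem (h v hv).2 _)]
        simp
    _ = ∑ p ∈ D.image (fun v : ℕ => (Pm (rr v), tl v)),
          A.indicator (fun _ => (1 : ℝ≥0∞)) p := (Finset.sum_image hinj).symm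
    _ ≤ _ := ENNReal.sum_le_tsum _

private theorem card_le_of_ofReal {D : Finset ℕ} {M : ℝ} (hM : 0 ≤ M)
    (h : (D.card : ℝ≥0∞) ≤ ENNReal.ofReal M) : (D.card : ℝ) ≤ M := by
  rw [← ENNReal.ofReal_natCast] at h
  exact (ENNReal.ofReal_le_ofReal_iff hM).1 h

/-- the totients removed at the beginning -/
private def IsCrude (x B : ℝ) (v : ℕ) : Prop :=
  ¬ (x / Real.log x ^ 2 < v ∧ (Om v : ℝ) ≤ 20 * (B + 1) ∧ Sy (rr v) ≤ 200 * (B + 1) ∧
    ∀ p : ℕ, p.Prime → (pw B : ℝ) < yy p → ¬ p ^ 2 ∣ rr v)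

private theorem crude_card : ∃ B0 : ℝ, ∀ x : ℝ, 3 ≤ x → ∀ B : ℝ, B = Real.log (Real.log x) →
    B0 ≤ B → ∀ D : Finset ℕ,
    (∀ v ∈ D, IsTot v ∧ ¬ Sq v ∧ (v : ℝ) ≤ x ∧ IsCrude x B v) →
    (D.card : ℝ) ≤ 3 * (x / Real.log x * Real.exp (-B)) := by
  classical
  obtain ⟨B1, h1⟩ := exists_crude_count
  obtain ⟨C, hC, h2⟩ := exists_wt2_Sy_left
  refine ⟨max 0 (max B1 C), fun x hx B hBdef hB D hD => ?_⟩
  have hB0 : 0 ≤ B := (le_max_left _ _).trans hB
  have hB1 : B1 ≤ B := ((le_max_left _ _).trans (le_max_right _ _)).trans hB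
  have hBC : C ≤ B := ((le_max_right _ _).trans (le_max_right _ _)).trans hB
  have hlx : 0 < Real.log x := Real.log_pos (by linarith)
  have hlB : Real.log x = Real.exp B := by rw [hBdef, Real.exp_log hlx]
  have hM : 0 ≤ x / Real.log x * Real.exp (-B) := by positivity
  have hdec : ∀ v ∈ D, (Pm (rr v)).Prime ∧ IsTot (tl v) ∧ v = (Pm (rr v) - 1) * tl v ∧
      rr v = Pm (rr v) * rr (tl v) ∧ Pm (rr (tl v)) < Pm (rr v) := by
    intro v hv
    obtain ⟨hv1, hv2, -, -⟩ := hD v hv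
    have hne : v ≠ 1 := by
      rintro rfl
      apply hv2
      unfold Sq
      rw [rr_one]
      simp [Pm]
    obtain ⟨g1, g2, g3, g4, g5, -⟩ := totient_decomp hv1 hne hv2
    exact ⟨g1, g2, g3, g4, g5⟩
  set Y : ℝ := B + 1 with hY
  -- the three parts
  set A2 : Set (ℕ × ℕ) := {p : ℕ × ℕ | p.1.Prime ∧ IsTot p.2 ∧ Pm (rr p.2) < p.1 ∧
        (((p.1 - 1) * p.2 : ℕ) : ℝ) ≤ x ∧
        ¬ SGood Y ⌊√Y⌋₊ ⌈210 * √Y⌉₊ p.1 p.2} with hA2
  set A3 : Set (ℕ × ℕ) := {p : ℕ × ℕ | (p ∈ Pr Y ∧ (Om ((p.1 - 1) * p.2) : ℝ) ≤ 20 * Y ∧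
    200 * Y ≤ Sy (p.1 * rr p.2)) ∧ (((p.1 - 1) * p.2 : ℕ) : ℝ) ≤ x} with hA3
  set D1 : Finset ℕ := D.filter (fun v : ℕ => (v : ℝ) ≤ x / Real.log x ^ 2) with hD1
  set D2 : Finset ℕ := D.filter (fun v : ℕ => (Pm (rr v), tl v) ∈ A2) with hD2
  set D3 : Finset ℕ := D.filter (fun v : ℕ => (Pm (rr v), tl v) ∈ A3) with hD3
  have hcov : D ⊆ D1 ∪ D2 ∪ D3 := by
    intro v hv
    obtain ⟨hv1, hv2, hvx, hcr⟩ := hD v hv
    obtain ⟨g1, g2, g3, g4, g5⟩ := hdec v hv
    rw [Finset.mem_union, Finset.mem_union]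
    by_cases c1 : (v : ℝ) ≤ x / Real.log x ^ 2
    · exact Or.inl (Or.inl (Finset.mem_filter.2 ⟨hv, c1⟩))
    by_cases c2 : (Pm (rr v), tl v) ∈ A2
    · exact Or.inl (Or.inr (Finset.mem_filter.2 ⟨hv, c2⟩))
    right
    refine Finset.mem_filter.2 ⟨hv, ?_⟩
    have hvx' : (((Pm (rr v) - 1) * tl v : ℕ) : ℝ) ≤ x := by rw [← g3]; exact hvx
    have hgood : SGood Y ⌊√Y⌋₊ ⌈210 * √Y⌉₊ (Pm (rr v)) (tl v) := by
      by_contra hng
      exact c2 ⟨g1, g2, g5, hvx', hng⟩
    have hom : (Om ((Pm (rr v) - 1) * tl v) : ℝ) ≤ 20 * Y := hgood.om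
    have hPr : (Pm (rr v), tl v) ∈ Pr Y := by
      refine ⟨g1, g2, g5, ?_⟩
      have := yy_le_of_le hx g1 g2.pos hvx' (by rw [← hBdef]; exact hB0)
      rw [← hBdef] at this
      exact this
    refine ⟨⟨hPr, hom, ?_⟩, hvx'⟩
    show 200 * Y ≤ Sy (Pm (rr v) * rr (tl v))
    rw [← g4]
    by_contra hcon
    push Not at hcon c1
    apply hcr
    refine ⟨c1, ?_, hcon.le, ?_⟩
    · rw [g3]; exact hom
    · intro p hp hpw
      rw [g4]
      exact hgood.sqL p hp hpw
  have c1 : (D1.card : ℝ) ≤ x / Real.log x * Real.exp (-B) := by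
    have h3 : D1 ⊆ Finset.Ioc 0 ⌊x / Real.log x ^ 2⌋₊ := by
      intro v hv
      rw [hD1, Finset.mem_filter] at hv
      rw [Finset.mem_Ioc]
      exact ⟨(hD v hv.1).1.pos, Nat.le_floor hv.2⟩
    have h4 := Finset.card_le_card h3
    rw [Nat.card_Ioc, Nat.sub_zero] at h4
    calc (D1.card : ℝ) ≤ (⌊x / Real.log x ^ 2⌋₊ : ℝ) := by exact_mod_cast h4
      _ ≤ x / Real.log x ^ 2 := Nat.floor_le (by positivity)
      _ = x / Real.log x * Real.exp (-B) := by
          rw [Real.exp_neg, ← hlB, pow_two]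
          field_simp
  have c2 : (D2.card : ℝ) ≤ x / Real.log x * Real.exp (-B) := by
    refine card_le_of_ofReal hM ?_
    have h3 := h1 x hx (by rw [← hBdef]; exact hB1) Y (by rw [hY, hBdef])
    rw [← hBdef] at h3
    refine le_trans (card_le_tsum_pairs D2 A2 ?_) h3
    intro v hv
    rw [hD2, Finset.mem_filter] at hv
    exact ⟨(hdec v hv.1).2.2.1, hv.2⟩
  have c3 : (D3.card : ℝ) ≤ x / Real.log x * Real.exp (-B) := by
    refine card_le_of_ofReal hM ?_
    refine le_trans (card_le_tsum_pairs D3 A3 ?_) ?_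
    · intro v hv
      rw [hD3, Finset.mem_filter] at hv
      exact ⟨(hdec v hv.1).2.2.1, hv.2⟩
    · refine le_trans (count_le_wt2 A3 (x := x) ?_) ?_
      · rintro p ⟨⟨⟨hq, hd, hP, -⟩, -, -⟩, hpx⟩
        exact ⟨pair_pos hq hd, hpx⟩
      · have h3 : wt2 A3 ≤ ENNReal.ofReal (Real.exp (20 * Y - 3 / 10 * (200 * Y) + C)) := by
          refine le_trans ?_ (h2 Y (20 * Y) (200 * Y) (by linarith))
          unfold wt2
          refine ENNReal.tsum_le_tsum fun p => ?_
          refine Set.indicator_le_indicator_of_subset ?_ (fun _ => zero_le) p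
          rintro p ⟨hp, -⟩
          exact hp
        refine (mul_le_mul' le_rfl h3).trans ?_
        rw [← ENNReal.ofReal_mul (by linarith)]
        refine ENNReal.ofReal_le_ofReal ?_
        calc x * Real.exp (20 * Y - 3 / 10 * (200 * Y) + C)
            ≤ x * Real.exp (-B - B) := by
              refine mul_le_mul_of_nonneg_left (Real.exp_le_exp.2 ?_) (by linarith)
              rw [hY]; linarith
          _ = x / Real.log x * Real.exp (-B) := by
              rw [Real.exp_sub, hlB, Real.exp_neg]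
              field_simp
  have h5 : (D.card : ℝ) ≤ D1.card + D2.card + D3.card := by
    have h6 := Finset.card_le_card hcov
    have h7 := Finset.card_union_le (D1 ∪ D2) D3
    have h8 := Finset.card_union_le D1 D2
    exact_mod_cast (h6.trans h7).trans (Nat.add_le_add_right h8 _)
  linarith

/-- number of profiles -/
private theorem card_profiles (n m : ℕ) :
    Fintype.card (Σ s : Fin (n + 1), (Fin s → Fin (m + 1))) ≤ (n + 1) * (m + 1) ^ n := by
  rw [Fintype.card_sigma]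
  calc ∑ s : Fin (n + 1), Fintype.card (Fin s → Fin (m + 1))
      ≤ ∑ _s : Fin (n + 1), (m + 1) ^ n := by
        refine Finset.sum_le_sum fun s _ => ?_
        rw [Fintype.card_fun, Fintype.card_fin, Fintype.card_fin]
        exact Nat.pow_le_pow_right (by omega) (by omega)
    _ = (n + 1) * (m + 1) ^ n := by simp

/-- assembly of `StmtUc` -/
theorem stmtUnion : StmtUnion := by
  classical
  rintro ⟨B1, hDec⟩ ⟨B2, hBad⟩ ⟨B3, hLow⟩ ⟨B4, hHigh⟩
  obtain ⟨B5, hcr⟩ := crude_card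
  obtain ⟨B6, hnum⟩ := union_numeric
  refine ⟨1 / 2, max (max (max B1 B2) (max B3 B4)) (max B5 B6), by norm_num, fun x hx hB => ?_⟩
  have hb1 : B1 ≤ Real.log (Real.log x) :=
    (((le_max_left _ _).trans (le_max_left _ _)).trans (le_max_left _ _)).trans hB
  have hb2 : B2 ≤ Real.log (Real.log x) :=
    (((le_max_right _ _).trans (le_max_left _ _)).trans (le_max_left _ _)).trans hB
  have hb3 : B3 ≤ Real.log (Real.log x) :=
    (((le_max_left _ _).trans (le_max_right _ _)).trans (le_max_left _ _)).trans hB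
  have hb4 : B4 ≤ Real.log (Real.log x) :=
    (((le_max_right _ _).trans (le_max_right _ _)).trans (le_max_left _ _)).trans hB
  have hb5 : B5 ≤ Real.log (Real.log x) :=
    ((le_max_left _ _).trans (le_max_right _ _)).trans hB
  have hb6 : B6 ≤ Real.log (Real.log x) :=
    ((le_max_right _ _).trans (le_max_right _ _)).trans hB
  clear hB
  set B := Real.log (Real.log x) with hBdef
  have hlx : 0 < Real.log x := Real.log_pos (by linarith)
  set U : Set ℕ := {v : ℕ | IsTot v ∧ ¬ Sq v ∧ (v : ℝ) ≤ x ∧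
      B + B ^ (19 / 20 : ℝ) < FF aa (tl v)} with hU
  have hUfin : U.Finite := by
    refine (Set.finite_Iic ⌊x⌋₊).subset ?_
    rintro v ⟨-, -, hv, -⟩
    exact Nat.le_floor hv
  rw [Set.ncard_eq_toFinset_card U hUfin]
  set D := hUfin.toFinset with hD
  have hDU : ∀ v, v ∈ D ↔ v ∈ U := fun v => Set.Finite.mem_toFinset hUfin
  set M : ℝ := x / Real.log x * Real.exp (-B ^ (3 / 4 : ℝ)) with hM
  have hM0 : 0 ≤ M := by positivity
  set Dc := D.filter (fun v => IsCrude x B v) with hDc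
  set Dg := D.filter (fun v => ¬ IsCrude x B v) with hDg
  have hcard : D.card = Dc.card + Dg.card :=
    (Finset.card_filter_add_card_filter_not (s := D) (fun v => IsCrude x B v)).symm
  have hc1 : (Dc.card : ℝ) ≤ 3 * (x / Real.log x * Real.exp (-B)) := by
    refine hcr x hx B hBdef hb5 Dc ?_
    intro v hv
    rw [hDc, Finset.mem_filter, hDU] at hv
    exact ⟨hv.1.1, hv.1.2.1, hv.1.2.2.1, hv.2⟩
  -- the classes
  set cls : (Σ s : Fin (pS B + 1), (Fin s → Fin (pM B + 1))) → ℕ → Prop := fun i v =>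
    Prof B i.1 (fun a => (i.2 a : ℕ)) ∧ ∃ (q0 : ℕ) (q : Fin i.1 → ℕ) (r : ℕ),
      Dec x i.1 (fun a => (i.2 a : ℕ)) v q0 q r ∧
      (r ∈ Rbad B ∨ B ^ (19 / 20 : ℝ) / 2 ≤
        ∑ c ∈ Finset.Ioc (pc0 B) (pC1 B), gk (mult (fun a => (i.2 a : ℕ)) c)) with hcls
  have hcov : Dg ⊆ Finset.univ.biUnion (fun i => Dg.filter (cls i)) := by
    intro v hv
    have hv' := hv
    rw [hDg, Finset.mem_filter, hDU] at hv'
    obtain ⟨⟨g1, g2, g3, g4⟩, g5⟩ := hv'
    unfold IsCrude at g5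
    rw [not_not] at g5
    obtain ⟨k1, k2, k3, k4⟩ := g5
    obtain ⟨s, κ, q0, q, r, hP, hd, halt⟩ := hDec x hx B hBdef hb1 v g1 g2 g3 k1 k2 k3 k4 g4
    rw [Finset.mem_biUnion]
    refine ⟨⟨⟨s, Nat.lt_succ_of_le hP.hs⟩, fun a => ⟨κ a, Nat.lt_succ_of_le (hP.hM a)⟩⟩,
      Finset.mem_univ _, ?_⟩
    rw [Finset.mem_filter]
    exact ⟨hv, hP, q0, q, r, hd, halt⟩
  have hclass : ∀ i, ((Dg.filter (cls i)).card : ℝ) ≤ 3 * M := by
    intro i
    by_cases hP : Prof B i.1 (fun a => (i.2 a : ℕ))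
    · set κ : Fin i.1 → ℕ := fun a => (i.2 a : ℕ) with hκ
      set E1 := Dg.filter (fun v => ∃ (q0 : ℕ) (q : Fin i.1 → ℕ) (r : ℕ),
        Dec x i.1 κ v q0 q r ∧ r ∈ Rbad B) with hE1
      set E2 := Dg.filter (fun v => (∃ (q0 : ℕ) (q : Fin i.1 → ℕ) (r : ℕ),
        Dec x i.1 κ v q0 q r) ∧
          HallTen.wt (zz (multR κ) (pc0 B) (pC1 B)) v < Real.exp (pA B κ)) with hE2
      have e1 : (E1.card : ℝ) ≤ M := by
        refine hBad x hx B hBdef hb2 _ κ hP E1 ?_
        intro v hv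
        exact (Finset.mem_filter.1 hv).2
      have e2 : (E2.card : ℝ) ≤ M := by
        refine hLow x hx B hBdef hb3 _ κ hP E2 ?_
        intro v hv
        exact (Finset.mem_filter.1 hv).2
      by_cases hg : B ^ (19 / 20 : ℝ) / 2 ≤ ∑ c ∈ Finset.Ioc (pc0 B) (pC1 B), gk (mult κ c)
      · set E3 := Dg.filter (fun v =>
          Real.exp (pA B κ) ≤ HallTen.wt (zz (multR κ) (pc0 B) (pC1 B)) v) with hE3
        have e3 : (E3.card : ℝ) ≤ M := by
          refine hHigh x hx B hBdef hb4 _ κ hP hg E3 ?_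
          intro v hv
          rw [hE3, Finset.mem_filter] at hv
          have hv1 := hv.1
          rw [hDg, Finset.mem_filter, hDU] at hv1
          exact ⟨hv1.1.1.pos, hv1.1.2.2.1, hv.2⟩
        have hsub : Dg.filter (cls i) ⊆ E1 ∪ E2 ∪ E3 := by
          intro v hv
          rw [Finset.mem_filter] at hv
          obtain ⟨hvg, -, q0, q, r, hd, -⟩ := hv
          rw [Finset.mem_union, Finset.mem_union]
          rcases lt_or_ge (HallTen.wt (zz (multR κ) (pc0 B) (pC1 B)) v)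
            (Real.exp (pA B κ)) with hlt | hge
          · exact Or.inl (Or.inr (Finset.mem_filter.2 ⟨hvg, ⟨q0, q, r, hd⟩, hlt⟩))
          · exact Or.inr (Finset.mem_filter.2 ⟨hvg, hge⟩)
        have h6 := Finset.card_le_card hsub
        have h7 := Finset.card_union_le (E1 ∪ E2) E3
        have h8 := Finset.card_union_le E1 E2
        have h9 : ((Dg.filter (cls i)).card : ℝ) ≤ E1.card + E2.card + E3.card := by
          exact_mod_cast (h6.trans h7).trans (Nat.add_le_add_right h8 _)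
        linarith
      · have hsub : Dg.filter (cls i) ⊆ E1 := by
          intro v hv
          rw [Finset.mem_filter] at hv
          obtain ⟨hvg, -, q0, q, r, hd, hr | hr⟩ := hv
          · exact Finset.mem_filter.2 ⟨hvg, q0, q, r, hd, hr⟩
          · exact absurd hr hg
        have h6 : ((Dg.filter (cls i)).card : ℝ) ≤ E1.card := by
          exact_mod_cast Finset.card_le_card hsub
        linarith
    · have h6 : Dg.filter (cls i) = ∅ := by
        refine Finset.filter_eq_empty_iff.2 ?_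
        rintro v - ⟨h, -⟩
        exact hP h
      rw [h6, Finset.card_empty, Nat.cast_zero]
      linarith
  have hc2 : (Dg.card : ℝ) ≤ ((pS B + 1 : ℕ) : ℝ) * ((pM B + 1 : ℕ) : ℝ) ^ (pS B) * (3 * M) := by
    have h6 : (Dg.card : ℝ) ≤ ∑ i : (Σ s : Fin (pS B + 1), (Fin s → Fin (pM B + 1))),
        ((Dg.filter (cls i)).card : ℝ) := by
      have h7 := (Finset.card_le_card hcov).trans Finset.card_biUnion_le
      exact_mod_cast h7
    refine h6.trans ((Finset.sum_le_sum fun i _ => hclass i).trans ?_)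
    rw [Finset.sum_const, nsmul_eq_mul, Finset.card_univ]
    refine mul_le_mul_of_nonneg_right ?_ (by linarith)
    have h7 := card_profiles (pS B) (pM B)
    calc ((Fintype.card (Σ s : Fin (pS B + 1), (Fin s → Fin (pM B + 1))) : ℕ) : ℝ)
        ≤ (((pS B + 1) * (pM B + 1) ^ (pS B) : ℕ) : ℝ) := by exact_mod_cast h7
      _ = ((pS B + 1 : ℕ) : ℝ) * ((pM B + 1 : ℕ) : ℝ) ^ (pS B) := by push_cast; ring
  have hfin := hnum B hb6
  rw [hcard]
  push_cast
  have hxl : 0 ≤ x / Real.log x := by positivity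
  calc (Dc.card : ℝ) + Dg.card
      ≤ 3 * (x / Real.log x * Real.exp (-B)) +
        ((pS B + 1 : ℕ) : ℝ) * ((pM B + 1 : ℕ) : ℝ) ^ (pS B) * (3 * M) := add_le_add hc1 hc2
    _ = x / Real.log x * (3 * Real.exp (-B) + ((pS B + 1 : ℕ) : ℝ) *
          ((pM B + 1 : ℕ) : ℝ) ^ (pS B) * (3 * Real.exp (-B ^ (3 / 4 : ℝ)))) := by
        rw [hM]; ring
    _ ≤ x / Real.log x * Real.exp (-B ^ (1 / 2 : ℝ)) :=
        mul_le_mul_of_nonneg_left hfin hxl

end Crest.Agent.R020.Uc
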