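import Mathlib
import Crest.Agent.R020.UcDec
import Crest.Agent.R020.UcBad
import Crest.Agent.R020.UcLow
import Crest.Agent.R020.UcHigh
import Crest.Agent.R020.UcUnion

/-!
Row 20 (helper702): `StmtUc`, the counting version of the availability lemma.
-/

set_option autoImplicit false

namespace Crest.Agent.R020

theorem stmtUc : StmtUc := Uc.stmtUnion Uc.stmtDec Uc.stmtBad Uc.stmtLow Uc.stmtHigh

end Crest.Agent.R020
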